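import Crest.Agent.MP.Defs

/-!
# Integrals against finite laws

`FinLaw.toMeasure` is a finite sum of Dirac masses; `Measure.pi` of it is the finite sum of the Dirac
masses at `fun a => μ.x (j a)` with weights `∏ a, μ.w (j a)` (uniqueness `Measure.pi_eq` on boxes, or
`μ.toMeasure` = push-forward of a law on the finite type `μ.ι` and `Measure.pi_map_pi`; functions on
a countable discrete space are measurable).
-/

set_option autoImplicit false

namespace Crest.Agent.MP

open MeasureTheory
open Crest.ProbabilityR.Diluted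

instance FinLaw.isProb {E : Type} [MeasurableSpace E] (μ : FinLaw E) :
    IsProbabilityMeasure μ.toMeasure := by
  constructor
  unfold FinLaw.toMeasure
  rw [Measure.finsetSum_apply]
  simp only [Measure.smul_apply, measure_univ, smul_eq_mul, mul_one]
  rw [← ENNReal.ofReal_sum_of_nonneg (fun i _ => μ.w_nonneg i), μ.w_sum, ENNReal.ofReal_one]

/-- A finite sum of weighted Dirac masses. -/
private theorem integrable_sum_dirac {E ι : Type} [Fintype ι] [MeasurableSpace E]
    [MeasurableSingletonClass E] (w : ι → ℝ) (x : ι → E) (f : E → ℝ) :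
    Integrable f (∑ i, ENNReal.ofReal (w i) • Measure.dirac (x i)) := by
  rw [integrable_finsetSum_measure]
  intro i _
  exact (integrable_dirac (by simp)).smul_measure ENNReal.ofReal_ne_top

private theorem integral_sum_dirac {E ι : Type} [Fintype ι] [MeasurableSpace E]
    [MeasurableSingletonClass E] (w : ι → ℝ) (hw : ∀ i, 0 ≤ w i) (x : ι → E) (f : E → ℝ) :
    ∫ y, f y ∂(∑ i, ENNReal.ofReal (w i) • Measure.dirac (x i)) = ∑ i, w i * f (x i) := by
  rw [integral_finsetSum_measure]
  · refine Finset.sum_congr rfl fun i _ => ?_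
    rw [integral_smul_measure, integral_dirac, ENNReal.toReal_ofReal (hw i), smul_eq_mul]
  · intro i _
    exact (integrable_dirac (by simp)).smul_measure ENNReal.ofReal_ne_top

theorem FinLaw.integral {E : Type} [MeasurableSpace E] [MeasurableSingletonClass E] (μ : FinLaw E)
    (f : E → ℝ) : ∫ x, f x ∂μ.toMeasure = μ.E f :=
  integral_sum_dirac μ.w μ.w_nonneg μ.x f

/-- Every function is integrable. -/
theorem FinLaw.integrable {E : Type} [MeasurableSpace E] [MeasurableSingletonClass E]
    (μ : FinLaw E) (f : E → ℝ) : Integrable f μ.toMeasure :=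
  integrable_sum_dirac μ.w μ.x f

private theorem pi_toMeasure {E : Type} [MeasurableSpace E] (μ : FinLaw E) (k : ℕ) :
    Measure.pi (fun _ : Fin k => μ.toMeasure) =
      ∑ j : Fin k → μ.ι, ENNReal.ofReal (∏ a, μ.w (j a)) • Measure.dirac (fun a => μ.x (j a)) := by
  classical
  refine Measure.pi_eq fun s hs => ?_
  rw [Measure.finsetSum_apply]
  have h1 : ∀ j : Fin k → μ.ι,
      (ENNReal.ofReal (∏ a, μ.w (j a)) • Measure.dirac (fun a => μ.x (j a))) (Set.univ.pi s) =
        ∏ a, (ENNReal.ofReal (μ.w (j a)) * Measure.dirac (μ.x (j a)) (s a)) := by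
    intro j
    rw [Measure.smul_apply, smul_eq_mul, Finset.prod_mul_distrib,
      ENNReal.ofReal_prod_of_nonneg (fun a _ => μ.w_nonneg _),
      Measure.dirac_apply' _ (MeasurableSet.univ_pi hs)]
    congr 1
    by_cases h : (fun a => μ.x (j a)) ∈ Set.univ.pi s
    · rw [Set.indicator_of_mem h]
      symm
      refine Finset.prod_eq_one fun a _ => ?_
      rw [Measure.dirac_apply' _ (hs a), Set.indicator_of_mem (h a (Set.mem_univ a))]
      rfl
    · rw [Set.indicator_of_notMem h]
      simp only [Set.mem_pi, Set.mem_univ, true_implies, not_forall] at h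
      obtain ⟨a, ha⟩ := h
      symm
      refine Finset.prod_eq_zero (Finset.mem_univ a) ?_
      rw [Measure.dirac_apply' _ (hs a), Set.indicator_of_notMem ha]
  simp only [h1]
  have h2 := Finset.prod_univ_sum (fun _ : Fin k => (Finset.univ : Finset μ.ι))
    (fun a i => ENNReal.ofReal (μ.w i) * Measure.dirac (μ.x i) (s a))
  rw [Fintype.piFinset_univ] at h2
  rw [← h2]
  refine Finset.prod_congr rfl fun a _ => ?_
  unfold FinLaw.toMeasure
  rw [Measure.finsetSum_apply]
  rfl

theorem FinLaw.integral_pi {E : Type} [MeasurableSpace E] [MeasurableSingletonClass E]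
    (μ : FinLaw E) (k : ℕ) (f : (Fin k → E) → ℝ) :
    ∫ x, f x ∂(Measure.pi fun _ : Fin k => μ.toMeasure) = μ.Epow k f := by
  rw [pi_toMeasure]
  exact integral_sum_dirac _ (fun j => Finset.prod_nonneg fun a _ => μ.w_nonneg _) _ f

theorem FinLaw.Epow_zero {E : Type} (μ : FinLaw E) (f : (Fin 0 → E) → ℝ) :
    μ.Epow 0 f = f Fin.elim0 := by
  unfold FinLaw.Epow
  rw [Fintype.sum_unique]
  simp only [Finset.univ_eq_empty, Finset.prod_empty, one_mul]
  congr 1
  funext a
  exact a.elim0

theorem FinLaw.Epow_succ {E : Type} (μ : FinLaw E) (k : ℕ) (f : (Fin (k + 1) → E) → ℝ) :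
    μ.Epow (k + 1) f = μ.E (fun x => μ.Epow k (fun xs => f (Fin.cons x xs))) := by
  unfold FinLaw.Epow FinLaw.E
  rw [← (Fin.consEquiv (fun _ : Fin (k + 1) => μ.ι)).sum_comp, Fintype.sum_prod_type]
  refine Finset.sum_congr rfl fun i _ => ?_
  rw [Finset.mul_sum]
  refine Finset.sum_congr rfl fun j _ => ?_
  have e1 : ∏ a, μ.w ((Fin.consEquiv (fun _ : Fin (k + 1) => μ.ι)) (i, j) a) =
      μ.w i * ∏ a, μ.w (j a) := by
    rw [Fin.prod_univ_succ]
    rfl
  have e2 : (fun a => μ.x ((Fin.consEquiv (fun _ : Fin (k + 1) => μ.ι)) (i, j) a)) =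
      Fin.cons (μ.x i) (fun a => μ.x (j a)) := by
    funext a
    refine Fin.cases ?_ (fun b => ?_) a
    · rfl
    · rfl
  rw [e1, e2]
  ring

theorem FinLaw.Epow_succ' {E : Type} (μ : FinLaw E) (k : ℕ) (f : (Fin (k + 1) → E) → ℝ) :
    μ.Epow (k + 1) f = μ.Epow k (fun xs => μ.E (fun x => f (Fin.snoc xs x))) := by
  unfold FinLaw.Epow FinLaw.E
  rw [← (Fin.snocEquiv (fun _ : Fin (k + 1) => μ.ι)).sum_comp, Fintype.sum_prod_type,
    Finset.sum_comm]
  refine Finset.sum_congr rfl fun j _ => ?_
  rw [Finset.mul_sum]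
  refine Finset.sum_congr rfl fun i _ => ?_
  have e1 : ∏ a, μ.w ((Fin.snocEquiv (fun _ : Fin (k + 1) => μ.ι)) (i, j) a) =
      (∏ a, μ.w (j a)) * μ.w i := by
    rw [Fin.prod_univ_castSucc]
    simp [Fin.snocEquiv]
  have e2 : (fun a => μ.x ((Fin.snocEquiv (fun _ : Fin (k + 1) => μ.ι)) (i, j) a)) =
      Fin.snoc (fun a => μ.x (j a)) (μ.x i) := by
    funext a
    refine Fin.lastCases ?_ (fun b => ?_) a
    · simp [Fin.snocEquiv]
    · simp [Fin.snocEquiv]
  rw [e1, e2]
  ring

end Crest.Agent.MP
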