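import Crest.Agent.MP.Defs
import Crest.Agent.MP.UFinInt

/-!
# A-APPROX-T: approximation of a trial by a finite trial (§11)

For finite laws (everything bounded) the trial functional is continuous under a.e. convergence of
`X` (dominated convergence; `tilt x s` is continuous and bounded in `x`,
`|log siteTerm| ≤ |h| + Σ‖θ_j‖`, so all power means lie in `[exp(-C), exp C]`), and every measurable
`X` is an a.e. limit of functions of `(⌊K u_j⌋)_j` (dyadic conditional expectations of `arctan X`, or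
density of such functions in `L¹` after truncation).
-/

set_option autoImplicit false

namespace Crest.Agent.MP

open MeasureTheory Filter Topology
open Crest.ProbabilityR.Diluted

namespace AppT

/-! ### Tilts -/

theorem tilt_pos (x : ℝ) (s : Bool) : 0 < tilt x s := by
  unfold tilt
  have := Real.cosh_pos x
  positivity

theorem tilt_sum (x : ℝ) : ∑ s : Bool, tilt x s = 1 := by
  have h := Real.cosh_pos x
  rw [Fintype.sum_bool]
  unfold tilt spinVal
  rw [← add_div]
  have : Real.exp (x * if true = true then 1 else -1) + Real.exp (x * if false = true then 1 else -1)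
      = 2 * Real.cosh x := by
    rw [Real.cosh_eq]; simp; ring
  rw [this]
  exact div_self (by positivity)

theorem tilt_continuous (s : Bool) : Continuous (fun x : ℝ => tilt x s) := by
  unfold tilt
  refine Continuous.div (by fun_prop) (by fun_prop) fun x => ?_
  have := Real.cosh_pos x
  positivity

theorem prod_tilt_pos {k : ℕ} (x : Fin k → ℝ) (s : Fin k → Bool) : 0 < ∏ ℓ, tilt (x ℓ) (s ℓ) :=
  Finset.prod_pos fun _ _ => tilt_pos _ _

theorem sum_prod_tilt {k : ℕ} (x : Fin k → ℝ) :
    ∑ s : Fin k → Bool, ∏ ℓ, tilt (x ℓ) (s ℓ) = 1 := by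
  have h := Finset.prod_univ_sum (fun _ : Fin k => (Finset.univ : Finset Bool))
    (fun ℓ s => tilt (x ℓ) s)
  rw [Fintype.piFinset_univ] at h
  rw [← h]
  exact Finset.prod_eq_one fun ℓ _ => tilt_sum _

theorem wavg_bounds {k : ℕ} (x : Fin k → ℝ) (E : (Fin k → Bool) → ℝ) {a b : ℝ}
    (h : ∀ s, a ≤ E s ∧ E s ≤ b) :
    a ≤ ∑ s, E s * ∏ ℓ, tilt (x ℓ) (s ℓ) ∧ ∑ s, E s * ∏ ℓ, tilt (x ℓ) (s ℓ) ≤ b := by
  constructor
  · calc a = ∑ s : Fin k → Bool, a * ∏ ℓ, tilt (x ℓ) (s ℓ) := by
          rw [← Finset.mul_sum, sum_prod_tilt, mul_one]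
      _ ≤ _ := Finset.sum_le_sum fun s _ =>
          mul_le_mul_of_nonneg_right (h s).1 (prod_tilt_pos x s).le
  · calc _ ≤ ∑ s : Fin k → Bool, b * ∏ ℓ, tilt (x ℓ) (s ℓ) := Finset.sum_le_sum fun s _ =>
          mul_le_mul_of_nonneg_right (h s).2 (prod_tilt_pos x s).le
      _ = b := by rw [← Finset.mul_sum, sum_prod_tilt, mul_one]

theorem abs_le_supNorm {p : ℕ} (θ : Inter p) (s : Fin p → Bool) : |θ s| ≤ supNorm θ :=
  le_ciSup (f := fun s => |θ s|) (Set.finite_range _).bddAbove s

theorem supNorm_nonneg {p : ℕ} (θ : Inter p) : 0 ≤ supNorm θ :=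
  (abs_nonneg _).trans (abs_le_supNorm θ (fun _ => true))

theorem exp_bounds {C y : ℝ} (h : |y| ≤ C) : Real.exp (-C) ≤ Real.exp y ∧ Real.exp y ≤ Real.exp C := by
  rw [abs_le] at h
  exact ⟨Real.exp_le_exp.2 h.1, Real.exp_le_exp.2 h.2⟩

theorem edge_bounds {p : ℕ} (θ : Inter p) (x : Fin p → ℝ) :
    Real.exp (-supNorm θ) ≤ edgeTerm θ x ∧ edgeTerm θ x ≤ Real.exp (supNorm θ) :=
  wavg_bounds x (fun s => Real.exp (θ s)) fun s => exp_bounds (abs_le_supNorm θ s)

theorem msg_inner_bounds {p : ℕ} (θ : Inter p) (x : Fin (p - 1) → ℝ) (ε : Bool) :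
    Real.exp (-supNorm θ) ≤ ∑ s' : Fin (p - 1) → Bool,
      Real.exp (θ (fun ℓ => if h : ℓ.val < p - 1 then s' ⟨ℓ.val, h⟩ else ε)) *
      ∏ ℓ, tilt (x ℓ) (s' ℓ) ∧
    ∑ s' : Fin (p - 1) → Bool,
      Real.exp (θ (fun ℓ => if h : ℓ.val < p - 1 then s' ⟨ℓ.val, h⟩ else ε)) *
      ∏ ℓ, tilt (x ℓ) (s' ℓ) ≤ Real.exp (supNorm θ) :=
  wavg_bounds x (fun s' => Real.exp (θ (fun ℓ => if h : ℓ.val < p - 1 then s' ⟨ℓ.val, h⟩ else ε)))
    fun _ => exp_bounds (abs_le_supNorm θ _)

theorem msg_bounds {p : ℕ} (θ : Inter p) (x : Fin (p - 1) → ℝ) (ε : Bool) :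
    |siteMessage θ x ε| ≤ supNorm θ := by
  have h := msg_inner_bounds θ x ε
  unfold siteMessage
  have hpos := lt_of_lt_of_le (Real.exp_pos _) h.1
  rw [abs_le]
  constructor
  · rw [Real.le_log_iff_exp_le hpos]; exact h.1
  · rw [Real.log_le_iff_le_exp hpos]; exact h.2

theorem site_bounds {p k : ℕ} (h : ℝ) (θs : Fin k → Inter p) (x : Fin k → Fin (p - 1) → ℝ) :
    Real.exp (-(|h| + ∑ j, supNorm (θs j))) ≤ siteTerm h θs x ∧
      siteTerm h θs x ≤ Real.exp (|h| + ∑ j, supNorm (θs j)) := by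
  have key : ∀ ε : Bool, |h * spinVal ε + ∑ j : Fin k, siteMessage (θs j) (x j) ε|
      ≤ |h| + ∑ j, supNorm (θs j) := by
    intro ε
    refine (abs_add_le _ _).trans (add_le_add ?_ ?_)
    · rw [abs_mul]
      have : |spinVal ε| = 1 := by cases ε <;> simp [spinVal]
      rw [this, mul_one]
    · exact (Finset.abs_sum_le_sum_abs _ _).trans (Finset.sum_le_sum fun j _ => msg_bounds _ _ _)
  have e1 := exp_bounds (key true)
  have e2 := exp_bounds (key false)
  unfold siteTerm
  rw [Fintype.sum_bool]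
  constructor <;> linarith [e1.1, e1.2, e2.1, e2.2]

/-! ### Continuity -/

theorem edge_continuous {p : ℕ} (θ : Inter p) : Continuous (fun x : Fin p → ℝ => edgeTerm θ x) := by
  unfold edgeTerm
  refine continuous_finsetSum _ fun s _ => continuous_const.mul ?_
  exact continuous_finsetProd _ fun ℓ _ => (tilt_continuous (s ℓ)).comp (continuous_apply ℓ)

theorem msg_continuous {p : ℕ} (θ : Inter p) (ε : Bool) :
    Continuous (fun x : Fin (p - 1) → ℝ => siteMessage θ x ε) := by
  unfold siteMessage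
  refine Continuous.log ?_ fun x => ?_
  · refine continuous_finsetSum _ fun s _ => continuous_const.mul ?_
    exact continuous_finsetProd _ fun ℓ _ => (tilt_continuous (s ℓ)).comp (continuous_apply ℓ)
  · exact (lt_of_lt_of_le (Real.exp_pos _) (msg_inner_bounds θ x ε).1).ne'

theorem site_continuous {p k : ℕ} (h : ℝ) (θs : Fin k → Inter p) :
    Continuous (fun x : Fin k → Fin (p - 1) → ℝ => siteTerm h θs x) := by
  unfold siteTerm
  refine continuous_const.mul (continuous_finsetSum _ fun ε _ => Real.continuous_exp.comp ?_)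
  refine continuous_const.add (continuous_finsetSum _ fun j _ => ?_)
  exact (msg_continuous (θs j) ε).comp (continuous_apply j)

/-! ### Power means -/

section pm

variable {L : Type} [Fintype L] {r : ℕ}

instance : IsProbabilityMeasure (uniformArrays L r) := by
  unfold uniformArrays; infer_instance

/-- The law of the fresh uniforms. -/
noncomputable abbrev lamL (L : Type) [Fintype L] : Measure (L → unitInterval) :=
  Measure.pi fun _ : L => (volume : Measure unitInterval)

/-- Replace the level-`lvl` uniforms. -/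
def upd (lvl : Fin (r + 1)) (z : (L → Fin (r + 1) → unitInterval) × (L → unitInterval)) :
    L → Fin (r + 1) → unitInterval := fun ω j => if j = lvl then z.2 ω else z.1 ω j

theorem upd1_mp (lvl : Fin (r + 1)) :
    MeasurePreserving (fun z : (Fin (r + 1) → unitInterval) × unitInterval =>
        (fun j => if j = lvl then z.2 else z.1 j : Fin (r + 1) → unitInterval))
      ((Measure.pi fun _ : Fin (r + 1) => (volume : Measure unitInterval)).prod volume)
      (Measure.pi fun _ : Fin (r + 1) => (volume : Measure unitInterval)) := by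
  have hm : Measurable (fun z : (Fin (r + 1) → unitInterval) × unitInterval =>
        (fun j => if j = lvl then z.2 else z.1 j : Fin (r + 1) → unitInterval)) := by
    refine measurable_pi_lambda _ fun j => ?_
    by_cases h : j = lvl
    · simp only [h, if_true]; exact measurable_snd
    · simp only [h, if_false]; exact (measurable_pi_apply j).comp measurable_fst
  refine ⟨hm, ?_⟩
  symm
  refine Measure.pi_eq fun s hs => ?_
  rw [Measure.map_apply hm (MeasurableSet.univ_pi hs)]
  have hpre : (fun z : (Fin (r + 1) → unitInterval) × unitInterval =>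
        (fun j => if j = lvl then z.2 else z.1 j : Fin (r + 1) → unitInterval)) ⁻¹' (Set.univ.pi s)
      = (Set.univ.pi (Function.update s lvl Set.univ)) ×ˢ (s lvl) := by
    ext z
    simp only [Set.mem_preimage, Set.mem_pi, Set.mem_univ, true_implies, Set.mem_prod]
    constructor
    · intro h
      refine ⟨fun j => ?_, ?_⟩
      · by_cases hj : j = lvl
        · subst hj; simp
        · have := h j
          rw [if_neg hj] at this
          rw [Function.update_of_ne hj]; exact this
      · have := h lvl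
        rwa [if_pos rfl] at this
    · rintro ⟨h1, h2⟩ j
      by_cases hj : j = lvl
      · subst hj; simpa using h2
      · have := h1 j
        rw [Function.update_of_ne hj] at this
        rw [if_neg hj]; exact this
  rw [hpre, Measure.prod_prod, Measure.pi_pi]
  rw [← Finset.mul_prod_erase Finset.univ _ (Finset.mem_univ lvl),
    ← Finset.mul_prod_erase Finset.univ (fun j => volume (s j)) (Finset.mem_univ lvl)]
  rw [Function.update_self, measure_univ, one_mul, mul_comm]
  congr 1
  refine Finset.prod_congr rfl fun j hj => ?_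
  rw [Function.update_of_ne (Finset.ne_of_mem_erase hj)]

theorem upd_mp (lvl : Fin (r + 1)) :
    MeasurePreserving (upd (L := L) lvl) ((uniformArrays L r).prod (lamL L))
      (uniformArrays L r) := by
  have h1 := (measurePreserving_arrowProdEquivProdArrow (Fin (r + 1) → unitInterval) unitInterval L
    (fun _ => Measure.pi fun _ : Fin (r + 1) => (volume : Measure unitInterval))
    (fun _ => (volume : Measure unitInterval))).symm
  have h2 := measurePreserving_pi (ι := L)
    (fun _ => (Measure.pi fun _ : Fin (r + 1) => (volume : Measure unitInterval)).prod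
      (volume : Measure unitInterval))
    (fun _ => Measure.pi fun _ : Fin (r + 1) => (volume : Measure unitInterval))
    (fun _ => upd1_mp lvl)
  exact h2.comp h1

/-- Measurable with values in `[a, b]`. -/
def Good (a b : ℝ) (W : (L → Fin (r + 1) → unitInterval) → ℝ) : Prop :=
  Measurable W ∧ ∀ u, a ≤ W u ∧ W u ≤ b

theorem pmStep_eq (m : ℝ) (lvl : Fin (r + 1)) (W : (L → Fin (r + 1) → unitInterval) → ℝ)
    (u : L → Fin (r + 1) → unitInterval) :
    pmStep m lvl W u = (∫ v, (W (upd lvl (u, v))) ^ m ∂(lamL L)) ^ (1 / m) := rfl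

theorem pow_bounds {a b m w : ℝ} (ha : 0 < a) (hm : 0 < m) (h : a ≤ w ∧ w ≤ b) :
    a ^ m ≤ w ^ m ∧ w ^ m ≤ b ^ m :=
  ⟨Real.rpow_le_rpow ha.le h.1 hm.le, Real.rpow_le_rpow (ha.le.trans h.1) h.2 hm.le⟩

theorem Good.int_bounds {a b m : ℝ} (ha : 0 < a) (hm : 0 < m) {lvl : Fin (r + 1)}
    {W : (L → Fin (r + 1) → unitInterval) → ℝ} (hW : Good a b W)
    (u : L → Fin (r + 1) → unitInterval) :
    a ^ m ≤ ∫ v, (W (upd lvl (u, v))) ^ m ∂(lamL L) ∧
      ∫ v, (W (upd lvl (u, v))) ^ m ∂(lamL L) ≤ b ^ m := by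
  have hmeas : Measurable (fun v : L → unitInterval => (W (upd lvl (u, v))) ^ m) := by
    have := (upd_mp (L := L) lvl).measurable
    exact ((hW.1.comp this).comp (measurable_const.prodMk measurable_id)).pow_const m
  have hint : Integrable (fun v : L → unitInterval => (W (upd lvl (u, v))) ^ m) (lamL L) := by
    refine Integrable.of_bound hmeas.aestronglyMeasurable (b ^ m) ?_
    filter_upwards with v
    have h := pow_bounds ha hm (hW.2 (upd lvl (u, v)))
    rw [Real.norm_eq_abs, abs_of_nonneg ((Real.rpow_nonneg ha.le m).trans h.1)]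
    exact h.2
  constructor
  · calc a ^ m = ∫ _ : L → unitInterval, a ^ m ∂(lamL L) := by simp
      _ ≤ _ := integral_mono (integrable_const _) hint fun v =>
          (pow_bounds ha hm (hW.2 (upd lvl (u, v)))).1
  · calc _ ≤ ∫ _ : L → unitInterval, b ^ m ∂(lamL L) :=
          integral_mono hint (integrable_const _) fun v =>
          (pow_bounds ha hm (hW.2 (upd lvl (u, v)))).2
      _ = b ^ m := by simp

theorem Good.pmStep {a b m : ℝ} (ha : 0 < a) (hm : 0 < m) (lvl : Fin (r + 1))
    {W : (L → Fin (r + 1) → unitInterval) → ℝ} (hW : Good a b W) :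
    Good a b (pmStep m lvl W) := by
  have hab : ∀ u, 0 < a ∧ a ≤ b := fun u => ⟨ha, (hW.2 u).1.trans (hW.2 u).2⟩
  constructor
  · have hmeas : Measurable (fun z : (L → Fin (r + 1) → unitInterval) × (L → unitInterval) =>
        (W (upd lvl z)) ^ m) := (hW.1.comp (upd_mp (L := L) lvl).measurable).pow_const m
    have h2 : StronglyMeasurable (fun u : L → Fin (r + 1) → unitInterval =>
        ∫ v, (W (upd lvl (u, v))) ^ m ∂(lamL L)) :=
      hmeas.stronglyMeasurable.integral_prod_right (ν := lamL L)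
    exact h2.measurable.pow_const (1 / m)
  · intro u
    have h := hW.int_bounds ha hm (lvl := lvl) u
    have hb : 0 ≤ b := ha.le.trans (hab u).2
    rw [pmStep_eq]
    have hm' : 0 ≤ 1 / m := by positivity
    constructor
    · calc a = (a ^ m) ^ (1 / m) := by
            rw [← Real.rpow_mul ha.le, mul_one_div_cancel hm.ne', Real.rpow_one]
        _ ≤ _ := Real.rpow_le_rpow (Real.rpow_nonneg ha.le m) h.1 hm'
    · calc _ ≤ (b ^ m) ^ (1 / m) :=
            Real.rpow_le_rpow ((Real.rpow_nonneg ha.le m).trans h.1) h.2 hm'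
        _ = b := by rw [← Real.rpow_mul hb, mul_one_div_cancel hm.ne', Real.rpow_one]

theorem pmStep_tendsto {a b m : ℝ} (ha : 0 < a) (hm : 0 < m) (lvl : Fin (r + 1))
    {W : (L → Fin (r + 1) → unitInterval) → ℝ} {Wn : ℕ → (L → Fin (r + 1) → unitInterval) → ℝ}
    (hWn : ∀ n, Good a b (Wn n))
    (h : ∀ᵐ u ∂(uniformArrays L r), Tendsto (fun n => Wn n u) atTop (𝓝 (W u))) :
    ∀ᵐ u ∂(uniformArrays L r), Tendsto (fun n => pmStep m lvl (Wn n) u) atTop
      (𝓝 (pmStep m lvl W u)) := by
  have h1 : ∀ᵐ z ∂((uniformArrays L r).prod (lamL L)),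
      Tendsto (fun n => Wn n (upd lvl z)) atTop (𝓝 (W (upd lvl z))) :=
    (upd_mp (L := L) lvl).quasiMeasurePreserving.ae h
  have h2 := Measure.ae_ae_of_ae_prod h1
  filter_upwards [h2] with u hu
  simp only [pmStep_eq]
  have hlim : Tendsto (fun n => ∫ v, (Wn n (upd lvl (u, v))) ^ m ∂(lamL L)) atTop
      (𝓝 (∫ v, (W (upd lvl (u, v))) ^ m ∂(lamL L))) := by
    refine tendsto_integral_of_dominated_convergence (fun _ => b ^ m) ?_ (integrable_const _) ?_ ?_
    · intro n
      have := (upd_mp (L := L) lvl).measurable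
      exact ((((hWn n).1.comp this).comp
        (measurable_const.prodMk measurable_id)).pow_const m).aestronglyMeasurable
    · intro n
      filter_upwards with v
      have h := pow_bounds ha hm ((hWn n).2 (upd lvl (u, v)))
      rw [Real.norm_eq_abs, abs_of_nonneg ((Real.rpow_nonneg ha.le m).trans h.1)]
      exact h.2
    · filter_upwards [hu] with v hv
      exact hv.rpow_const (Or.inr hm.le)
  exact hlim.rpow_const (Or.inr (by positivity))

theorem foldr_good {a b : ℝ} (ha : 0 < a) (m : Fin r → ℝ) (hm : ∀ d, 0 < m d)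
    (l : List (Fin r)) {W : (L → Fin (r + 1) → unitInterval) → ℝ} (hW : Good a b W) :
    Good a b (l.foldr (fun d acc => pmStep (m d) d.succ acc) W) := by
  induction l with
  | nil => exact hW
  | cons d l ih => exact ih.pmStep ha (hm d) d.succ

theorem foldr_tendsto {a b : ℝ} (ha : 0 < a) (m : Fin r → ℝ) (hm : ∀ d, 0 < m d)
    (l : List (Fin r)) {W : (L → Fin (r + 1) → unitInterval) → ℝ}
    {Wn : ℕ → (L → Fin (r + 1) → unitInterval) → ℝ}
    (hWn : ∀ n, Good a b (Wn n))
    (h : ∀ᵐ u ∂(uniformArrays L r), Tendsto (fun n => Wn n u) atTop (𝓝 (W u))) :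
    ∀ᵐ u ∂(uniformArrays L r),
      Tendsto (fun n => (l.foldr (fun d acc => pmStep (m d) d.succ acc) (Wn n)) u) atTop
      (𝓝 ((l.foldr (fun d acc => pmStep (m d) d.succ acc) W) u)) := by
  induction l with
  | nil => exact h
  | cons d l ih =>
    exact pmStep_tendsto ha (hm d) d.succ (fun n => foldr_good ha m hm l (hWn n)) ih

theorem log_abs_le {C y : ℝ} (h : Real.exp (-C) ≤ y ∧ y ≤ Real.exp C) : |Real.log y| ≤ C := by
  have hpos := lt_of_lt_of_le (Real.exp_pos _) h.1
  rw [abs_le]
  constructor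
  · rw [Real.le_log_iff_exp_le hpos]; exact h.1
  · rw [Real.log_le_iff_le_exp hpos]; exact h.2

theorem int_log_bound {C : ℝ} (m : Fin r → ℝ) (hm : ∀ d, 0 < m d)
    {W : (L → Fin (r + 1) → unitInterval) → ℝ} (hW : Good (Real.exp (-C)) (Real.exp C) W) :
    |∫ u, Real.log (powerMeans m W u) ∂(uniformArrays L r)| ≤ C := by
  have h := foldr_good (Real.exp_pos _) m hm (List.finRange r) hW
  have h2 := norm_integral_le_of_norm_le_const (μ := uniformArrays L r)
    (f := fun u => Real.log (powerMeans m W u)) (C := C) (by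
      filter_upwards with u
      rw [Real.norm_eq_abs]
      exact log_abs_le (h.2 u))
  simpa using h2

theorem int_log_tendsto {C : ℝ} (m : Fin r → ℝ) (hm : ∀ d, 0 < m d)
    {W : (L → Fin (r + 1) → unitInterval) → ℝ}
    {Wn : ℕ → (L → Fin (r + 1) → unitInterval) → ℝ}
    (hW : Good (Real.exp (-C)) (Real.exp C) W) (hWn : ∀ n, Good (Real.exp (-C)) (Real.exp C) (Wn n))
    (h : ∀ᵐ u ∂(uniformArrays L r), Tendsto (fun n => Wn n u) atTop (𝓝 (W u))) :
    Tendsto (fun n => ∫ u, Real.log (powerMeans m (Wn n) u) ∂(uniformArrays L r)) atTop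
      (𝓝 (∫ u, Real.log (powerMeans m W u) ∂(uniformArrays L r))) := by
  have hg := foldr_good (Real.exp_pos _) m hm (List.finRange r) hW
  have hgn := fun n => foldr_good (Real.exp_pos _) m hm (List.finRange r) (hWn n)
  have ht := foldr_tendsto (Real.exp_pos _) m hm (List.finRange r) hWn h
  refine tendsto_integral_of_dominated_convergence (fun _ => C) ?_ (integrable_const _) ?_ ?_
  · intro n
    exact (Real.measurable_log.comp (hgn n).1).aestronglyMeasurable
  · intro n
    filter_upwards with u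
    rw [Real.norm_eq_abs]
    exact log_abs_le ((hgn n).2 u)
  · filter_upwards [ht] with u hu
    exact hu.log (lt_of_lt_of_le (Real.exp_pos _) (hg.2 u).1).ne'

end pm

/-! ### The trial functional as finite sums -/

theorem unif_ae {L : Type} [Fintype L] {r : ℕ} {X : (Fin (r + 1) → unitInterval) → ℝ}
    {Xn : ℕ → (Fin (r + 1) → unitInterval) → ℝ}
    (h : ∀ᵐ u ∂(Measure.pi fun _ : Fin (r + 1) => (volume : Measure unitInterval)),
      Tendsto (fun n => Xn n u) atTop (𝓝 (X u))) :
    ∀ᵐ u ∂(uniformArrays L r), ∀ ω, Tendsto (fun n => Xn n (u ω)) atTop (𝓝 (X (u ω))) := by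
  rw [ae_all_iff]
  intro ω
  have hmp : MeasurePreserving (Function.eval ω) (uniformArrays L r)
      (Measure.pi fun _ : Fin (r + 1) => (volume : Measure unitInterval)) :=
    measurePreserving_eval (fun _ : L => Measure.pi fun _ : Fin (r + 1) =>
      (volume : Measure unitInterval)) ω
  exact hmp.quasiMeasurePreserving.ae h

theorem good_site {p k r : ℕ} (h : ℝ) (θs : Fin k → Inter p)
    {X : (Fin (r + 1) → unitInterval) → ℝ} (hX : Measurable X) :
    Good (Real.exp (-(|h| + ∑ j, supNorm (θs j)))) (Real.exp (|h| + ∑ j, supNorm (θs j)))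
      (fun u' : (Fin k × Fin (p - 1)) → Fin (r + 1) → unitInterval =>
        siteTerm h θs (fun j ℓ => X (u' (j, ℓ)))) := by
  refine ⟨(site_continuous h θs).measurable.comp ?_, fun u => site_bounds _ _ _⟩
  exact measurable_pi_lambda _ fun j => measurable_pi_lambda _ fun ℓ =>
    hX.comp (measurable_pi_apply (j, ℓ))

theorem good_edge {p r : ℕ} (θ : Inter p)
    {X : (Fin (r + 1) → unitInterval) → ℝ} (hX : Measurable X) :
    Good (Real.exp (-supNorm θ)) (Real.exp (supNorm θ))
      (fun u' : Fin p → Fin (r + 1) → unitInterval => edgeTerm θ (fun ℓ => X (u' ℓ))) := by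
  refine ⟨(edge_continuous θ).measurable.comp ?_, fun u => edge_bounds _ _⟩
  exact measurable_pi_lambda _ fun ℓ => hX.comp (measurable_pi_apply ℓ)

/-- The site integral. -/
noncomputable def siteI {p r : ℕ} (m : Fin r → ℝ) (X : (Fin (r + 1) → unitInterval) → ℝ)
    (k : ℕ) (θs : Fin k → Inter p) (h : ℝ) : ℝ :=
  ∫ u, Real.log (powerMeans m
          (fun u' : (Fin k × Fin (p - 1)) → Fin (r + 1) → unitInterval =>
            siteTerm h θs (fun j ℓ => X (u' (j, ℓ)))) u)
        ∂(uniformArrays (Fin k × Fin (p - 1)) r)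

/-- The edge integral. -/
noncomputable def edgeI {p r : ℕ} (m : Fin r → ℝ) (X : (Fin (r + 1) → unitInterval) → ℝ)
    (θ : Inter p) : ℝ :=
  ∫ u, Real.log (powerMeans m
          (fun u' : Fin p → Fin (r + 1) → unitInterval => edgeTerm θ (fun ℓ => X (u' ℓ))) u)
        ∂(uniformArrays (Fin p) r)

theorem trial_eq (p : ℕ) (α : ℝ) (μ : FinLaw (Inter p)) (ν : FinLaw ℝ) (r : ℕ) (m : Fin r → ℝ)
    (X : (Fin (r + 1) → unitInterval) → ℝ) :
    trialFunctional p α μ.toMeasure ν.toMeasure r m X = Real.log 2 +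
      (∑' k : ℕ, poissonWeight (α * p) k *
        μ.Epow k (fun θs => ν.E (fun h => siteI m X k θs h))) -
      α * (p - 1 : ℝ) * μ.E (edgeI m X) := by
  unfold trialFunctional
  simp only [FinLaw.integral, FinLaw.integral_pi]
  rfl

theorem siteI_bound {p r k : ℕ} {m : Fin r → ℝ} (hm : ∀ d, 0 < m d)
    {X : (Fin (r + 1) → unitInterval) → ℝ} (hX : Measurable X) (θs : Fin k → Inter p) (h : ℝ) :
    |siteI m X k θs h| ≤ |h| + ∑ j, supNorm (θs j) :=
  int_log_bound m hm (good_site h θs hX)

theorem siteI_tendsto {p r k : ℕ} {m : Fin r → ℝ} (hm : ∀ d, 0 < m d)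
    {X : (Fin (r + 1) → unitInterval) → ℝ} (hX : Measurable X)
    {Xn : ℕ → (Fin (r + 1) → unitInterval) → ℝ} (hXn : ∀ n, Measurable (Xn n))
    (ht : ∀ᵐ u ∂(Measure.pi fun _ : Fin (r + 1) => (volume : Measure unitInterval)),
      Tendsto (fun n => Xn n u) atTop (𝓝 (X u))) (θs : Fin k → Inter p) (h : ℝ) :
    Tendsto (fun n => siteI m (Xn n) k θs h) atTop (𝓝 (siteI m X k θs h)) := by
  refine int_log_tendsto m hm (good_site h θs hX) (fun n => good_site h θs (hXn n)) ?_
  filter_upwards [unif_ae (L := Fin k × Fin (p - 1)) ht] with u hu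
  refine ((site_continuous h θs).tendsto _).comp ?_
  rw [tendsto_pi_nhds]
  intro j
  rw [tendsto_pi_nhds]
  intro ℓ
  exact hu (j, ℓ)

theorem edgeI_tendsto {p r : ℕ} {m : Fin r → ℝ} (hm : ∀ d, 0 < m d)
    {X : (Fin (r + 1) → unitInterval) → ℝ} (hX : Measurable X)
    {Xn : ℕ → (Fin (r + 1) → unitInterval) → ℝ} (hXn : ∀ n, Measurable (Xn n))
    (ht : ∀ᵐ u ∂(Measure.pi fun _ : Fin (r + 1) => (volume : Measure unitInterval)),
      Tendsto (fun n => Xn n u) atTop (𝓝 (X u))) (θ : Inter p) :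
    Tendsto (fun n => edgeI m (Xn n) θ) atTop (𝓝 (edgeI m X θ)) := by
  refine int_log_tendsto m hm (good_edge θ hX) (fun n => good_edge θ (hXn n)) ?_
  filter_upwards [unif_ae (L := Fin p) ht] with u hu
  refine ((edge_continuous θ).tendsto _).comp ?_
  rw [tendsto_pi_nhds]
  intro ℓ
  exact hu ℓ

theorem E_abs_le {E : Type} (μ : FinLaw E) (f g : E → ℝ) (h : ∀ x, |f x| ≤ g x) :
    |μ.E f| ≤ μ.E g := by
  unfold FinLaw.E
  refine (Finset.abs_sum_le_sum_abs _ _).trans (Finset.sum_le_sum fun i _ => ?_)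
  rw [abs_mul, abs_of_nonneg (μ.w_nonneg i)]
  exact mul_le_mul_of_nonneg_left (h _) (μ.w_nonneg i)

theorem Epow_w_sum {E : Type} (μ : FinLaw E) (k : ℕ) :
    ∑ j : Fin k → μ.ι, ∏ a, μ.w (j a) = 1 := by
  classical
  have h := Finset.prod_univ_sum (fun _ : Fin k => (Finset.univ : Finset μ.ι))
    (fun _ i => μ.w i)
  rw [Fintype.piFinset_univ] at h
  rw [← h]
  exact Finset.prod_eq_one fun _ _ => μ.w_sum

theorem Epow_abs_le {E : Type} (μ : FinLaw E) (k : ℕ) (f : (Fin k → E) → ℝ) {B : ℝ}
    (h : ∀ j : Fin k → μ.ι, |f (fun a => μ.x (j a))| ≤ B) : |μ.Epow k f| ≤ B := by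
  unfold FinLaw.Epow
  calc _ ≤ ∑ j : Fin k → μ.ι, |(∏ a, μ.w (j a)) * f (fun a => μ.x (j a))| :=
        Finset.abs_sum_le_sum_abs _ _
    _ ≤ ∑ j : Fin k → μ.ι, (∏ a, μ.w (j a)) * B := by
        refine Finset.sum_le_sum fun j _ => ?_
        have hp : 0 ≤ ∏ a, μ.w (j a) := Finset.prod_nonneg fun a _ => μ.w_nonneg _
        rw [abs_mul, abs_of_nonneg hp]
        exact mul_le_mul_of_nonneg_left (h j) hp
    _ = B := by rw [← Finset.sum_mul, Epow_w_sum, one_mul]

theorem trial_tendsto (p : ℕ) (α : ℝ) (hα : 0 < α) (μ : FinLaw (Inter p)) (ν : FinLaw ℝ) (r : ℕ)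
    (m : Fin r → ℝ) (hm : ∀ d, 0 < m d)
    {X : (Fin (r + 1) → unitInterval) → ℝ} (hX : Measurable X)
    {Xn : ℕ → (Fin (r + 1) → unitInterval) → ℝ} (hXn : ∀ n, Measurable (Xn n))
    (ht : ∀ᵐ u ∂(Measure.pi fun _ : Fin (r + 1) => (volume : Measure unitInterval)),
      Tendsto (fun n => Xn n u) atTop (𝓝 (X u))) :
    Tendsto (fun n => trialFunctional p α μ.toMeasure ν.toMeasure r m (Xn n)) atTop
      (𝓝 (trialFunctional p α μ.toMeasure ν.toMeasure r m X)) := by
  simp only [trial_eq]
  have hE : Tendsto (fun n => μ.E (edgeI m (Xn n))) atTop (𝓝 (μ.E (edgeI m X))) := by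
    unfold FinLaw.E
    exact tendsto_finsetSum _ fun i _ => (edgeI_tendsto hm hX hXn ht (μ.x i)).const_mul _
  have hS : Tendsto (fun n => ∑' k : ℕ, poissonWeight (α * p) k *
        μ.Epow k (fun θs => ν.E (fun h => siteI m (Xn n) k θs h))) atTop
      (𝓝 (∑' k : ℕ, poissonWeight (α * p) k *
        μ.Epow k (fun θs => ν.E (fun h => siteI m X k θs h)))) := by
    set A : ℝ := ν.E (fun h => |h|) with hA
    set B : ℝ := ∑ i, supNorm (μ.x i) with hB
    have hsum : Summable (fun k : ℕ => poissonWeight (α * p) k * (A + k * B)) := by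
      have h0 : 0 ≤ α * (p : ℝ) := by positivity
      have e1 : Summable (fun k : ℕ => (α * (p : ℝ)) ^ k / (k.factorial : ℝ)) :=
        Real.summable_pow_div_factorial _
      have e2 : Summable (fun k : ℕ => (k : ℝ) * ((α * (p : ℝ)) ^ k / (k.factorial : ℝ))) := by
        rw [← summable_nat_add_iff 1]
        have : (fun k : ℕ => ((k + 1 : ℕ) : ℝ) * ((α * (p : ℝ)) ^ (k + 1) /
            ((k + 1).factorial : ℝ))) = fun k : ℕ => (α * (p : ℝ)) * ((α * (p : ℝ)) ^ k /
            (k.factorial : ℝ)) := by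
          funext k
          have h1 : ((k + 1 : ℕ) : ℝ) ≠ 0 := by positivity
          have h2 : (k.factorial : ℝ) ≠ 0 := by positivity
          rw [Nat.factorial_succ, Nat.cast_mul, pow_succ]
          field_simp
        rw [this]
        exact e1.mul_left _
      have e3 : (fun k : ℕ => poissonWeight (α * p) k * (A + k * B)) =
          fun k : ℕ => (Real.exp (-(α * p)) * A) * ((α * (p : ℝ)) ^ k / (k.factorial : ℝ)) +
            (Real.exp (-(α * p)) * B) * ((k : ℝ) * ((α * (p : ℝ)) ^ k / (k.factorial : ℝ))) := by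
        funext k
        unfold poissonWeight
        ring
      rw [e3]
      exact (e1.mul_left _).add (e2.mul_left _)
    refine tendsto_tsum_of_dominated_convergence hsum ?_ ?_
    · intro k
      refine Tendsto.const_mul _ ?_
      unfold FinLaw.Epow FinLaw.E
      refine tendsto_finsetSum _ fun j _ => Tendsto.const_mul _ ?_
      refine tendsto_finsetSum _ fun i _ => Tendsto.const_mul _ ?_
      exact siteI_tendsto hm hX hXn ht _ _
    · filter_upwards with n k
      have hw : 0 ≤ poissonWeight (α * p) k := by unfold poissonWeight; positivity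
      rw [Real.norm_eq_abs, abs_mul, abs_of_nonneg hw]
      refine mul_le_mul_of_nonneg_left ?_ hw
      refine Epow_abs_le μ k _ fun j => ?_
      refine (E_abs_le ν _ (fun h => |h| + k * B) fun h => ?_).trans ?_
      · refine (siteI_bound hm (hXn n) _ h).trans (add_le_add le_rfl ?_)
        calc ∑ a : Fin k, supNorm (μ.x (j a)) ≤ ∑ _a : Fin k, B := by
              refine Finset.sum_le_sum fun a _ => ?_
              exact Finset.single_le_sum (f := fun i => supNorm (μ.x i))
                (fun i _ => supNorm_nonneg _) (Finset.mem_univ (j a))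
          _ = k * B := by simp
      · rw [hA]
        unfold FinLaw.E
        simp only [mul_add, Finset.sum_add_distrib]
        rw [← Finset.sum_mul, ν.w_sum, one_mul]
  exact (hS.const_add _).sub (hE.const_mul _)

/-! ### Cells -/

theorem cell_close (K : ℕ) (hK : 0 < K) (u : unitInterval) :
    |((cell K hK u : ℕ) : ℝ) / K - (u : ℝ)| ≤ 1 / K := by
  have hK' : (0 : ℝ) < K := by exact_mod_cast hK
  have hu0 : 0 ≤ (u : ℝ) := u.2.1
  have hu1 : (u : ℝ) ≤ 1 := u.2.2
  have hc : ((cell K hK u : Fin K) : ℕ) = min ⌊(K : ℝ) * (u : ℝ)⌋₊ (K - 1) := rfl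
  have h1 : ((⌊(K : ℝ) * (u : ℝ)⌋₊ : ℕ) : ℝ) ≤ K * u := Nat.floor_le (by positivity)
  have h2 : (K : ℝ) * u < ⌊(K : ℝ) * (u : ℝ)⌋₊ + 1 := Nat.lt_floor_add_one _
  have h3 : |((cell K hK u : ℕ) : ℝ) - K * u| ≤ 1 := by
    rw [hc, abs_le]
    rcases le_total ⌊(K : ℝ) * (u : ℝ)⌋₊ (K - 1) with h | h
    · rw [min_eq_left h]
      constructor <;> linarith
    · rw [min_eq_right h]
      have h4 : ((K - 1 : ℕ) : ℝ) = (K : ℝ) - 1 := by
        rw [Nat.cast_sub (by omega)]; simp
      have h5 : ((K - 1 : ℕ) : ℝ) ≤ ((⌊(K : ℝ) * (u : ℝ)⌋₊ : ℕ) : ℝ) := by exact_mod_cast h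
      have h6 : (K : ℝ) * u ≤ K := by nlinarith
      constructor <;> linarith
  have h4 : ((cell K hK u : ℕ) : ℝ) / K - (u : ℝ) = (((cell K hK u : ℕ) : ℝ) - K * u) / K := by
    field_simp
  rw [h4, abs_div, abs_of_pos hK']
  exact div_le_div_of_nonneg_right h3 hK'.le

theorem measurable_cell (K : ℕ) (hK : 0 < K) : Measurable (cell K hK) := by
  have h1 : Measurable (fun u : unitInterval => min ⌊(K : ℝ) * (u : ℝ)⌋₊ (K - 1)) := by
    refine Measurable.min ?_ measurable_const
    exact Nat.measurable_floor.comp (measurable_subtype_coe.const_mul _)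
  refine measurable_to_countable' fun c => ?_
  have : cell K hK ⁻¹' {c} =
      (fun u : unitInterval => min ⌊(K : ℝ) * (u : ℝ)⌋₊ (K - 1)) ⁻¹' {(c : ℕ)} := by
    ext u
    simp only [Set.mem_preimage, Set.mem_singleton_iff]
    rw [Fin.ext_iff]
    rfl
  rw [this]
  exact h1 (measurableSet_singleton _)

/-- The lower corner of a cell. -/
noncomputable def rep (K : ℕ) (hK : 0 < K) (c : Fin K) : unitInterval :=
  ⟨(c : ℝ) / K, by
    have hK' : (0 : ℝ) < K := by exact_mod_cast hK
    constructor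
    · positivity
    · rw [div_le_one hK']
      exact_mod_cast c.2.le⟩

theorem rep_dist {r : ℕ} (K : ℕ) (hK : 0 < K) (u : Fin (r + 1) → unitInterval) :
    dist (fun j => rep K hK (cell K hK (u j))) u ≤ 1 / K := by
  rw [dist_pi_le_iff (by positivity)]
  intro j
  rw [Subtype.dist_eq, Real.dist_eq]
  exact cell_close K hK (u j)

end AppT

open AppT

theorem cell_measurable (t : FinTrial) : Measurable t.Xu := by
  unfold FinTrial.Xu
  have h1 : Measurable (fun (u : Fin (t.r + 1) → unitInterval) (j : Fin (t.r + 1)) =>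
      cell t.K t.hK (u j)) :=
    measurable_pi_lambda _ fun j => (measurable_cell t.K t.hK).comp (measurable_pi_apply j)
  exact (measurable_of_countable t.X).comp h1

theorem AppT.exists_approx (r : ℕ) (X : (Fin (r + 1) → unitInterval) → ℝ) (hX : Measurable X) :
    ∃ (K : ℕ → ℕ) (hK : ∀ n, 0 < K n) (Y : ∀ n, (Fin (r + 1) → Fin (K n)) → ℝ),
      ∀ᵐ u ∂(Measure.pi fun _ : Fin (r + 1) => (volume : Measure unitInterval)),
        Tendsto (fun n => Y n (fun j => cell (K n) (hK n) (u j))) atTop (𝓝 (X u)) := by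
  set P : Measure (Fin (r + 1) → unitInterval) :=
    Measure.pi fun _ : Fin (r + 1) => (volume : Measure unitInterval) with hPdef
  have hmem : MemLp (fun u => Real.arctan (X u)) 1 P := by
    refine MemLp.of_bound (Real.measurable_arctan.comp hX).aestronglyMeasurable (Real.pi / 2) ?_
    filter_upwards with u
    rw [Real.norm_eq_abs, abs_le]
    exact ⟨(Real.neg_pi_div_two_lt_arctan _).le, (Real.arctan_lt_pi_div_two _).le⟩
  have hex : ∀ n : ℕ, ∃ g : BoundedContinuousFunction (Fin (r + 1) → unitInterval) ℝ,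
      eLpNorm ((fun u => Real.arctan (X u)) - (g : (Fin (r + 1) → unitInterval) → ℝ)) 1 P
        ≤ ENNReal.ofReal (1 / ((n : ℝ) + 1)) := by
    intro n
    obtain ⟨g, hg, _⟩ := hmem.exists_boundedContinuous_eLpNorm_sub_le (by norm_num)
      (ε := ENNReal.ofReal (1 / ((n : ℝ) + 1))) (by
        have : 0 < 1 / ((n : ℝ) + 1) := by positivity
        simpa using this)
    exact ⟨g, hg⟩
  choose g hg using hex
  have hgm : ∀ n, AEStronglyMeasurable (fun u => g n u) P := fun n =>
    (g n).continuous.measurable.aestronglyMeasurable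
  have hlim : Tendsto (fun n => eLpNorm ((fun u => g n u) - (fun u => Real.arctan (X u))) 1 P)
      atTop (𝓝 0) := by
    have h1 : Tendsto (fun n : ℕ => ENNReal.ofReal (1 / ((n : ℝ) + 1))) atTop (𝓝 0) := by
      have := ENNReal.tendsto_ofReal (tendsto_one_div_add_atTop_nhds_zero_nat (𝕜 := ℝ))
      simpa using this
    refine tendsto_of_tendsto_of_tendsto_of_le_of_le tendsto_const_nhds h1
      (fun n => bot_le) (fun n => ?_)
    rw [eLpNorm_sub_comm]
    exact hg n
  have htm := tendstoInMeasure_of_tendsto_eLpNorm one_ne_zero hgm hmem.1 hlim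
  obtain ⟨ns, -, hns⟩ := htm.exists_seq_tendsto_ae
  have hK : ∀ n : ℕ, ∃ K : ℕ, ∃ hK : 0 < K, ∀ u : Fin (r + 1) → unitInterval,
      |g (ns n) (fun j => rep K hK (cell K hK (u j))) - g (ns n) u| ≤ 1 / ((n : ℝ) + 1) := by
    intro n
    have huc := CompactSpace.uniformContinuous_of_continuous (g (ns n)).continuous
    rw [Metric.uniformContinuous_iff] at huc
    obtain ⟨δ, hδ, h⟩ := huc (1 / ((n : ℝ) + 1)) (by positivity)
    obtain ⟨K, hK⟩ := exists_nat_one_div_lt hδ
    refine ⟨K + 1, Nat.succ_pos K, fun u => ?_⟩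
    have h1 := rep_dist (K + 1) (Nat.succ_pos K) u
    have h2 : dist (fun j => rep (K + 1) (Nat.succ_pos K) (cell (K + 1) (Nat.succ_pos K) (u j))) u
        < δ := by
      refine lt_of_le_of_lt h1 ?_
      push_cast
      exact hK
    have h3 := h h2
    rw [Real.dist_eq] at h3
    exact h3.le
  choose K hK0 hKc using hK
  refine ⟨K, hK0, fun n c => Real.tan (g (ns n) (fun j => rep (K n) (hK0 n) (c j))), ?_⟩
  filter_upwards [hns] with u hu
  have h1 : Tendsto (fun n => g (ns n) (fun j => rep (K n) (hK0 n) (cell (K n) (hK0 n) (u j))))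
      atTop (𝓝 (Real.arctan (X u))) := by
    have h2 : Tendsto (fun n => g (ns n) (fun j => rep (K n) (hK0 n) (cell (K n) (hK0 n) (u j)))
        - g (ns n) u) atTop (𝓝 0) := by
      refine squeeze_zero_norm (fun n => ?_) (tendsto_one_div_add_atTop_nhds_zero_nat (𝕜 := ℝ))
      rw [Real.norm_eq_abs]
      exact hKc n u
    have h3 := h2.add hu
    simpa using h3
  have h4 : ContinuousAt Real.tan (Real.arctan (X u)) := by
    rw [Real.continuousAt_tan]
    exact (Real.cos_arctan_pos _).ne'
  have h5 := h4.tendsto.comp h1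
  rw [Real.tan_arctan] at h5
  exact h5

theorem approx_trial (p : ℕ) (hp : 2 ≤ p) (α : ℝ) (hα : 0 < α) (μ : FinLaw (Inter p))
    (ν : FinLaw ℝ) (r : ℕ) (m : Fin r → ℝ) (hm : AdmissibleExponents m)
    (X : (Fin (r + 1) → unitInterval) → ℝ) (hX : Measurable X) {ε : ℝ} (hε : 0 < ε) :
    ∃ t : FinTrial, trialFunctional p α μ.toMeasure ν.toMeasure t.r t.m t.Xu ≤
      trialFunctional p α μ.toMeasure ν.toMeasure r m X + ε := by
  obtain ⟨K, hK, Y, hY⟩ := exists_approx r X hX
  set t : ℕ → FinTrial := fun n => ⟨r, K n, hK n, m, hm, Y n⟩ with ht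
  have hlim := trial_tendsto p α hα μ ν r m (fun d => (hm.2 d).1) hX
    (Xn := fun n => (t n).Xu) (fun n => cell_measurable (t n)) hY
  have hev : ∀ᶠ n in atTop, trialFunctional p α μ.toMeasure ν.toMeasure r m ((t n).Xu) <
      trialFunctional p α μ.toMeasure ν.toMeasure r m X + ε :=
    hlim.eventually (gt_mem_nhds (by linarith))
  obtain ⟨n, hn⟩ := hev.exists
  exact ⟨t n, hn.le⟩

end Crest.Agent.MP
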