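import Crest.Agent.MP.UDefs

/-!
# A-FACT: approximation of factorised laws (§11)
-/

set_option autoImplicit false

namespace Crest.Agent.MP

open MeasureTheory Filter Topology
open Crest.ProbabilityR.Diluted

/-! ### `supNorm` is the norm -/

private theorem supNorm_eq {p : ℕ} (θ : Inter p) : supNorm θ = ‖θ‖ := by
  unfold supNorm
  refine le_antisymm ?_ ?_
  · exact ciSup_le fun s => by simpa using norm_le_pi_norm θ s
  · refine (pi_norm_le_iff_of_nonneg (Real.iSup_nonneg fun s => abs_nonneg _)).2 fun s => ?_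
    rw [Real.norm_eq_abs]
    exact le_ciSup (f := fun s => |θ s|) (Set.finite_range _).bddAbove s

/-! ### Elementary inequalities -/

private theorem one_add_mul_pos {x t : ℝ} (hx : -1 < x) (ht0 : 0 ≤ t) (ht1 : t ≤ 1) :
    0 < 1 + t * x := by
  rcases ht0.eq_or_lt with h | h
  · rw [← h]; norm_num
  · nlinarith

private theorem log_ratio_aux {x y t : ℝ} (hx : -1 < x) (hy : -1 < y) (ht0 : 0 ≤ t) (ht1 : t ≤ 1)
    (h : y ≤ x) :
    0 ≤ Real.log (1 + t * x) - Real.log (1 + t * y) ∧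
    Real.log (1 + t * x) - Real.log (1 + t * y) ≤ Real.log (1 + x) - Real.log (1 + y) := by
  have h1 : 0 < 1 + x := by linarith
  have h2 : 0 < 1 + y := by linarith
  have h3 : 0 < 1 + t * x := one_add_mul_pos hx ht0 ht1
  have h4 : 0 < 1 + t * y := one_add_mul_pos hy ht0 ht1
  constructor
  · rw [sub_nonneg]
    refine Real.log_le_log h4 ?_
    nlinarith
  · have h5 : Real.log (1 + t * x) + Real.log (1 + y) ≤ Real.log (1 + x) + Real.log (1 + t * y) := by
      rw [← Real.log_mul h3.ne' h2.ne', ← Real.log_mul h1.ne' h4.ne']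
      refine Real.log_le_log (mul_pos h3 h2) ?_
      nlinarith [mul_nonneg (sub_nonneg.2 ht1) (sub_nonneg.2 h)]
    linarith

private theorem log_ratio_le {x y t : ℝ} (hx : -1 < x) (hy : -1 < y) (ht0 : 0 ≤ t) (ht1 : t ≤ 1) :
    |(Real.log (1 + x) - Real.log (1 + y)) - (Real.log (1 + t * x) - Real.log (1 + t * y))| ≤
      |Real.log (1 + x) - Real.log (1 + y)| := by
  rcases le_total y x with h | h
  · obtain ⟨h1, h2⟩ := log_ratio_aux hx hy ht0 ht1 h
    rw [abs_of_nonneg (by linarith), abs_of_nonneg (by linarith)]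
    linarith
  · obtain ⟨h1, h2⟩ := log_ratio_aux hy hx ht0 ht1 h
    rw [abs_of_nonpos (by linarith), abs_of_nonpos (by linarith)]
    linarith

private theorem prod_sub_prod_le {ι : Type*} (s : Finset ι) (x y : ι → ℝ) (hx : ∀ i, |x i| ≤ 1)
    (hy : ∀ i, |y i| ≤ 1) : |∏ i ∈ s, x i - ∏ i ∈ s, y i| ≤ ∑ i ∈ s, |x i - y i| := by
  classical
  induction s using Finset.induction_on with
  | empty => simp
  | insert a s ha ih =>
    rw [Finset.prod_insert ha, Finset.prod_insert ha, Finset.sum_insert ha]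
    have hp : |∏ i ∈ s, x i| ≤ 1 := by
      rw [Finset.abs_prod]
      exact Finset.prod_le_one (fun i _ => abs_nonneg _) (fun i _ => hx i)
    have e : x a * ∏ i ∈ s, x i - y a * ∏ i ∈ s, y i =
        (x a - y a) * ∏ i ∈ s, x i + y a * (∏ i ∈ s, x i - ∏ i ∈ s, y i) := by ring
    rw [e]
    refine (abs_add_le _ _).trans (add_le_add ?_ ?_)
    · rw [abs_mul]
      exact mul_le_of_le_one_right (abs_nonneg _) hp
    · rw [abs_mul]
      exact (mul_le_of_le_one_left (abs_nonneg _) (hy a)).trans ih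

private theorem pow_sub_pow_abs_le {x y M : ℝ} (hM : 0 ≤ M) (hx : |x| ≤ M) (hy : |y| ≤ M) (n : ℕ) :
    |x ^ (n + 1) - y ^ (n + 1)| ≤ (n + 1) * M ^ n * |x - y| := by
  induction n with
  | zero => simp
  | succ n ih =>
    have e : x ^ (n + 1 + 1) - y ^ (n + 1 + 1) = x ^ (n + 1) * (x - y) + (x ^ (n + 1) - y ^ (n + 1)) * y := by
      ring
    rw [e]
    calc _ ≤ |x ^ (n + 1) * (x - y)| + |(x ^ (n + 1) - y ^ (n + 1)) * y| := abs_add_le _ _
      _ ≤ M ^ (n + 1) * |x - y| + ((n + 1) * M ^ n * |x - y|) * M := by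
        rw [abs_mul, abs_mul, abs_pow]
        gcongr
      _ = _ := by push_cast; ring

private theorem log_lip {u v m : ℝ} (hm : 0 < m) (hu : m ≤ 1 + u) (hv : m ≤ 1 + v) :
    |Real.log (1 + u) - Real.log (1 + v)| ≤ m⁻¹ * |u - v| := by
  have key : ∀ {x y : ℝ}, m ≤ x → m ≤ y → Real.log x - Real.log y ≤ m⁻¹ * |x - y| := by
    intro x y hx hy
    have hx0 : 0 < x := hm.trans_le hx
    have hy0 : 0 < y := hm.trans_le hy
    rw [← Real.log_div hx0.ne' hy0.ne']
    calc Real.log (x / y) ≤ x / y - 1 := Real.log_le_sub_one_of_pos (div_pos hx0 hy0)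
      _ = (x - y) / y := by field_simp
      _ ≤ |x - y| / m := div_le_div₀ (abs_nonneg _) (le_abs_self _) hm hy
      _ = m⁻¹ * |x - y| := by rw [div_eq_inv_mul]
  have h1 := key hu hv
  have h2 := key hv hu
  have e1 : (1 + u) - (1 + v) = u - v := by ring
  have e2 : |(1 + v) - (1 + u)| = |u - v| := by rw [abs_sub_comm, e1]
  rw [e1] at h1
  rw [e2] at h2
  exact abs_le.2 ⟨by linarith, h1⟩

/-! ### Step (i): shrinking `y` -/

private theorem step1 {p : ℕ} {Ω : Type} [MeasurableSpace Ω] (P : Measure Ω)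
    [IsProbabilityMeasure P] (θ : Ω → Inter p) (a : Ω → ℝ) (y : Ω → Inter p) (s0 : Fin p → Bool)
    (hθm : Measurable θ) (hym : Measurable y)
    (hθ : ∀ᵐ ω ∂P, 0 < a ω ∧ (∀ s, |y ω s| < 1) ∧ ∀ s, θ ω s = Real.log (a ω * (1 + y ω s)))
    (hint : Integrable (fun ω => ‖θ ω‖) P) {ε : ℝ} (hε : 0 < ε) :
    ∃ d : ℝ, 0 < d ∧ d < 1 ∧
      Integrable (fun ω => ‖θ ω - fun s => (θ ω s0 - Real.log (1 + (1 - d) * y ω s0)) +
        Real.log (1 + (1 - d) * y ω s)‖) P ∧
      ∫ ω, ‖θ ω - fun s => (θ ω s0 - Real.log (1 + (1 - d) * y ω s0)) +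
        Real.log (1 + (1 - d) * y ω s)‖ ∂P ≤ ε := by
  set dn : ℕ → ℝ := fun n => 1 / ((n : ℝ) + 2) with hdn
  have hd0 : ∀ n, 0 < dn n := fun n => by positivity
  have hd1 : ∀ n, dn n < 1 := fun n => by
    rw [hdn]; simp only
    rw [div_lt_one (by positivity)]
    have : (0 : ℝ) ≤ n := Nat.cast_nonneg n
    linarith
  have hdlim : Tendsto dn atTop (𝓝 0) := by
    have h1 : Tendsto (fun n : ℕ => (n : ℝ) + 2) atTop atTop :=
      tendsto_atTop_add_const_right _ _ tendsto_natCast_atTop_atTop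
    exact tendsto_const_nhds.div_atTop h1
  set F : ℕ → Ω → ℝ := fun n ω => ‖θ ω - fun s => (θ ω s0 - Real.log (1 + (1 - dn n) * y ω s0)) +
        Real.log (1 + (1 - dn n) * y ω s)‖ with hF
  have hys : ∀ s, Measurable fun ω => y ω s := fun s => (measurable_pi_apply s).comp hym
  have hθs : ∀ s, Measurable fun ω => θ ω s := fun s => (measurable_pi_apply s).comp hθm
  have hFm : ∀ n, Measurable (F n) := by
    intro n
    refine Measurable.norm (hθm.sub (measurable_pi_lambda _ fun s => ?_))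
    have := hys s0
    have := hys s
    have := hθs s0
    fun_prop
  have hval : ∀ᵐ ω ∂P, ∀ (n : ℕ) (s : Fin p → Bool),
      θ ω s - ((θ ω s0 - Real.log (1 + (1 - dn n) * y ω s0)) + Real.log (1 + (1 - dn n) * y ω s)) =
      (Real.log (1 + y ω s) - Real.log (1 + y ω s0)) -
        (Real.log (1 + (1 - dn n) * y ω s) - Real.log (1 + (1 - dn n) * y ω s0)) := by
    filter_upwards [hθ] with ω hω n s
    obtain ⟨ha, hy, hθω⟩ := hω
    have h1 : 0 < 1 + y ω s := by have := abs_lt.1 (hy s); linarith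
    have h2 : 0 < 1 + y ω s0 := by have := abs_lt.1 (hy s0); linarith
    rw [hθω s, hθω s0, Real.log_mul ha.ne' h1.ne', Real.log_mul ha.ne' h2.ne']
    ring
  have hbound : ∀ n, ∀ᵐ ω ∂P, ‖F n ω‖ ≤ 2 * ‖θ ω‖ := by
    intro n
    filter_upwards [hval, hθ] with ω hv hω
    obtain ⟨ha, hy, hθω⟩ := hω
    rw [Real.norm_of_nonneg (norm_nonneg _)]
    refine (pi_norm_le_iff_of_nonneg (by positivity)).2 fun s => ?_
    rw [Pi.sub_apply, hv n s, Real.norm_eq_abs]
    have h1 : -1 < y ω s := (abs_lt.1 (hy s)).1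
    have h2 : -1 < y ω s0 := (abs_lt.1 (hy s0)).1
    refine (log_ratio_le h1 h2 (by linarith [hd1 n]) (by linarith [hd0 n])).trans ?_
    have h3 : Real.log (1 + y ω s) - Real.log (1 + y ω s0) = θ ω s - θ ω s0 := by
      rw [hθω s, hθω s0, Real.log_mul ha.ne' (by linarith), Real.log_mul ha.ne' (by linarith)]
      ring
    rw [h3]
    calc |θ ω s - θ ω s0| ≤ |θ ω s| + |θ ω s0| := abs_sub _ _
      _ ≤ ‖θ ω‖ + ‖θ ω‖ := add_le_add (norm_le_pi_norm (θ ω) s) (norm_le_pi_norm (θ ω) s0)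
      _ = 2 * ‖θ ω‖ := by ring
  have hlim : ∀ᵐ ω ∂P, Tendsto (fun n => F n ω) atTop (𝓝 0) := by
    filter_upwards [hθ] with ω hω
    obtain ⟨ha, hy, hθω⟩ := hω
    have h0 : Tendsto (fun n => θ ω - fun s => (θ ω s0 - Real.log (1 + (1 - dn n) * y ω s0)) +
        Real.log (1 + (1 - dn n) * y ω s)) atTop (𝓝 0) := by
      rw [tendsto_pi_nhds]
      intro s
      have hl : ∀ s, Tendsto (fun n => Real.log (1 + (1 - dn n) * y ω s)) atTop
          (𝓝 (Real.log (1 + y ω s))) := by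
        intro s
        have h1 : Tendsto (fun n => 1 + (1 - dn n) * y ω s) atTop (𝓝 (1 + (1 - 0) * y ω s)) :=
          ((hdlim.const_sub 1).mul_const _).const_add 1
        rw [sub_zero, one_mul] at h1
        refine h1.log ?_
        have := abs_lt.1 (hy s)
        linarith
      have h2 := (((hl s0).const_sub (θ ω s0)).add (hl s)).const_sub (θ ω s)
      have e : θ ω s - (θ ω s0 - Real.log (1 + y ω s0) + Real.log (1 + y ω s)) = 0 := by
        have h3 : 0 < 1 + y ω s := by have := abs_lt.1 (hy s); linarith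
        have h4 : 0 < 1 + y ω s0 := by have := abs_lt.1 (hy s0); linarith
        rw [hθω s, hθω s0, Real.log_mul ha.ne' h3.ne', Real.log_mul ha.ne' h4.ne']
        ring
      rw [e] at h2
      exact h2
    have := h0.norm
    rwa [norm_zero] at this
  have hint2 : Integrable (fun ω => 2 * ‖θ ω‖) P := hint.const_mul 2
  have := tendsto_integral_of_dominated_convergence (fun ω => 2 * ‖θ ω‖)
    (fun n => (hFm n).aestronglyMeasurable) hint2 hbound hlim
  rw [integral_zero] at this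
  obtain ⟨n, hn⟩ := (this.eventually_le_const hε).exists
  exact ⟨dn n, hd0 n, hd1 n, hint2.mono' (hFm n).aestronglyMeasurable (hbound n), hn⟩

/-! ### Step (ii): scaling `b` and the `f_ℓ` into `[-1, 1]` -/

private theorem beta_pow_le {p : ℕ} (hp : 2 ≤ p) {Ω : Type} [MeasurableSpace Ω] (P : Measure Ω)
    [IsProbabilityMeasure P] (b : Ω → ℝ) (f : Fin p → Ω → Bool → ℝ) (hb : Measurable b)
    (hf : ∀ ℓ, Measurable (f ℓ)) (hfi : ProbabilityTheory.iIndepFun f P)
    (hfd : ∀ ℓ, ProbabilityTheory.IdentDistrib (f ℓ) (f ⟨0, Fin.pos ℓ⟩) P P)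
    (hbf : ProbabilityTheory.IndepFun b (fun ω => fun ℓ => f ℓ ω) P)
    (hlt : ∀ᵐ ω ∂P, ∀ s : Fin p → Bool, |b ω * ∏ ℓ, f ℓ ω (s ℓ)| < 1)
    {β t : ℝ} (hβ : 0 ≤ β) (ht : 0 ≤ t) (h1 : P {ω | β < |b ω|} ≠ 0)
    (h2 : P {ω | t < ‖f ⟨0, by omega⟩ ω‖} ≠ 0) : β * t ^ p < 1 := by
  -- some coordinate
  obtain ⟨s, hs⟩ : ∃ s : Bool, P {ω | t < |f ⟨0, by omega⟩ ω s|} ≠ 0 := by
    by_contra hcon
    push Not at hcon
    refine h2 (measure_mono_null (t := ⋃ s : Bool, {ω | t < |f ⟨0, by omega⟩ ω s|}) ?_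
      (measure_iUnion_null hcon))
    intro ω hω
    rw [Set.mem_ofPred_eq, lt_iff_not_ge, pi_norm_le_iff_of_nonneg ht] at hω
    push Not at hω
    obtain ⟨s, hs⟩ := hω
    exact Set.mem_iUnion.2 ⟨s, hs⟩
  set T : Set (Bool → ℝ) := {g | t < |g s|} with hT
  have hTm : MeasurableSet T := by
    have : Measurable fun g : Bool → ℝ => |g s| := (measurable_pi_apply s).abs
    exact measurableSet_lt measurable_const this
  have hA : P (⋂ ℓ ∈ (Finset.univ : Finset (Fin p)), f ℓ ⁻¹' T) = ∏ ℓ : Fin p, P (f ℓ ⁻¹' T) :=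
    hfi.measure_inter_preimage_eq_mul Finset.univ (fun _ _ => hTm)
  have hB : P (b ⁻¹' {x | β < |x|} ∩ (fun ω => fun ℓ => f ℓ ω) ⁻¹' {g | ∀ ℓ, g ℓ ∈ T}) =
      P (b ⁻¹' {x | β < |x|}) * P ((fun ω => fun ℓ => f ℓ ω) ⁻¹' {g | ∀ ℓ, g ℓ ∈ T}) := by
    refine hbf.measure_inter_preimage_eq_mul _ _ ?_ ?_
    · exact measurableSet_lt measurable_const measurable_id.abs
    · rw [show {g : Fin p → Bool → ℝ | ∀ ℓ, g ℓ ∈ T} = ⋂ ℓ, (fun g : Fin p → Bool → ℝ => g ℓ) ⁻¹' T from by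
        ext g; simp]
      exact MeasurableSet.iInter fun ℓ => measurable_pi_apply ℓ hTm
  have hC : ((fun ω => fun ℓ => f ℓ ω) ⁻¹' {g : Fin p → Bool → ℝ | ∀ ℓ, g ℓ ∈ T}) =
      ⋂ ℓ ∈ (Finset.univ : Finset (Fin p)), f ℓ ⁻¹' T := by
    ext ω; simp
  have hne : P (b ⁻¹' {x | β < |x|} ∩ (fun ω => fun ℓ => f ℓ ω) ⁻¹' {g | ∀ ℓ, g ℓ ∈ T}) ≠ 0 := by
    rw [hB, hC, hA]
    refine mul_ne_zero h1 (Finset.prod_ne_zero_iff.2 fun ℓ _ => ?_)
    rw [(hfd ℓ).measure_mem_eq hTm]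
    exact hs
  obtain ⟨ω, ⟨hω1, hω2⟩, hω3⟩ :=
    ((frequently_ae_mem_iff.2 hne).and_eventually hlt).exists
  have hω4 := hω3 (fun _ => s)
  rw [abs_mul, Finset.abs_prod] at hω4
  have h5 : t ^ p ≤ ∏ ℓ : Fin p, |f ℓ ω s| := by
    calc t ^ p = ∏ _ℓ : Fin p, t := by simp
      _ ≤ _ := Finset.prod_le_prod (fun _ _ => ht) fun ℓ _ => (hω2 ℓ : t < |f ℓ ω s|).le
  have h6 : β ≤ |b ω| := (hω1 : β < |b ω|).le
  calc β * t ^ p ≤ |b ω| * ∏ ℓ : Fin p, |f ℓ ω s| := mul_le_mul h6 h5 (by positivity) (abs_nonneg _)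
    _ < 1 := hω4

private theorem exists_scale {p : ℕ} (hp : 2 ≤ p) {Ω : Type} [MeasurableSpace Ω] (P : Measure Ω)
    [IsProbabilityMeasure P] (b : Ω → ℝ) (f : Fin p → Ω → Bool → ℝ) (hb : Measurable b)
    (hf : ∀ ℓ, Measurable (f ℓ)) (hfi : ProbabilityTheory.iIndepFun f P)
    (hfd : ∀ ℓ, ProbabilityTheory.IdentDistrib (f ℓ) (f ⟨0, Fin.pos ℓ⟩) P P)
    (hbf : ProbabilityTheory.IndepFun b (fun ω => fun ℓ => f ℓ ω) P)
    (hlt : ∀ᵐ ω ∂P, ∀ s : Fin p → Bool, |b ω * ∏ ℓ, f ℓ ω (s ℓ)| < 1) :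
    ∃ A C : ℝ, 0 ≤ A ∧ (∀ᵐ ω ∂P, |b ω * A| ≤ 1) ∧ (∀ᵐ ω ∂P, ∀ ℓ s, |f ℓ ω s * C| ≤ 1) ∧
      ∀ᵐ ω ∂P, ∀ s : Fin p → Bool,
        (b ω * A) * ∏ ℓ, (f ℓ ω (s ℓ) * C) = b ω * ∏ ℓ, f ℓ ω (s ℓ) := by
  have hp0 : 0 < p := by omega
  set i0 : Fin p := ⟨0, by omega⟩ with hi0
  by_cases hb0 : ∀ᵐ ω ∂P, b ω = 0
  · refine ⟨1, 0, zero_le_one, ?_, ?_, ?_⟩
    · filter_upwards [hb0] with ω h; simp [h]
    · filter_upwards with ω; simp
    · filter_upwards [hb0] with ω h; simp [h]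
  by_cases hf0 : ∀ᵐ ω ∂P, f i0 ω = 0
  · refine ⟨0, 0, le_rfl, ?_, ?_, ?_⟩
    · filter_upwards with ω; simp
    · filter_upwards with ω; simp
    · filter_upwards [hf0] with ω h s
      rw [Finset.prod_eq_zero (Finset.mem_univ i0) (by simp),
        Finset.prod_eq_zero (i := i0) (Finset.mem_univ i0) (by rw [h]; rfl)]
      simp
  -- the essential supremum of `‖f‖`
  have hcast : ∀ {g : Ω → ℝ} {r : ℝ}, P {ω | r < g ω} ≠ 0 →
      ∃ n : ℕ, P {ω | r + 1 / ((n : ℝ) + 1) < g ω} ≠ 0 := by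
    intro g r h
    by_contra hcon
    push Not at hcon
    refine h (measure_mono_null (t := ⋃ n : ℕ, {ω | r + 1 / ((n : ℝ) + 1) < g ω}) ?_
      (measure_iUnion_null hcon))
    intro ω hω
    obtain ⟨n, hn⟩ := exists_nat_one_div_lt (sub_pos.2 (show r < g ω from hω))
    exact Set.mem_iUnion.2 ⟨n, by rw [Set.mem_ofPred_eq]; linarith⟩
  have hb1 : P {ω | (0 : ℝ) < |b ω|} ≠ 0 := by
    intro h
    refine hb0 ?_
    rw [ae_iff]
    convert h using 3
    ext ω
    simp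
  have hf1 : P {ω | (0 : ℝ) < ‖f i0 ω‖} ≠ 0 := by
    intro h
    refine hf0 ?_
    rw [ae_iff]
    convert h using 3
    ext ω
    simp
  obtain ⟨nb, hnb⟩ := hcast hb1
  obtain ⟨nf, hnf⟩ := hcast hf1
  rw [zero_add] at hnb hnf
  set β0 : ℝ := 1 / ((nb : ℝ) + 1) with hβ0
  have hβ0pos : 0 < β0 := by positivity
  set t0 : ℝ := 1 / ((nf : ℝ) + 1) with ht0
  have ht0pos : 0 < t0 := by positivity
  set S : Set ℝ := {t | 0 ≤ t ∧ P {ω | t < ‖f i0 ω‖} ≠ 0} with hS
  have hSmem : t0 ∈ S := ⟨ht0pos.le, hnf⟩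
  have key : ∀ {β t : ℝ}, 0 ≤ β → P {ω | β < |b ω|} ≠ 0 → t ∈ S → β * t ^ p < 1 := by
    intro β t hβ h1 h2
    exact beta_pow_le hp P b f hb hf hfi hfd hbf hlt hβ h2.1 h1 h2.2
  have hSbdd : BddAbove S := by
    refine ⟨max 1 (1 / β0), fun t ht => ?_⟩
    rcases le_total t 1 with h | h
    · exact h.trans (le_max_left _ _)
    · refine le_trans ?_ (le_max_right _ _)
      rw [le_div_iff₀ hβ0pos]
      have h1 := key hβ0pos.le hnb ht
      have h2 : t ≤ t ^ p := le_self_pow₀ h hp0.ne'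
      nlinarith
  set F : ℝ := sSup S with hF
  have hFpos : 0 < F := ht0pos.trans_le (le_csSup hSbdd hSmem)
  have hfle : ∀ᵐ ω ∂P, ‖f i0 ω‖ ≤ F := by
    rw [ae_iff]
    by_contra h
    have h' : P {ω | F < ‖f i0 ω‖} ≠ 0 := by
      convert h using 3
      ext ω; simp
    obtain ⟨n, hn⟩ := hcast h'
    have h3 : F + 1 / ((n : ℝ) + 1) ∈ S := ⟨by positivity, hn⟩
    have h4 := le_csSup hSbdd h3
    have h5 : (0 : ℝ) < 1 / ((n : ℝ) + 1) := by positivity
    rw [← hF] at h4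
    linarith
  have hble : ∀ᵐ ω ∂P, |b ω| ≤ 1 / F ^ p := by
    rw [ae_iff]
    by_contra h
    have h' : P {ω | 1 / F ^ p < |b ω|} ≠ 0 := by
      convert h using 3
      ext ω; simp
    obtain ⟨n, hn⟩ := hcast h'
    set β : ℝ := 1 / F ^ p + 1 / ((n : ℝ) + 1) with hβ
    have hβpos : 0 < β := by positivity
    have h5 : 1 < β * F ^ p := by
      rw [hβ, add_mul, one_div_mul_cancel (by positivity)]
      have : (0 : ℝ) < 1 / ((n : ℝ) + 1) * F ^ p := by positivity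
      linarith
    -- continuity: `β F^p ≤ 1`
    have hcont : Continuous fun t : ℝ => β * t ^ p := by fun_prop
    have h6 : ∀ᶠ t in 𝓝 F, 1 < β * t ^ p := hcont.continuousAt.eventually (lt_mem_nhds h5)
    obtain ⟨δ, hδ, hball⟩ := Metric.eventually_nhds_iff.1 h6
    obtain ⟨t, htS, ht⟩ := exists_lt_of_lt_csSup ⟨t0, hSmem⟩ (show F - δ < sSup S by rw [← hF]; linarith)
    have htF : t ≤ F := le_csSup hSbdd htS
    have h7 := key hβpos.le hn htS
    have h8 : 1 < β * t ^ p := hball (by rw [Real.dist_eq, abs_lt]; constructor <;> linarith)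
    linarith
  refine ⟨F ^ p, 1 / F, by positivity, ?_, ?_, ?_⟩
  · filter_upwards [hble] with ω h
    rw [abs_mul, abs_of_pos (by positivity : 0 < F ^ p)]
    calc _ ≤ 1 / F ^ p * F ^ p := by gcongr
      _ = 1 := by field_simp
  · rw [ae_all_iff]
    intro ℓ
    have h1 : ∀ᵐ ω ∂P, ‖f ℓ ω‖ ≤ F := by
      have hm : MeasurableSet {g : Bool → ℝ | ‖g‖ ≤ F} := measurableSet_le measurable_norm measurable_const
      exact (hfd ℓ).symm.ae_snd (p := fun g => ‖g‖ ≤ F) hm hfle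
    filter_upwards [h1] with ω h s
    rw [abs_mul, abs_of_pos (by positivity : 0 < 1 / F)]
    calc _ ≤ F * (1 / F) := by
          gcongr
          exact (norm_le_pi_norm (f ℓ ω) s).trans h
      _ = 1 := by field_simp
  · filter_upwards with ω s
    rw [Finset.prod_mul_distrib, Finset.prod_const, Finset.card_univ, Fintype.card_fin, one_div,
      inv_pow]
    field_simp

/-! ### Step (iii): rounding -/

/-- Truncation to `[-1, 1]`. -/
private noncomputable def clp (x : ℝ) : ℝ := max (-1) (min x 1)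

private theorem clp_abs (x : ℝ) : |clp x| ≤ 1 := by
  unfold clp
  exact abs_le.2 ⟨le_max_left _ _, max_le (by norm_num) (min_le_right _ _)⟩

private theorem clp_eq {x : ℝ} (h : |x| ≤ 1) : clp x = x := by
  unfold clp
  rw [min_eq_left (abs_le.1 h).2, max_eq_right (abs_le.1 h).1]

private theorem measurable_clp : Measurable clp := by
  unfold clp
  fun_prop

/-- Grid index of `x ∈ [-1, 1]`. -/
private noncomputable def rnd (K : ℕ) (x : ℝ) : Fin (2 * K + 1) :=
  ⟨min ⌊(K : ℝ) * (x + 1)⌋₊ (2 * K), by omega⟩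

/-- Grid value. -/
private noncomputable def gv (K : ℕ) (i : Fin (2 * K + 1)) : ℝ := ((i : ℝ) - K) / K

private theorem measurable_rnd (K : ℕ) : Measurable (rnd K) := by
  have h1 : Measurable fun x : ℝ => ⌊(K : ℝ) * (x + 1)⌋₊ := Nat.measurable_floor.comp (by fun_prop)
  have h2 : Measurable fun n : ℕ => (⟨min n (2 * K), by omega⟩ : Fin (2 * K + 1)) :=
    measurable_from_top
  exact h2.comp h1

private theorem gv_abs {K : ℕ} (hK : 0 < K) (i : Fin (2 * K + 1)) : |gv K i| ≤ 1 := by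
  have hK' : (0 : ℝ) < K := by exact_mod_cast hK
  have h1 : ((i : ℕ) : ℝ) ≤ 2 * K := by
    have := i.2
    exact_mod_cast (by omega : (i : ℕ) ≤ 2 * K)
  have h0 : (0 : ℝ) ≤ ((i : ℕ) : ℝ) := Nat.cast_nonneg _
  unfold gv
  rw [abs_div, abs_of_pos hK', div_le_one hK', abs_le]
  constructor <;> linarith

private theorem rnd_err {K : ℕ} (hK : 0 < K) {x : ℝ} (hx : |x| ≤ 1) :
    |gv K (rnd K x) - x| ≤ 1 / K := by
  have hK' : (0 : ℝ) < K := by exact_mod_cast hK
  obtain ⟨h1, h2⟩ := abs_le.1 hx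
  have h3 : 0 ≤ (K : ℝ) * (x + 1) := by
    have : 0 ≤ x + 1 := by linarith
    positivity
  have h4 : ⌊(K : ℝ) * (x + 1)⌋₊ ≤ 2 * K := by
    have : ((⌊(K : ℝ) * (x + 1)⌋₊ : ℕ) : ℝ) ≤ 2 * K := (Nat.floor_le h3).trans (by nlinarith)
    exact_mod_cast this
  have h5 : ((rnd K x : ℕ) : ℝ) = (⌊(K : ℝ) * (x + 1)⌋₊ : ℕ) := by
    simp only [rnd, min_eq_left h4]
  unfold gv
  rw [h5]
  have h6 := Nat.floor_le h3
  have h7 := Nat.lt_floor_add_one ((K : ℝ) * (x + 1))
  have e : ((⌊(K : ℝ) * (x + 1)⌋₊ : ℕ) - (K : ℝ)) / K - x =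
      ((⌊(K : ℝ) * (x + 1)⌋₊ : ℕ) - (K : ℝ) * (x + 1)) / K := by field_simp; ring
  rw [e, abs_div, abs_of_pos hK']
  gcongr
  rw [abs_le]
  constructor <;> linarith

/-- The law of a finite-valued random variable. -/
private noncomputable def lawOf {Ω : Type} [MeasurableSpace Ω] (P : Measure Ω)
    [IsProbabilityMeasure P] {ι E : Type} [Fintype ι] [MeasurableSpace ι]
    [MeasurableSingletonClass ι] (I : Ω → ι) (hI : Measurable I) (x : ι → E) : FinLaw E where
  ι := ι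
  fin := inferInstance
  w := fun i => P.real (I ⁻¹' {i})
  x := x
  w_nonneg := fun i => measureReal_nonneg
  w_sum := by
    have h := sum_measureReal_preimage_singleton (μ := P) (f := I) Finset.univ
      (fun i _ => hI (measurableSet_singleton i))
    rw [h]
    simp

private theorem map_eq_sum {Ω : Type} [MeasurableSpace Ω] (P : Measure Ω)
    [IsProbabilityMeasure P] {ι E : Type} [Fintype ι] [MeasurableSpace ι]
    [MeasurableSingletonClass ι] [MeasurableSpace E] (I : Ω → ι) (hI : Measurable I) (x : ι → E) :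
    P.map (fun ω => x (I ω)) = ∑ i, ENNReal.ofReal (P.real (I ⁻¹' {i})) • Measure.dirac (x i) := by
  have hx : Measurable x := measurable_of_finite x
  ext s hs
  rw [Measure.map_apply (show Measurable fun ω => x (I ω) from hx.comp hI) hs,
    Measure.finset_sum_apply]
  simp only [Measure.smul_apply, Measure.dirac_apply' _ hs, smul_eq_mul, measureReal_def,
    ENNReal.ofReal_toReal (measure_ne_top _ _)]
  classical
  have e : (fun ω => x (I ω)) ⁻¹' s = ⋃ i ∈ (Finset.univ.filter fun i => x i ∈ s), I ⁻¹' {i} := by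
    ext ω
    simp
  rw [e, measure_biUnion_finset]
  · rw [Finset.sum_filter]
    refine Finset.sum_congr rfl fun i _ => ?_
    by_cases h : x i ∈ s <;> simp [h]
  · intro i _ j _ hij
    refine Set.disjoint_left.2 fun ω h1 h2 => hij ?_
    rw [Set.mem_preimage, Set.mem_singleton_iff] at h1 h2
    rw [← h1, ← h2]
  · intro i _
    exact hI (measurableSet_singleton i)

private theorem integral_comp_fin {Ω : Type} [MeasurableSpace Ω] (P : Measure Ω)
    [IsProbabilityMeasure P] {ι : Type} [Fintype ι] [MeasurableSpace ι]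
    [MeasurableSingletonClass ι] (I : Ω → ι) (hI : Measurable I) (g : ι → ℝ) :
    ∫ ω, g (I ω) ∂P = ∑ i, P.real (I ⁻¹' {i}) * g i := by
  have h0 : IsProbabilityMeasure (P.map I) := Measure.isProbabilityMeasure_map hI.aemeasurable
  have h1 : ∫ ω, g (I ω) ∂P = ∫ i, g i ∂(P.map I) :=
    (integral_map hI.aemeasurable (measurable_of_finite g).aestronglyMeasurable).symm
  rw [h1, integral_fintype (Integrable.of_finite)]
  refine Finset.sum_congr rfl fun i _ => ?_
  rw [smul_eq_mul, measureReal_def, measureReal_def, Measure.map_apply hI (measurableSet_singleton i)]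

/-- A biased coin. -/
private noncomputable def coin (η : ℝ) : Measure Bool :=
  ENNReal.ofReal η • Measure.dirac true + ENNReal.ofReal (1 - η) • Measure.dirac false

private theorem coin_prob {η : ℝ} (h0 : 0 ≤ η) (h1 : η ≤ 1) : IsProbabilityMeasure (coin η) := by
  refine ⟨?_⟩
  unfold coin
  rw [Measure.add_apply, Measure.smul_apply, Measure.smul_apply, measure_univ, measure_univ,
    smul_eq_mul, smul_eq_mul, mul_one, mul_one, ← ENNReal.ofReal_add h0 (by linarith)]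
  simp

private noncomputable def cw (η : ℝ) (x : Bool) : ℝ := if x then η else 1 - η

private theorem coin_real {η : ℝ} (h0 : 0 ≤ η) (h1 : η ≤ 1) (x : Bool) :
    (coin η).real {x} = cw η x := by
  unfold coin cw
  rw [measureReal_def, Measure.add_apply, Measure.smul_apply, Measure.smul_apply,
    Measure.dirac_apply, Measure.dirac_apply]
  cases x <;> simp [h0, h1]

private theorem moment_num {d η B : ℝ} {K n : ℕ} (hd0 : 0 < d) (hd1 : d < 1) (hη0 : 0 < η)
    (hη1 : η ≤ 1) (hK : 2 ≤ K * (η * d)) (hK0 : 0 < K) (hn : 1 ≤ n) (hB : -((n : ℝ) / K) ≤ B) :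
    0 ≤ η * (1 - d / 2) ^ n + (1 - η) * ((1 - d) ^ n * B) := by
  have hK' : (0 : ℝ) < K := by exact_mod_cast hK0
  have hn' : (1 : ℝ) ≤ n := by exact_mod_cast hn
  have h1 : (1 - d) * (1 + d / 2) ≤ 1 - d / 2 := by nlinarith
  have h2 : (1 - d) ^ n * (1 + d / 2) ^ n ≤ (1 - d / 2) ^ n := by
    rw [← mul_pow]
    exact pow_le_pow_left₀ (mul_nonneg (by linarith) (by linarith)) h1 n
  have h3 : 1 + (n : ℝ) * (d / 2) ≤ (1 + d / 2) ^ n :=
    one_add_mul_le_pow (by linarith) n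
  have h4 : (n : ℝ) / K ≤ η * ((n : ℝ) * (d / 2)) := by
    rw [div_le_iff₀ hK']
    nlinarith
  have hq : 0 ≤ (1 - d) ^ n := pow_nonneg (by linarith) n
  have h5 : (1 - d) ^ n * (η * ((n : ℝ) * (d / 2))) ≤ η * (1 - d / 2) ^ n := by
    calc (1 - d) ^ n * (η * ((n : ℝ) * (d / 2))) = η * ((1 - d) ^ n * ((n : ℝ) * (d / 2))) := by ring
      _ ≤ η * ((1 - d) ^ n * (1 + d / 2) ^ n) := by
        gcongr
        linarith
      _ ≤ _ := by gcongr
  have h6 : (1 - η) * ((1 - d) ^ n * (-((n : ℝ) / K))) ≤ (1 - η) * ((1 - d) ^ n * B) := by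
    have : 0 ≤ 1 - η := by linarith
    gcongr
  have h7 : (1 - η) * ((1 - d) ^ n * ((n : ℝ) / K)) ≤ (1 - d) ^ n * ((n : ℝ) / K) := by
    have h8 : 0 ≤ (1 - d) ^ n * ((n : ℝ) / K) := by positivity
    nlinarith
  have h8 : (1 - d) ^ n * ((n : ℝ) / K) ≤ (1 - d) ^ n * (η * ((n : ℝ) * (d / 2))) := by gcongr
  nlinarith

/-- Values of the rounded `b`. -/
private noncomputable def xb (d : ℝ) (K : ℕ) (i : Bool × Fin (2 * K + 1)) : ℝ :=
  if i.1 then -(1 - d / 2) else (1 - d) * gv K i.2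

/-- Values of the rounded `f`. -/
private noncomputable def xf (K : ℕ) (j : Bool → Fin (2 * K + 1)) (s : Bool) : ℝ := gv K (j s)

private theorem xb_abs {d : ℝ} (hd0 : 0 < d) (hd1 : d < 1) {K : ℕ} (hK : 0 < K)
    (i : Bool × Fin (2 * K + 1)) : |xb d K i| ≤ 1 - d / 2 := by
  unfold xb
  split_ifs
  · rw [abs_neg, abs_of_pos (by linarith)]
  · rw [abs_mul, abs_of_pos (by linarith : 0 < 1 - d)]
    have := gv_abs hK i.2
    nlinarith [abs_nonneg (gv K i.2)]

private theorem prod_abs_le_one {p : ℕ} (x : Fin p → ℝ) (hx : ∀ i, |x i| ≤ 1) : |∏ i, x i| ≤ 1 := by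
  rw [Finset.abs_prod]
  exact Finset.prod_le_one (fun i _ => abs_nonneg _) (fun i _ => hx i)

private theorem xbf_abs {p : ℕ} {d : ℝ} (hd0 : 0 < d) (hd1 : d < 1) {K : ℕ} (hK : 0 < K)
    (i : Bool × Fin (2 * K + 1)) (j : Fin p → Bool → Fin (2 * K + 1)) (s : Fin p → Bool) :
    |xb d K i * ∏ ℓ, xf K (j ℓ) (s ℓ)| ≤ 1 - d / 2 := by
  rw [abs_mul]
  have h1 := prod_abs_le_one (fun ℓ => xf K (j ℓ) (s ℓ)) (fun ℓ => gv_abs hK _)
  have h2 := xb_abs hd0 hd1 hK i
  calc _ ≤ (1 - d / 2) * 1 := mul_le_mul h2 h1 (abs_nonneg _) (by linarith)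
    _ = _ := mul_one _

section Round

variable {p : ℕ} {Ω : Type} [MeasurableSpace Ω] (P : Measure Ω) [IsProbabilityMeasure P]
  (b : Ω → ℝ) (f : Fin p → Ω → Bool → ℝ)

private noncomputable def Ib (K : ℕ) (w : Ω × Bool) : Bool × Fin (2 * K + 1) :=
  (w.2, rnd K (b w.1))

private noncomputable def If (K : ℕ) (ℓ : Fin p) (w : Ω × Bool) : Bool → Fin (2 * K + 1) :=
  fun s => rnd K (f ℓ w.1 s)

private theorem measurable_Ib (hb : Measurable b) (K : ℕ) : Measurable (Ib b K) :=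
  measurable_snd.prodMk ((measurable_rnd K).comp (hb.comp measurable_fst))

private theorem measurable_If (hf : ∀ ℓ, Measurable (f ℓ)) (K : ℕ) (ℓ : Fin p) :
    Measurable (If f K ℓ) :=
  measurable_pi_lambda _ fun s =>
    (measurable_rnd K).comp ((measurable_pi_apply s).comp ((hf ℓ).comp measurable_fst))

variable {P b f}

private theorem Ib_real {η : ℝ} (h0 : 0 ≤ η) (h1 : η ≤ 1) (K : ℕ) (i : Bool × Fin (2 * K + 1)) :
    (P.prod (coin η)).real (Ib b K ⁻¹' {i}) =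
      P.real ((fun ω => rnd K (b ω)) ⁻¹' {i.2}) * cw η i.1 := by
  have := coin_prob h0 h1
  have e : Ib b K ⁻¹' {i} = ((fun ω => rnd K (b ω)) ⁻¹' {i.2}) ×ˢ {i.1} := by
    ext ⟨ω, x⟩
    simp only [Ib, Set.mem_preimage, Set.mem_singleton_iff, Set.mem_prod]
    constructor
    · rintro rfl; exact ⟨rfl, rfl⟩
    · rintro ⟨h1, h2⟩; exact Prod.ext h2 h1
  rw [e, measureReal_prod_prod, coin_real h0 h1]

private theorem If_real {η : ℝ} (h0 : 0 ≤ η) (h1 : η ≤ 1) (K : ℕ) (ℓ : Fin p)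
    (j : Bool → Fin (2 * K + 1)) :
    (P.prod (coin η)).real (If f K ℓ ⁻¹' {j}) =
      P.real (f ℓ ⁻¹' {g | ∀ s, rnd K (g s) = j s}) := by
  have := coin_prob h0 h1
  have e : If f K ℓ ⁻¹' {j} = (f ℓ ⁻¹' {g | ∀ s, rnd K (g s) = j s}) ×ˢ Set.univ := by
    ext ⟨ω, x⟩
    simp only [If, Set.mem_preimage, Set.mem_singleton_iff, Set.mem_prod, Set.mem_univ, and_true,
      Set.mem_ofPred_eq]
    exact funext_iff
  rw [e, measureReal_prod_prod, probReal_univ, mul_one]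

private theorem measurableSet_cell (K : ℕ) (j : Bool → Fin (2 * K + 1)) :
    MeasurableSet {g : Bool → ℝ | ∀ s, rnd K (g s) = j s} := by
  have e : {g : Bool → ℝ | ∀ s, rnd K (g s) = j s} =
      ⋂ s : Bool, (fun g : Bool → ℝ => rnd K (g s)) ⁻¹' {j s} := by
    ext g; simp
  rw [e]
  exact MeasurableSet.iInter fun s =>
    ((measurable_rnd K).comp (measurable_pi_apply s)) (measurableSet_singleton _)

/-- Law of the rounded pair. -/
private theorem J_real (hfi : ProbabilityTheory.iIndepFun f P)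
    (hfd : ∀ ℓ, ProbabilityTheory.IdentDistrib (f ℓ) (f ⟨0, Fin.pos ℓ⟩) P P)
    (hbf : ProbabilityTheory.IndepFun b (fun ω => fun ℓ => f ℓ ω) P)
    (hp : 0 < p) {η : ℝ} (h0 : 0 ≤ η) (h1 : η ≤ 1) (K : ℕ) (i : Bool × Fin (2 * K + 1))
    (j : Fin p → Bool → Fin (2 * K + 1)) :
    (P.prod (coin η)).real ((fun w => (Ib b K w, fun ℓ => If f K ℓ w)) ⁻¹' {(i, j)}) =
      (P.prod (coin η)).real (Ib b K ⁻¹' {i}) *
        ∏ ℓ, (P.prod (coin η)).real (If f K ⟨0, hp⟩ ⁻¹' {j ℓ}) := by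
  have := coin_prob h0 h1
  have e : (fun w : Ω × Bool => (Ib b K w, fun ℓ => If f K ℓ w)) ⁻¹' {(i, j)} =
      (b ⁻¹' (rnd K ⁻¹' {i.2}) ∩
        (fun ω => fun ℓ => f ℓ ω) ⁻¹' {g | ∀ ℓ s, rnd K (g ℓ s) = j ℓ s}) ×ˢ {i.1} := by
    ext ⟨ω, x⟩
    obtain ⟨i1, i2⟩ := i
    simp only [Ib, If, Set.mem_preimage, Set.mem_singleton_iff, Set.mem_prod, Set.mem_inter_iff,
      Set.mem_ofPred_eq, Prod.mk.injEq, funext_iff]
    tauto
  have hm : MeasurableSet {g : Fin p → Bool → ℝ | ∀ ℓ s, rnd K (g ℓ s) = j ℓ s} := by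
    have e : {g : Fin p → Bool → ℝ | ∀ ℓ s, rnd K (g ℓ s) = j ℓ s} =
        ⋂ ℓ, (fun g : Fin p → Bool → ℝ => g ℓ) ⁻¹' {g | ∀ s, rnd K (g s) = j ℓ s} := by
      ext g; simp
    rw [e]
    exact MeasurableSet.iInter fun ℓ => measurable_pi_apply ℓ (measurableSet_cell K (j ℓ))
  have h2 := hbf.measure_inter_preimage_eq_mul _ _
    (measurable_rnd K (measurableSet_singleton i.2)) hm
  have h3 : ((fun ω => fun ℓ => f ℓ ω) ⁻¹' {g : Fin p → Bool → ℝ | ∀ ℓ s, rnd K (g ℓ s) = j ℓ s}) =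
      ⋂ ℓ ∈ (Finset.univ : Finset (Fin p)), f ℓ ⁻¹' {g | ∀ s, rnd K (g s) = j ℓ s} := by
    ext ω; simp
  have h4 : P (⋂ ℓ ∈ (Finset.univ : Finset (Fin p)), f ℓ ⁻¹' {g | ∀ s, rnd K (g s) = j ℓ s}) =
      ∏ ℓ : Fin p, P (f ℓ ⁻¹' {g | ∀ s, rnd K (g s) = j ℓ s}) :=
    hfi.measure_inter_preimage_eq_mul Finset.univ (fun ℓ _ => measurableSet_cell K (j ℓ))
  rw [e, measureReal_prod_prod, coin_real h0 h1, Ib_real h0 h1, measureReal_def, h2, h3, h4,
    ENNReal.toReal_mul, ENNReal.toReal_prod]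
  have h5 : ∀ ℓ : Fin p, (P (f ℓ ⁻¹' {g | ∀ s, rnd K (g s) = j ℓ s})).toReal =
      (P.prod (coin η)).real (If f K ⟨0, hp⟩ ⁻¹' {j ℓ}) := by
    intro ℓ
    rw [If_real h0 h1, measureReal_def, (hfd ℓ).measure_mem_eq (measurableSet_cell K (j ℓ))]
  rw [Finset.prod_congr rfl fun ℓ _ => h5 ℓ]
  have h6 : (P (b ⁻¹' (rnd K ⁻¹' {i.2}))).toReal = P.real ((fun ω => rnd K (b ω)) ⁻¹' {i.2}) := rfl
  rw [h6]
  ring

end Round

private theorem log_err {p : ℕ} {d : ℝ} (hd0 : 0 < d) (hd1 : d < 1) {K : ℕ} (hK : 0 < K)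
    (b : ℝ) (hb : |b| ≤ 1) (f : Fin p → Bool → ℝ) (hf : ∀ ℓ s, |f ℓ s| ≤ 1) (x : Bool)
    (s : Fin p → Bool) :
    |Real.log (1 + (1 - d) * (b * ∏ ℓ, f ℓ (s ℓ))) -
      Real.log (1 + xb d K (x, rnd K b) * ∏ ℓ, xf K (fun s => rnd K (f ℓ s)) (s ℓ))| ≤
      (d / 2)⁻¹ * (((p : ℝ) + 1) / K + 2 * (if x then 1 else 0)) := by
  have hK' : (0 : ℝ) < K := by exact_mod_cast hK
  set u : ℝ := b * ∏ ℓ, f ℓ (s ℓ) with hu
  set v : ℝ := xb d K (x, rnd K b) * ∏ ℓ, xf K (fun s => rnd K (f ℓ s)) (s ℓ) with hv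
  have hu1 : |u| ≤ 1 := by
    rw [hu, abs_mul]
    exact mul_le_one₀ hb (abs_nonneg _) (prod_abs_le_one _ fun ℓ => hf ℓ _)
  have hv1 : |v| ≤ 1 - d / 2 := xbf_abs hd0 hd1 hK _ _ _
  have hu2 : |(1 - d) * u| ≤ 1 - d := by
    rw [abs_mul, abs_of_pos (by linarith : 0 < 1 - d)]
    nlinarith [abs_nonneg u]
  refine (log_lip (m := d / 2) (by positivity) ?_ ?_).trans ?_
  · have := (abs_le.1 hu2).1; linarith
  · have := (abs_le.1 hv1).1; linarith
  refine mul_le_mul_of_nonneg_left ?_ (by positivity)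
  cases x with
  | true =>
    have h1 : |(1 - d) * u - v| ≤ |(1 - d) * u| + |v| := abs_sub _ _
    have h2 : (0 : ℝ) ≤ ((p : ℝ) + 1) / K := by positivity
    simp only [if_true]
    linarith
  | false =>
    have h1 : (1 - d) * u - v = (1 - d) * (u - gv K (rnd K b) * ∏ ℓ, gv K (rnd K (f ℓ (s ℓ)))) := by
      rw [hv]
      simp only [xb, xf, Bool.false_eq_true, if_false]
      ring
    have h2 : |u - gv K (rnd K b) * ∏ ℓ, gv K (rnd K (f ℓ (s ℓ)))| ≤ ((p : ℝ) + 1) / K := by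
      have e : u - gv K (rnd K b) * ∏ ℓ, gv K (rnd K (f ℓ (s ℓ))) =
          (b - gv K (rnd K b)) * ∏ ℓ, gv K (rnd K (f ℓ (s ℓ))) +
            b * (∏ ℓ, f ℓ (s ℓ) - ∏ ℓ, gv K (rnd K (f ℓ (s ℓ)))) := by rw [hu]; ring
      rw [e]
      have h3 : |b - gv K (rnd K b)| ≤ 1 / K := by
        rw [abs_sub_comm]; exact rnd_err hK hb
      have h4 : |∏ ℓ, gv K (rnd K (f ℓ (s ℓ)))| ≤ 1 := prod_abs_le_one _ fun ℓ => gv_abs hK _
      have h5 : |∏ ℓ, f ℓ (s ℓ) - ∏ ℓ, gv K (rnd K (f ℓ (s ℓ)))| ≤ ∑ ℓ : Fin p, 1 / (K : ℝ) := by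
        refine (prod_sub_prod_le Finset.univ _ _ (fun ℓ => hf ℓ _) (fun ℓ => gv_abs hK _)).trans ?_
        refine Finset.sum_le_sum fun ℓ _ => ?_
        rw [abs_sub_comm]
        exact rnd_err hK (hf ℓ _)
      rw [Finset.sum_const, Finset.card_univ, Fintype.card_fin, nsmul_eq_mul] at h5
      calc _ ≤ |b - gv K (rnd K b)| * |∏ ℓ, gv K (rnd K (f ℓ (s ℓ)))| +
            |b| * |∏ ℓ, f ℓ (s ℓ) - ∏ ℓ, gv K (rnd K (f ℓ (s ℓ)))| := by
              rw [← abs_mul, ← abs_mul]; exact abs_add_le _ _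
        _ ≤ 1 / K * 1 + 1 * (p * (1 / (K : ℝ))) := by gcongr
        _ = _ := by ring
    rw [h1, abs_mul, abs_of_pos (by linarith : 0 < 1 - d)]
    simp only [Bool.false_eq_true, if_false, mul_zero, add_zero]
    calc _ ≤ 1 * |u - gv K (rnd K b) * ∏ ℓ, gv K (rnd K (f ℓ (s ℓ)))| := by
          gcongr; linarith
      _ ≤ _ := by rw [one_mul]; exact h2

/-- Approximation of a factorised law (§11): for every `ε` there is a probability space with an
interaction `θ` of law `μ`, an additive constant `c` and a `FactLaw` variable `θ'` with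
`E‖θ - (c + θ')‖ ≤ ε`.
Steps: (i) `y_s = b Π f_ℓ(s_ℓ)`, `s*` = first minimiser of `y`, `θ_d(s) = θ(s*)` clamped to `[-1/d,1/d]`
`+ log((1+(1-d)y_s)/(1+(1-d)y_{s*}))`, `|θ_d| ≤ 3‖θ‖`, `θ_d → θ` as `d → 0`: dominated convergence;
`θ_d = c + log(1 + (1-d) b Π f)`.
(ii) if `b Π f = 0` a.s. take `b = 0`.  Otherwise `f` and `b` are bounded: there are `B, F > 0` with
`|b| ≤ B`, `|f_ℓ(s)| ≤ F` a.s. and `B F^p ≤ 1` (independence).
(iii) round `f` towards `0` to multiples of a small `η` (same map for every `ℓ`: still i.i.d.);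
round `b` towards `0` and with small probability `η'` (independent) replace it by `-B'`, `B'`
slightly larger than `(1-d) B`: the moments of `-b'` are
`≥ (1-η')(E(-b)^n - n η B^{n-1}) + η' B'^n ≥ 0` for all `n` if `η ≪ η'`. -/
theorem approx_fact (p : ℕ) (hp : 2 ≤ p) (μ : Measure (Inter p)) [IsProbabilityMeasure μ]
    (hμ : Integrable (fun θ => supNorm θ) μ) (hfac : HasFactorization p μ) {ε : ℝ} (hε : 0 < ε) :
    ∃ (Ω : Type) (_ : MeasurableSpace Ω) (P : Measure Ω) (_ : IsProbabilityMeasure P)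
      (θ θ' : Ω → Inter p) (c : Ω → ℝ) (φ : FactLaw p),
      Measurable θ ∧ Measurable θ' ∧ Measurable c ∧ P.map θ = μ ∧ P.map θ' = φ.toLaw.toMeasure ∧
      Integrable (fun ω => supNorm (θ' ω)) P ∧ Integrable c P ∧
      ∫ ω, supNorm (θ ω - (fun s => c ω + θ' ω s)) ∂P ≤ ε := by
  obtain ⟨Ω, mΩ, P, hP, a, b, f, ha, hb, hf, hfi, hfd, hbf, hae, hmom, hmap⟩ := hfac
  obtain ⟨A, C, hA0, hA, hC, hAC⟩ := exists_scale hp P b f hb hf hfi hfd hbf (hae.mono fun ω h => h.2)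
  have hp0 : 0 < p := by omega
  -- the normalised data
  have hgb : Measurable fun x : ℝ => clp (x * A) := measurable_clp.comp (measurable_id.mul_const A)
  have hgf : Measurable fun (g : Bool → ℝ) (s : Bool) => clp (g s * C) :=
    measurable_pi_lambda _ fun s => (show Measurable fun x : ℝ => clp (x * C) from
      measurable_clp.comp (measurable_id.mul_const C)).comp (measurable_pi_apply s)
  obtain ⟨b', hb'⟩ : ∃ b' : Ω → ℝ, b' = fun ω => clp (b ω * A) := ⟨_, rfl⟩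
  obtain ⟨f', hf'⟩ : ∃ f' : Fin p → Ω → Bool → ℝ, f' = fun ℓ ω s => clp (f ℓ ω s * C) := ⟨_, rfl⟩
  have hb'm : Measurable b' := by rw [hb']; exact hgb.comp hb
  have hf'm : ∀ ℓ, Measurable (f' ℓ) := fun ℓ => by rw [hf']; exact hgf.comp (hf ℓ)
  have hb'1 : ∀ ω, |b' ω| ≤ 1 := fun ω => by rw [hb']; exact clp_abs _
  have hf'1 : ∀ ω ℓ s, |f' ℓ ω s| ≤ 1 := fun ω ℓ s => by rw [hf']; exact clp_abs _
  have hf'i : ProbabilityTheory.iIndepFun f' P := by
    rw [hf']
    exact hfi.comp (fun _ => fun (g : Bool → ℝ) (s : Bool) => clp (g s * C)) (fun _ => hgf)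
  have hf'd : ∀ ℓ, ProbabilityTheory.IdentDistrib (f' ℓ) (f' ⟨0, Fin.pos ℓ⟩) P P := by
    rw [hf']
    exact fun ℓ => (hfd ℓ).comp hgf
  have hbf' : ProbabilityTheory.IndepFun b' (fun ω => fun ℓ => f' ℓ ω) P := by
    rw [hb', hf']
    exact hbf.comp hgb (show Measurable fun (G : Fin p → Bool → ℝ) (ℓ : Fin p) (s : Bool) =>
      clp (G ℓ s * C) from measurable_pi_lambda _ fun ℓ => hgf.comp (measurable_pi_apply ℓ))
  have hmom' : ∀ n : ℕ, 1 ≤ n → 0 ≤ ∫ ω, (-b' ω) ^ n ∂P := by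
    intro n hn
    have e : ∫ ω, (-b' ω) ^ n ∂P = A ^ n * ∫ ω, (-b ω) ^ n ∂P := by
      rw [← integral_const_mul]
      refine integral_congr_ae ?_
      filter_upwards [hA] with ω h
      rw [hb']
      simp only [clp_eq h]
      ring
    rw [e]
    exact mul_nonneg (pow_nonneg hA0 n) (hmom n hn).2
  set y : Ω → Inter p := fun ω s => b' ω * ∏ ℓ, f' ℓ ω (s ℓ) with hy
  have hym : Measurable y := by
    refine measurable_pi_lambda _ fun s => hb'm.mul ?_
    exact Finset.measurable_prod _ fun ℓ _ => (measurable_pi_apply (s ℓ)).comp (hf'm ℓ)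
  have hyae : ∀ᵐ ω ∂P, ∀ s, y ω s = b ω * ∏ ℓ, f ℓ ω (s ℓ) := by
    filter_upwards [hA, hC, hAC] with ω h1 h2 h3 s
    rw [← h3 s, hy, hb', hf']
    simp only [clp_eq h1, clp_eq (h2 _ _)]
  set θ0 : Ω → Inter p := fun ω s => Real.log (a ω * (1 + b ω * ∏ ℓ, f ℓ ω (s ℓ))) with hθ0
  have hθm : Measurable θ0 := by
    refine measurable_pi_lambda _ fun s => (ha.mul (measurable_const.add (hb.mul ?_))).log
    exact Finset.measurable_prod _ fun ℓ _ => (measurable_pi_apply (s ℓ)).comp (hf ℓ)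
  have hint : Integrable (fun ω => ‖θ0 ω‖) P := by
    rw [← hmap] at hμ
    simp_rw [supNorm_eq] at hμ
    exact (integrable_map_measure measurable_norm.aestronglyMeasurable hθm.aemeasurable).1 hμ
  set s0 : Fin p → Bool := fun _ => true with hs0
  obtain ⟨d, hd0, hd1, hdint, hd⟩ := step1 P θ0 a y s0 hθm hym (by
    filter_upwards [hae, hyae] with ω h1 h2
    refine ⟨h1.1, fun s => ?_, fun s => ?_⟩
    · rw [h2 s]; exact h1.2 s
    · rw [h2 s]) hint (half_pos hε)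
  -- parameters
  obtain ⟨η, hη⟩ : ∃ η : ℝ, η = min (1 / 2) (ε * d / 16) := ⟨_, rfl⟩
  have hη0 : 0 < η := by rw [hη]; positivity
  have hη1 : η ≤ 1 := by rw [hη]; exact (min_le_left _ _).trans (by norm_num)
  have hη2 : η ≤ ε * d / 16 := by rw [hη]; exact min_le_right _ _
  obtain ⟨K, hK⟩ := exists_nat_gt (max (2 / (η * d)) (8 * ((p : ℝ) + 1) / (d * ε)))
  have hK1 : 2 ≤ K * (η * d) := by
    have := (le_max_left _ _).trans hK.le
    rwa [div_le_iff₀ (by positivity)] at this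
  have hK2 : 8 * ((p : ℝ) + 1) ≤ K * (d * ε) := by
    have := (le_max_right _ _).trans hK.le
    rwa [div_le_iff₀ (by positivity)] at this
  have hK'0 : (0 : ℝ) < K := by
    refine lt_of_le_of_lt ?_ hK
    exact le_max_of_le_left (by positivity)
  have hK0 : 0 < K := by exact_mod_cast hK'0
  have hcp := coin_prob hη0.le hη1
  -- the factorised law
  have hIb := measurable_Ib (b := b') hb'm K
  have hIf := measurable_If (f := f') hf'm K ⟨0, hp0⟩
  have hmoment : ∀ n : ℕ, 1 ≤ n →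
      0 ≤ (lawOf (P.prod (coin η)) (Ib b' K) hIb (xb d K)).E (fun y => (-y) ^ n) := by
    intro n hn
    have e : (lawOf (P.prod (coin η)) (Ib b' K) hIb (xb d K)).E (fun y => (-y) ^ n) =
        ∑ i : Bool × Fin (2 * K + 1), (P.prod (coin η)).real (Ib b' K ⁻¹' {i}) * (-(xb d K i)) ^ n :=
      rfl
    have hrm : Measurable fun ω => rnd K (b' ω) := (measurable_rnd K).comp hb'm
    rw [e, Fintype.sum_prod_type, Fintype.sum_bool]
    simp_rw [Ib_real hη0.le hη1]
    have e1 : ∑ i : Fin (2 * K + 1), P.real ((fun ω => rnd K (b' ω)) ⁻¹' {i}) * cw η true *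
        (-(xb d K (true, i))) ^ n = η * (1 - d / 2) ^ n := by
      have h1 := integral_comp_fin P (fun ω => rnd K (b' ω)) hrm (fun _ => η * (1 - d / 2) ^ n)
      rw [integral_const, probReal_univ, one_smul] at h1
      rw [h1]
      refine Finset.sum_congr rfl fun i _ => ?_
      simp only [cw, xb, if_true, neg_neg]
      ring
    have e2 : ∑ i : Fin (2 * K + 1), P.real ((fun ω => rnd K (b' ω)) ⁻¹' {i}) * cw η false *
        (-(xb d K (false, i))) ^ n =
        (1 - η) * ((1 - d) ^ n * ∫ ω, (-(gv K (rnd K (b' ω)))) ^ n ∂P) := by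
      have h1 := integral_comp_fin P (fun ω => rnd K (b' ω)) hrm (fun i => (-(gv K i)) ^ n)
      rw [h1, Finset.mul_sum, Finset.mul_sum]
      refine Finset.sum_congr rfl fun i _ => ?_
      simp only [cw, xb, Bool.false_eq_true, if_false]
      rw [show -((1 - d) * gv K i) = (1 - d) * (-(gv K i)) by ring, mul_pow]
      ring
    rw [e1, e2]
    refine moment_num hd0 hd1 hη0 hη1 hK1 hK0 hn ?_
    -- comparison of the moments
    have hbi : Integrable (fun ω => (-b' ω) ^ n) P := by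
      refine Integrable.of_bound (hb'm.neg.pow_const n).aestronglyMeasurable 1 (ae_of_all _ fun ω => ?_)
      rw [Real.norm_eq_abs, abs_pow, abs_neg]
      exact pow_le_one₀ (abs_nonneg _) (hb'1 ω)
    have hgi : Integrable (fun ω => (-(gv K (rnd K (b' ω)))) ^ n) P := by
      have hgm : Measurable fun ω => gv K (rnd K (b' ω)) := (measurable_of_finite (gv K)).comp hrm
      refine Integrable.of_bound (hgm.neg.pow_const n).aestronglyMeasurable 1 (ae_of_all _ fun ω => ?_)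
      rw [Real.norm_eq_abs, abs_pow, abs_neg]
      exact pow_le_one₀ (abs_nonneg _) (gv_abs hK0 _)
    have h3 : ∫ ω, ((-b' ω) ^ n - (n : ℝ) / K) ∂P ≤ ∫ ω, (-(gv K (rnd K (b' ω)))) ^ n ∂P := by
      refine integral_mono (hbi.sub (integrable_const _)) hgi fun ω => ?_
      obtain ⟨m, rfl⟩ : ∃ m, n = m + 1 := ⟨n - 1, by omega⟩
      have h4 := pow_sub_pow_abs_le (x := -b' ω) (y := -(gv K (rnd K (b' ω)))) zero_le_one
        (by rw [abs_neg]; exact hb'1 ω) (by rw [abs_neg]; exact gv_abs hK0 _) m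
      have h5 : |-b' ω - -(gv K (rnd K (b' ω)))| ≤ 1 / K := by
        rw [show -b' ω - -(gv K (rnd K (b' ω))) = gv K (rnd K (b' ω)) - b' ω by ring]
        exact rnd_err hK0 (hb'1 ω)
      have h6 : ((m : ℝ) + 1) * 1 ^ m * |-b' ω - -(gv K (rnd K (b' ω)))| ≤ ((m : ℝ) + 1) * (1 / K) := by
        rw [one_pow, mul_one]
        gcongr
      have h7 := (abs_le.1 (h4.trans h6)).2
      have h8 : ((m : ℝ) + 1) * (1 / K) = ((m + 1 : ℕ) : ℝ) / K := by push_cast; ring
      rw [h8] at h7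
      simp only
      linarith
    rw [integral_sub hbi (integrable_const _), integral_const, probReal_univ, one_smul] at h3
    have h9 := hmom' n hn
    linarith
  let φ : FactLaw p :=
    { b := lawOf (P.prod (coin η)) (Ib b' K) hIb (xb d K)
      f := lawOf (P.prod (coin η)) (If f' K ⟨0, hp0⟩) hIf (xf K)
      δ := d / 2
      δ_pos := by positivity
      bound := fun i j s => xbf_abs hd0 hd1 hK0 i j s
      moment := hmoment }
  have hJm : Measurable fun w : Ω × Bool => (Ib b' K w, fun ℓ => If f' K ℓ w) :=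
    hIb.prodMk (measurable_pi_lambda _ fun ℓ => measurable_If (f := f') hf'm K ℓ)
  set X : (Bool × Fin (2 * K + 1)) × (Fin p → Bool → Fin (2 * K + 1)) → Inter p :=
    fun i s => Real.log (1 + xb d K i.1 * ∏ ℓ, xf K (i.2 ℓ) (s ℓ)) with hX
  have hXb : ∀ i, ‖X i‖ ≤ (d / 2)⁻¹ := by
    intro i
    refine (pi_norm_le_iff_of_nonneg (by positivity)).2 fun s => ?_
    have h1 := xbf_abs hd0 hd1 hK0 i.1 i.2 s
    have h2 := log_lip (u := xb d K i.1 * ∏ ℓ, xf K (i.2 ℓ) (s ℓ)) (v := 0) (m := d / 2)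
      (by positivity) (by have := (abs_le.1 h1).1; linarith) (by linarith)
    rw [add_zero, Real.log_one, sub_zero, sub_zero] at h2
    rw [Real.norm_eq_abs]
    refine h2.trans (mul_le_of_le_one_right (by positivity) (h1.trans (by linarith)))
  have hcm : Measurable fun w : Ω × Bool => θ0 w.1 s0 - Real.log (1 + (1 - d) * y w.1 s0) := by
    have h1 : Measurable fun w : Ω × Bool => θ0 w.1 s0 :=
      (measurable_pi_apply s0).comp (hθm.comp measurable_fst)
    have h2 : Measurable fun w : Ω × Bool => y w.1 s0 :=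
      (measurable_pi_apply s0).comp (hym.comp measurable_fst)
    exact h1.sub (measurable_const.add (h2.const_mul _)).log
  have hθ'm : Measurable fun w : Ω × Bool => X (Ib b' K w, fun ℓ => If f' K ℓ w) :=
    (measurable_of_finite X).comp hJm
  have hfst : MeasurePreserving (Prod.fst : Ω × Bool → Ω) (P.prod (coin η)) P := measurePreserving_fst
  have hylog : ∀ ω s, |Real.log (1 + (1 - d) * y ω s)| ≤ (d / 2)⁻¹ := by
    intro ω s
    have hy1 : |y ω s| ≤ 1 := by
      rw [hy]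
      simp only
      rw [abs_mul]
      exact mul_le_one₀ (hb'1 ω) (abs_nonneg _) (prod_abs_le_one _ fun ℓ => hf'1 ω ℓ _)
    have h1 : |(1 - d) * y ω s| ≤ 1 - d := by
      rw [abs_mul, abs_of_pos (by linarith : 0 < 1 - d)]
      nlinarith [abs_nonneg (y ω s)]
    have h2 := log_lip (u := (1 - d) * y ω s) (v := 0) (m := d / 2)
      (by positivity) (by have := (abs_le.1 h1).1; linarith) (by linarith)
    rw [add_zero, Real.log_one, sub_zero, sub_zero] at h2
    refine h2.trans (mul_le_of_le_one_right (by positivity) (h1.trans (by linarith)))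
  refine ⟨Ω × Bool, inferInstance, P.prod (coin η), inferInstance, fun w => θ0 w.1,
    fun w => X (Ib b' K w, fun ℓ => If f' K ℓ w),
    fun w => θ0 w.1 s0 - Real.log (1 + (1 - d) * y w.1 s0), φ, hθm.comp measurable_fst, hθ'm, hcm,
    ?_, ?_, ?_, ?_, ?_⟩
  · -- law of `θ`
    have h1 : (P.prod (coin η)).map (fun w => θ0 w.1) = ((P.prod (coin η)).map Prod.fst).map θ0 :=
      (Measure.map_map hθm measurable_fst).symm
    rw [h1, hfst.map_eq, ← hmap]
  · -- law of `θ'`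
    rw [map_eq_sum (P.prod (coin η)) _ hJm X]
    have hw : ∀ i : (Bool × Fin (2 * K + 1)) × (Fin p → Bool → Fin (2 * K + 1)),
        (P.prod (coin η)).real ((fun w => (Ib b' K w, fun ℓ => If f' K ℓ w)) ⁻¹' {i}) =
        (P.prod (coin η)).real (Ib b' K ⁻¹' {i.1}) *
          ∏ ℓ, (P.prod (coin η)).real (If f' K ⟨0, hp0⟩ ⁻¹' {i.2 ℓ}) := fun i =>
      J_real hf'i hf'd hbf' hp0 hη0.le hη1 K i.1 i.2
    simp_rw [hw]
    rfl
  · simp_rw [supNorm_eq]
    exact Integrable.of_bound hθ'm.norm.aestronglyMeasurable (d / 2)⁻¹ (ae_of_all _ fun w => by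
      rw [norm_norm]; exact hXb _)
  · have h1 : Integrable (fun w : Ω × Bool => ‖θ0 w.1‖ + (d / 2)⁻¹) (P.prod (coin η)) :=
      (hfst.integrable_comp_of_integrable hint).add (integrable_const _)
    refine h1.mono' hcm.aestronglyMeasurable (ae_of_all _ fun w => ?_)
    rw [Real.norm_eq_abs]
    refine (abs_sub _ _).trans (add_le_add ?_ (hylog w.1 s0))
    exact norm_le_pi_norm (θ0 w.1) s0
  · simp_rw [supNorm_eq]
    set G : Ω → ℝ := fun ω => ‖θ0 ω - fun s => (θ0 ω s0 - Real.log (1 + (1 - d) * y ω s0)) +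
        Real.log (1 + (1 - d) * y ω s)‖ with hG
    have hGint : Integrable (fun w : Ω × Bool => G w.1) (P.prod (coin η)) :=
      hfst.integrable_comp_of_integrable hdint
    have hSm : MeasurableSet ((Set.univ : Set Ω) ×ˢ ({true} : Set Bool)) :=
      MeasurableSet.univ.prod (measurableSet_singleton _)
    have hone : (fun w : Ω × Bool => (if w.2 then (1 : ℝ) else 0)) =
        ((Set.univ : Set Ω) ×ˢ ({true} : Set Bool)).indicator 1 := by
      ext ⟨ω, x⟩
      cases x <;> simp [Set.indicator]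
    have hoint : Integrable (fun w : Ω × Bool => (if w.2 then (1 : ℝ) else 0)) (P.prod (coin η)) := by
      rw [hone]
      exact (integrable_const (1 : ℝ)).indicator hSm
    have hoval : ∫ w : Ω × Bool, (if w.2 then (1 : ℝ) else 0) ∂(P.prod (coin η)) = η := by
      rw [hone, integral_indicator_one hSm, measureReal_prod_prod, probReal_univ,
        coin_real hη0.le hη1, one_mul]
      rfl
    have hmain : ∫ w : Ω × Bool, ‖θ0 w.1 - fun s => θ0 w.1 s0 - Real.log (1 + (1 - d) * y w.1 s0) +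
          X (Ib b' K w, fun ℓ => If f' K ℓ w) s‖ ∂(P.prod (coin η)) ≤
        ∫ w : Ω × Bool, (G w.1 + (d / 2)⁻¹ * (((p : ℝ) + 1) / K + 2 * (if w.2 then 1 else 0)))
          ∂(P.prod (coin η)) := by
      refine integral_mono_of_nonneg (ae_of_all _ fun w => norm_nonneg _)
        (hGint.add (((integrable_const _).add (hoint.const_mul 2)).const_mul _)) (ae_of_all _ fun w => ?_)
      simp only
      have e : (θ0 w.1 - fun s => θ0 w.1 s0 - Real.log (1 + (1 - d) * y w.1 s0) +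
          X (Ib b' K w, fun ℓ => If f' K ℓ w) s) =
          (θ0 w.1 - fun s => (θ0 w.1 s0 - Real.log (1 + (1 - d) * y w.1 s0)) +
            Real.log (1 + (1 - d) * y w.1 s)) +
          (fun s => Real.log (1 + (1 - d) * y w.1 s) - X (Ib b' K w, fun ℓ => If f' K ℓ w) s) := by
        ext s
        simp only [Pi.sub_apply, Pi.add_apply]
        ring
      rw [e]
      refine (norm_add_le _ _).trans (add_le_add le_rfl ?_)
      refine (pi_norm_le_iff_of_nonneg (by positivity)).2 fun s => ?_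
      rw [Real.norm_eq_abs]
      exact log_err hd0 hd1 hK0 (b' w.1) (hb'1 w.1) (fun ℓ => f' ℓ w.1) (fun ℓ s => hf'1 w.1 ℓ s) w.2 s
    refine hmain.trans ?_
    have hI0 : Integrable (fun w : Ω × Bool => 2 * (if w.2 then (1 : ℝ) else 0)) (P.prod (coin η)) :=
      hoint.const_mul 2
    have hI1 : Integrable (fun w : Ω × Bool => ((p : ℝ) + 1) / K + 2 * (if w.2 then (1 : ℝ) else 0))
      (P.prod (coin η)) := (integrable_const _).add hI0
    have hI2 : Integrable (fun w : Ω × Bool => (d / 2)⁻¹ *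
      (((p : ℝ) + 1) / K + 2 * (if w.2 then (1 : ℝ) else 0))) (P.prod (coin η)) := hI1.const_mul _
    rw [integral_add hGint hI2, integral_const_mul, integral_add (integrable_const _) hI0,
      integral_const, probReal_univ, one_smul, integral_const_mul, hoval]
    have h1 : ∫ w : Ω × Bool, G w.1 ∂(P.prod (coin η)) = ∫ ω, G ω ∂P := by
      have h := integral_map (μ := P.prod (coin η)) (φ := (Prod.fst : Ω × Bool → Ω)) (f := G)
        measurable_fst.aemeasurable (by rw [hfst.map_eq]; exact hdint.1)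
      rw [hfst.map_eq] at h
      exact h.symm
    rw [h1]
    have h2 : (d / 2)⁻¹ * (((p : ℝ) + 1) / K + 2 * η) ≤ ε / 2 := by
      have h3 : ((p : ℝ) + 1) / K ≤ d * ε / 8 := by
        rw [div_le_iff₀ hK'0]; linarith
      have h4 : 2 * η ≤ d * ε / 8 := by linarith
      calc (d / 2)⁻¹ * (((p : ℝ) + 1) / K + 2 * η) ≤ (d / 2)⁻¹ * (d * ε / 8 + d * ε / 8) := by gcongr
        _ = ε / 2 := by field_simp; ring
    linarith

end Crest.Agent.MP
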