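import Crest.Agent.MP.Defs

/-!
# A-LIP: Lipschitz dependence on the laws (coupling)

`pressure`: for fixed `M`, the maps `θs, hs ↦ logPartition` are `1`-Lipschitz:
`|logPartition N θs idx hs - logPartition N θs' idx hs'| ≤ Σ_k supNorm (θs k - θs' k) + Σ_i |hs i - hs' i|`;
`∫ ∂(Measure.pi (P.map θ)) = ∫ ∂(Measure.pi P)` of the composition (`measurePreserving_pi` /
`Measure.pi_map_pi`), expectation `≤ M E‖θ-θ'‖ + N E|h-h'|`, `Σ_M poissonWeight(αN) M · M = αN`.
`trialFunctional`: `|log siteTerm - log siteTerm'| ≤ |h-h'| + Σ_j supNorm (θ_j-θ'_j)` for every argument, and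
`powerMeans` is monotone and homogeneous, so the same bound holds for `log powerMeans`; Poisson mean
`αp`.
Both need the a priori bounds (integrability): `|logPartition| ≤ N log 2 + Σ supNorm θ_k + Σ |h_i|`,
`|log siteTerm| ≤ |h| + Σ supNorm θ_j`, `|log edgeTerm| ≤ supNorm θ`.
-/

set_option autoImplicit false

namespace Crest.Agent.MP

open MeasureTheory Filter Topology
open Crest.ProbabilityR.Diluted

namespace ALipT

/-! ### the sup norm -/

theorem abs_le_supNorm {p : ℕ} (θ : Inter p) (s : Fin p → Bool) : |θ s| ≤ supNorm θ :=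
  le_ciSup (f := fun s => |θ s|) (Set.finite_range _).bddAbove s

theorem supNorm_nonneg {p : ℕ} (θ : Inter p) : 0 ≤ supNorm θ :=
  (abs_nonneg _).trans (abs_le_supNorm θ (fun _ => true))

theorem measurable_supNorm {p : ℕ} : Measurable (fun θ : Inter p => supNorm θ) := by
  unfold supNorm
  refine Measurable.iSup fun s => ?_
  exact (measurable_pi_apply s).abs

theorem supNorm_sub_comm {p : ℕ} (θ θ' : Inter p) : supNorm (θ - θ') = supNorm (θ' - θ) := by
  unfold supNorm
  congr 1
  funext s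
  simp only [Pi.sub_apply]
  exact abs_sub_comm _ _

/-! ### tilts -/

theorem tilt_nonneg (x : ℝ) (s : Bool) : 0 ≤ tilt x s := by
  unfold tilt
  have := Real.cosh_pos x
  positivity

theorem tilt_sum (x : ℝ) : ∑ s : Bool, tilt x s = 1 := by
  have h := Real.cosh_pos x
  have h1 : tilt x true = Real.exp x / (2 * Real.cosh x) := by simp [tilt, spinVal]
  have h2 : tilt x false = Real.exp (-x) / (2 * Real.cosh x) := by simp [tilt, spinVal]
  rw [Fintype.sum_bool, h1, h2, ← add_div, Real.cosh_eq]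
  have h3 : 0 < Real.exp x + Real.exp (-x) := by positivity
  field_simp

theorem prod_tilt_sum {n : ℕ} (x : Fin n → ℝ) :
    ∑ s : Fin n → Bool, ∏ ℓ, tilt (x ℓ) (s ℓ) = 1 := by
  have h := Finset.prod_univ_sum (fun _ : Fin n => (Finset.univ : Finset Bool))
    (fun ℓ s => tilt (x ℓ) s)
  simp only [tilt_sum, Finset.prod_const_one, Fintype.piFinset_univ] at h
  exact h.symm

theorem prod_tilt_nonneg {n : ℕ} (x : Fin n → ℝ) (s : Fin n → Bool) :
    0 ≤ ∏ ℓ, tilt (x ℓ) (s ℓ) := Finset.prod_nonneg fun _ _ => tilt_nonneg _ _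

/-- weighted exponential averages -/
theorem expavg_le {S : Type} [Fintype S] (w : S → ℝ) (hw : ∀ s, 0 ≤ w s) (f g : S → ℝ) (c : ℝ)
    (h : ∀ s, f s ≤ c + g s) :
    ∑ s, Real.exp (f s) * w s ≤ Real.exp c * ∑ s, Real.exp (g s) * w s := by
  rw [Finset.mul_sum]
  refine Finset.sum_le_sum fun s _ => ?_
  rw [← mul_assoc, ← Real.exp_add]
  exact mul_le_mul_of_nonneg_right (Real.exp_le_exp.2 (h s)) (hw s)

theorem expavg_bounds {S : Type} [Fintype S] (w : S → ℝ) (hw : ∀ s, 0 ≤ w s) (hw1 : ∑ s, w s = 1)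
    (f : S → ℝ) (c : ℝ) (h : ∀ s, |f s| ≤ c) :
    Real.exp (-c) ≤ ∑ s, Real.exp (f s) * w s ∧ ∑ s, Real.exp (f s) * w s ≤ Real.exp c := by
  constructor
  · have h1 := expavg_le w hw (fun _ => 0) f c (fun s => by
      have := (abs_le.1 (h s)).1; linarith)
    simp only [Real.exp_zero, one_mul, hw1] at h1
    rw [Real.exp_neg]
    rw [inv_le_iff_one_le_mul₀ (Real.exp_pos c)]
    linarith
  · have h1 := expavg_le w hw f (fun _ => 0) c (fun s => by
      have := (abs_le.1 (h s)).2; linarith)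
    simp only [Real.exp_zero, one_mul, hw1, mul_one] at h1
    exact h1

/-! ### edge terms -/

theorem edgeTerm_bounds {p : ℕ} (θ : Inter p) (x : Fin p → ℝ) :
    Real.exp (-supNorm θ) ≤ edgeTerm θ x ∧ edgeTerm θ x ≤ Real.exp (supNorm θ) :=
  expavg_bounds (fun s : Fin p → Bool => ∏ ℓ, tilt (x ℓ) (s ℓ)) (prod_tilt_nonneg x)
    (prod_tilt_sum x) θ (supNorm θ) (abs_le_supNorm θ)

theorem edgeTerm_le {p : ℕ} (θ θ' : Inter p) (x : Fin p → ℝ) :
    edgeTerm θ x ≤ Real.exp (supNorm (θ - θ')) * edgeTerm θ' x :=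
  expavg_le (fun s : Fin p → Bool => ∏ ℓ, tilt (x ℓ) (s ℓ)) (prod_tilt_nonneg x) θ θ' _
    (fun s => by
      have := (abs_le.1 (abs_le_supNorm (θ - θ') s)).2
      simp only [Pi.sub_apply] at this
      linarith)

/-! ### site terms -/

theorem siteArg_bounds {p : ℕ} (θ : Inter p) (x : Fin (p - 1) → ℝ) (ε : Bool) :
    Real.exp (-supNorm θ) ≤ (∑ s' : Fin (p - 1) → Bool,
      Real.exp (θ (fun ℓ => if h : ℓ.val < p - 1 then s' ⟨ℓ.val, h⟩ else ε)) *
        ∏ ℓ, tilt (x ℓ) (s' ℓ)) ∧ (∑ s' : Fin (p - 1) → Bool,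
      Real.exp (θ (fun ℓ => if h : ℓ.val < p - 1 then s' ⟨ℓ.val, h⟩ else ε)) *
        ∏ ℓ, tilt (x ℓ) (s' ℓ)) ≤ Real.exp (supNorm θ) :=
  expavg_bounds (fun s : Fin (p - 1) → Bool => ∏ ℓ, tilt (x ℓ) (s ℓ)) (prod_tilt_nonneg x)
    (prod_tilt_sum x) _ (supNorm θ) (fun _ => abs_le_supNorm θ _)

theorem siteMessage_abs_le {p : ℕ} (θ : Inter p) (x : Fin (p - 1) → ℝ) (ε : Bool) :
    |siteMessage θ x ε| ≤ supNorm θ := by
  obtain ⟨h1, h2⟩ := siteArg_bounds θ x ε
  unfold siteMessage
  have hpos : 0 < (∑ s' : Fin (p - 1) → Bool,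
      Real.exp (θ (fun ℓ => if h : ℓ.val < p - 1 then s' ⟨ℓ.val, h⟩ else ε)) *
        ∏ ℓ, tilt (x ℓ) (s' ℓ)) := lt_of_lt_of_le (Real.exp_pos _) h1
  rw [abs_le]
  constructor
  · rw [Real.le_log_iff_exp_le hpos]; exact h1
  · rw [Real.log_le_iff_le_exp hpos]; exact h2

theorem siteMessage_sub_le {p : ℕ} (θ θ' : Inter p) (x : Fin (p - 1) → ℝ) (ε : Bool) :
    siteMessage θ x ε ≤ supNorm (θ - θ') + siteMessage θ' x ε := by
  obtain ⟨h1, -⟩ := siteArg_bounds θ x ε
  obtain ⟨h1', -⟩ := siteArg_bounds θ' x ε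
  have h2 := expavg_le (fun s : Fin (p - 1) → Bool => ∏ ℓ, tilt (x ℓ) (s ℓ)) (prod_tilt_nonneg x)
    (fun s' => θ (fun ℓ => if h : ℓ.val < p - 1 then s' ⟨ℓ.val, h⟩ else ε))
    (fun s' => θ' (fun ℓ => if h : ℓ.val < p - 1 then s' ⟨ℓ.val, h⟩ else ε))
    (supNorm (θ - θ')) (fun s => by
      have := (abs_le.1 (abs_le_supNorm (θ - θ')
        (fun ℓ => if h : ℓ.val < p - 1 then s ⟨ℓ.val, h⟩ else ε))).2
      simp only [Pi.sub_apply] at this
      linarith)
  unfold siteMessage
  have hpos := lt_of_lt_of_le (Real.exp_pos _) h1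
  have hpos' := lt_of_lt_of_le (Real.exp_pos _) h1'
  have h3 := Real.log_le_log hpos h2
  rw [Real.log_mul (Real.exp_pos _).ne' hpos'.ne', Real.log_exp] at h3
  exact h3

theorem spinVal_abs (ε : Bool) : |spinVal ε| = 1 := by
  unfold spinVal; split_ifs <;> simp

/-- the a priori constant -/
noncomputable def cc {p k : ℕ} (h : ℝ) (θs : Fin k → Inter p) : ℝ := |h| + ∑ j, supNorm (θs j)

theorem cc_nonneg {p k : ℕ} (h : ℝ) (θs : Fin k → Inter p) : 0 ≤ cc h θs :=
  add_nonneg (abs_nonneg _) (Finset.sum_nonneg fun _ _ => supNorm_nonneg _)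

theorem siteTerm_bounds {p k : ℕ} (h : ℝ) (θs : Fin k → Inter p) (x : Fin k → Fin (p - 1) → ℝ) :
    Real.exp (-cc h θs) ≤ siteTerm h θs x ∧ siteTerm h θs x ≤ Real.exp (cc h θs) := by
  have e : siteTerm h θs x = ∑ ε : Bool,
      Real.exp (h * spinVal ε + ∑ j : Fin k, siteMessage (θs j) (x j) ε) * (1 / 2) := by
    unfold siteTerm
    rw [Finset.mul_sum]
    exact Finset.sum_congr rfl fun _ _ => mul_comm _ _
  rw [e]
  refine expavg_bounds (fun _ : Bool => (1 / 2 : ℝ)) (fun _ => by norm_num) (by simp) _ _ ?_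
  intro ε
  refine (abs_add_le _ _).trans ?_
  unfold cc
  refine add_le_add ?_ ?_
  · rw [abs_mul, spinVal_abs, mul_one]
  · exact (Finset.abs_sum_le_sum_abs _ _).trans
      (Finset.sum_le_sum fun j _ => siteMessage_abs_le _ _ _)

theorem siteTerm_le {p k : ℕ} (h h' : ℝ) (θs θs' : Fin k → Inter p)
    (x : Fin k → Fin (p - 1) → ℝ) :
    siteTerm h θs x ≤ Real.exp (|h - h'| + ∑ j, supNorm (θs j - θs' j)) * siteTerm h' θs' x := by
  have e : ∀ (h : ℝ) (θs : Fin k → Inter p), siteTerm h θs x = ∑ ε : Bool,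
      Real.exp (h * spinVal ε + ∑ j : Fin k, siteMessage (θs j) (x j) ε) * (1 / 2) := by
    intro h θs
    unfold siteTerm
    rw [Finset.mul_sum]
    exact Finset.sum_congr rfl fun _ _ => mul_comm _ _
  rw [e, e]
  refine expavg_le (fun _ : Bool => (1 / 2 : ℝ)) (fun _ => by norm_num) _ _ _ ?_
  intro ε
  have h1 : h * spinVal ε ≤ |h - h'| + h' * spinVal ε := by
    have : (h - h') * spinVal ε ≤ |h - h'| := by
      refine (le_abs_self _).trans ?_
      rw [abs_mul, spinVal_abs, mul_one]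
    linarith
  have h2 : ∑ j : Fin k, siteMessage (θs j) (x j) ε ≤
      ∑ j, supNorm (θs j - θs' j) + ∑ j : Fin k, siteMessage (θs' j) (x j) ε := by
    rw [← Finset.sum_add_distrib]
    exact Finset.sum_le_sum fun j _ => siteMessage_sub_le _ _ _ _
  linarith

/-! ### power means -/

section PM

variable {L : Type} [Fintype L] {r : ℕ}

theorem measurable_repl (lvl : Fin (r + 1)) : Measurable
    (fun q : (L → Fin (r + 1) → unitInterval) × (L → unitInterval) =>
      (fun (ω : L) (j : Fin (r + 1)) => if j = lvl then q.2 ω else q.1 ω j)) := by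
  refine measurable_pi_lambda _ fun ω => measurable_pi_lambda _ fun j => ?_
  by_cases h : j = lvl
  · simp only [h, if_true]
    exact (measurable_pi_apply ω).comp measurable_snd
  · simp only [h, if_false]
    exact (measurable_pi_apply j).comp ((measurable_pi_apply ω).comp measurable_fst)

theorem measurable_pmStep {A : Type} [MeasurableSpace A] (m : ℝ) (lvl : Fin (r + 1))
    {W : A → (L → Fin (r + 1) → unitInterval) → ℝ}
    (hW : Measurable fun q : A × (L → Fin (r + 1) → unitInterval) => W q.1 q.2) :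
    Measurable fun q : A × (L → Fin (r + 1) → unitInterval) => pmStep m lvl (W q.1) q.2 := by
  unfold pmStep
  have h1 : Measurable (fun z : (A × (L → Fin (r + 1) → unitInterval)) × (L → unitInterval) =>
      (W z.1.1 (fun ω j => if j = lvl then z.2 ω else z.1.2 ω j)) ^ m) := by
    have h2 : Measurable (fun z : (A × (L → Fin (r + 1) → unitInterval)) × (L → unitInterval) =>
        (z.1.1, (fun (ω : L) (j : Fin (r + 1)) => if j = lvl then z.2 ω else z.1.2 ω j))) := by
      refine (measurable_fst.comp measurable_fst).prodMk ?_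
      exact (measurable_repl lvl).comp ((measurable_snd.comp measurable_fst).prodMk measurable_snd)
    exact (hW.comp h2).pow_const m
  have h3 := h1.stronglyMeasurable.integral_prod_right'
    (ν := (Measure.pi fun _ : L => (volume : Measure unitInterval)))
  exact h3.measurable.pow_const (1 / m)

theorem pow_integrable {V : Type} [MeasurableSpace V] (μ : Measure V) [IsProbabilityMeasure μ]
    {f : V → ℝ} (hf : Measurable f) {c m : ℝ} (hm : 0 < m)
    (hb : ∀ v, Real.exp (-c) ≤ f v ∧ f v ≤ Real.exp c) :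
    Integrable (fun v => f v ^ m) μ ∧ Real.exp (-c) ^ m ≤ ∫ v, f v ^ m ∂μ ∧
      ∫ v, f v ^ m ∂μ ≤ Real.exp c ^ m := by
  have h0 : ∀ v, 0 ≤ f v := fun v => (Real.exp_pos _).le.trans (hb v).1
  have h1 : ∀ v, f v ^ m ≤ Real.exp c ^ m := fun v =>
    Real.rpow_le_rpow (h0 v) (hb v).2 hm.le
  have h2 : ∀ v, Real.exp (-c) ^ m ≤ f v ^ m := fun v =>
    Real.rpow_le_rpow (Real.exp_pos _).le (hb v).1 hm.le
  have hi : Integrable (fun v => f v ^ m) μ := by
    refine Integrable.of_bound (hf.pow_const m).aestronglyMeasurable (Real.exp c ^ m) ?_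
    refine Eventually.of_forall fun v => ?_
    rw [Real.norm_eq_abs, abs_of_nonneg (Real.rpow_nonneg (h0 v) m)]
    exact h1 v
  refine ⟨hi, ?_, ?_⟩
  · have := integral_mono (μ := μ) (integrable_const (Real.exp (-c) ^ m)) hi h2
    simpa using this
  · have := integral_mono (μ := μ) hi (integrable_const (Real.exp c ^ m)) h1
    simpa using this

theorem pmStep_bounds (m : ℝ) (hm : 0 < m) (lvl : Fin (r + 1))
    {W : (L → Fin (r + 1) → unitInterval) → ℝ} (hW : Measurable W) {c : ℝ}
    (hb : ∀ u, Real.exp (-c) ≤ W u ∧ W u ≤ Real.exp c) (u : L → Fin (r + 1) → unitInterval) :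
    Real.exp (-c) ≤ pmStep m lvl W u ∧ pmStep m lvl W u ≤ Real.exp c := by
  have hmeas : Measurable fun v : L → unitInterval =>
      W (fun ω j => if j = lvl then v ω else u ω j) :=
    hW.comp ((measurable_repl lvl).comp (measurable_const.prodMk measurable_id))
  obtain ⟨-, h1, h2⟩ := pow_integrable (Measure.pi fun _ : L => (volume : Measure unitInterval))
    hmeas hm (fun v => hb _)
  have e : ∀ x : ℝ, 0 ≤ x → (x ^ m) ^ (1 / m) = x := fun x hx => by
    rw [← Real.rpow_mul hx, mul_one_div_cancel hm.ne', Real.rpow_one]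
  have hI0 : 0 ≤ ∫ v : L → unitInterval, (W (fun ω j => if j = lvl then v ω else u ω j)) ^ m
      ∂(Measure.pi fun _ : L => (volume : Measure unitInterval)) :=
    (Real.rpow_nonneg (Real.exp_pos _).le m).trans h1
  unfold pmStep
  constructor
  · have := Real.rpow_le_rpow (Real.rpow_nonneg (Real.exp_pos _).le m) h1
      (by positivity : (0 : ℝ) ≤ 1 / m)
    rwa [e _ (Real.exp_pos _).le] at this
  · have := Real.rpow_le_rpow hI0 h2 (by positivity : (0 : ℝ) ≤ 1 / m)
    rwa [e _ (Real.exp_pos _).le] at this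

theorem pmStep_le (m : ℝ) (hm : 0 < m) (lvl : Fin (r + 1))
    {W W' : (L → Fin (r + 1) → unitInterval) → ℝ} (hW : Measurable W) (hW' : Measurable W')
    {c c' δ : ℝ} (hb : ∀ u, Real.exp (-c) ≤ W u ∧ W u ≤ Real.exp c)
    (hb' : ∀ u, Real.exp (-c') ≤ W' u ∧ W' u ≤ Real.exp c')
    (hle : ∀ u, W u ≤ Real.exp δ * W' u) (u : L → Fin (r + 1) → unitInterval) :
    pmStep m lvl W u ≤ Real.exp δ * pmStep m lvl W' u := by
  have hmeas : Measurable fun v : L → unitInterval =>
      W (fun ω j => if j = lvl then v ω else u ω j) :=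
    hW.comp ((measurable_repl lvl).comp (measurable_const.prodMk measurable_id))
  have hmeas' : Measurable fun v : L → unitInterval =>
      W' (fun ω j => if j = lvl then v ω else u ω j) :=
    hW'.comp ((measurable_repl lvl).comp (measurable_const.prodMk measurable_id))
  obtain ⟨i1, h1, h2⟩ := pow_integrable (Measure.pi fun _ : L => (volume : Measure unitInterval))
    hmeas hm (fun v => hb _)
  obtain ⟨i1', h1', h2'⟩ := pow_integrable (Measure.pi fun _ : L => (volume : Measure unitInterval))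
    hmeas' hm (fun v => hb' _)
  have e : ∀ x : ℝ, 0 ≤ x → (x ^ m) ^ (1 / m) = x := fun x hx => by
    rw [← Real.rpow_mul hx, mul_one_div_cancel hm.ne', Real.rpow_one]
  have hI0 : 0 ≤ ∫ v : L → unitInterval, (W (fun ω j => if j = lvl then v ω else u ω j)) ^ m
      ∂(Measure.pi fun _ : L => (volume : Measure unitInterval)) :=
    (Real.rpow_nonneg (Real.exp_pos _).le m).trans h1
  have hI0' : 0 ≤ ∫ v : L → unitInterval, (W' (fun ω j => if j = lvl then v ω else u ω j)) ^ m
      ∂(Measure.pi fun _ : L => (volume : Measure unitInterval)) :=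
    (Real.rpow_nonneg (Real.exp_pos _).le m).trans h1'
  have hI : ∫ v : L → unitInterval, (W (fun ω j => if j = lvl then v ω else u ω j)) ^ m
      ∂(Measure.pi fun _ : L => (volume : Measure unitInterval)) ≤ Real.exp δ ^ m *
      ∫ v : L → unitInterval, (W' (fun ω j => if j = lvl then v ω else u ω j)) ^ m
      ∂(Measure.pi fun _ : L => (volume : Measure unitInterval)) := by
    rw [← integral_const_mul]
    refine integral_mono i1 (i1'.const_mul _) fun v => ?_
    have h0 : 0 ≤ W' (fun ω j => if j = lvl then v ω else u ω j) :=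
      (Real.exp_pos _).le.trans (hb' _).1
    have := Real.rpow_le_rpow ((Real.exp_pos _).le.trans (hb _).1)
      (hle (fun ω j => if j = lvl then v ω else u ω j)) hm.le
    rwa [Real.mul_rpow (Real.exp_pos _).le h0] at this
  unfold pmStep
  have := Real.rpow_le_rpow hI0 hI (by positivity : (0 : ℝ) ≤ 1 / m)
  rwa [Real.mul_rpow (Real.rpow_nonneg (Real.exp_pos _).le m) hI0', e _ (Real.exp_pos _).le]
    at this

theorem foldr_measurable {A : Type} [MeasurableSpace A] (m : Fin r → ℝ) (l : List (Fin r))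
    {W : A → (L → Fin (r + 1) → unitInterval) → ℝ}
    (hW : Measurable fun q : A × (L → Fin (r + 1) → unitInterval) => W q.1 q.2) :
    Measurable fun q : A × (L → Fin (r + 1) → unitInterval) =>
      (l.foldr (fun d acc => pmStep (m d) d.succ acc) (W q.1)) q.2 := by
  induction l with
  | nil => simpa using hW
  | cons d l ih =>
    simp only [List.foldr_cons]
    exact measurable_pmStep (m d) d.succ (W := fun a =>
      l.foldr (fun d acc => pmStep (m d) d.succ acc) (W a)) ih

theorem foldr_measurable' (m : Fin r → ℝ) (l : List (Fin r))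
    {W : (L → Fin (r + 1) → unitInterval) → ℝ} (hW : Measurable W) :
    Measurable (l.foldr (fun d acc => pmStep (m d) d.succ acc) W) := by
  have h := foldr_measurable (A := Unit) m l (W := fun _ => W) (hW.comp measurable_snd)
  exact h.comp (measurable_const (a := ()) |>.prodMk measurable_id)

theorem foldr_bounds (m : Fin r → ℝ) (hm : ∀ d, 0 < m d) (l : List (Fin r))
    {W : (L → Fin (r + 1) → unitInterval) → ℝ} (hW : Measurable W) {c : ℝ}
    (hb : ∀ u, Real.exp (-c) ≤ W u ∧ W u ≤ Real.exp c) (u : L → Fin (r + 1) → unitInterval) :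
    Real.exp (-c) ≤ (l.foldr (fun d acc => pmStep (m d) d.succ acc) W) u ∧
      (l.foldr (fun d acc => pmStep (m d) d.succ acc) W) u ≤ Real.exp c := by
  induction l generalizing u with
  | nil => exact hb u
  | cons d l ih =>
    simp only [List.foldr_cons]
    exact pmStep_bounds (m d) (hm d) d.succ (foldr_measurable' m l hW) ih u

theorem foldr_le (m : Fin r → ℝ) (hm : ∀ d, 0 < m d) (l : List (Fin r))
    {W W' : (L → Fin (r + 1) → unitInterval) → ℝ} (hW : Measurable W) (hW' : Measurable W')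
    {c c' δ : ℝ} (hb : ∀ u, Real.exp (-c) ≤ W u ∧ W u ≤ Real.exp c)
    (hb' : ∀ u, Real.exp (-c') ≤ W' u ∧ W' u ≤ Real.exp c')
    (hle : ∀ u, W u ≤ Real.exp δ * W' u) (u : L → Fin (r + 1) → unitInterval) :
    (l.foldr (fun d acc => pmStep (m d) d.succ acc) W) u ≤
      Real.exp δ * (l.foldr (fun d acc => pmStep (m d) d.succ acc) W') u := by
  induction l generalizing u with
  | nil => exact hle u
  | cons d l ih =>
    simp only [List.foldr_cons]
    exact pmStep_le (m d) (hm d) d.succ (foldr_measurable' m l hW) (foldr_measurable' m l hW')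
      (foldr_bounds m hm l hW hb) (foldr_bounds m hm l hW' hb') ih u

/-- the logarithm of the power means: bound and Lipschitz estimate -/
theorem log_pm_abs_le (m : Fin r → ℝ) (hm : ∀ d, 0 < m d)
    {W : (L → Fin (r + 1) → unitInterval) → ℝ} (hW : Measurable W) {c : ℝ}
    (hb : ∀ u, Real.exp (-c) ≤ W u ∧ W u ≤ Real.exp c) (u : L → Fin (r + 1) → unitInterval) :
    |Real.log (powerMeans m W u)| ≤ c := by
  obtain ⟨h1, h2⟩ := foldr_bounds m hm (List.finRange r) hW hb u
  have hpos := lt_of_lt_of_le (Real.exp_pos _) h1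
  unfold powerMeans
  rw [abs_le]
  constructor
  · rw [Real.le_log_iff_exp_le hpos]; exact h1
  · rw [Real.log_le_iff_le_exp hpos]; exact h2

theorem log_pm_le (m : Fin r → ℝ) (hm : ∀ d, 0 < m d)
    {W W' : (L → Fin (r + 1) → unitInterval) → ℝ} (hW : Measurable W) (hW' : Measurable W')
    {c c' δ : ℝ} (hb : ∀ u, Real.exp (-c) ≤ W u ∧ W u ≤ Real.exp c)
    (hb' : ∀ u, Real.exp (-c') ≤ W' u ∧ W' u ≤ Real.exp c')
    (hle : ∀ u, W u ≤ Real.exp δ * W' u) (u : L → Fin (r + 1) → unitInterval) :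
    Real.log (powerMeans m W u) ≤ δ + Real.log (powerMeans m W' u) := by
  have h1 := foldr_bounds m hm (List.finRange r) hW hb u
  have h1' := foldr_bounds m hm (List.finRange r) hW' hb' u
  have h2 := foldr_le m hm (List.finRange r) hW hW' hb hb' hle u
  unfold powerMeans
  have hpos := lt_of_lt_of_le (Real.exp_pos _) h1.1
  have hpos' := lt_of_lt_of_le (Real.exp_pos _) h1'.1
  have h3 := Real.log_le_log hpos h2
  rwa [Real.log_mul (Real.exp_pos _).ne' hpos'.ne', Real.log_exp] at h3

theorem measurable_log_pm {A : Type} [MeasurableSpace A] (m : Fin r → ℝ)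
    {W : A → (L → Fin (r + 1) → unitInterval) → ℝ}
    (hW : Measurable fun q : A × (L → Fin (r + 1) → unitInterval) => W q.1 q.2) :
    Measurable fun q : A × (L → Fin (r + 1) → unitInterval) =>
      Real.log (powerMeans m (W q.1) q.2) :=
  (foldr_measurable m (List.finRange r) hW).log

instance (L : Type) [Fintype L] (r : ℕ) : IsProbabilityMeasure (uniformArrays L r) := by
  unfold uniformArrays; infer_instance

/-- `G(a) = ∫ log PM(W a)`. -/
noncomputable def Gint {A : Type} (m : Fin r → ℝ)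
    (W : A → (L → Fin (r + 1) → unitInterval) → ℝ) (a : A) : ℝ :=
  ∫ u, Real.log (powerMeans m (W a) u) ∂(uniformArrays L r)

theorem Gint_measurable {A : Type} [MeasurableSpace A] (m : Fin r → ℝ)
    {W : A → (L → Fin (r + 1) → unitInterval) → ℝ}
    (hW : Measurable fun q : A × (L → Fin (r + 1) → unitInterval) => W q.1 q.2) :
    Measurable (Gint m W) :=
  ((measurable_log_pm m hW).stronglyMeasurable.integral_prod_right'
    (ν := uniformArrays L r)).measurable

theorem Gint_abs_le {A : Type} [MeasurableSpace A] (m : Fin r → ℝ) (hm : ∀ d, 0 < m d)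
    {W : A → (L → Fin (r + 1) → unitInterval) → ℝ}
    (hW : Measurable fun q : A × (L → Fin (r + 1) → unitInterval) => W q.1 q.2) {c : A → ℝ}
    (hb : ∀ a u, Real.exp (-c a) ≤ W a u ∧ W a u ≤ Real.exp (c a)) (a : A) :
    |Gint m W a| ≤ c a := by
  have hWa : Measurable (W a) := hW.comp (measurable_const.prodMk measurable_id)
  have h := norm_integral_le_of_norm_le_const (μ := uniformArrays L r)
    (f := fun u => Real.log (powerMeans m (W a) u)) (C := c a)
    (Eventually.of_forall fun u => by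
      rw [Real.norm_eq_abs]; exact log_pm_abs_le m hm hWa (hb a) u)
  simpa [Gint] using h

theorem Gint_le {A : Type} [MeasurableSpace A] (m : Fin r → ℝ) (hm : ∀ d, 0 < m d)
    {W : A → (L → Fin (r + 1) → unitInterval) → ℝ}
    (hW : Measurable fun q : A × (L → Fin (r + 1) → unitInterval) => W q.1 q.2) {c : A → ℝ}
    (hb : ∀ a u, Real.exp (-c a) ≤ W a u ∧ W a u ≤ Real.exp (c a)) {δ : ℝ} {a a' : A}
    (hle : ∀ u, W a u ≤ Real.exp δ * W a' u) :
    Gint m W a ≤ δ + Gint m W a' := by
  have hWa : ∀ a, Measurable (W a) := fun a => hW.comp (measurable_const.prodMk measurable_id)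
  have hi : ∀ a, Integrable (fun u => Real.log (powerMeans m (W a) u)) (uniformArrays L r) := by
    intro a
    refine Integrable.of_bound
      ((measurable_log_pm m hW).comp (measurable_const.prodMk measurable_id)).aestronglyMeasurable
      (c a) (Eventually.of_forall fun u => ?_)
    rw [Real.norm_eq_abs]; exact log_pm_abs_le m hm (hWa a) (hb a) u
  have h1 := integral_mono (hi a) ((integrable_const δ).add (hi a'))
    (fun u => log_pm_le m hm (hWa a) (hWa a') (hb a) (hb a') hle u)
  have h2 : ∫ u, (δ + Real.log (powerMeans m (W a') u)) ∂(uniformArrays L r) =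
      δ + ∫ u, Real.log (powerMeans m (W a') u) ∂(uniformArrays L r) := by
    rw [integral_add (integrable_const δ) (hi a')]
    simp
  calc Gint m W a ≤ ∫ u, (δ + Real.log (powerMeans m (W a') u)) ∂(uniformArrays L r) := h1
    _ = _ := h2

end PM

/-! ### measurability of the site and edge terms -/

theorem measurable_tilt (s : Bool) : Measurable fun x : ℝ => tilt x s := by
  unfold tilt
  exact (Real.measurable_exp.comp (measurable_id.mul_const _)).div
    (Real.measurable_cosh.const_mul 2)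

theorem measurable_siteW {p k r : ℕ} {X : (Fin (r + 1) → unitInterval) → ℝ} (hX : Measurable X) :
    Measurable fun q : ((Fin k → Inter p) × ℝ) ×
        ((Fin k × Fin (p - 1)) → Fin (r + 1) → unitInterval) =>
      siteTerm q.1.2 q.1.1 (fun j ℓ => X (q.2 (j, ℓ))) := by
  unfold siteTerm siteMessage
  refine Measurable.const_mul (Finset.measurable_sum _ fun ε _ => Measurable.exp
    (Measurable.add ?_ (Finset.measurable_sum _ fun j _ => ?_))) _
  · exact (measurable_snd.comp measurable_fst).mul_const _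
  · refine Measurable.log (Finset.measurable_sum _ fun s _ => Measurable.mul (Measurable.exp ?_)
      (Finset.measurable_prod _ fun ℓ _ => ?_))
    · exact (measurable_pi_apply _).comp
        ((measurable_pi_apply j).comp (measurable_fst.comp measurable_fst))
    · exact (measurable_tilt (s ℓ)).comp (hX.comp ((measurable_pi_apply (j, ℓ)).comp measurable_snd))

theorem measurable_edgeW {p r : ℕ} {X : (Fin (r + 1) → unitInterval) → ℝ} (hX : Measurable X) :
    Measurable fun q : (Inter p) × (Fin p → Fin (r + 1) → unitInterval) =>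
      edgeTerm q.1 (fun ℓ => X (q.2 ℓ)) := by
  unfold edgeTerm
  refine Finset.measurable_sum _ fun s _ => Measurable.mul (Measurable.exp ?_)
      (Finset.measurable_prod _ fun ℓ _ => ?_)
  · exact (measurable_pi_apply s).comp measurable_fst
  · exact (measurable_tilt (s ℓ)).comp (hX.comp ((measurable_pi_apply ℓ).comp measurable_snd))

/-! ### the outer integrals -/

section Outer

variable {Ω Ω' : Type} [MeasurableSpace Ω] [MeasurableSpace Ω'] (P : Measure Ω)
    [IsProbabilityMeasure P] (Q : Measure Ω') [IsProbabilityMeasure Q] {p k : ℕ}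

theorem integrable_cc {θ : Ω → Inter p} {h : Ω' → ℝ}
    (iθ : Integrable (fun ω => supNorm (θ ω)) P) (ih : Integrable (fun ω => |h ω|) Q) :
    Integrable (fun z : (Fin k → Ω) × Ω' => |h z.2| + ∑ j, supNorm (θ (z.1 j)))
      ((Measure.pi fun _ : Fin k => P).prod Q) := by
  refine Integrable.add (ih.comp_snd _) ?_
  refine integrable_finsetSum _ fun j _ => ?_
  exact (integrable_comp_eval (μ := fun _ : Fin k => P) (i := j) iθ).comp_fst _

theorem integral_cc {g : Ω → ℝ} {f : Ω' → ℝ} (ig : Integrable g P) (if' : Integrable f Q) :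
    ∫ z : (Fin k → Ω) × Ω', (f z.2 + ∑ j, g (z.1 j))
      ∂((Measure.pi fun _ : Fin k => P).prod Q) = ∫ ω, f ω ∂Q + k * ∫ ω, g ω ∂P := by
  have i1 : Integrable (fun z : (Fin k → Ω) × Ω' => f z.2)
      ((Measure.pi fun _ : Fin k => P).prod Q) := if'.comp_snd _
  have i2 : ∀ j : Fin k, Integrable (fun z : (Fin k → Ω) × Ω' => g (z.1 j))
      ((Measure.pi fun _ : Fin k => P).prod Q) := fun j =>
    (integrable_comp_eval (μ := fun _ : Fin k => P) (i := j) ig).comp_fst _
  rw [integral_add i1 (integrable_finsetSum _ fun j _ => i2 j),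
    integral_finsetSum _ fun j _ => i2 j]
  congr 1
  · rw [integral_prod _ i1]
    simp
  · have : ∀ j : Fin k, ∫ z : (Fin k → Ω) × Ω', g (z.1 j)
        ∂((Measure.pi fun _ : Fin k => P).prod Q) = ∫ ω, g ω ∂P := by
      intro j
      rw [integral_prod _ (i2 j)]
      simp only [integral_const, probReal_univ, smul_eq_mul, one_mul]
      exact integral_comp_eval (μ := fun _ : Fin k => P) ig.aestronglyMeasurable
    simp [this]

theorem integrable_G {θ : Ω → Inter p} {h : Ω' → ℝ} (hθ : Measurable θ) (hh : Measurable h)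
    (iθ : Integrable (fun ω => supNorm (θ ω)) P) (ih : Integrable (fun ω => |h ω|) Q)
    {G : (Fin k → Inter p) × ℝ → ℝ} (hG : Measurable G) (hb : ∀ a, |G a| ≤ cc a.2 a.1) :
    Integrable (fun z : (Fin k → Ω) × Ω' => G (fun j => θ (z.1 j), h z.2))
      ((Measure.pi fun _ : Fin k => P).prod Q) := by
  refine (integrable_cc P Q iθ ih).mono' ?_ (Eventually.of_forall fun z => ?_)
  · refine (hG.comp (Measurable.prodMk ?_ (hh.comp measurable_snd))).aestronglyMeasurable
    exact measurable_pi_lambda _ fun j => hθ.comp ((measurable_pi_apply j).comp measurable_fst)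
  · rw [Real.norm_eq_abs]
    exact hb _

theorem outer_eq {θ : Ω → Inter p} {h : Ω' → ℝ} (hθ : Measurable θ) (hh : Measurable h)
    (iθ : Integrable (fun ω => supNorm (θ ω)) P) (ih : Integrable (fun ω => |h ω|) Q)
    {G : (Fin k → Inter p) × ℝ → ℝ} (hG : Measurable G) (hb : ∀ a, |G a| ≤ cc a.2 a.1) :
    ∫ θs, ∫ x, G (θs, x) ∂(Q.map h) ∂(Measure.pi fun _ : Fin k => P.map θ) =
      ∫ z, G (fun j => θ (z.1 j), h z.2) ∂((Measure.pi fun _ : Fin k => P).prod Q) := by
  have : IsProbabilityMeasure (Q.map h) := Measure.isProbabilityMeasure_map hh.aemeasurable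
  have : IsProbabilityMeasure (P.map θ) := Measure.isProbabilityMeasure_map hθ.aemeasurable
  have hm : Measurable fun (ω : Fin k → Ω) (j : Fin k) => θ (ω j) :=
    measurable_pi_lambda _ fun j => hθ.comp (measurable_pi_apply j)
  have h1 : (Measure.pi fun _ : Fin k => P.map θ) =
      (Measure.pi fun _ : Fin k => P).map (fun (ω : Fin k → Ω) (j : Fin k) => θ (ω j)) :=
    (Measure.pi_map_pi (μ := fun _ : Fin k => P) (f := fun _ => θ)
      (fun _ => hθ.aemeasurable)).symm
  have h2 : Measurable fun θs : Fin k → Inter p => ∫ x, G (θs, x) ∂(Q.map h) :=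
    (hG.stronglyMeasurable.integral_prod_right' (ν := Q.map h)).measurable
  rw [h1, integral_map hm.aemeasurable h2.aestronglyMeasurable,
    integral_prod _ (integrable_G P Q hθ hh iθ ih hG hb)]
  refine integral_congr_ae (Eventually.of_forall fun ω => ?_)
  have h3 : Measurable fun x : ℝ => G ((fun j => θ (ω j)), x) :=
    hG.comp (measurable_const.prodMk measurable_id)
  exact integral_map hh.aemeasurable h3.aestronglyMeasurable

theorem outer_abs_le {θ : Ω → Inter p} {h : Ω' → ℝ} (hθ : Measurable θ) (hh : Measurable h)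
    (iθ : Integrable (fun ω => supNorm (θ ω)) P) (ih : Integrable (fun ω => |h ω|) Q)
    {G : (Fin k → Inter p) × ℝ → ℝ} (hG : Measurable G) (hb : ∀ a, |G a| ≤ cc a.2 a.1) :
    |∫ θs, ∫ x, G (θs, x) ∂(Q.map h) ∂(Measure.pi fun _ : Fin k => P.map θ)| ≤
      ∫ ω, |h ω| ∂Q + k * ∫ ω, supNorm (θ ω) ∂P := by
  rw [outer_eq P Q hθ hh iθ ih hG hb, ← integral_cc P Q iθ ih]
  refine (abs_integral_le_integral_abs).trans ?_
  exact integral_mono (integrable_G P Q hθ hh iθ ih hG hb).abs (integrable_cc P Q iθ ih)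
    fun z => hb _

theorem outer_sub_le {θ θ' : Ω → Inter p} {h h' : Ω' → ℝ} (hθ : Measurable θ) (hh : Measurable h)
    (hθ' : Measurable θ') (hh' : Measurable h')
    (iθ : Integrable (fun ω => supNorm (θ ω)) P) (ih : Integrable (fun ω => |h ω|) Q)
    (iθ' : Integrable (fun ω => supNorm (θ' ω)) P) (ih' : Integrable (fun ω => |h' ω|) Q)
    (iD : Integrable (fun ω => supNorm (θ ω - θ' ω)) P)
    (iH : Integrable (fun ω => |h ω - h' ω|) Q)
    {G : (Fin k → Inter p) × ℝ → ℝ} (hG : Measurable G) (hb : ∀ a, |G a| ≤ cc a.2 a.1)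
    (hl : ∀ a a', |G a - G a'| ≤ |a.2 - a'.2| + ∑ j, supNorm (a.1 j - a'.1 j)) :
    |∫ θs, ∫ x, G (θs, x) ∂(Q.map h) ∂(Measure.pi fun _ : Fin k => P.map θ) -
      ∫ θs, ∫ x, G (θs, x) ∂(Q.map h') ∂(Measure.pi fun _ : Fin k => P.map θ')| ≤
      ∫ ω, |h ω - h' ω| ∂Q + k * ∫ ω, supNorm (θ ω - θ' ω) ∂P := by
  have i1 := integrable_G P Q hθ hh iθ ih hG hb
  have i2 := integrable_G P Q hθ' hh' iθ' ih' hG hb
  rw [outer_eq P Q hθ hh iθ ih hG hb, outer_eq P Q hθ' hh' iθ' ih' hG hb,
    ← integral_sub i1 i2, ← integral_cc (k := k) P Q iD iH]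
  refine (abs_integral_le_integral_abs).trans ?_
  refine integral_mono (i1.sub i2).abs ?_ fun z => hl _ _
  have i3 : Integrable (fun z : (Fin k → Ω) × Ω' => |h z.2 - h' z.2|)
      ((Measure.pi fun _ : Fin k => P).prod Q) := iH.comp_snd _
  exact i3.add (integrable_finsetSum _ fun j _ =>
    (integrable_comp_eval (μ := fun _ : Fin k => P) (i := j) iD).comp_fst _)

end Outer

/-! ### Poisson sums -/

theorem poissonWeight_nonneg {lam : ℝ} (h : 0 ≤ lam) (n : ℕ) : 0 ≤ poissonWeight lam n := by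
  unfold poissonWeight
  positivity

theorem poissonWeight_hasSum (lam : ℝ) : HasSum (poissonWeight lam) 1 := by
  have h : HasSum (fun n : ℕ => lam ^ n / (n.factorial : ℝ)) (Real.exp lam) := by
    rw [Real.exp_eq_exp_ℝ]
    exact NormedSpace.expSeries_div_hasSum_exp lam
  have h1 := h.mul_left (Real.exp (-lam))
  rw [← Real.exp_add, neg_add_cancel, Real.exp_zero] at h1
  have e : poissonWeight lam = fun n : ℕ => Real.exp (-lam) * (lam ^ n / (n.factorial : ℝ)) := by
    funext n
    unfold poissonWeight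
    rw [mul_div_assoc]
  rw [e]
  exact h1

theorem poissonWeight_mean (lam : ℝ) : HasSum (fun n : ℕ => poissonWeight lam n * n) lam := by
  have h := (poissonWeight_hasSum lam).mul_left lam
  rw [mul_one] at h
  rw [← hasSum_nat_add_iff' 1]
  simp only [Finset.range_one, Finset.sum_singleton, Nat.cast_zero, mul_zero, sub_zero]
  have e : (fun n : ℕ => poissonWeight lam (n + 1) * ((n + 1 : ℕ) : ℝ)) =
      fun n : ℕ => lam * poissonWeight lam n := by
    funext n
    unfold poissonWeight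
    rw [Nat.factorial_succ]
    push_cast
    have h1 : ((n : ℝ) + 1) ≠ 0 := by positivity
    have h2 : ((Nat.factorial n : ℕ) : ℝ) ≠ 0 := by positivity
    field_simp
    ring
  rw [e]
  exact h

theorem supNorm_sub_le {p : ℕ} (θ θ' : Inter p) : supNorm (θ - θ') ≤ supNorm θ + supNorm θ' := by
  unfold supNorm
  refine ciSup_le fun s => ?_
  simp only [Pi.sub_apply]
  refine (abs_sub _ _).trans ?_
  exact add_le_add (abs_le_supNorm θ s) (abs_le_supNorm θ' s)

end ALipT

open ALipT

theorem trial_lip {Ω Ω' : Type} [MeasurableSpace Ω] [MeasurableSpace Ω'] (P : Measure Ω)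
    [IsProbabilityMeasure P] (Q : Measure Ω') [IsProbabilityMeasure Q] (p : ℕ) (hp : 1 ≤ p)
    (α : ℝ) (hα : 0 < α)
    (θ θ' : Ω → Inter p) (h h' : Ω' → ℝ) (hθ : Measurable θ) (hθ' : Measurable θ')
    (hh : Measurable h) (hh' : Measurable h')
    (iθ : Integrable (fun ω => supNorm (θ ω)) P) (iθ' : Integrable (fun ω => supNorm (θ' ω)) P)
    (ih : Integrable h Q) (ih' : Integrable h' Q) (r : ℕ) (m : Fin r → ℝ)
    (hm : AdmissibleExponents m) (X : (Fin (r + 1) → unitInterval) → ℝ) (hX : Measurable X) :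
    |trialFunctional p α (P.map θ) (Q.map h) r m X - trialFunctional p α (P.map θ') (Q.map h') r m X|
      ≤ (2 * p * α) * ∫ ω, supNorm (θ ω - θ' ω) ∂P + ∫ ω, |h ω - h' ω| ∂Q := by
  have hm0 : ∀ d, 0 < m d := fun d => (hm.2 d).1
  have hp1 : (1 : ℝ) ≤ p := by exact_mod_cast hp
  have hlam : 0 ≤ α * p := by positivity
  have iha : Integrable (fun ω => |h ω|) Q := ih.abs
  have iha' : Integrable (fun ω => |h' ω|) Q := ih'.abs
  have iH : Integrable (fun ω => |h ω - h' ω|) Q := (ih.sub ih').abs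
  have hmD : Measurable fun ω => supNorm (θ ω - θ' ω) := measurable_supNorm.comp (hθ.sub hθ')
  have iD : Integrable (fun ω => supNorm (θ ω - θ' ω)) P := by
    refine (iθ.add iθ').mono' hmD.aestronglyMeasurable (Eventually.of_forall fun ω => ?_)
    rw [Real.norm_eq_abs, abs_of_nonneg (supNorm_nonneg _)]
    exact supNorm_sub_le _ _
  -- the site functional
  set Gs : (k : ℕ) → (Fin k → Inter p) × ℝ → ℝ := fun k =>
    Gint (L := Fin k × Fin (p - 1)) m (fun (a : (Fin k → Inter p) × ℝ)
      (u' : (Fin k × Fin (p - 1)) → Fin (r + 1) → unitInterval) =>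
        siteTerm a.2 a.1 (fun j ℓ => X (u' (j, ℓ)))) with hGs
  have hGm : ∀ k, Measurable (Gs k) := fun k => Gint_measurable m (measurable_siteW hX)
  have hGb : ∀ k a, |Gs k a| ≤ cc a.2 a.1 := fun k a =>
    Gint_abs_le m hm0 (measurable_siteW hX) (c := fun (a : (Fin k → Inter p) × ℝ) => cc a.2 a.1)
      (fun a u => siteTerm_bounds _ _ _) a
  have hGl : ∀ k a a', |Gs k a - Gs k a'| ≤ |a.2 - a'.2| + ∑ j, supNorm (a.1 j - a'.1 j) := by
    intro k a a'
    have h1 : Gs k a ≤ (|a.2 - a'.2| + ∑ j, supNorm (a.1 j - a'.1 j)) + Gs k a' :=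
      Gint_le m hm0 (measurable_siteW hX) (c := fun (a : (Fin k → Inter p) × ℝ) => cc a.2 a.1)
        (fun a u => siteTerm_bounds _ _ _) (fun u => siteTerm_le _ _ _ _ _)
    have h2 : Gs k a' ≤ (|a'.2 - a.2| + ∑ j, supNorm (a'.1 j - a.1 j)) + Gs k a :=
      Gint_le m hm0 (measurable_siteW hX) (c := fun (a : (Fin k → Inter p) × ℝ) => cc a.2 a.1)
        (fun a u => siteTerm_bounds _ _ _) (fun u => siteTerm_le _ _ _ _ _)
    rw [abs_sub_comm a'.2 a.2] at h2
    have h3 : ∑ j, supNorm (a'.1 j - a.1 j) = ∑ j, supNorm (a.1 j - a'.1 j) :=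
      Finset.sum_congr rfl fun j _ => supNorm_sub_comm _ _
    rw [h3] at h2
    rw [abs_le]
    constructor <;> linarith
  -- the edge functional
  set Ge : Inter p → ℝ := Gint (L := Fin p) m (fun (θ : Inter p)
      (u' : Fin p → Fin (r + 1) → unitInterval) => edgeTerm θ (fun ℓ => X (u' ℓ))) with hGe
  have hGem : Measurable Ge := Gint_measurable m (measurable_edgeW hX)
  have hGeb : ∀ a, |Ge a| ≤ supNorm a := fun a =>
    Gint_abs_le m hm0 (measurable_edgeW hX) (c := fun a => supNorm a)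
      (fun a u => edgeTerm_bounds _ _) a
  have hGel : ∀ a a', |Ge a - Ge a'| ≤ supNorm (a - a') := by
    intro a a'
    have h1 : Ge a ≤ supNorm (a - a') + Ge a' :=
      Gint_le m hm0 (measurable_edgeW hX) (c := fun a => supNorm a)
        (fun a u => edgeTerm_bounds _ _) (fun u => edgeTerm_le _ _ _)
    have h2 : Ge a' ≤ supNorm (a' - a) + Ge a :=
      Gint_le m hm0 (measurable_edgeW hX) (c := fun a => supNorm a)
        (fun a u => edgeTerm_bounds _ _) (fun u => edgeTerm_le _ _ _)
    rw [supNorm_sub_comm] at h2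
    rw [abs_le]
    constructor <;> linarith
  have hedge : |∫ a, Ge a ∂(P.map θ) - ∫ a, Ge a ∂(P.map θ')| ≤
      ∫ ω, supNorm (θ ω - θ' ω) ∂P := by
    rw [integral_map hθ.aemeasurable hGem.aestronglyMeasurable,
      integral_map hθ'.aemeasurable hGem.aestronglyMeasurable]
    have j1 : Integrable (fun ω => Ge (θ ω)) P :=
      iθ.mono' (hGem.comp hθ).aestronglyMeasurable (Eventually.of_forall fun ω => hGeb _)
    have j2 : Integrable (fun ω => Ge (θ' ω)) P :=
      iθ'.mono' (hGem.comp hθ').aestronglyMeasurable (Eventually.of_forall fun ω => hGeb _)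
    rw [← integral_sub j1 j2]
    refine (abs_integral_le_integral_abs).trans ?_
    exact integral_mono (j1.sub j2).abs iD fun ω => hGel _ _
  -- the sum over k
  set S : ℕ → ℝ := fun k => ∫ θs, ∫ x, Gs k (θs, x) ∂(Q.map h)
    ∂(Measure.pi fun _ : Fin k => P.map θ) with hS
  set S' : ℕ → ℝ := fun k => ∫ θs, ∫ x, Gs k (θs, x) ∂(Q.map h')
    ∂(Measure.pi fun _ : Fin k => P.map θ') with hS'
  have hSb : ∀ k, |S k| ≤ ∫ ω, |h ω| ∂Q + k * ∫ ω, supNorm (θ ω) ∂P := fun k =>
    outer_abs_le P Q hθ hh iθ iha (hGm k) (hGb k)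
  have hSb' : ∀ k, |S' k| ≤ ∫ ω, |h' ω| ∂Q + k * ∫ ω, supNorm (θ' ω) ∂P := fun k =>
    outer_abs_le P Q hθ' hh' iθ' iha' (hGm k) (hGb k)
  have hSd : ∀ k, |S k - S' k| ≤ ∫ ω, |h ω - h' ω| ∂Q + k * ∫ ω, supNorm (θ ω - θ' ω) ∂P :=
    fun k => outer_sub_le P Q hθ hh hθ' hh' iθ iha iθ' iha' iD iH (hGm k) (hGb k) (hGl k)
  have hsumlin : ∀ A B : ℝ, HasSum (fun k : ℕ => poissonWeight (α * p) k * (A + k * B))
      (A + (α * p) * B) := by
    intro A B
    have h1 := ((poissonWeight_hasSum (α * p)).mul_right A).add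
      ((poissonWeight_mean (α * p)).mul_right B)
    rw [one_mul] at h1
    have e : (fun k : ℕ => poissonWeight (α * p) k * (A + k * B)) = fun k : ℕ =>
        poissonWeight (α * p) k * A + poissonWeight (α * p) k * k * B := by
      funext k; ring
    rw [e]
    exact h1
  have hsummable : ∀ (T : ℕ → ℝ) (A B : ℝ), (∀ k : ℕ, |T k| ≤ A + k * B) →
      Summable fun k : ℕ => poissonWeight (α * p) k * T k := by
    intro T A B hT
    refine Summable.of_norm_bounded (hsumlin A B).summable fun k => ?_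
    rw [Real.norm_eq_abs, abs_mul, abs_of_nonneg (poissonWeight_nonneg hlam k)]
    exact mul_le_mul_of_nonneg_left (hT k) (poissonWeight_nonneg hlam k)
  have hs1 := hsummable S _ _ hSb
  have hs2 := hsummable S' _ _ hSb'
  have hsum : |∑' k : ℕ, poissonWeight (α * p) k * S k - ∑' k : ℕ, poissonWeight (α * p) k * S' k|
      ≤ ∫ ω, |h ω - h' ω| ∂Q + (α * p) * ∫ ω, supNorm (θ ω - θ' ω) ∂P := by
    rw [← hs1.tsum_sub hs2, ← (hsumlin (∫ ω, |h ω - h' ω| ∂Q)
      (∫ ω, supNorm (θ ω - θ' ω) ∂P)).tsum_eq]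
    have hs3 := hsummable (fun k => S k - S' k) _ _ hSd
    have e : (fun k : ℕ => poissonWeight (α * p) k * S k - poissonWeight (α * p) k * S' k) =
        fun k : ℕ => poissonWeight (α * p) k * (S k - S' k) := by
      funext k; ring
    rw [e]
    have hle : ∀ k : ℕ, ‖poissonWeight (α * p) k * (S k - S' k)‖ ≤
        poissonWeight (α * p) k * (∫ ω, |h ω - h' ω| ∂Q + k * ∫ ω, supNorm (θ ω - θ' ω) ∂P) := by
      intro k
      rw [Real.norm_eq_abs, abs_mul, abs_of_nonneg (poissonWeight_nonneg hlam k)]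
      exact mul_le_mul_of_nonneg_left (hSd k) (poissonWeight_nonneg hlam k)
    have hn := norm_tsum_le_tsum_norm hs3.norm
    rw [Real.norm_eq_abs] at hn
    exact hn.trans (Summable.tsum_le_tsum hle hs3.norm (hsumlin _ _).summable)
  have e1 : trialFunctional p α (P.map θ) (Q.map h) r m X = Real.log 2 +
      (∑' k : ℕ, poissonWeight (α * p) k * S k) - α * (p - 1 : ℝ) * ∫ a, Ge a ∂(P.map θ) := rfl
  have e2 : trialFunctional p α (P.map θ') (Q.map h') r m X = Real.log 2 +
      (∑' k : ℕ, poissonWeight (α * p) k * S' k) - α * (p - 1 : ℝ) * ∫ a, Ge a ∂(P.map θ') := rfl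
  rw [e1, e2]
  have hD0 : 0 ≤ ∫ ω, supNorm (θ ω - θ' ω) ∂P := integral_nonneg fun ω => supNorm_nonneg _
  have hc : 0 ≤ α * ((p : ℝ) - 1) := mul_nonneg hα.le (by linarith)
  have h5 := abs_le.1 hsum
  have h6 := abs_le.1 hedge
  have h7 := mul_le_mul_of_nonneg_left h6.1 hc
  have h8 := mul_le_mul_of_nonneg_left h6.2 hc
  have h9 : 0 ≤ α * ∫ ω, supNorm (θ ω - θ' ω) ∂P := mul_nonneg hα.le hD0
  rw [abs_le]
  constructor <;> nlinarith [h5.1, h5.2]

end Crest.Agent.MP
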