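import Crest.Agent.MP.Defs
import Crest.Agent.MP.ALipT

/-!
# A-SHIFT: additive constants (§11)

`logPartition` with `θ_k + c_k` is `logPartition + Σ c_k`; `E M = αN`.  Site term: `siteTerm` is
multiplied by `exp (Σ_j c_j)` (mean `αp E c`), edge term by `exp c` (`α(p-1) E c`); `powerMeans` is
homogeneous.
-/

set_option autoImplicit false

namespace Crest.Agent.MP

open MeasureTheory Filter Topology
open Crest.ProbabilityR.Diluted

namespace AShiftAux

theorem lp_abs_le_supNorm {p : ℕ} (θ : Inter p) (s : Fin p → Bool) : |θ s| ≤ supNorm θ :=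
  le_ciSup (f := fun s : Fin p → Bool => |θ s|) (Set.finite_range _).bddAbove s

theorem lp_supNorm_nonneg {p : ℕ} (θ : Inter p) : 0 ≤ supNorm θ :=
  (abs_nonneg _).trans (lp_abs_le_supNorm θ (fun _ => false))

theorem lp_supNorm_sub_le {p : ℕ} (θ θ' : Inter p) :
    supNorm (θ - θ') ≤ supNorm θ + supNorm θ' := by
  unfold supNorm
  refine ciSup_le fun s => ?_
  refine (abs_sub _ _).trans (add_le_add (lp_abs_le_supNorm θ s) (lp_abs_le_supNorm θ' s))

theorem lp_measurable_supNorm {p : ℕ} : Measurable (supNorm : Inter p → ℝ) := by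
  unfold supNorm
  exact Measurable.iSup fun s => (measurable_pi_apply s).abs

theorem lp_abs_spinVal (b : Bool) : |spinVal b| = 1 := by
  cases b <;> simp [spinVal]

/-- The Lipschitz bound for `log Z`. -/
theorem lp_logPartition_le (N : ℕ) {p M : ℕ} (θs θs' : Fin M → Inter p)
    (idx : Fin M → Fin p → Fin N) (hs hs' : Fin N → ℝ) :
    logPartition N θs idx hs ≤ logPartition N θs' idx hs' +
      ((∑ k, supNorm (θs k - θs' k)) + ∑ i, |hs i - hs' i|) := by
  obtain ⟨D, hD⟩ : ∃ D, D = (∑ k, supNorm (θs k - θs' k)) + ∑ i, |hs i - hs' i| := ⟨_, rfl⟩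
  unfold logPartition
  rw [← hD]
  have hpos : 0 < ∑ σ : Fin N → Bool, Real.exp ((∑ k : Fin M, θs' k (fun ℓ => σ (idx k ℓ))) +
      ∑ i : Fin N, hs' i * spinVal (σ i)) :=
    Finset.sum_pos (fun σ _ => Real.exp_pos _) Finset.univ_nonempty
  have hpos' : 0 < ∑ σ : Fin N → Bool, Real.exp ((∑ k : Fin M, θs k (fun ℓ => σ (idx k ℓ))) +
      ∑ i : Fin N, hs i * spinVal (σ i)) :=
    Finset.sum_pos (fun σ _ => Real.exp_pos _) Finset.univ_nonempty
  have hle : ∑ σ : Fin N → Bool, Real.exp ((∑ k : Fin M, θs k (fun ℓ => σ (idx k ℓ))) +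
      ∑ i : Fin N, hs i * spinVal (σ i)) ≤
      Real.exp D * ∑ σ : Fin N → Bool, Real.exp ((∑ k : Fin M, θs' k (fun ℓ => σ (idx k ℓ))) +
      ∑ i : Fin N, hs' i * spinVal (σ i)) := by
    rw [Finset.mul_sum]
    refine Finset.sum_le_sum fun σ _ => ?_
    rw [← Real.exp_add]
    apply Real.exp_le_exp.2
    have h1 : ∑ k : Fin M, θs k (fun ℓ => σ (idx k ℓ)) ≤
        ∑ k : Fin M, θs' k (fun ℓ => σ (idx k ℓ)) + ∑ k, supNorm (θs k - θs' k) := by
      rw [← Finset.sum_add_distrib]
      refine Finset.sum_le_sum fun k _ => ?_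
      have := lp_abs_le_supNorm (θs k - θs' k) (fun ℓ => σ (idx k ℓ))
      have h2 := (abs_le.1 this).2
      simp only [Pi.sub_apply] at h2
      linarith
    have h2 : ∑ i : Fin N, hs i * spinVal (σ i) ≤
        ∑ i : Fin N, hs' i * spinVal (σ i) + ∑ i, |hs i - hs' i| := by
      rw [← Finset.sum_add_distrib]
      refine Finset.sum_le_sum fun i _ => ?_
      have h3 : (hs i - hs' i) * spinVal (σ i) ≤ |hs i - hs' i| := by
        refine (le_abs_self _).trans ?_
        rw [abs_mul, lp_abs_spinVal, mul_one]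
      nlinarith [h3]
    rw [hD]
    linarith
  calc Real.log _ ≤ Real.log (Real.exp D * ∑ σ : Fin N → Bool,
        Real.exp ((∑ k : Fin M, θs' k (fun ℓ => σ (idx k ℓ))) +
          ∑ i : Fin N, hs' i * spinVal (σ i))) := Real.log_le_log hpos' hle
    _ = _ := by
      rw [Real.log_mul (Real.exp_pos _).ne' hpos.ne', Real.log_exp]
      ring

theorem lp_logPartition_sub (N : ℕ) {p M : ℕ} (θs θs' : Fin M → Inter p)
    (idx : Fin M → Fin p → Fin N) (hs hs' : Fin N → ℝ) :
    |logPartition N θs idx hs - logPartition N θs' idx hs'| ≤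
      (∑ k, supNorm (θs k - θs' k)) + ∑ i, |hs i - hs' i| := by
  have h1 := lp_logPartition_le N θs θs' idx hs hs'
  have h2 := lp_logPartition_le N θs' θs idx hs' hs
  have h3 : ∀ k, supNorm (θs' k - θs k) = supNorm (θs k - θs' k) := by
    intro k
    unfold supNorm
    refine iSup_congr fun s => ?_
    simp only [Pi.sub_apply]
    exact abs_sub_comm _ _
  have h4 : ∀ i, |hs' i - hs i| = |hs i - hs' i| := fun i => abs_sub_comm _ _
  simp_rw [h3, h4] at h2
  rw [abs_le]
  constructor <;> linarith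

theorem lp_supNorm_zero {p : ℕ} : supNorm (0 : Inter p) = 0 := by
  unfold supNorm
  simp

theorem lp_logPartition_abs (N : ℕ) {p M : ℕ} (θs : Fin M → Inter p)
    (idx : Fin M → Fin p → Fin N) (hs : Fin N → ℝ) :
    |logPartition N θs idx hs| ≤
      N * Real.log 2 + ((∑ k, supNorm (θs k)) + ∑ i, |hs i|) := by
  have h1 := lp_logPartition_sub N θs 0 idx hs 0
  have h2 : logPartition N (0 : Fin M → Inter p) idx 0 = N * Real.log 2 := by
    unfold logPartition
    simp
  rw [h2] at h1
  simp only [Pi.zero_apply, sub_zero] at h1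
  have h3 : (0 : ℝ) ≤ N * Real.log 2 := by positivity
  have h4 := abs_le.1 h1
  rw [abs_le]
  have h5 : 0 ≤ (∑ k, supNorm (θs k)) + ∑ i, |hs i| :=
    add_nonneg (Finset.sum_nonneg fun k _ => lp_supNorm_nonneg _)
      (Finset.sum_nonneg fun k _ => abs_nonneg _)
  constructor <;> linarith [h4.1, h4.2]

/-- The averaged `log Z`. -/
noncomputable def lpG (N p M : ℕ) (y : (Fin M → Inter p) × (Fin N → ℝ)) : ℝ :=
  (Fintype.card (Fin M → Fin p → Fin N) : ℝ)⁻¹ *
        ∑ idx : Fin M → Fin p → Fin N, logPartition N y.1 idx y.2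

theorem lp_avg_le {ι : Type} [Fintype ι] [Nonempty ι] (f : ι → ℝ) (B : ℝ)
    (hf : ∀ i, |f i| ≤ B) : |(Fintype.card ι : ℝ)⁻¹ * ∑ i, f i| ≤ B := by
  have hc : (0 : ℝ) < Fintype.card ι := by exact_mod_cast Fintype.card_pos
  rw [abs_mul, abs_of_nonneg (inv_nonneg.2 hc.le), inv_mul_le_iff₀ hc]
  calc |∑ i, f i| ≤ ∑ i, |f i| := Finset.abs_sum_le_sum_abs _ _
    _ ≤ ∑ _i : ι, B := Finset.sum_le_sum fun i _ => hf i
    _ = Fintype.card ι * B := by rw [Finset.sum_const, Finset.card_univ, nsmul_eq_mul]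

theorem lpG_sub (N p M : ℕ) (hN : 1 ≤ N) (y y' : (Fin M → Inter p) × (Fin N → ℝ)) :
    |lpG N p M y - lpG N p M y'| ≤
      (∑ k, supNorm (y.1 k - y'.1 k)) + ∑ i, |y.2 i - y'.2 i| := by
  have : Nonempty (Fin N) := ⟨⟨0, hN⟩⟩
  unfold lpG
  rw [← mul_sub, ← Finset.sum_sub_distrib]
  exact lp_avg_le _ _ fun idx => lp_logPartition_sub N _ _ idx _ _

theorem lpG_abs (N p M : ℕ) (hN : 1 ≤ N) (y : (Fin M → Inter p) × (Fin N → ℝ)) :
    |lpG N p M y| ≤ N * Real.log 2 + ((∑ k, supNorm (y.1 k)) + ∑ i, |y.2 i|) := by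
  have : Nonempty (Fin N) := ⟨⟨0, hN⟩⟩
  exact lp_avg_le _ _ fun idx => lp_logPartition_abs N _ idx _

theorem lpG_measurable (N p M : ℕ) : Measurable (lpG N p M) := by
  unfold lpG logPartition
  refine Measurable.const_mul ?_ _
  refine Finset.measurable_fun_sum _ fun idx _ => ?_
  refine Measurable.log ?_
  refine Finset.measurable_fun_sum _ fun σ _ => ?_
  refine Measurable.exp ?_
  refine Measurable.add ?_ ?_
  · refine Finset.measurable_fun_sum _ fun k _ => ?_
    exact (measurable_pi_apply _).comp ((measurable_pi_apply k).comp measurable_fst)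
  · refine Finset.measurable_fun_sum _ fun i _ => ?_
    exact ((measurable_pi_apply i).comp measurable_snd).mul_const _

/-- weights -/
theorem lp_poisson_hasSum (lam : ℝ) : HasSum (poissonWeight lam) 1 := by
  have h := (NormedSpace.expSeries_div_hasSum_exp lam).mul_left (Real.exp (-lam))
  rw [← Real.exp_eq_exp_ℝ, ← Real.exp_add, neg_add_cancel, Real.exp_zero] at h
  have h2 : poissonWeight lam = fun n => Real.exp (-lam) * (lam ^ n / (n.factorial : ℝ)) := by
    funext n
    unfold poissonWeight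
    ring
  rw [h2]
  exact h

theorem lp_poisson_mean (lam : ℝ) : HasSum (fun n : ℕ => poissonWeight lam n * n) lam := by
  have h1 := (lp_poisson_hasSum lam).mul_left lam
  rw [mul_one] at h1
  have h2 : (fun n : ℕ => lam * poissonWeight lam n) =
      fun n : ℕ => poissonWeight lam (n + 1) * ((n + 1 : ℕ) : ℝ) := by
    funext n
    unfold poissonWeight
    rw [Nat.factorial_succ]
    have : ((n.factorial : ℕ) : ℝ) ≠ 0 := by exact_mod_cast (Nat.factorial_pos n).ne'
    push_cast
    have h3 : ((n : ℝ) + 1) ≠ 0 := by positivity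
    field_simp
    ring
  rw [h2] at h1
  rw [← hasSum_nat_add_iff' (f := fun n : ℕ => poissonWeight lam n * n) 1]
  simpa using h1

theorem lp_poisson_nonneg {lam : ℝ} (h : 0 ≤ lam) (n : ℕ) : 0 ≤ poissonWeight lam n := by
  unfold poissonWeight; positivity

section
variable {Ω Ω' : Type} [MeasurableSpace Ω] [MeasurableSpace Ω'] (P : Measure Ω)
    [IsProbabilityMeasure P] (Q : Measure Ω') [IsProbabilityMeasure Q]

theorem lp_int_bound (M N : ℕ) (a : Ω → ℝ) (b : Ω' → ℝ) (ia : Integrable a P)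
    (ib : Integrable b Q) :
    Integrable (fun y : (Fin M → Ω) × (Fin N → Ω') => (∑ k, a (y.1 k)) + ∑ i, b (y.2 i))
      ((Measure.pi fun _ : Fin M => P).prod (Measure.pi fun _ : Fin N => Q)) ∧
    ∫ y : (Fin M → Ω) × (Fin N → Ω'), ((∑ k, a (y.1 k)) + ∑ i, b (y.2 i))
      ∂((Measure.pi fun _ : Fin M => P).prod (Measure.pi fun _ : Fin N => Q)) =
      M * ∫ ω, a ω ∂P + N * ∫ ω, b ω ∂Q := by
  have h1 : ∀ k : Fin M, MeasurePreserving (fun y : (Fin M → Ω) × (Fin N → Ω') => y.1 k)
      ((Measure.pi fun _ : Fin M => P).prod (Measure.pi fun _ : Fin N => Q)) P := fun k =>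
    (measurePreserving_eval (fun _ : Fin M => P) k).comp measurePreserving_fst
  have h2 : ∀ k : Fin N, MeasurePreserving (fun y : (Fin M → Ω) × (Fin N → Ω') => y.2 k)
      ((Measure.pi fun _ : Fin M => P).prod (Measure.pi fun _ : Fin N => Q)) Q := fun k =>
    (measurePreserving_eval (fun _ : Fin N => Q) k).comp measurePreserving_snd
  have i1 : ∀ k : Fin M, Integrable (fun y : (Fin M → Ω) × (Fin N → Ω') => a (y.1 k))
      ((Measure.pi fun _ : Fin M => P).prod (Measure.pi fun _ : Fin N => Q)) := fun k =>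
    (h1 k).integrable_comp_of_integrable ia
  have i2 : ∀ k : Fin N, Integrable (fun y : (Fin M → Ω) × (Fin N → Ω') => b (y.2 k))
      ((Measure.pi fun _ : Fin M => P).prod (Measure.pi fun _ : Fin N => Q)) := fun k =>
    (h2 k).integrable_comp_of_integrable ib
  refine ⟨(integrable_finsetSum _ fun k _ => i1 k).add (integrable_finsetSum _ fun k _ => i2 k),
    ?_⟩
  rw [integral_add (integrable_finsetSum _ fun k _ => i1 k)
    (integrable_finsetSum _ fun k _ => i2 k), integral_finsetSum _ fun k _ => i1 k,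
    integral_finsetSum _ fun k _ => i2 k]
  have e1 : ∀ k : Fin M, ∫ y : (Fin M → Ω) × (Fin N → Ω'), a (y.1 k)
      ∂((Measure.pi fun _ : Fin M => P).prod (Measure.pi fun _ : Fin N => Q)) = ∫ ω, a ω ∂P := by
    intro k
    have h := integral_map (h1 k).measurable.aemeasurable (f := a)
      (by rw [(h1 k).map_eq]; exact ia.aestronglyMeasurable)
    rw [(h1 k).map_eq] at h
    exact h.symm
  have e2 : ∀ k : Fin N, ∫ y : (Fin M → Ω) × (Fin N → Ω'), b (y.2 k)
      ∂((Measure.pi fun _ : Fin M => P).prod (Measure.pi fun _ : Fin N => Q)) = ∫ ω, b ω ∂Q := by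
    intro k
    have h := integral_map (h2 k).measurable.aemeasurable (f := b)
      (by rw [(h2 k).map_eq]; exact ib.aestronglyMeasurable)
    rw [(h2 k).map_eq] at h
    exact h.symm
  simp [e1, e2]

theorem lp_term (p M N : ℕ) (hN : 1 ≤ N) (θ : Ω → Inter p) (h : Ω' → ℝ)
    (hθ : Measurable θ) (hh : Measurable h) (iθ : Integrable (fun ω => supNorm (θ ω)) P)
    (ih : Integrable h Q) :
    Integrable (fun y : (Fin M → Ω) × (Fin N → Ω') =>
        lpG N p M ((fun k => θ (y.1 k)), fun i => h (y.2 i)))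
      ((Measure.pi fun _ : Fin M => P).prod (Measure.pi fun _ : Fin N => Q)) ∧
    ∫ θs, ∫ hs, ((Fintype.card (Fin M → Fin p → Fin N) : ℝ)⁻¹ *
        ∑ idx : Fin M → Fin p → Fin N, logPartition N θs idx hs)
      ∂(Measure.pi fun _ : Fin N => Q.map h) ∂(Measure.pi fun _ : Fin M => P.map θ) =
    ∫ y : (Fin M → Ω) × (Fin N → Ω'), lpG N p M ((fun k => θ (y.1 k)), fun i => h (y.2 i))
      ∂((Measure.pi fun _ : Fin M => P).prod (Measure.pi fun _ : Fin N => Q)) := by
  have : IsProbabilityMeasure (P.map θ) := Measure.isProbabilityMeasure_map hθ.aemeasurable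
  have : IsProbabilityMeasure (Q.map h) := Measure.isProbabilityMeasure_map hh.aemeasurable
  have mθ : Measurable (fun (ω : Fin M → Ω) (k : Fin M) => θ (ω k)) :=
    measurable_pi_iff.2 fun k => hθ.comp (measurable_pi_apply k)
  have mh : Measurable (fun (ω : Fin N → Ω') (k : Fin N) => h (ω k)) :=
    measurable_pi_iff.2 fun k => hh.comp (measurable_pi_apply k)
  have e1 : (Measure.pi fun _ : Fin M => P.map θ) =
      (Measure.pi fun _ : Fin M => P).map (fun ω k => θ (ω k)) :=
    (Measure.pi_map_pi (μ := fun _ : Fin M => P) (f := fun _ => θ)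
      fun _ => hθ.aemeasurable).symm
  have e2 : (Measure.pi fun _ : Fin N => Q.map h) =
      (Measure.pi fun _ : Fin N => Q).map (fun ω k => h (ω k)) :=
    (Measure.pi_map_pi (μ := fun _ : Fin N => Q) (f := fun _ => h)
      fun _ => hh.aemeasurable).symm
  have mcomp : Measurable (fun y : (Fin M → Ω) × (Fin N → Ω') =>
      lpG N p M ((fun k => θ (y.1 k)), fun i => h (y.2 i))) :=
    (lpG_measurable N p M).comp
      ((mθ.comp measurable_fst).prodMk (mh.comp measurable_snd))
  have hb := (lp_int_bound P Q M N (fun ω => supNorm (θ ω)) (fun ω => |h ω|) iθ ih.abs).1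
  have hint : Integrable (fun y : (Fin M → Ω) × (Fin N → Ω') =>
        lpG N p M ((fun k => θ (y.1 k)), fun i => h (y.2 i)))
      ((Measure.pi fun _ : Fin M => P).prod (Measure.pi fun _ : Fin N => Q)) := by
    refine Integrable.mono' ((integrable_const (N * Real.log 2)).add hb)
      mcomp.aestronglyMeasurable (ae_of_all _ fun y => ?_)
    rw [Real.norm_eq_abs]
    exact lpG_abs N p M hN _
  refine ⟨hint, ?_⟩
  rw [integral_prod _ hint]
  have e3 : ∀ θs : Fin M → Inter p, ∫ hs, ((Fintype.card (Fin M → Fin p → Fin N) : ℝ)⁻¹ *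
        ∑ idx : Fin M → Fin p → Fin N, logPartition N θs idx hs)
      ∂(Measure.pi fun _ : Fin N => Q.map h) =
      ∫ ω : Fin N → Ω', lpG N p M (θs, fun i => h (ω i)) ∂(Measure.pi fun _ : Fin N => Q) := by
    intro θs
    rw [e2, integral_map mh.aemeasurable]
    · rfl
    · exact ((lpG_measurable N p M).comp measurable_prodMk_left).aestronglyMeasurable
  simp_rw [e3]
  rw [e1, integral_map mθ.aemeasurable]
  have m4 : StronglyMeasurable (fun z : (Fin M → Inter p) × (Fin N → Ω') =>
      lpG N p M (z.1, fun i => h (z.2 i))) :=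
    ((lpG_measurable N p M).comp
      (measurable_fst.prodMk (mh.comp measurable_snd))).stronglyMeasurable
  exact (m4.integral_prod_right (ν := Measure.pi fun _ : Fin N => Q)).aestronglyMeasurable

end


/-! ### the shift of `log Z` -/

theorem logPartition_shift (N : ℕ) {p M : ℕ} (θs : Fin M → Inter p) (c : Fin M → ℝ)
    (idx : Fin M → Fin p → Fin N) (hs : Fin N → ℝ) :
    logPartition N (fun k s => c k + θs k s) idx hs = (∑ k, c k) + logPartition N θs idx hs := by
  unfold logPartition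
  have hpos : 0 < ∑ σ : Fin N → Bool, Real.exp ((∑ k : Fin M, θs k (fun ℓ => σ (idx k ℓ))) +
      ∑ i : Fin N, hs i * spinVal (σ i)) :=
    Finset.sum_pos (fun σ _ => Real.exp_pos _) Finset.univ_nonempty
  have h1 : ∑ σ : Fin N → Bool, Real.exp ((∑ k : Fin M, (c k + θs k (fun ℓ => σ (idx k ℓ)))) +
      ∑ i : Fin N, hs i * spinVal (σ i)) = Real.exp (∑ k, c k) *
      ∑ σ : Fin N → Bool, Real.exp ((∑ k : Fin M, θs k (fun ℓ => σ (idx k ℓ))) +
      ∑ i : Fin N, hs i * spinVal (σ i)) := by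
    rw [Finset.mul_sum]
    refine Finset.sum_congr rfl fun σ _ => ?_
    rw [← Real.exp_add, Finset.sum_add_distrib, add_assoc]
  rw [h1, Real.log_mul (Real.exp_pos _).ne' hpos.ne', Real.log_exp]

theorem lpG_shift (N p M : ℕ) (hN : 1 ≤ N) (θs : Fin M → Inter p) (c : Fin M → ℝ)
    (hs : Fin N → ℝ) :
    lpG N p M ((fun k s => c k + θs k s), hs) = (∑ k, c k) + lpG N p M (θs, hs) := by
  have : Nonempty (Fin N) := ⟨⟨0, hN⟩⟩
  unfold lpG
  simp only [logPartition_shift]
  rw [Finset.sum_add_distrib, mul_add, Finset.sum_const, Finset.card_univ, nsmul_eq_mul]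
  congr 1
  have hc : (Fintype.card (Fin M → Fin p → Fin N) : ℝ) ≠ 0 := by
    exact_mod_cast Fintype.card_ne_zero
  rw [← mul_assoc, inv_mul_cancel₀ hc, one_mul]

theorem supNorm_shift_le {p : ℕ} (c : ℝ) (θ : Inter p) :
    supNorm (fun s => c + θ s) ≤ |c| + supNorm θ := by
  unfold supNorm
  refine ciSup_le fun s => (abs_add_le _ _).trans (add_le_add le_rfl (lp_abs_le_supNorm θ s))

theorem measurable_shift {Ω : Type} [MeasurableSpace Ω] {p : ℕ} {θ : Ω → Inter p} {c : Ω → ℝ}
    (hθ : Measurable θ) (hc : Measurable c) : Measurable (fun ω s => c ω + θ ω s) :=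
  measurable_pi_lambda _ fun s => hc.add ((measurable_pi_apply s).comp hθ)

theorem integrable_shift {Ω : Type} [MeasurableSpace Ω] {P : Measure Ω} {p : ℕ}
    {θ : Ω → Inter p} {c : Ω → ℝ} (hθ : Measurable θ) (hc : Measurable c)
    (iθ : Integrable (fun ω => supNorm (θ ω)) P) (ic : Integrable c P) :
    Integrable (fun ω => supNorm (fun s => c ω + θ ω s)) P := by
  refine Integrable.mono' (ic.abs.add iθ)
    (lp_measurable_supNorm.comp (measurable_shift hθ hc)).aestronglyMeasurable
    (ae_of_all _ fun ω => ?_)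
  rw [Real.norm_eq_abs, abs_of_nonneg (lp_supNorm_nonneg _)]
  exact supNorm_shift_le _ _

end AShiftAux

open AShiftAux

/-- Adding an independent-of-spins constant `log a` to the interaction shifts both functionals by
`α E log a`.  Here the constant may depend on everything. -/
theorem pressure_shift {Ω Ω' : Type} [MeasurableSpace Ω] [MeasurableSpace Ω'] (P : Measure Ω)
    [IsProbabilityMeasure P] (Q : Measure Ω') [IsProbabilityMeasure Q] (p : ℕ) (α : ℝ) (hα : 0 < α)
    (θ : Ω → Inter p) (c : Ω → ℝ) (h : Ω' → ℝ) (hθ : Measurable θ) (hc : Measurable c)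
    (hh : Measurable h) (iθ : Integrable (fun ω => supNorm (θ ω)) P) (ic : Integrable c P)
    (ih : Integrable h Q) (N : ℕ) (hN : 1 ≤ N) :
    pressure p α (P.map (fun ω s => c ω + θ ω s)) (Q.map h) N =
      pressure p α (P.map θ) (Q.map h) N + α * ∫ ω, c ω ∂P := by
  have hθ' := measurable_shift hθ hc
  have iθ' := integrable_shift hθ hc iθ ic
  obtain ⟨T, hT⟩ : ∃ T : ℕ → ℝ, ∀ M, T M = ∫ y : (Fin M → Ω) × (Fin N → Ω'),
      lpG N p M ((fun k => θ (y.1 k)), fun i => h (y.2 i))
      ∂((Measure.pi fun _ : Fin M => P).prod (Measure.pi fun _ : Fin N => Q)) :=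
    ⟨_, fun _ => rfl⟩
  have hp : pressure p α (P.map θ) (Q.map h) N =
      (1 / (N : ℝ)) * ∑' M : ℕ, poissonWeight (α * N) M * T M := by
    unfold pressure
    congr 1
    refine tsum_congr fun M => ?_
    rw [hT, (lp_term P Q p M N hN θ h hθ hh iθ ih).2]
  have hp' : pressure p α (P.map (fun ω s => c ω + θ ω s)) (Q.map h) N =
      (1 / (N : ℝ)) * ∑' M : ℕ, poissonWeight (α * N) M * (T M + M * ∫ ω, c ω ∂P) := by
    unfold pressure
    congr 1
    refine tsum_congr fun M => ?_
    rw [hT, (lp_term P Q p M N hN (fun ω s => c ω + θ ω s) h hθ' hh iθ' ih).2]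
    congr 1
    have i1 := (lp_term P Q p M N hN θ h hθ hh iθ ih).1
    have hb := lp_int_bound P Q M N c (fun _ => (0 : ℝ)) ic (integrable_zero _ _ _)
    simp only [Finset.sum_const_zero, add_zero, integral_zero, mul_zero] at hb
    rw [← hb.2, ← integral_add i1 hb.1]
    refine integral_congr_ae (ae_of_all _ fun y => ?_)
    simp only
    rw [lpG_shift N p M hN, add_comm]
  have hNpos : (0 : ℝ) < N := by exact_mod_cast hN
  have hlam : 0 ≤ α * N := by positivity
  have habs : ∀ M : ℕ, |T M| ≤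
      N * Real.log 2 + (M * (∫ ω, supNorm (θ ω) ∂P) + N * ∫ ω, |h ω| ∂Q) := by
    intro M
    have i1 := (lp_term P Q p M N hN θ h hθ hh iθ ih).1
    have hb := lp_int_bound P Q M N (fun ω => supNorm (θ ω)) (fun ω => |h ω|) iθ ih.abs
    rw [hT, ← hb.2]
    have hc : ∫ y : (Fin M → Ω) × (Fin N → Ω'), (N * Real.log 2 + ((∑ k, supNorm (θ (y.1 k))) +
        ∑ i, |h (y.2 i)|)) ∂((Measure.pi fun _ : Fin M => P).prod (Measure.pi fun _ : Fin N => Q)) =
        N * Real.log 2 + ∫ y : (Fin M → Ω) × (Fin N → Ω'), ((∑ k, supNorm (θ (y.1 k))) +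
        ∑ i, |h (y.2 i)|) ∂((Measure.pi fun _ : Fin M => P).prod
          (Measure.pi fun _ : Fin N => Q)) := by
      rw [integral_add (integrable_const _) hb.1]
      simp
    rw [← hc, ← Real.norm_eq_abs]
    refine (norm_integral_le_integral_norm _).trans ?_
    refine integral_mono i1.norm ((integrable_const _).add hb.1) fun y => ?_
    rw [Real.norm_eq_abs]
    exact lpG_abs N p M hN _
  have w0 := lp_poisson_hasSum (α * N)
  have w1 := lp_poisson_mean (α * N)
  have s1 : Summable (fun M : ℕ => poissonWeight (α * N) M * T M) := by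
    refine Summable.of_norm_bounded (g := fun M : ℕ => poissonWeight (α * N) M *
        (N * Real.log 2 + N * ∫ ω, |h ω| ∂Q) +
      poissonWeight (α * N) M * M * (∫ ω, supNorm (θ ω) ∂P))
      ((w0.summable.mul_right _).add (w1.summable.mul_right _)) fun M => ?_
    rw [Real.norm_eq_abs, abs_mul, abs_of_nonneg (lp_poisson_nonneg hlam M)]
    have := mul_le_mul_of_nonneg_left (habs M) (lp_poisson_nonneg hlam M)
    linarith
  have hs := s1.hasSum.add (w1.mul_right (∫ ω, c ω ∂P))
  have hs' : HasSum (fun M : ℕ => poissonWeight (α * N) M * (T M + M * ∫ ω, c ω ∂P))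
      ((∑' M : ℕ, poissonWeight (α * N) M * T M) + α * N * ∫ ω, c ω ∂P) := by
    have e : (fun M : ℕ => poissonWeight (α * N) M * (T M + M * ∫ ω, c ω ∂P)) =
        fun M : ℕ => poissonWeight (α * N) M * T M + poissonWeight (α * N) M * M * ∫ ω, c ω ∂P := by
      funext M; ring
    rw [e]; exact hs
  rw [hp, hp', hs'.tsum_eq]
  field_simp

open ALipT in
theorem trial_shift {Ω Ω' : Type} [MeasurableSpace Ω] [MeasurableSpace Ω'] (P : Measure Ω)
    [IsProbabilityMeasure P] (Q : Measure Ω') [IsProbabilityMeasure Q] (p : ℕ) (hp : 1 ≤ p)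
    (α : ℝ) (hα : 0 < α)
    (θ : Ω → Inter p) (c : Ω → ℝ) (h : Ω' → ℝ) (hθ : Measurable θ) (hc : Measurable c)
    (hh : Measurable h) (iθ : Integrable (fun ω => supNorm (θ ω)) P) (ic : Integrable c P)
    (ih : Integrable h Q) (r : ℕ) (m : Fin r → ℝ)
    (hm : AdmissibleExponents m) (X : (Fin (r + 1) → unitInterval) → ℝ) (hX : Measurable X) :
    trialFunctional p α (P.map (fun ω s => c ω + θ ω s)) (Q.map h) r m X =
      trialFunctional p α (P.map θ) (Q.map h) r m X + α * ∫ ω, c ω ∂P := by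
  have hm0 : ∀ d, 0 < m d := fun d => (hm.2 d).1
  have hp1 : (1 : ℝ) ≤ p := by exact_mod_cast hp
  have hlam : 0 ≤ α * p := by positivity
  have iha : Integrable (fun ω => |h ω|) Q := ih.abs
  have hθ' := measurable_shift hθ hc
  have iθ' := integrable_shift hθ hc iθ ic
  -- the site functional
  set Gs : (k : ℕ) → (Fin k → Inter p) × ℝ → ℝ := fun k =>
    Gint (L := Fin k × Fin (p - 1)) m (fun (a : (Fin k → Inter p) × ℝ)
      (u' : (Fin k × Fin (p - 1)) → Fin (r + 1) → unitInterval) =>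
        siteTerm a.2 a.1 (fun j ℓ => X (u' (j, ℓ)))) with hGs
  have hGm : ∀ k, Measurable (Gs k) := fun k => Gint_measurable m (measurable_siteW hX)
  have hGb : ∀ k a, |Gs k a| ≤ cc a.2 a.1 := fun k a =>
    Gint_abs_le m hm0 (measurable_siteW hX) (c := fun (a : (Fin k → Inter p) × ℝ) => cc a.2 a.1)
      (fun a u => siteTerm_bounds _ _ _) a
  have hsite : ∀ {k : ℕ} (x : ℝ) (θs : Fin k → Inter p) (cs : Fin k → ℝ)
      (y : Fin k → Fin (p - 1) → ℝ),
      siteTerm x (fun j s => cs j + θs j s) y = Real.exp (∑ j, cs j) * siteTerm x θs y := by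
    intro k x θs cs y
    have hmsg : ∀ (j : Fin k) (ε : Bool), siteMessage (fun s => cs j + θs j s) (y j) ε =
        cs j + siteMessage (θs j) (y j) ε := by
      intro j ε
      obtain ⟨h1, -⟩ := siteArg_bounds (θs j) (y j) ε
      have hpos := lt_of_lt_of_le (Real.exp_pos _) h1
      unfold siteMessage
      have e : (∑ s' : Fin (p - 1) → Bool,
          Real.exp (cs j + θs j (fun ℓ => if h : ℓ.val < p - 1 then s' ⟨ℓ.val, h⟩ else ε)) *
            ∏ ℓ, Crest.ProbabilityR.Diluted.tilt (y j ℓ) (s' ℓ)) = Real.exp (cs j) *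
          ∑ s' : Fin (p - 1) → Bool,
          Real.exp (θs j (fun ℓ => if h : ℓ.val < p - 1 then s' ⟨ℓ.val, h⟩ else ε)) *
            ∏ ℓ, Crest.ProbabilityR.Diluted.tilt (y j ℓ) (s' ℓ) := by
        rw [Finset.mul_sum]
        refine Finset.sum_congr rfl fun s' _ => ?_
        rw [Real.exp_add, mul_assoc]
      rw [e, Real.log_mul (Real.exp_pos _).ne' hpos.ne', Real.log_exp]
    unfold siteTerm
    simp only [hmsg]
    rw [mul_left_comm, Finset.mul_sum (a := Real.exp (∑ j, cs j))]
    congr 1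
    refine Finset.sum_congr rfl fun ε _ => ?_
    rw [← Real.exp_add, Finset.sum_add_distrib]
    congr 1
    ring
  have hGshift : ∀ (k : ℕ) (θs : Fin k → Inter p) (cs : Fin k → ℝ) (x : ℝ),
      Gs k ((fun j s => cs j + θs j s), x) = (∑ j, cs j) + Gs k (θs, x) := by
    intro k θs cs x
    have h1 : Gs k ((fun j s => cs j + θs j s), x) ≤ (∑ j, cs j) + Gs k (θs, x) :=
      Gint_le m hm0 (measurable_siteW hX) (c := fun (a : (Fin k → Inter p) × ℝ) => cc a.2 a.1)
        (fun a u => siteTerm_bounds _ _ _) (fun u => (hsite _ _ _ _).le)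
    have h2 : Gs k (θs, x) ≤ (-∑ j, cs j) + Gs k ((fun j s => cs j + θs j s), x) :=
      Gint_le m hm0 (measurable_siteW hX) (c := fun (a : (Fin k → Inter p) × ℝ) => cc a.2 a.1)
        (fun a u => siteTerm_bounds _ _ _) (fun u => by
          simp only
          rw [hsite, ← mul_assoc, ← Real.exp_add, neg_add_cancel, Real.exp_zero, one_mul])
    linarith
  -- the edge functional
  set Ge : Inter p → ℝ := Gint (L := Fin p) m (fun (θ : Inter p)
      (u' : Fin p → Fin (r + 1) → unitInterval) => edgeTerm θ (fun ℓ => X (u' ℓ))) with hGe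
  have hGem : Measurable Ge := Gint_measurable m (measurable_edgeW hX)
  have hGeb : ∀ a, |Ge a| ≤ supNorm a := fun a =>
    Gint_abs_le m hm0 (measurable_edgeW hX) (c := fun a => supNorm a)
      (fun a u => edgeTerm_bounds _ _) a
  have hedgeT : ∀ (θ : Inter p) (c : ℝ) (y : Fin p → ℝ),
      edgeTerm (fun s => c + θ s) y = Real.exp c * edgeTerm θ y := by
    intro θ c y
    unfold edgeTerm
    rw [Finset.mul_sum]
    refine Finset.sum_congr rfl fun s' _ => ?_
    rw [Real.exp_add, mul_assoc]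
  have hGeshift : ∀ (θ : Inter p) (c : ℝ), Ge (fun s => c + θ s) = c + Ge θ := by
    intro θ c
    have h1 : Ge (fun s => c + θ s) ≤ c + Ge θ :=
      Gint_le m hm0 (measurable_edgeW hX) (c := fun a => supNorm a)
        (fun a u => edgeTerm_bounds _ _) (fun u => (hedgeT _ _ _).le)
    have h2 : Ge θ ≤ -c + Ge (fun s => c + θ s) :=
      Gint_le m hm0 (measurable_edgeW hX) (c := fun a => supNorm a)
        (fun a u => edgeTerm_bounds _ _) (fun u => by
          rw [hedgeT, ← mul_assoc, ← Real.exp_add, neg_add_cancel, Real.exp_zero, one_mul])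
    linarith
  have j1 : Integrable (fun ω => Ge (θ ω)) P :=
    iθ.mono' (hGem.comp hθ).aestronglyMeasurable (Eventually.of_forall fun ω => hGeb _)
  have hedge : ∫ a, Ge a ∂(P.map (fun ω s => c ω + θ ω s)) =
      ∫ ω, c ω ∂P + ∫ a, Ge a ∂(P.map θ) := by
    rw [integral_map hθ.aemeasurable hGem.aestronglyMeasurable,
      integral_map hθ'.aemeasurable hGem.aestronglyMeasurable, ← integral_add ic j1]
    exact integral_congr_ae (Eventually.of_forall fun ω => hGeshift _ _)
  -- the sum over k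
  set S : ℕ → ℝ := fun k => ∫ θs, ∫ x, Gs k (θs, x) ∂(Q.map h)
    ∂(Measure.pi fun _ : Fin k => P.map θ) with hS
  set S' : ℕ → ℝ := fun k => ∫ θs, ∫ x, Gs k (θs, x) ∂(Q.map h)
    ∂(Measure.pi fun _ : Fin k => P.map (fun ω s => c ω + θ ω s)) with hS'
  have hSb : ∀ k, |S k| ≤ ∫ ω, |h ω| ∂Q + k * ∫ ω, supNorm (θ ω) ∂P := fun k =>
    outer_abs_le P Q hθ hh iθ iha (hGm k) (hGb k)
  have hSS : ∀ k, S' k = S k + k * ∫ ω, c ω ∂P := by
    intro k
    have e1 : S k = ∫ z, Gs k (fun j => θ (z.1 j), h z.2)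
        ∂((Measure.pi fun _ : Fin k => P).prod Q) :=
      outer_eq P Q hθ hh iθ iha (hGm k) (hGb k)
    have e2 : S' k = ∫ z, Gs k (fun j s => c (z.1 j) + θ (z.1 j) s, h z.2)
        ∂((Measure.pi fun _ : Fin k => P).prod Q) :=
      outer_eq P Q hθ' hh iθ' iha (hGm k) (hGb k)
    have i1 := integrable_G P Q hθ hh iθ iha (hGm k) (hGb k)
    have i2 : Integrable (fun z : (Fin k → Ω) × Ω' => ∑ j, c (z.1 j))
        ((Measure.pi fun _ : Fin k => P).prod Q) :=
      integrable_finsetSum _ fun j _ =>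
        (integrable_comp_eval (μ := fun _ : Fin k => P) (i := j) ic).comp_fst _
    have i3 := integral_cc (k := k) P Q ic (integrable_zero Ω' ℝ Q)
    simp only [Pi.zero_apply, zero_add, integral_zero] at i3
    rw [e1, e2, ← i3, ← integral_add i1 i2]
    refine integral_congr_ae (Eventually.of_forall fun z => ?_)
    simp only
    rw [hGshift k (fun j => θ (z.1 j)) (fun j => c (z.1 j)), add_comm]
  have hsumlin : ∀ A B : ℝ, HasSum (fun k : ℕ => poissonWeight (α * p) k * (A + k * B))
      (A + (α * p) * B) := by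
    intro A B
    have h1 := ((poissonWeight_hasSum (α * p)).mul_right A).add
      ((poissonWeight_mean (α * p)).mul_right B)
    rw [one_mul] at h1
    have e : (fun k : ℕ => poissonWeight (α * p) k * (A + k * B)) = fun k : ℕ =>
        poissonWeight (α * p) k * A + poissonWeight (α * p) k * k * B := by
      funext k; ring
    rw [e]
    exact h1
  have hs1 : Summable fun k : ℕ => poissonWeight (α * p) k * S k := by
    refine Summable.of_norm_bounded (hsumlin (∫ ω, |h ω| ∂Q) (∫ ω, supNorm (θ ω) ∂P)).summable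
      fun k => ?_
    rw [Real.norm_eq_abs, abs_mul, abs_of_nonneg (poissonWeight_nonneg hlam k)]
    exact mul_le_mul_of_nonneg_left (hSb k) (poissonWeight_nonneg hlam k)
  have hsum : ∑' k : ℕ, poissonWeight (α * p) k * S' k =
      (∑' k : ℕ, poissonWeight (α * p) k * S k) + (α * p) * ∫ ω, c ω ∂P := by
    have hs := hs1.hasSum.add (hsumlin 0 (∫ ω, c ω ∂P))
    have e : (fun k : ℕ => poissonWeight (α * p) k * S' k) = fun k : ℕ =>
        poissonWeight (α * p) k * S k + poissonWeight (α * p) k * (0 + k * ∫ ω, c ω ∂P) := by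
      funext k; rw [hSS]; ring
    rw [e, hs.tsum_eq, zero_add]
  have e1 : trialFunctional p α (P.map θ) (Q.map h) r m X = Real.log 2 +
      (∑' k : ℕ, poissonWeight (α * p) k * S k) - α * (p - 1 : ℝ) * ∫ a, Ge a ∂(P.map θ) := rfl
  have e2 : trialFunctional p α (P.map (fun ω s => c ω + θ ω s)) (Q.map h) r m X = Real.log 2 +
      (∑' k : ℕ, poissonWeight (α * p) k * S' k) -
        α * (p - 1 : ℝ) * ∫ a, Ge a ∂(P.map (fun ω s => c ω + θ ω s)) := rfl
  rw [e1, e2, hsum, hedge]
  ring

end Crest.Agent.MP
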