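import Crest.Agent.MP.Defs

/-!
# A-APPROX-L: approximation of the field law by a finite-range map (§11)

Truncate and round; `T` measurable with finite range, so
`ν.map T = FinLaw.toMeasure ν'` (`w = ν.real (T⁻¹{y})`).
-/

set_option autoImplicit false

namespace Crest.Agent.MP

open MeasureTheory Filter Topology
open Crest.ProbabilityR.Diluted

theorem approx_field (ν : Measure ℝ) [IsProbabilityMeasure ν]
    (hν : Integrable (fun x : ℝ => x) ν) {ε : ℝ} (hε : 0 < ε) :
    ∃ (T : ℝ → ℝ) (ν' : FinLaw ℝ), Measurable T ∧ ν.map T = ν'.toMeasure ∧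
      Integrable T ν ∧ ∫ x, |x - T x| ∂ν ≤ ε := by
  classical
  obtain ⟨g, hg, hgL⟩ := (memLp_one_iff_integrable.2 hν).exists_simpleFunc_eLpNorm_sub_lt
    ENNReal.one_ne_top (ε := ENNReal.ofReal ε) (by simpa using hε)
  have hgi : Integrable g ν := memLp_one_iff_integrable.1 hgL
  have hsum : ∑ y : g.range, ν.real (g ⁻¹' {(y : ℝ)}) = 1 := by
    rw [Finset.sum_coe_sort g.range (fun y => ν.real (g ⁻¹' {y}))]
    have h1 := sum_measure_preimage_singleton (μ := ν) g.range (f := g)
      (fun y _ => g.measurableSet_fiber y)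
    have h2 : (g ⁻¹' (g.range : Set ℝ)) = Set.univ := by
      ext x; simp
    rw [h2, measure_univ] at h1
    have h3 := congrArg ENNReal.toReal h1
    rw [ENNReal.toReal_sum (fun _ _ => measure_ne_top _ _), ENNReal.toReal_one] at h3
    exact h3
  refine ⟨g, ⟨g.range, inferInstance, fun y => ν.real (g ⁻¹' {(y : ℝ)}), fun y => (y : ℝ),
    fun _ => measureReal_nonneg, hsum⟩, g.measurable, ?_, hgi, ?_⟩
  · ext s hs
    rw [Measure.map_apply g.measurable hs]
    unfold FinLaw.toMeasure
    simp only [Measure.coe_finsetSum, Finset.sum_apply, Measure.smul_apply, smul_eq_mul,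
      Measure.dirac_apply' _ hs]
    rw [Finset.sum_coe_sort g.range
      (fun y => ENNReal.ofReal (ν.real (g ⁻¹' {y})) * s.indicator 1 y)]
    have h1 := sum_measure_preimage_singleton (μ := ν) (g.range.filter (· ∈ s)) (f := g)
      (fun y _ => g.measurableSet_fiber y)
    have h2 : (g ⁻¹' ((g.range.filter (· ∈ s) : Finset ℝ) : Set ℝ)) = g ⁻¹' s := by
      ext x; simp
    rw [h2] at h1
    rw [← h1, Finset.sum_filter]
    refine Finset.sum_congr rfl fun y _ => ?_
    by_cases hy : y ∈ s
    · simp [hy, measureReal_def, ENNReal.ofReal_toReal (measure_ne_top _ _)]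
    · simp [hy]
  · have h1 : Integrable (fun x => x - g x) ν := hν.sub hgi
    have h2 : ∫ x, |x - g x| ∂ν = (eLpNorm ((fun x : ℝ => x) - ⇑g) 1 ν).toReal := by
      rw [eLpNorm_one_eq_lintegral_enorm]
      exact integral_norm_eq_lintegral_enorm h1.aestronglyMeasurable
    rw [h2]
    exact ENNReal.toReal_le_of_le_ofReal hε.le hg.le

end Crest.Agent.MP
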