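import Crest.Agent.MP.Defs

/-!
# A-LIP: Lipschitz dependence on the laws (coupling)

`pressure`: for fixed `M`, the maps `θs, hs ↦ logPartition` are `1`-Lipschitz:
`|logPartition N θs idx hs - logPartition N θs' idx hs'| ≤ Σ_k supNorm (θs k - θs' k) + Σ_i |hs i - hs' i|`;
`∫ ∂(Measure.pi (P.map θ)) = ∫ ∂(Measure.pi P)` of the composition (`measurePreserving_pi` /
`Measure.pi_map_pi`), expectation `≤ M E‖θ-θ'‖ + N E|h-h'|`, `Σ_M poissonWeight(αN) M · M = αN`.
`trialFunctional`: `|log siteTerm - log siteTerm'| ≤ |h-h'| + Σ_j supNorm (θ_j-θ'_j)` for every argument, and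
`powerMeans` is monotone and homogeneous, so the same bound holds for `log powerMeans`; Poisson mean
`αp`.
Both need the a priori bounds (integrability): `|logPartition| ≤ N log 2 + Σ supNorm θ_k + Σ |h_i|`,
`|log siteTerm| ≤ |h| + Σ supNorm θ_j`, `|log edgeTerm| ≤ supNorm θ`.
-/

set_option autoImplicit false

namespace Crest.Agent.MP

open MeasureTheory Filter Topology
open Crest.ProbabilityR.Diluted

private theorem lp_abs_le_supNorm {p : ℕ} (θ : Inter p) (s : Fin p → Bool) : |θ s| ≤ supNorm θ :=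
  le_ciSup (f := fun s : Fin p → Bool => |θ s|) (Set.finite_range _).bddAbove s

private theorem lp_supNorm_nonneg {p : ℕ} (θ : Inter p) : 0 ≤ supNorm θ :=
  (abs_nonneg _).trans (lp_abs_le_supNorm θ (fun _ => false))

private theorem lp_supNorm_sub_le {p : ℕ} (θ θ' : Inter p) :
    supNorm (θ - θ') ≤ supNorm θ + supNorm θ' := by
  unfold supNorm
  refine ciSup_le fun s => ?_
  refine (abs_sub _ _).trans (add_le_add (lp_abs_le_supNorm θ s) (lp_abs_le_supNorm θ' s))

private theorem lp_measurable_supNorm {p : ℕ} : Measurable (supNorm : Inter p → ℝ) := by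
  unfold supNorm
  exact Measurable.iSup fun s => (measurable_pi_apply s).abs

private theorem lp_abs_spinVal (b : Bool) : |spinVal b| = 1 := by
  cases b <;> simp [spinVal]

/-- The Lipschitz bound for `log Z`. -/
private theorem lp_logPartition_le (N : ℕ) {p M : ℕ} (θs θs' : Fin M → Inter p)
    (idx : Fin M → Fin p → Fin N) (hs hs' : Fin N → ℝ) :
    logPartition N θs idx hs ≤ logPartition N θs' idx hs' +
      ((∑ k, supNorm (θs k - θs' k)) + ∑ i, |hs i - hs' i|) := by
  obtain ⟨D, hD⟩ : ∃ D, D = (∑ k, supNorm (θs k - θs' k)) + ∑ i, |hs i - hs' i| := ⟨_, rfl⟩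
  unfold logPartition
  rw [← hD]
  have hpos : 0 < ∑ σ : Fin N → Bool, Real.exp ((∑ k : Fin M, θs' k (fun ℓ => σ (idx k ℓ))) +
      ∑ i : Fin N, hs' i * spinVal (σ i)) :=
    Finset.sum_pos (fun σ _ => Real.exp_pos _) Finset.univ_nonempty
  have hpos' : 0 < ∑ σ : Fin N → Bool, Real.exp ((∑ k : Fin M, θs k (fun ℓ => σ (idx k ℓ))) +
      ∑ i : Fin N, hs i * spinVal (σ i)) :=
    Finset.sum_pos (fun σ _ => Real.exp_pos _) Finset.univ_nonempty
  have hle : ∑ σ : Fin N → Bool, Real.exp ((∑ k : Fin M, θs k (fun ℓ => σ (idx k ℓ))) +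
      ∑ i : Fin N, hs i * spinVal (σ i)) ≤
      Real.exp D * ∑ σ : Fin N → Bool, Real.exp ((∑ k : Fin M, θs' k (fun ℓ => σ (idx k ℓ))) +
      ∑ i : Fin N, hs' i * spinVal (σ i)) := by
    rw [Finset.mul_sum]
    refine Finset.sum_le_sum fun σ _ => ?_
    rw [← Real.exp_add]
    apply Real.exp_le_exp.2
    have h1 : ∑ k : Fin M, θs k (fun ℓ => σ (idx k ℓ)) ≤
        ∑ k : Fin M, θs' k (fun ℓ => σ (idx k ℓ)) + ∑ k, supNorm (θs k - θs' k) := by
      rw [← Finset.sum_add_distrib]
      refine Finset.sum_le_sum fun k _ => ?_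
      have := lp_abs_le_supNorm (θs k - θs' k) (fun ℓ => σ (idx k ℓ))
      have h2 := (abs_le.1 this).2
      simp only [Pi.sub_apply] at h2
      linarith
    have h2 : ∑ i : Fin N, hs i * spinVal (σ i) ≤
        ∑ i : Fin N, hs' i * spinVal (σ i) + ∑ i, |hs i - hs' i| := by
      rw [← Finset.sum_add_distrib]
      refine Finset.sum_le_sum fun i _ => ?_
      have h3 : (hs i - hs' i) * spinVal (σ i) ≤ |hs i - hs' i| := by
        refine (le_abs_self _).trans ?_
        rw [abs_mul, lp_abs_spinVal, mul_one]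
      nlinarith [h3]
    rw [hD]
    linarith
  calc Real.log _ ≤ Real.log (Real.exp D * ∑ σ : Fin N → Bool,
        Real.exp ((∑ k : Fin M, θs' k (fun ℓ => σ (idx k ℓ))) +
          ∑ i : Fin N, hs' i * spinVal (σ i))) := Real.log_le_log hpos' hle
    _ = _ := by
      rw [Real.log_mul (Real.exp_pos _).ne' hpos.ne', Real.log_exp]
      ring

private theorem lp_logPartition_sub (N : ℕ) {p M : ℕ} (θs θs' : Fin M → Inter p)
    (idx : Fin M → Fin p → Fin N) (hs hs' : Fin N → ℝ) :
    |logPartition N θs idx hs - logPartition N θs' idx hs'| ≤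
      (∑ k, supNorm (θs k - θs' k)) + ∑ i, |hs i - hs' i| := by
  have h1 := lp_logPartition_le N θs θs' idx hs hs'
  have h2 := lp_logPartition_le N θs' θs idx hs' hs
  have h3 : ∀ k, supNorm (θs' k - θs k) = supNorm (θs k - θs' k) := by
    intro k
    unfold supNorm
    refine iSup_congr fun s => ?_
    simp only [Pi.sub_apply]
    exact abs_sub_comm _ _
  have h4 : ∀ i, |hs' i - hs i| = |hs i - hs' i| := fun i => abs_sub_comm _ _
  simp_rw [h3, h4] at h2
  rw [abs_le]
  constructor <;> linarith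

private theorem lp_supNorm_zero {p : ℕ} : supNorm (0 : Inter p) = 0 := by
  unfold supNorm
  simp

private theorem lp_logPartition_abs (N : ℕ) {p M : ℕ} (θs : Fin M → Inter p)
    (idx : Fin M → Fin p → Fin N) (hs : Fin N → ℝ) :
    |logPartition N θs idx hs| ≤
      N * Real.log 2 + ((∑ k, supNorm (θs k)) + ∑ i, |hs i|) := by
  have h1 := lp_logPartition_sub N θs 0 idx hs 0
  have h2 : logPartition N (0 : Fin M → Inter p) idx 0 = N * Real.log 2 := by
    unfold logPartition
    simp
  rw [h2] at h1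
  simp only [Pi.zero_apply, sub_zero] at h1
  have h3 : (0 : ℝ) ≤ N * Real.log 2 := by positivity
  have h4 := abs_le.1 h1
  rw [abs_le]
  have h5 : 0 ≤ (∑ k, supNorm (θs k)) + ∑ i, |hs i| :=
    add_nonneg (Finset.sum_nonneg fun k _ => lp_supNorm_nonneg _)
      (Finset.sum_nonneg fun k _ => abs_nonneg _)
  constructor <;> linarith [h4.1, h4.2]

/-- The averaged `log Z`. -/
private noncomputable def lpG (N p M : ℕ) (y : (Fin M → Inter p) × (Fin N → ℝ)) : ℝ :=
  (Fintype.card (Fin M → Fin p → Fin N) : ℝ)⁻¹ *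
        ∑ idx : Fin M → Fin p → Fin N, logPartition N y.1 idx y.2

private theorem lp_avg_le {ι : Type} [Fintype ι] [Nonempty ι] (f : ι → ℝ) (B : ℝ)
    (hf : ∀ i, |f i| ≤ B) : |(Fintype.card ι : ℝ)⁻¹ * ∑ i, f i| ≤ B := by
  have hc : (0 : ℝ) < Fintype.card ι := by exact_mod_cast Fintype.card_pos
  rw [abs_mul, abs_of_nonneg (inv_nonneg.2 hc.le), inv_mul_le_iff₀ hc]
  calc |∑ i, f i| ≤ ∑ i, |f i| := Finset.abs_sum_le_sum_abs _ _
    _ ≤ ∑ _i : ι, B := Finset.sum_le_sum fun i _ => hf i
    _ = Fintype.card ι * B := by rw [Finset.sum_const, Finset.card_univ, nsmul_eq_mul]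

private theorem lpG_sub (N p M : ℕ) (hN : 1 ≤ N) (y y' : (Fin M → Inter p) × (Fin N → ℝ)) :
    |lpG N p M y - lpG N p M y'| ≤
      (∑ k, supNorm (y.1 k - y'.1 k)) + ∑ i, |y.2 i - y'.2 i| := by
  have : Nonempty (Fin N) := ⟨⟨0, hN⟩⟩
  unfold lpG
  rw [← mul_sub, ← Finset.sum_sub_distrib]
  exact lp_avg_le _ _ fun idx => lp_logPartition_sub N _ _ idx _ _

private theorem lpG_abs (N p M : ℕ) (hN : 1 ≤ N) (y : (Fin M → Inter p) × (Fin N → ℝ)) :
    |lpG N p M y| ≤ N * Real.log 2 + ((∑ k, supNorm (y.1 k)) + ∑ i, |y.2 i|) := by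
  have : Nonempty (Fin N) := ⟨⟨0, hN⟩⟩
  exact lp_avg_le _ _ fun idx => lp_logPartition_abs N _ idx _

private theorem lpG_measurable (N p M : ℕ) : Measurable (lpG N p M) := by
  unfold lpG logPartition
  refine Measurable.const_mul ?_ _
  refine Finset.measurable_fun_sum _ fun idx _ => ?_
  refine Measurable.log ?_
  refine Finset.measurable_fun_sum _ fun σ _ => ?_
  refine Measurable.exp ?_
  refine Measurable.add ?_ ?_
  · refine Finset.measurable_fun_sum _ fun k _ => ?_
    exact (measurable_pi_apply _).comp ((measurable_pi_apply k).comp measurable_fst)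
  · refine Finset.measurable_fun_sum _ fun i _ => ?_
    exact ((measurable_pi_apply i).comp measurable_snd).mul_const _

/-- weights -/
private theorem lp_poisson_hasSum (lam : ℝ) : HasSum (poissonWeight lam) 1 := by
  have h := (NormedSpace.expSeries_div_hasSum_exp lam).mul_left (Real.exp (-lam))
  rw [← Real.exp_eq_exp_ℝ, ← Real.exp_add, neg_add_cancel, Real.exp_zero] at h
  have h2 : poissonWeight lam = fun n => Real.exp (-lam) * (lam ^ n / (n.factorial : ℝ)) := by
    funext n
    unfold poissonWeight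
    ring
  rw [h2]
  exact h

private theorem lp_poisson_mean (lam : ℝ) : HasSum (fun n : ℕ => poissonWeight lam n * n) lam := by
  have h1 := (lp_poisson_hasSum lam).mul_left lam
  rw [mul_one] at h1
  have h2 : (fun n : ℕ => lam * poissonWeight lam n) =
      fun n : ℕ => poissonWeight lam (n + 1) * ((n + 1 : ℕ) : ℝ) := by
    funext n
    unfold poissonWeight
    rw [Nat.factorial_succ]
    have : ((n.factorial : ℕ) : ℝ) ≠ 0 := by exact_mod_cast (Nat.factorial_pos n).ne'
    push_cast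
    have h3 : ((n : ℝ) + 1) ≠ 0 := by positivity
    field_simp
    ring
  rw [h2] at h1
  rw [← hasSum_nat_add_iff' (f := fun n : ℕ => poissonWeight lam n * n) 1]
  simpa using h1

private theorem lp_poisson_nonneg {lam : ℝ} (h : 0 ≤ lam) (n : ℕ) : 0 ≤ poissonWeight lam n := by
  unfold poissonWeight; positivity

section
variable {Ω Ω' : Type} [MeasurableSpace Ω] [MeasurableSpace Ω'] (P : Measure Ω)
    [IsProbabilityMeasure P] (Q : Measure Ω') [IsProbabilityMeasure Q]

private theorem lp_int_bound (M N : ℕ) (a : Ω → ℝ) (b : Ω' → ℝ) (ia : Integrable a P)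
    (ib : Integrable b Q) :
    Integrable (fun y : (Fin M → Ω) × (Fin N → Ω') => (∑ k, a (y.1 k)) + ∑ i, b (y.2 i))
      ((Measure.pi fun _ : Fin M => P).prod (Measure.pi fun _ : Fin N => Q)) ∧
    ∫ y : (Fin M → Ω) × (Fin N → Ω'), ((∑ k, a (y.1 k)) + ∑ i, b (y.2 i))
      ∂((Measure.pi fun _ : Fin M => P).prod (Measure.pi fun _ : Fin N => Q)) =
      M * ∫ ω, a ω ∂P + N * ∫ ω, b ω ∂Q := by
  have h1 : ∀ k : Fin M, MeasurePreserving (fun y : (Fin M → Ω) × (Fin N → Ω') => y.1 k)
      ((Measure.pi fun _ : Fin M => P).prod (Measure.pi fun _ : Fin N => Q)) P := fun k =>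
    (measurePreserving_eval (fun _ : Fin M => P) k).comp measurePreserving_fst
  have h2 : ∀ k : Fin N, MeasurePreserving (fun y : (Fin M → Ω) × (Fin N → Ω') => y.2 k)
      ((Measure.pi fun _ : Fin M => P).prod (Measure.pi fun _ : Fin N => Q)) Q := fun k =>
    (measurePreserving_eval (fun _ : Fin N => Q) k).comp measurePreserving_snd
  have i1 : ∀ k : Fin M, Integrable (fun y : (Fin M → Ω) × (Fin N → Ω') => a (y.1 k))
      ((Measure.pi fun _ : Fin M => P).prod (Measure.pi fun _ : Fin N => Q)) := fun k =>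
    (h1 k).integrable_comp_of_integrable ia
  have i2 : ∀ k : Fin N, Integrable (fun y : (Fin M → Ω) × (Fin N → Ω') => b (y.2 k))
      ((Measure.pi fun _ : Fin M => P).prod (Measure.pi fun _ : Fin N => Q)) := fun k =>
    (h2 k).integrable_comp_of_integrable ib
  refine ⟨(integrable_finsetSum _ fun k _ => i1 k).add (integrable_finsetSum _ fun k _ => i2 k),
    ?_⟩
  rw [integral_add (integrable_finsetSum _ fun k _ => i1 k)
    (integrable_finsetSum _ fun k _ => i2 k), integral_finsetSum _ fun k _ => i1 k,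
    integral_finsetSum _ fun k _ => i2 k]
  have e1 : ∀ k : Fin M, ∫ y : (Fin M → Ω) × (Fin N → Ω'), a (y.1 k)
      ∂((Measure.pi fun _ : Fin M => P).prod (Measure.pi fun _ : Fin N => Q)) = ∫ ω, a ω ∂P := by
    intro k
    have h := integral_map (h1 k).measurable.aemeasurable (f := a)
      (by rw [(h1 k).map_eq]; exact ia.aestronglyMeasurable)
    rw [(h1 k).map_eq] at h
    exact h.symm
  have e2 : ∀ k : Fin N, ∫ y : (Fin M → Ω) × (Fin N → Ω'), b (y.2 k)
      ∂((Measure.pi fun _ : Fin M => P).prod (Measure.pi fun _ : Fin N => Q)) = ∫ ω, b ω ∂Q := by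
    intro k
    have h := integral_map (h2 k).measurable.aemeasurable (f := b)
      (by rw [(h2 k).map_eq]; exact ib.aestronglyMeasurable)
    rw [(h2 k).map_eq] at h
    exact h.symm
  simp [e1, e2]

private theorem lp_term (p M N : ℕ) (hN : 1 ≤ N) (θ : Ω → Inter p) (h : Ω' → ℝ)
    (hθ : Measurable θ) (hh : Measurable h) (iθ : Integrable (fun ω => supNorm (θ ω)) P)
    (ih : Integrable h Q) :
    Integrable (fun y : (Fin M → Ω) × (Fin N → Ω') =>
        lpG N p M ((fun k => θ (y.1 k)), fun i => h (y.2 i)))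
      ((Measure.pi fun _ : Fin M => P).prod (Measure.pi fun _ : Fin N => Q)) ∧
    ∫ θs, ∫ hs, ((Fintype.card (Fin M → Fin p → Fin N) : ℝ)⁻¹ *
        ∑ idx : Fin M → Fin p → Fin N, logPartition N θs idx hs)
      ∂(Measure.pi fun _ : Fin N => Q.map h) ∂(Measure.pi fun _ : Fin M => P.map θ) =
    ∫ y : (Fin M → Ω) × (Fin N → Ω'), lpG N p M ((fun k => θ (y.1 k)), fun i => h (y.2 i))
      ∂((Measure.pi fun _ : Fin M => P).prod (Measure.pi fun _ : Fin N => Q)) := by
  have : IsProbabilityMeasure (P.map θ) := Measure.isProbabilityMeasure_map hθ.aemeasurable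
  have : IsProbabilityMeasure (Q.map h) := Measure.isProbabilityMeasure_map hh.aemeasurable
  have mθ : Measurable (fun (ω : Fin M → Ω) (k : Fin M) => θ (ω k)) :=
    measurable_pi_iff.2 fun k => hθ.comp (measurable_pi_apply k)
  have mh : Measurable (fun (ω : Fin N → Ω') (k : Fin N) => h (ω k)) :=
    measurable_pi_iff.2 fun k => hh.comp (measurable_pi_apply k)
  have e1 : (Measure.pi fun _ : Fin M => P.map θ) =
      (Measure.pi fun _ : Fin M => P).map (fun ω k => θ (ω k)) :=
    (Measure.pi_map_pi (μ := fun _ : Fin M => P) (f := fun _ => θ)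
      fun _ => hθ.aemeasurable).symm
  have e2 : (Measure.pi fun _ : Fin N => Q.map h) =
      (Measure.pi fun _ : Fin N => Q).map (fun ω k => h (ω k)) :=
    (Measure.pi_map_pi (μ := fun _ : Fin N => Q) (f := fun _ => h)
      fun _ => hh.aemeasurable).symm
  have mcomp : Measurable (fun y : (Fin M → Ω) × (Fin N → Ω') =>
      lpG N p M ((fun k => θ (y.1 k)), fun i => h (y.2 i))) :=
    (lpG_measurable N p M).comp
      ((mθ.comp measurable_fst).prodMk (mh.comp measurable_snd))
  have hb := (lp_int_bound P Q M N (fun ω => supNorm (θ ω)) (fun ω => |h ω|) iθ ih.abs).1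
  have hint : Integrable (fun y : (Fin M → Ω) × (Fin N → Ω') =>
        lpG N p M ((fun k => θ (y.1 k)), fun i => h (y.2 i)))
      ((Measure.pi fun _ : Fin M => P).prod (Measure.pi fun _ : Fin N => Q)) := by
    refine Integrable.mono' ((integrable_const (N * Real.log 2)).add hb)
      mcomp.aestronglyMeasurable (ae_of_all _ fun y => ?_)
    rw [Real.norm_eq_abs]
    exact lpG_abs N p M hN _
  refine ⟨hint, ?_⟩
  rw [integral_prod _ hint]
  have e3 : ∀ θs : Fin M → Inter p, ∫ hs, ((Fintype.card (Fin M → Fin p → Fin N) : ℝ)⁻¹ *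
        ∑ idx : Fin M → Fin p → Fin N, logPartition N θs idx hs)
      ∂(Measure.pi fun _ : Fin N => Q.map h) =
      ∫ ω : Fin N → Ω', lpG N p M (θs, fun i => h (ω i)) ∂(Measure.pi fun _ : Fin N => Q) := by
    intro θs
    rw [e2, integral_map mh.aemeasurable]
    · rfl
    · exact ((lpG_measurable N p M).comp measurable_prodMk_left).aestronglyMeasurable
  simp_rw [e3]
  rw [e1, integral_map mθ.aemeasurable]
  have m4 : StronglyMeasurable (fun z : (Fin M → Inter p) × (Fin N → Ω') =>
      lpG N p M (z.1, fun i => h (z.2 i))) :=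
    ((lpG_measurable N p M).comp
      (measurable_fst.prodMk (mh.comp measurable_snd))).stronglyMeasurable
  exact (m4.integral_prod_right (ν := Measure.pi fun _ : Fin N => Q)).aestronglyMeasurable

end

theorem pressure_lip {Ω Ω' : Type} [MeasurableSpace Ω] [MeasurableSpace Ω'] (P : Measure Ω)
    [IsProbabilityMeasure P] (Q : Measure Ω') [IsProbabilityMeasure Q] (p : ℕ) (α : ℝ) (hα : 0 < α)
    (θ θ' : Ω → Inter p) (h h' : Ω' → ℝ) (hθ : Measurable θ) (hθ' : Measurable θ')
    (hh : Measurable h) (hh' : Measurable h')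
    (iθ : Integrable (fun ω => supNorm (θ ω)) P) (iθ' : Integrable (fun ω => supNorm (θ' ω)) P)
    (ih : Integrable h Q) (ih' : Integrable h' Q) (N : ℕ) (hN : 1 ≤ N) :
    |pressure p α (P.map θ) (Q.map h) N - pressure p α (P.map θ') (Q.map h') N| ≤
      α * ∫ ω, supNorm (θ ω - θ' ω) ∂P + ∫ ω, |h ω - h' ω| ∂Q := by
  obtain ⟨A, hA⟩ : ∃ A, A = ∫ ω, supNorm (θ ω - θ' ω) ∂P := ⟨_, rfl⟩
  obtain ⟨B, hB⟩ : ∃ B, B = ∫ ω, |h ω - h' ω| ∂Q := ⟨_, rfl⟩
  have idθ : Integrable (fun ω => supNorm (θ ω - θ' ω)) P := by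
    refine Integrable.mono' (iθ.add iθ')
      (lp_measurable_supNorm.comp (hθ.sub hθ')).aestronglyMeasurable (ae_of_all _ fun ω => ?_)
    rw [Real.norm_eq_abs, abs_of_nonneg (lp_supNorm_nonneg _)]
    exact lp_supNorm_sub_le _ _
  have idh : Integrable (fun ω => |h ω - h' ω|) Q := (ih.sub ih').abs
  have hA0 : 0 ≤ A := by rw [hA]; exact integral_nonneg fun ω => lp_supNorm_nonneg _
  have hB0 : 0 ≤ B := by rw [hB]; exact integral_nonneg fun ω => abs_nonneg _
  obtain ⟨T, hT⟩ : ∃ T : ℕ → ℝ, ∀ M, T M = ∫ y : (Fin M → Ω) × (Fin N → Ω'),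
      lpG N p M ((fun k => θ (y.1 k)), fun i => h (y.2 i))
      ∂((Measure.pi fun _ : Fin M => P).prod (Measure.pi fun _ : Fin N => Q)) :=
    ⟨_, fun _ => rfl⟩
  obtain ⟨T', hT'⟩ : ∃ T' : ℕ → ℝ, ∀ M, T' M = ∫ y : (Fin M → Ω) × (Fin N → Ω'),
      lpG N p M ((fun k => θ' (y.1 k)), fun i => h' (y.2 i))
      ∂((Measure.pi fun _ : Fin M => P).prod (Measure.pi fun _ : Fin N => Q)) :=
    ⟨_, fun _ => rfl⟩
  have hp : pressure p α (P.map θ) (Q.map h) N =
      (1 / (N : ℝ)) * ∑' M : ℕ, poissonWeight (α * N) M * T M := by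
    unfold pressure
    congr 1
    refine tsum_congr fun M => ?_
    rw [hT, (lp_term P Q p M N hN θ h hθ hh iθ ih).2]
  have hp' : pressure p α (P.map θ') (Q.map h') N =
      (1 / (N : ℝ)) * ∑' M : ℕ, poissonWeight (α * N) M * T' M := by
    unfold pressure
    congr 1
    refine tsum_congr fun M => ?_
    rw [hT', (lp_term P Q p M N hN θ' h' hθ' hh' iθ' ih').2]
  have hNpos : (0 : ℝ) < N := by exact_mod_cast hN
  have hlam : 0 ≤ α * N := by positivity
  -- difference of the terms
  have hdiff : ∀ M, |T M - T' M| ≤ M * A + N * B := by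
    intro M
    have i1 := (lp_term P Q p M N hN θ h hθ hh iθ ih).1
    have i2 := (lp_term P Q p M N hN θ' h' hθ' hh' iθ' ih').1
    have hb := lp_int_bound P Q M N (fun ω => supNorm (θ ω - θ' ω)) (fun ω => |h ω - h' ω|) idθ idh
    rw [hT, hT', ← integral_sub i1 i2, hA, hB, ← hb.2, ← Real.norm_eq_abs]
    refine (norm_integral_le_integral_norm _).trans ?_
    refine integral_mono (i1.sub i2).norm hb.1 fun y => ?_
    rw [Real.norm_eq_abs]
    exact lpG_sub N p M hN _ _
  have habs : ∀ (M : ℕ) (θ : Ω → Inter p) (h : Ω' → ℝ) (hθ : Measurable θ) (hh : Measurable h)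
      (iθ : Integrable (fun ω => supNorm (θ ω)) P) (ih : Integrable h Q),
      |∫ y : (Fin M → Ω) × (Fin N → Ω'),
      lpG N p M ((fun k => θ (y.1 k)), fun i => h (y.2 i))
      ∂((Measure.pi fun _ : Fin M => P).prod (Measure.pi fun _ : Fin N => Q))| ≤
      N * Real.log 2 + (M * (∫ ω, supNorm (θ ω) ∂P) + N * ∫ ω, |h ω| ∂Q) := by
    intro M θ h hθ hh iθ ih
    have i1 := (lp_term P Q p M N hN θ h hθ hh iθ ih).1
    have hb := lp_int_bound P Q M N (fun ω => supNorm (θ ω)) (fun ω => |h ω|) iθ ih.abs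
    rw [← hb.2]
    have hc : ∫ y : (Fin M → Ω) × (Fin N → Ω'), (N * Real.log 2 + ((∑ k, supNorm (θ (y.1 k))) +
        ∑ i, |h (y.2 i)|)) ∂((Measure.pi fun _ : Fin M => P).prod (Measure.pi fun _ : Fin N => Q)) =
        N * Real.log 2 + ∫ y : (Fin M → Ω) × (Fin N → Ω'), ((∑ k, supNorm (θ (y.1 k))) +
        ∑ i, |h (y.2 i)|) ∂((Measure.pi fun _ : Fin M => P).prod
          (Measure.pi fun _ : Fin N => Q)) := by
      rw [integral_add (integrable_const _) hb.1]
      simp
    rw [← hc, ← Real.norm_eq_abs]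
    refine (norm_integral_le_integral_norm _).trans ?_
    refine integral_mono i1.norm ((integrable_const _).add hb.1) fun y => ?_
    rw [Real.norm_eq_abs]
    exact lpG_abs N p M hN _
  have w0 := lp_poisson_hasSum (α * N)
  have w1 := lp_poisson_mean (α * N)
  have hsum : ∀ (S : ℕ → ℝ) (c d : ℝ), (∀ M, |S M| ≤ c + M * d) →
      Summable (fun M : ℕ => poissonWeight (α * N) M * S M) := by
    intro S c d hS
    refine Summable.of_norm_bounded (g := fun M : ℕ => poissonWeight (α * N) M * c +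
      poissonWeight (α * N) M * M * d) ((w0.summable.mul_right c).add (w1.summable.mul_right d))
      fun M => ?_
    rw [Real.norm_eq_abs, abs_mul, abs_of_nonneg (lp_poisson_nonneg hlam M)]
    have := mul_le_mul_of_nonneg_left (hS M) (lp_poisson_nonneg hlam M)
    linarith
  have s1 : Summable (fun M : ℕ => poissonWeight (α * N) M * T M) := by
    refine hsum T (N * Real.log 2 + N * ∫ ω, |h ω| ∂Q) (∫ ω, supNorm (θ ω) ∂P) fun M => ?_
    rw [hT]
    have := habs M θ h hθ hh iθ ih
    linarith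
  have s2 : Summable (fun M : ℕ => poissonWeight (α * N) M * T' M) := by
    refine hsum T' (N * Real.log 2 + N * ∫ ω, |h' ω| ∂Q) (∫ ω, supNorm (θ' ω) ∂P) fun M => ?_
    rw [hT']
    have := habs M θ' h' hθ' hh' iθ' ih'
    linarith
  rw [hp, hp', ← hA, ← hB, ← mul_sub, ← s1.tsum_sub s2, abs_mul, abs_of_nonneg (by positivity)]
  have hbd : HasSum (fun M : ℕ => poissonWeight (α * N) M * M * A + poissonWeight (α * N) M * (N * B))
      (α * N * A + 1 * (N * B)) := (w1.mul_right A).add (w0.mul_right (N * B))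
  have hle : |∑' M : ℕ, (poissonWeight (α * N) M * T M - poissonWeight (α * N) M * T' M)| ≤
      α * N * A + 1 * (N * B) := by
    rw [← Real.norm_eq_abs]
    refine tsum_of_norm_bounded hbd fun M => ?_
    rw [Real.norm_eq_abs, ← mul_sub, abs_mul, abs_of_nonneg (lp_poisson_nonneg hlam M)]
    have := mul_le_mul_of_nonneg_left (hdiff M) (lp_poisson_nonneg hlam M)
    linarith
  calc 1 / (N : ℝ) * |∑' M : ℕ, (poissonWeight (α * N) M * T M - poissonWeight (α * N) M * T' M)|
      ≤ 1 / (N : ℝ) * (α * N * A + 1 * (N * B)) :=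
        mul_le_mul_of_nonneg_left hle (by positivity)
    _ = α * A + B := by field_simp


end Crest.Agent.MP
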