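import Mathlib
import Crest.Prelude.Def_DilutedSpinGlass

/-!
# Rows 141 and 153: shared definitions (Mezard-Parisi formula)

Paper proof: `ideas`, row 141 (three parts, helper44).  Paragraph numbers below refer to it.
-/

set_option autoImplicit false

namespace Crest.Agent.MP

open MeasureTheory Filter Topology
open Crest.ProbabilityR.Diluted

/-! ### Finite laws -/

/-- A finitely supported probability law on `E`. -/
structure FinLaw (E : Type) where
  ι : Type
  fin : Fintype ι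
  w : ι → ℝ
  x : ι → E
  w_nonneg : ∀ i, 0 ≤ w i
  w_sum : ∑ i, w i = 1

attribute [instance] FinLaw.fin

/-- The measure of a finite law. -/
noncomputable def FinLaw.toMeasure {E : Type} [MeasurableSpace E] (μ : FinLaw E) : Measure E :=
  ∑ i, ENNReal.ofReal (μ.w i) • Measure.dirac (μ.x i)

/-- Expectation under a finite law. -/
noncomputable def FinLaw.E {E : Type} (μ : FinLaw E) (f : E → ℝ) : ℝ := ∑ i, μ.w i * f (μ.x i)

/-- Expectation over `k` independent draws of a finite law. -/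
noncomputable def FinLaw.Epow {E : Type} (μ : FinLaw E) (k : ℕ) (f : (Fin k → E) → ℝ) : ℝ :=
  ∑ j : Fin k → μ.ι, (∏ a, μ.w (j a)) * f (fun a => μ.x (j a))

/-! ### The limit functional (§9)

`E n` is an expectation operator, `D n ω` the (random) joint law of the spins of `n` replicas at a
random site.  `mom E D n L f = E[ Σ_c Π_ℓ D_n(c_ℓ) f(c) ]`. -/

noncomputable def mom {Ω : Type} (E : ℕ → (Ω → ℝ) → ℝ) (D : (n : ℕ) → Ω → (Fin n → Bool) → ℝ)
    (n : ℕ) (L : Type) [Fintype L] [DecidableEq L] (f : (L → Fin n → Bool) → ℝ) : ℝ :=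
  E n (fun ω => ∑ c : L → Fin n → Bool, (∏ ℓ, D n ω (c ℓ)) * f c)

/-- `L_ψ = - Σ_{n ≥ 1} (1/n) E <(1-ψ)^{⊗ n}>`, "`E log <ψ>`", for `0 < κ ≤ ψ ≤ 1`. -/
noncomputable def Lfun {Ω : Type} (E : ℕ → (Ω → ℝ) → ℝ) (D : (n : ℕ) → Ω → (Fin n → Bool) → ℝ)
    (L : Type) [Fintype L] [DecidableEq L] (ψ : (L → Bool) → ℝ) : ℝ :=
  - ∑' n : ℕ, (1 / ((n : ℝ) + 1)) *
      mom E D (n + 1) L (fun c => ∏ l : Fin (n + 1), (1 - ψ (fun ℓ => c ℓ l)))

/-- Normalising constant of the site term. -/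
noncomputable def siteC {p k : ℕ} (h : ℝ) (θs : Fin k → Inter p) : ℝ := |h| + ∑ j, supNorm (θs j)

/-- Site weight: `(1/2) Σ_ε exp (h ε + Σ_j θ_j (c_j, ε) - siteC)`, with values in `(0, 1]`. -/
noncomputable def siteψ {p k : ℕ} (h : ℝ) (θs : Fin k → Inter p) (c : Fin k × Fin (p - 1) → Bool) :
    ℝ :=
  (1 / 2) * ∑ ε : Bool, Real.exp (h * spinVal ε +
    (∑ j : Fin k, θs j (fun ℓ => if hℓ : ℓ.val < p - 1 then c (j, ⟨ℓ.val, hℓ⟩) else ε)) -
    siteC h θs)

/-- Edge weight `exp (θ - ‖θ‖)`. -/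
noncomputable def edgeψ {p : ℕ} (θ : Inter p) (c : Fin p → Bool) : ℝ :=
  Real.exp (θ c - supNorm θ)

/-- The limit functional `𝒜` (§9). -/
noncomputable def Afun {Ω : Type} (p : ℕ) (α : ℝ) (μ : FinLaw (Inter p)) (ν : FinLaw ℝ)
    (E : ℕ → (Ω → ℝ) → ℝ) (D : (n : ℕ) → Ω → (Fin n → Bool) → ℝ) : ℝ :=
  Real.log 2 +
    (∑' k : ℕ, poissonWeight (α * p) k *
      μ.Epow k (fun θs => ν.E (fun h =>
        siteC h θs + Lfun E D (Fin k × Fin (p - 1)) (siteψ h θs)))) -
    α * (p - 1 : ℝ) * μ.E (fun θ => supNorm θ + Lfun E D (Fin p) (edgeψ θ))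

/-! ### Species and arrays (§0) -/

/-- A species of soft factors: a positive rational weight on `k` spins. -/
structure Species where
  k : ℕ
  W : (Fin k → Bool) → ℚ
  pos : ∀ c, 0 < W c

/-- Configuration space of a species. -/
abbrev Species.Cfg (s : Species) : Type := Fin s.k → Bool

/-- Plain sites. -/
def Species.plain : Species := ⟨1, fun _ => 1, fun _ => one_pos⟩

/-- Product species. -/
def Species.mul (s s' : Species) : Species :=
  ⟨s.k + s'.k, fun c => s.W (fun i => c (Fin.castAdd _ i)) * s'.W (fun i => c (Fin.natAdd _ i)),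
    fun _ => mul_pos (s.pos _) (s'.pos _)⟩

/-- Species with weight multiplied by `1 + ρ χ`. -/
def Species.tilt (s : Species) (χ : s.Cfg → ℚ) (ρ : ℚ) (h : ∀ c, 0 < 1 + ρ * χ c) : Species :=
  ⟨s.k, fun c => s.W c * (1 + ρ * χ c), fun c => mul_pos (s.pos c) (h c)⟩

/-- Index of the observables: species, number of replicas, replica labels, configurations. -/
abbrev OIdx : Type := Σ (s : Species) (n : ℕ), (Fin n → ℕ) × (Fin n → Fin s.k → Bool)

/-- The space of all observables `D_s(ls)(c) ∈ [0,1]` (compact metrizable). -/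
abbrev Obs : Type := OIdx → unitInterval

/-- `D_s(ls)(c)`: probability that, at a random index of species `s`, the replicas `ls` have
configurations `c`. -/
noncomputable def Dl (s : Species) {n : ℕ} (ls : Fin n → ℕ) (x : Obs) (c : Fin n → s.Cfg) : ℝ :=
  (x ⟨s, n, ls, c⟩ : ℝ)

/-- `D_s(ls)(θ) = Σ_c D_s(ls)(c) θ(c)`. -/
noncomputable def Dθ (s : Species) {n : ℕ} (ls : Fin n → ℕ) (θ : (Fin n → s.Cfg) → ℝ) (x : Obs) : ℝ :=
  ∑ c : Fin n → s.Cfg, Dl s ls x c * θ c

/-- The replicas `0, …, r-1`. -/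
def rg (r : ℕ) : Fin r → ℕ := fun j => (j : ℕ)

/-- The replicas `0, …, r-1, l`. -/
def rgl (r l : ℕ) : Fin (r + 1) → ℕ := fun j => if (j : ℕ) < r then (j : ℕ) else l

/-- `θ ⊗ χ`: `θ` on the first `r` coordinates, `χ` on the last one. -/
def tens {r : ℕ} {C : Type} (θ : (Fin r → C) → ℝ) (χ : C → ℝ) (c : Fin (r + 1) → C) : ℝ :=
  θ (fun j => c j.castSucc) * χ (c (Fin.last r))

/-- Swap two replicas. -/
def swapRep (a b : ℕ) (x : Obs) : Obs :=
  fun i => x ⟨i.1, i.2.1, (fun j => Equiv.swap a b (i.2.2.1 j)), i.2.2.2⟩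

/-- The σ-algebra generated by all observables of the replicas `< m`. -/
noncomputable def Gσ (m : ℕ) : MeasurableSpace Obs :=
  ⨆ i : {i : OIdx // ∀ j, i.2.2.1 j < m},
    MeasurableSpace.comap (fun x : Obs => x i.1) inferInstance

/-- The limit model (§0), as a law of the observables. -/
structure LimitModel (P : Measure Obs) : Prop where
  prob : IsProbabilityMeasure P
  /-- (R1) exchangeability of the replicas -/
  exch : ∀ a b, MeasurePreserving (swapRep a b) P P
  simplex : ∀ᵐ x ∂P, ∀ (s : Species) (n : ℕ) (ls : Fin n → ℕ), ∑ c : Fin n → s.Cfg, Dl s ls x c = 1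
  /-- relabelling / restriction: the law of the replicas `ls ∘ g` is the image of that of `ls` -/
  map : ∀ᵐ x ∂P, ∀ (s : Species) (n m : ℕ) (ls : Fin m → ℕ) (g : Fin n → Fin m)
      (θ : (Fin n → s.Cfg) → ℝ),
      Dθ s (ls ∘ g) θ x = Dθ s ls (fun c => θ (c ∘ g)) x
  /-- (R3) -/
  tilt : ∀ m : ℕ, ∃ C : ℝ, ∀ (s : Species) (χ : s.Cfg → ℚ) (ρ : ℚ) (h : ∀ c, 0 < 1 + ρ * χ c),
    0 < ρ → ρ ≤ 1 / 2 → (∀ c, |χ c| ≤ 1) →
    ∀ (r : ℕ), r ≤ m → ∀ (θ : (Fin r → s.Cfg) → ℝ), (∀ c, |θ c| ≤ 1) →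
    ∀ Φ : Obs → ℝ, Measurable[Gσ m] Φ → (∀ x, |Φ x| ≤ 1) →
      |(∫ x, Φ x * Dθ (s.tilt χ ρ h) (rg r) θ x ∂P) - (∫ x, Φ x * Dθ s (rg r) θ x ∂P)
        - ρ * ((∑ l : Fin r, ∫ x, Φ x * Dθ s (rg r) (fun c => θ c * (χ (c l) : ℝ)) x ∂P)
            + (∑ l ∈ Finset.Ico r m, ∫ x, Φ x * Dθ s (rgl r l) (tens θ (fun c => (χ c : ℝ))) x ∂P)
            - m * ∫ x, Φ x * Dθ s (rgl r m) (tens θ (fun c => (χ c : ℝ))) x ∂P)| ≤ C * ρ ^ 2
  /-- (R4) -/
  conc : ∀ (s : Species) (c : Fin 1 → s.Cfg), ∃ k : ℝ, ∀ᵐ x ∂P, Dl s (rg 1) x c = k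
  /-- (R5) -/
  mul : ∀ᵐ x ∂P, ∀ (s s' : Species) (n : ℕ) (ls : Fin n → ℕ) (c : Fin n → (s.mul s').Cfg),
      Dl (s.mul s') ls x c =
        Dl s ls x (fun j i => c j (Fin.castAdd _ i)) * Dl s' ls x (fun j i => c j (Fin.natAdd _ i))

/-- Joint law of the spins of the replicas `ls` at a random plain site. -/
noncomputable def Dplain {n : ℕ} (ls : Fin n → ℕ) (x : Obs) (c : Fin n → Bool) : ℝ :=
  Dl Species.plain ls x (fun j _ => c j)

/-- `D_n` for the replicas `0, …, n-1`. -/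
noncomputable def Dn (n : ℕ) (x : Obs) (c : Fin n → Bool) : ℝ := Dplain (rg n) x c

/-- The limit functional of a limit model. -/
noncomputable def AP (p : ℕ) (α : ℝ) (μ : FinLaw (Inter p)) (ν : FinLaw ℝ) (P : Measure Obs) : ℝ :=
  Afun p α μ ν (fun _ f => ∫ x, f x ∂P) Dn

instance : Countable Species := by
  have h : Function.Injective (fun s : Species => (⟨s.k, s.W⟩ : Σ k : ℕ, (Fin k → Bool) → ℚ)) := by
    rintro ⟨k, W, hp⟩ ⟨k', W', hp'⟩ h
    simp only [Sigma.mk.injEq] at h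
    obtain ⟨rfl, h⟩ := h
    simp only [heq_eq_eq] at h
    subst h
    rfl
  exact h.countable

noncomputable instance : Encodable Species := Encodable.ofCountable _

/-- Positive summable weights of the species. -/
noncomputable def wt (s : Species) : ℝ := (1 / 2 : ℝ) ^ (Encodable.encode s + 1)

/-- Limiting agreement: fraction of indices of species `s` on which replicas `l, l'` agree
(capped by `1`, which changes it only on a null set). -/
noncomputable def agrL (s : Species) (l l' : ℕ) (x : Obs) : ℝ :=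
  min 1 (∑ c : s.Cfg, Dl s ![l, l'] x (fun _ => c))

/-- The scalar overlap `R_{l l'}` (§0). -/
noncomputable def Rov (x : Obs) (l l' : ℕ) : ℝ := ∑' s : Species, wt s * agrL s l l' x

/-! ### Genealogies (§6)

A genealogy of the replicas `0, …, n-1` is a function `att : ℕ → ℕ × ℕ` (only `att 1, …, att (n-1)`
matter, `att 0 = (0,0)`): replica `l` attaches at the node `att l = (a, j)`, i.e. it shares the levels `≤ j` with
replica `a` and has new nodes at the levels `> j`; `a` is the owner (smallest replica) of that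
node. -/

/-- The nodes of a genealogy of `n` replicas with `r` levels. -/
def nodes (r n : ℕ) (att : ℕ → ℕ × ℕ) : Finset (ℕ × ℕ) :=
  (Finset.range n ×ˢ Finset.range (r + 1)).filter (fun v => v.1 = 0 ∨ (att v.1).2 < v.2)

/-- Owner of the level-`j` node of replica `l`. -/
def owner (att : ℕ → ℕ × ℕ) (l j : ℕ) : ℕ :=
  if h : (att l).1 < l ∧ j ≤ (att l).2 then owner att (att l).1 j else l
termination_by l
decreasing_by exact h.1

/-- Attach replica `n` next to replica `a` with `J = max j (att a).2` common levels (canonical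
form: the owner of that node is recorded). -/
def attach (att : ℕ → ℕ × ℕ) (n a j : ℕ) : ℕ → ℕ × ℕ :=
  Function.update att n (owner att a (max j (att a).2), max j (att a).2)

/-- Expectation over the genealogy of `n` replicas: replica `n ≥ 1` chooses `a < n` uniformly and
`j ∈ {0..r}` with probability `x (j+1) - x j`. -/
noncomputable def genE (x : ℕ → ℝ) (r : ℕ) : ℕ → ((ℕ → ℕ × ℕ) → ℝ) → ℝ
  | 0, f => f (fun _ => (0, 0))
  | 1, f => f (fun _ => (0, 0))
  | n + 2, f => genE x r (n + 1) (fun att =>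
      (∑ a ∈ Finset.range (n + 1), ∑ j ∈ Finset.range (r + 1),
        (x (j + 1) - x j) * f (attach att (n + 1) a j)) / ((n : ℝ) + 1))

/-- Exponents as a function on `ℕ`: `0, m_1, …, m_r, 1, 1, …`. -/
noncomputable def lev {r : ℕ} (m : Fin r → ℝ) (j : ℕ) : ℝ :=
  if j = 0 then 0 else if h : j - 1 < r then m ⟨j - 1, h⟩ else 1

/-! ### Finite trials (§10) -/

/-- A trial depending on the uniforms through `⌊K u⌋`. -/
structure FinTrial where
  r : ℕ
  K : ℕ
  hK : 0 < K
  m : Fin r → ℝ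
  adm : AdmissibleExponents m
  X : (Fin (r + 1) → Fin K) → ℝ

/-- `⌊K u⌋` (capped). -/
noncomputable def cell (K : ℕ) (hK : 0 < K) (u : unitInterval) : Fin K :=
  ⟨min ⌊(K : ℝ) * (u : ℝ)⌋₊ (K - 1), by omega⟩

/-- The trial as a function of the uniforms. -/
noncomputable def FinTrial.Xu (t : FinTrial) (u : Fin (t.r + 1) → unitInterval) : ℝ :=
  t.X (fun j => cell t.K t.hK (u j))

/-- Joint law of the spins of `n` replicas with genealogy `att` at a random label of the trial. -/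
noncomputable def FinTrial.D (t : FinTrial) (n : ℕ) (att : ℕ → ℕ × ℕ) (c : Fin n → Bool) : ℝ :=
  (∑ U : Fin n → Fin (t.r + 1) → Fin t.K,
    ∏ l : Fin n, tilt (t.X (fun j =>
      U ⟨min (owner att l j) l, by omega⟩ j)) (c l)) /
    (t.K : ℝ) ^ (n * (t.r + 1))

/-- The limit functional of a trial. -/
noncomputable def FinTrial.A (t : FinTrial) (p : ℕ) (α : ℝ) (μ : FinLaw (Inter p)) (ν : FinLaw ℝ) :
    ℝ :=
  Afun p α μ ν (genE (lev t.m) t.r) t.D

end Crest.Agent.MP
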