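import Crest.Agent.MP.Defs

/-!
# Module F4 (ASS), part a: finite laws, Cesàro lemma, log-partition functions
-/

set_option autoImplicit false

namespace Crest.Agent.MP.FA
open MeasureTheory Filter Topology
open Crest.ProbabilityR.Diluted

namespace FASS

/-- The product of a finite law is the finite sum of Dirac masses. -/
theorem pi_finLaw {E : Type} [MeasurableSpace E] (μ : FinLaw E) (k : ℕ) :
    (Measure.pi fun _ : Fin k => μ.toMeasure) =
      ∑ j : Fin k → μ.ι, ENNReal.ofReal (∏ a, μ.w (j a)) • Measure.dirac (fun a => μ.x (j a)) := by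
  classical
  haveI : IsFiniteMeasure μ.toMeasure := by
    constructor
    simp only [FinLaw.toMeasure, Measure.coe_finset_sum, Finset.sum_apply, Measure.smul_apply,
      measure_univ, smul_eq_mul, mul_one]
    exact ENNReal.sum_lt_top.2 fun i _ => ENNReal.ofReal_lt_top
  refine Measure.pi_eq fun s hs => ?_
  simp only [FinLaw.toMeasure, Measure.coe_finset_sum, Finset.sum_apply, Measure.smul_apply,
    smul_eq_mul]
  rw [Finset.prod_univ_sum, Fintype.piFinset_univ]
  refine Finset.sum_congr rfl fun j _ => ?_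
  rw [Measure.dirac_apply' _ (MeasurableSet.univ_pi hs), ENNReal.ofReal_prod_of_nonneg
    (fun i _ => μ.w_nonneg _), Finset.prod_mul_distrib]
  congr 1
  simp only [Measure.dirac_apply' _ (hs _)]
  by_cases h : (fun a => μ.x (j a)) ∈ Set.univ.pi s
  · rw [Set.indicator_of_mem h]
    symm
    refine Finset.prod_eq_one fun i _ => ?_
    rw [Set.indicator_of_mem (h i (Set.mem_univ i))]
    rfl
  · rw [Set.indicator_of_notMem h]
    symm
    rw [Set.mem_univ_pi] at h
    push_neg at h
    obtain ⟨i, hi⟩ := h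
    exact Finset.prod_eq_zero (Finset.mem_univ i) (Set.indicator_of_notMem hi _)

theorem integral_sum_smul_dirac {α ι : Type} [MeasurableSpace α] [MeasurableSingletonClass α]
    [Fintype ι] (w : ι → ℝ) (hw : ∀ i, 0 ≤ w i) (x : ι → α) (f : α → ℝ) :
    ∫ a, f a ∂(∑ i, ENNReal.ofReal (w i) • Measure.dirac (x i)) = ∑ i, w i * f (x i) := by
  classical
  have hint : ∀ i ∈ (Finset.univ : Finset ι),
      Integrable f (ENNReal.ofReal (w i) • Measure.dirac (x i)) := by
    intro i _
    exact (integrable_dirac (by simp)).smul_measure ENNReal.ofReal_ne_top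
  rw [integral_finset_sum_measure hint]
  refine Finset.sum_congr rfl fun i _ => ?_
  rw [integral_smul_measure, integral_dirac, ENNReal.toReal_ofReal (hw i), smul_eq_mul]

theorem integral_pi_finLaw {E : Type} [MeasurableSpace E] [MeasurableSingletonClass E]
    (μ : FinLaw E) (k : ℕ) (f : (Fin k → E) → ℝ) :
    ∫ x, f x ∂(Measure.pi fun _ : Fin k => μ.toMeasure) = μ.Epow k f := by
  rw [pi_finLaw, integral_sum_smul_dirac _ (fun j => Finset.prod_nonneg fun a _ => μ.w_nonneg _)]
  rfl

theorem integral_finLaw {E : Type} [MeasurableSpace E] [MeasurableSingletonClass E]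
    (μ : FinLaw E) (f : E → ℝ) : ∫ x, f x ∂μ.toMeasure = μ.E f :=
  integral_sum_smul_dirac _ μ.w_nonneg _ _

/-- Stolz–Cesàro, in the form needed. -/
theorem stolz (b : ℕ → ℝ) (L : ℝ) (h : ∃ᶠ n in atTop, b n ≤ n * L) {η : ℝ} (hη : 0 < η) :
    ∃ᶠ n in atTop, b (n + 1) - b n ≤ L + η := by
  by_contra hcon
  rw [not_frequently] at hcon
  obtain ⟨n0, hn0⟩ := eventually_atTop.1 hcon
  have key : ∀ m, b n0 + m * (L + η) ≤ b (n0 + m) := by
    intro m
    induction m with
    | zero => simp
    | succ m ih =>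
      have := hn0 (n0 + m) (by omega)
      rw [not_le] at this
      push_cast
      have e : n0 + (m + 1) = n0 + m + 1 := by ring
      rw [e]
      linarith
  obtain ⟨K, hK⟩ := exists_nat_gt ((n0 * L - b n0) / η)
  obtain ⟨n, hn, hbn⟩ := (frequently_atTop.1 h) (n0 + K + 1)
  have h1 := key (n - n0)
  have e : n0 + (n - n0) = n := by omega
  rw [e] at h1
  have h2 : ((n - n0 : ℕ) : ℝ) = n - n0 := by
    rw [Nat.cast_sub (by omega)]
  rw [h2] at h1
  have h3 : ((n0 : ℝ) + K + 1) ≤ n := by exact_mod_cast hn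
  rw [div_lt_iff₀ hη] at hK
  nlinarith

end FASS

end Crest.Agent.MP.FA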