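import Crest.Agent.MP.FAsDefs

/-!
# Module F4: elementary bounds
-/

set_option autoImplicit false

namespace Crest.Agent.MP.FA
open MeasureTheory ProbabilityTheory Filter Topology
open Crest.ProbabilityR.Diluted
open scoped NNReal

/-- The site part of `AAf`. -/
noncomputable def siteF (p : ℕ) (α : ℝ) (μ : FinLaw (Inter p)) (ν : FinLaw ℝ) (J : Finset Species)
    (ε : ℝ≥0) (δ : ℝ) (u : UPar) {n : ℕ} (G0 : Cf n → ℝ) : ℝ :=
  ∑' k : ℕ, poissonWeight (α * p) k * μ.Epow k (fun θs => ν.E (fun h =>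
    siteC h θs + LE J ε δ u G0 (Fin k × Fin (p - 1)) (siteψ h θs)))

lemma abs_le_supNorm_bd {p : ℕ} (θ : Inter p) (c : Fin p → Bool) : |θ c| ≤ supNorm θ := by
  unfold supNorm
  exact le_ciSup (f := fun s : Fin p → Bool => |θ s|) (Set.finite_range _).bddAbove c

/-- `κ ≤ ψ ≤ 1` implies `log κ ≤ log <ψ> ≤ 0`. -/
theorem log_gav1_bounds {n : ℕ} (H : Cf n → ℝ) (f : Cf n → ℝ) {κ : ℝ} (hκ : 0 < κ)
    (h1 : ∀ σ, κ ≤ f σ) (h2 : ∀ σ, f σ ≤ 1) :
    Real.log κ ≤ Real.log (gav1 H f) ∧ Real.log (gav1 H f) ≤ 0 := by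
  have hs := sum_gibbs' H
  have l1 : κ ≤ gav1 H f := by
    unfold gav1
    calc κ = ∑ σ, gibbs H σ * κ := by rw [← Finset.sum_mul, hs, one_mul]
      _ ≤ ∑ σ, gibbs H σ * f σ :=
        Finset.sum_le_sum fun σ _ => mul_le_mul_of_nonneg_left (h1 σ) (gibbs_nonneg' H σ)
  have l2 : gav1 H f ≤ 1 := by
    unfold gav1
    calc ∑ σ, gibbs H σ * f σ ≤ ∑ σ, gibbs H σ * 1 :=
        Finset.sum_le_sum fun σ _ => mul_le_mul_of_nonneg_left (h2 σ) (gibbs_nonneg' H σ)
      _ = 1 := by rw [← Finset.sum_mul, hs, one_mul]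
  exact ⟨Real.log_le_log hκ l1, Real.log_nonpos (hκ.le.trans l1) l2⟩

theorem siteψ_bounds {p k : ℕ} (h : ℝ) (θs : Fin k → Inter p) (c : Fin k × Fin (p - 1) → Bool) :
    Real.exp (-(2 * siteC h θs)) ≤ siteψ h θs c ∧ siteψ h θs c ≤ 1 := by
  have key : ∀ ε : Bool,
      |h * spinVal ε + ∑ j : Fin k, θs j (fun ℓ => if hℓ : ℓ.val < p - 1 then c (j, ⟨ℓ.val, hℓ⟩) else ε)|
        ≤ siteC h θs := by
    intro ε
    unfold siteC
    refine (abs_add_le _ _).trans (add_le_add ?_ ?_)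
    · rw [abs_mul]
      have : |spinVal ε| = 1 := by
        unfold spinVal
        split_ifs <;> simp
      rw [this, mul_one]
    · refine (Finset.abs_sum_le_sum_abs _ _).trans (Finset.sum_le_sum fun j _ => ?_)
      exact abs_le_supNorm_bd _ _
  unfold siteψ
  have kt := key true
  have kf := key false
  rw [abs_le] at kt kf
  rw [Fintype.sum_bool]
  constructor
  · have e1 := Real.exp_le_exp.2 (show -(2 * siteC h θs) ≤ h * spinVal true +
        (∑ j : Fin k, θs j (fun ℓ => if hℓ : ℓ.val < p - 1 then c (j, ⟨ℓ.val, hℓ⟩) else true)) -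
          siteC h θs by linarith)
    have e2 := Real.exp_le_exp.2 (show -(2 * siteC h θs) ≤ h * spinVal false +
        (∑ j : Fin k, θs j (fun ℓ => if hℓ : ℓ.val < p - 1 then c (j, ⟨ℓ.val, hℓ⟩) else false)) -
          siteC h θs by linarith)
    linarith
  · have e1 := Real.exp_le_one_iff.2 (show h * spinVal true +
        (∑ j : Fin k, θs j (fun ℓ => if hℓ : ℓ.val < p - 1 then c (j, ⟨ℓ.val, hℓ⟩) else true)) -
          siteC h θs ≤ 0 by linarith)
    have e2 := Real.exp_le_one_iff.2 (show h * spinVal false +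
        (∑ j : Fin k, θs j (fun ℓ => if hℓ : ℓ.val < p - 1 then c (j, ⟨ℓ.val, hℓ⟩) else false)) -
          siteC h θs ≤ 0 by linarith)
    linarith

theorem edgeψ_bounds {p : ℕ} (θ : Inter p) (c : Fin p → Bool) :
    Real.exp (-(2 * supNorm θ)) ≤ edgeψ θ c ∧ edgeψ θ c ≤ 1 := by
  have h := abs_le.1 (abs_le_supNorm_bd θ c)
  unfold edgeψ
  exact ⟨Real.exp_le_exp.2 (by linarith), Real.exp_le_one_iff.2 (by linarith)⟩

/-- A uniform average of numbers in `[a, b]` lies in `[a, b]`. -/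
theorem avgI_bounds (Lab : Type) [Fintype Lab] [DecidableEq Lab] {n : ℕ} (hn : 1 ≤ n)
    (f : (Lab → Fin n) → ℝ) {a b : ℝ} (h : ∀ e, a ≤ f e ∧ f e ≤ b) :
    a ≤ avgI Lab n f ∧ avgI Lab n f ≤ b := by
  have hn' : (0 : ℝ) < (n : ℝ) ^ (Fintype.card Lab) := by
    have : (0 : ℝ) < n := by exact_mod_cast hn
    positivity
  have hc : ((Finset.univ : Finset (Lab → Fin n)).card : ℝ) = (n : ℝ) ^ (Fintype.card Lab) := by
    rw [Finset.card_univ, Fintype.card_fun, Fintype.card_fin]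
    push_cast
    rfl
  unfold avgI
  constructor
  · rw [le_div_iff₀ hn', ← hc]
    have := Finset.card_nsmul_le_sum Finset.univ f a (fun e _ => (h e).1)
    rw [nsmul_eq_mul] at this
    linarith
  · rw [div_le_iff₀ hn', ← hc]
    have := Finset.sum_le_card_nsmul Finset.univ f b (fun e _ => (h e).2)
    rw [nsmul_eq_mul] at this
    linarith

end Crest.Agent.MP.FA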