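import Crest.Agent.MP.FAsToolsA

/-!
# Module F4, tools B: averages of Lipschitz functionals
-/

set_option autoImplicit false

namespace Crest.Agent.MP.FA
open MeasureTheory ProbabilityTheory Filter Topology
open Crest.ProbabilityR.Diluted
open scoped NNReal

/-- averaging over counts preserves the Lipschitz property (general energies) -/
theorem lipH_avg {n : ℕ} {Ψ : (Cf n → ℝ) → ℝ} (hΨ : LipH Ψ) {I : Type} [Fintype I]
    (lam : I → ℝ≥0) (φ : I → Cf n → ℝ) :
    LipH (fun G => ∫ N, Ψ (fun σ => G σ + ∑ a, (N a : ℝ) * φ a σ) ∂(Po lam)) := by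
  intro H ψ c hψ
  have i1 : Integrable (fun N : I → ℕ => Ψ (fun σ => (fun σ => H σ + ψ σ) σ +
      ∑ a, (N a : ℝ) * φ a σ)) (Po lam) :=
    integrable_linG lam (hΨ.linG (fun σ => H σ + ψ σ) φ)
  have i2 : Integrable (fun N : I → ℕ => Ψ (fun σ => H σ + ∑ a, (N a : ℝ) * φ a σ)) (Po lam) :=
    integrable_linG lam (hΨ.linG H φ)
  simp only
  rw [← integral_sub i1 i2]
  have hb : ∀ N : I → ℕ, ‖Ψ (fun σ => (fun σ => H σ + ψ σ) σ + ∑ a, (N a : ℝ) * φ a σ) -
      Ψ (fun σ => H σ + ∑ a, (N a : ℝ) * φ a σ)‖ ≤ c := by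
    intro N
    rw [Real.norm_eq_abs]
    have e : (fun σ => (fun σ => H σ + ψ σ) σ + ∑ a, (N a : ℝ) * φ a σ) =
        fun σ => (fun σ => H σ + ∑ a, (N a : ℝ) * φ a σ) σ + ψ σ := by
      funext σ
      ring
    rw [e]
    exact hΨ _ _ _ hψ
  have h := norm_integral_le_of_norm_le_const (μ := Po lam) (ae_of_all _ hb)
  simpa using h

/-- Averaging preserves the Lipschitz property. -/
theorem softE_lipH {n : ℕ} {J : Finset Species} (ε : ℝ≥0) (δ : ℝ) (u : UPar)
    {Ψ : (Cf n → ℝ) → ℝ} (hΨ : LipH Ψ) : LipH (softE J ε δ u Ψ) :=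
  lipH_avg hΨ (frate J n ε) (fac δ u)

theorem trueE_lipH {p : ℕ} (μ : FinLaw (Inter p)) {n : ℕ} (Λ : ℝ≥0) {Ψ : (Cf n → ℝ) → ℝ}
    (hΨ : LipH Ψ) : LipH (trueE μ Λ Ψ) :=
  lipH_avg hΨ (fun a => Λ * tq μ n a) tfac

/-- Total rate of the soft factors: `|J| ε n`. -/
theorem sum_frate (J : Finset Species) {n : ℕ} (hn : 1 ≤ n) (ε : ℝ≥0) :
    ∑ a : FIdx J n, (frate J n ε a : ℝ) = J.card * ε * n := by
  have hn0 : (n : ℝ) ≠ 0 := by
    have : (0 : ℝ) < n := by exact_mod_cast hn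
    exact this.ne'
  rw [Fintype.sum_sigma]
  have h : ∀ s : {s // s ∈ J}, ∑ e : Fin s.1.k → Fin n, (frate J n ε ⟨s, e⟩ : ℝ) = ε * n := by
    intro s
    unfold frate
    simp only [Finset.sum_const, Finset.card_univ, Fintype.card_fun, Fintype.card_fin, nsmul_eq_mul]
    push_cast
    field_simp
  rw [Finset.sum_congr rfl fun s _ => h s]
  simp
  ring

/-- The soft factors change a Lipschitz functional by at most `c_J |J| ε n`
(`lip_rate` with second rate `0`, `Po 0 = δ_0`). -/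
theorem softE_sub_le {n : ℕ} (hn : 1 ≤ n) {J : Finset Species} (ε : ℝ≥0) {δ : ℝ} (h0 : 0 ≤ δ)
    (h1 : δ ≤ 1) {u : UPar} (hu : UOk u) {Ψ : (Cf n → ℝ) → ℝ} (hΨ : LipH Ψ) (G : Cf n → ℝ) :
    |softE J ε δ u Ψ G - Ψ G| ≤ cJ J * (J.card * ε * n) := by
  have hL : ∀ (N : FIdx J n → ℕ) (a : FIdx J n),
      |(fun N : FIdx J n → ℕ => Ψ (Ham (J := J) G δ u N)) (bump N a) -
        (fun N : FIdx J n → ℕ => Ψ (Ham (J := J) G δ u N)) N| ≤ (fun _ => cJ J) a := by
    intro N a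
    exact hΨ.bump_le G (fac δ u) (c := fun _ => cJ J) (fun b σ => abs_fac_le h0 h1 hu b σ) N a
  have h := lip_rate (frate J n ε) 0 (G := fun N : FIdx J n → ℕ => Ψ (Ham (J := J) G δ u N))
    (L := fun _ => cJ J) hL
  have hz : ∫ N, (fun N : FIdx J n → ℕ => Ψ (Ham (J := J) G δ u N)) N ∂(Po (0 : FIdx J n → ℝ≥0)) =
      Ψ G := by
    have hpo : Po (0 : FIdx J n → ℝ≥0) = Measure.dirac 0 := by
      apply Measure.ext_of_singleton
      intro N
      unfold Po
      rw [Measure.pi_singleton, Measure.dirac_apply' _ (measurableSet_singleton N)]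
      simp only [poissonMeasure_singleton, Pi.zero_apply, NNReal.coe_zero, neg_zero, Real.exp_zero,
        one_mul]
      by_cases hN : N = 0
      · subst hN
        simp
      · have h3 : ∃ i, N i ≠ 0 := by
          by_contra hcon
          push Not at hcon
          exact hN (funext hcon)
        obtain ⟨i, hi⟩ := h3
        rw [Finset.prod_eq_zero (Finset.mem_univ i) (by simp [hi]),
          Set.indicator_of_notMem (by simpa [eq_comm] using hN)]
    rw [hpo, integral_dirac]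
    congr 1
    funext σ
    simp [Ham]
  rw [hz] at h
  refine h.trans (le_of_eq ?_)
  have e : ∀ a : FIdx J n, |((frate J n ε a : ℝ≥0) : ℝ) - ((0 : FIdx J n → ℝ≥0) a : ℝ≥0)| * cJ J =
      (frate J n ε a : ℝ) * cJ J := by
    intro a
    simp
  rw [Finset.sum_congr rfl fun a _ => e a, ← Finset.sum_mul, sum_frate J hn ε]
  ring

end Crest.Agent.MP.FA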