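import Crest.Agent.MP.FAsDefs

/-!
# Module F4, tools C: the fields
-/

set_option autoImplicit false

namespace Crest.Agent.MP.FA
open MeasureTheory ProbabilityTheory Filter Topology
open Crest.ProbabilityR.Diluted
open scoped NNReal

/-- Expectation over the fields is an average. -/
theorem Efld_mono (ν : FinLaw ℝ) (n : ℕ) {f g : (Fin n → ν.ι) → ℝ} (h : ∀ x, f x ≤ g x) :
    Efld ν n f ≤ Efld ν n g := by
  unfold Efld
  exact Finset.sum_le_sum fun x _ =>
    mul_le_mul_of_nonneg_left (h x) (Finset.prod_nonneg fun i _ => ν.w_nonneg _)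

theorem Efld_const (ν : FinLaw ℝ) (n : ℕ) (c : ℝ) : Efld ν n (fun _ => c) = c := by
  unfold Efld
  rw [← Finset.sum_mul]
  have h := Finset.prod_univ_sum (fun _ : Fin n => (Finset.univ : Finset ν.ι))
    (fun _ j => ν.w j)
  rw [Fintype.piFinset_univ] at h
  rw [← h, ν.w_sum]
  simp

theorem Efld_add (ν : FinLaw ℝ) (n : ℕ) (f g : (Fin n → ν.ι) → ℝ) :
    Efld ν n (fun x => f x + g x) = Efld ν n f + Efld ν n g := by
  unfold Efld
  rw [← Finset.sum_add_distrib]
  exact Finset.sum_congr rfl fun x _ => by ring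

/-- The field of the new spin. -/
theorem Efld_succ (ν : FinLaw ℝ) (n : ℕ) (f : (Fin (n + 1) → ν.ι) → ℝ) :
    Efld ν (n + 1) f = Efld ν n (fun h => ∑ i, ν.w i * f (Fin.snoc (α := fun _ => ν.ι) h i)) := by
  unfold Efld
  rw [← (Fin.snocEquiv (fun _ : Fin (n + 1) => ν.ι)).sum_comp]
  rw [Fintype.sum_prod_type, Finset.sum_comm]
  refine Finset.sum_congr rfl fun h _ => ?_
  rw [Finset.mul_sum]
  refine Finset.sum_congr rfl fun i _ => ?_
  rw [Fin.prod_univ_castSucc]
  simp only [Fin.snocEquiv_apply, Fin.snoc_castSucc, Fin.snoc_last]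
  rw [mul_assoc]
  rfl

theorem fHam_snoc (ν : FinLaw ℝ) {n : ℕ} (h : Fin n → ν.ι) (i : ν.ι) (τ : Cf (n + 1)) :
    fHam ν (Fin.snoc (α := fun _ => ν.ι) h i) τ =
      fHam ν h (ini τ) + ν.x i * spinVal (τ (Fin.last n)) := by
  unfold fHam
  rw [Fin.sum_univ_castSucc]
  simp only [Fin.snoc_castSucc, Fin.snoc_last]
  rfl

end Crest.Agent.MP.FA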