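import Crest.Agent.MP.FAsBd
import Crest.Agent.MP.FAsTools

/-!
# Module F4: bounds for the functional
-/

set_option autoImplicit false

namespace Crest.Agent.MP.FA
open MeasureTheory ProbabilityTheory Filter Topology
open Crest.ProbabilityR.Diluted
open scoped NNReal

namespace FAsBdB

theorem supNorm_nonneg {p : ℕ} (θ : Inter p) : 0 ≤ supNorm θ :=
  Real.iSup_nonneg fun _ => abs_nonneg _

theorem supNorm_le_cM {p : ℕ} (μ : FinLaw (Inter p)) (i : μ.ι) : supNorm (μ.x i) ≤ cM μ := by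
  unfold cM
  exact Finset.single_le_sum (f := fun t => supNorm (μ.x t)) (fun t _ => supNorm_nonneg _)
    (Finset.mem_univ i)

theorem int_bounds {I : Type} [Fintype I] (lam : I → ℝ≥0) (f : (I → ℕ) → ℝ) {a b : ℝ}
    (h : ∀ N, a ≤ f N ∧ f N ≤ b) : a ≤ ∫ N, f N ∂(Po lam) ∧ ∫ N, f N ∂(Po lam) ≤ b := by
  have hf : Integrable f (Po lam) := by
    refine Integrable.of_bound (Measurable.of_discrete).aestronglyMeasurable (|a| + |b|) ?_
    refine Eventually.of_forall fun N => ?_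
    rw [Real.norm_eq_abs, abs_le]
    have h1 := neg_abs_le a
    have h2 := le_abs_self b
    have h3 := abs_nonneg a
    have h4 := abs_nonneg b
    constructor <;> linarith [(h N).1, (h N).2]
  constructor
  · have := integral_mono (integrable_const a) hf (fun N => (h N).1)
    simpa using this
  · have := integral_mono hf (integrable_const b) (fun N => (h N).2)
    simpa using this

theorem LE_bounds {n : ℕ} (hn : 1 ≤ n) (J : Finset Species) (ε : ℝ≥0) (δ : ℝ) (u : UPar)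
    (G0 : Cf n → ℝ) (Lab : Type) [Fintype Lab] [DecidableEq Lab] (ψ : (Lab → Bool) → ℝ) {κ : ℝ}
    (hκ : 0 < κ) (h1 : ∀ c, κ ≤ ψ c) (h2 : ∀ c, ψ c ≤ 1) :
    Real.log κ ≤ LE J ε δ u G0 Lab ψ ∧ LE J ε δ u G0 Lab ψ ≤ 0 := by
  unfold LE
  refine avgI_bounds Lab hn _ fun e => ?_
  exact int_bounds _ _ fun N => log_gav1_bounds _ _ hκ (fun σ => h1 _) (fun σ => h2 _)

theorem E_abs_le {E : Type} (μ : FinLaw E) (f : E → ℝ) {B : ℝ} (h : ∀ i, |f (μ.x i)| ≤ B) :
    |μ.E f| ≤ B := by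
  unfold FinLaw.E
  refine (Finset.abs_sum_le_sum_abs _ _).trans ?_
  calc ∑ i, |μ.w i * f (μ.x i)| ≤ ∑ i, μ.w i * B := by
        refine Finset.sum_le_sum fun i _ => ?_
        rw [abs_mul, abs_of_nonneg (μ.w_nonneg i)]
        exact mul_le_mul_of_nonneg_left (h i) (μ.w_nonneg i)
    _ = B := by rw [← Finset.sum_mul, μ.w_sum, one_mul]

theorem Epow_abs_le {E : Type} (μ : FinLaw E) (k : ℕ) (f : (Fin k → E) → ℝ) {B : ℝ}
    (h : ∀ j : Fin k → μ.ι, |f (fun a => μ.x (j a))| ≤ B) : |μ.Epow k f| ≤ B := by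
  classical
  unfold FinLaw.Epow
  refine (Finset.abs_sum_le_sum_abs _ _).trans ?_
  have hs : ∑ j : Fin k → μ.ι, ∏ a, μ.w (j a) = 1 := by
    have h := Finset.prod_univ_sum (fun _ : Fin k => (Finset.univ : Finset μ.ι))
      (fun _ i => μ.w i)
    rw [Fintype.piFinset_univ] at h
    rw [← h]
    simp [μ.w_sum]
  calc ∑ j : Fin k → μ.ι, |(∏ a, μ.w (j a)) * f (fun a => μ.x (j a))|
      ≤ ∑ j : Fin k → μ.ι, (∏ a, μ.w (j a)) * B := by
        refine Finset.sum_le_sum fun j _ => ?_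
        have h0 : 0 ≤ ∏ a, μ.w (j a) := Finset.prod_nonneg fun a _ => μ.w_nonneg _
        rw [abs_mul, abs_of_nonneg h0]
        exact mul_le_mul_of_nonneg_left (h j) h0
    _ = B := by rw [← Finset.sum_mul, hs, one_mul]

theorem poissonWeight_nonneg {lam : ℝ} (h : 0 ≤ lam) (n : ℕ) : 0 ≤ poissonWeight lam n := by
  unfold poissonWeight; positivity

theorem summable_pw {lam : ℝ} (h : 0 ≤ lam) (A C : ℝ) (hA : 0 ≤ A) (hC : 0 ≤ C) :
    Summable (fun k : ℕ => poissonWeight lam k * (A + k * C)) := by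
  have h1 : Summable (fun k : ℕ => Real.exp (-lam) * A * (lam ^ k / (Nat.factorial k : ℝ)) +
      Real.exp (-lam) * C * ((2 * lam) ^ k / (Nat.factorial k : ℝ))) :=
    ((Real.summable_pow_div_factorial lam).mul_left _).add
      ((Real.summable_pow_div_factorial (2 * lam)).mul_left _)
  refine Summable.of_nonneg_of_le (fun k => ?_) (fun k => ?_) h1
  · exact mul_nonneg (poissonWeight_nonneg h k) (by positivity)
  · have h2 : (k : ℝ) ≤ 2 ^ k := by
      have := (Nat.lt_two_pow_self (n := k)).le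
      exact_mod_cast this
    unfold poissonWeight
    have e : Real.exp (-lam) * A * (lam ^ k / (Nat.factorial k : ℝ)) +
        Real.exp (-lam) * C * ((2 * lam) ^ k / (Nat.factorial k : ℝ)) =
        Real.exp (-lam) * lam ^ k / (Nat.factorial k : ℝ) * (A + 2 ^ k * C) := by
      rw [mul_pow]; ring
    rw [e]
    refine mul_le_mul_of_nonneg_left ?_ (by positivity)
    have := mul_le_mul_of_nonneg_right h2 hC
    linarith

end FAsBdB

open FAsBdB

/-- `|siteC + LE| ≤ siteC`, `|‖θ‖ + LE| ≤ ‖θ‖`. -/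
theorem siteF_bound (p : ℕ) (α : ℝ≥0) (μ : FinLaw (Inter p)) (ν : FinLaw ℝ) :
    ∃ B : ℝ, 0 ≤ B ∧ ∀ (J : Finset Species) (ε : ℝ≥0) (δ : ℝ) (u : UPar) (n : ℕ), 1 ≤ n →
      ∀ G0 : Cf n → ℝ, |siteF p α μ ν J ε δ u G0| ≤ B := by
  have hlam : (0 : ℝ) ≤ (α : ℝ) * p := by positivity
  set A : ℝ := ∑ i, |ν.x i| with hA
  have hA0 : 0 ≤ A := Finset.sum_nonneg fun _ _ => abs_nonneg _
  have hC0 : 0 ≤ cM μ := cM_nonneg μ
  have hsum := summable_pw hlam A (cM μ) hA0 hC0
  refine ⟨∑' k : ℕ, poissonWeight ((α : ℝ) * p) k * (A + k * cM μ),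
    tsum_nonneg fun k => mul_nonneg (poissonWeight_nonneg hlam k) (by positivity), ?_⟩
  intro J ε δ u n hn G0
  unfold siteF
  rw [← Real.norm_eq_abs]
  refine tsum_of_norm_bounded hsum.hasSum fun k => ?_
  rw [Real.norm_eq_abs, abs_mul, abs_of_nonneg (poissonWeight_nonneg hlam k)]
  refine mul_le_mul_of_nonneg_left ?_ (poissonWeight_nonneg hlam k)
  refine Epow_abs_le μ k _ fun j => ?_
  refine E_abs_le ν _ fun i => ?_
  set θs : Fin k → Inter p := fun a => μ.x (j a) with hθs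
  have hS : siteC (ν.x i) θs ≤ A + k * cM μ := by
    unfold siteC
    refine add_le_add ?_ ?_
    · rw [hA]
      exact Finset.single_le_sum (f := fun i => |ν.x i|) (fun _ _ => abs_nonneg _)
        (Finset.mem_univ i)
    · calc ∑ a, supNorm (θs a) ≤ ∑ _a : Fin k, cM μ :=
            Finset.sum_le_sum fun a _ => supNorm_le_cM μ _
        _ = k * cM μ := by simp
  have hL := LE_bounds hn J ε δ u G0 (Fin k × Fin (p - 1)) (siteψ (ν.x i) θs)
    (Real.exp_pos (-(2 * siteC (ν.x i) θs)))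
    (fun c => (siteψ_bounds _ _ c).1) (fun c => (siteψ_bounds _ _ c).2)
  rw [Real.log_exp] at hL
  rw [abs_le]
  constructor <;> linarith [hL.1, hL.2]

theorem edge_bound (p : ℕ) (μ : FinLaw (Inter p)) (J : Finset Species) (ε : ℝ≥0) (δ : ℝ) (u : UPar)
    {n : ℕ} (hn : 1 ≤ n) (G0 : Cf n → ℝ) :
    |μ.E (fun θ => supNorm θ + LE J ε δ u G0 (Fin p) (edgeψ θ))| ≤ cM μ := by
  refine E_abs_le μ _ fun i => ?_
  have hL := LE_bounds hn J ε δ u G0 (Fin p) (edgeψ (μ.x i))
    (Real.exp_pos (-(2 * supNorm (μ.x i))))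
    (fun c => (edgeψ_bounds _ c).1) (fun c => (edgeψ_bounds _ c).2)
  rw [Real.log_exp] at hL
  have h1 := supNorm_le_cM μ i
  rw [abs_le]
  constructor <;> linarith [hL.1, hL.2]

end Crest.Agent.MP.FA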