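import Crest.Agent.MP.FAsContA
import Crest.Agent.MP.FAsBdB

/-!
# Module F4: continuity in the parameters, part 2
-/

set_option autoImplicit false

namespace Crest.Agent.MP.FA
open MeasureTheory ProbabilityTheory Filter Topology
open Crest.ProbabilityR.Diluted
open scoped NNReal

private lemma fc_integral_bounds {I : Type} [Fintype I] (lam : I → ℝ≥0) {f : (I → ℕ) → ℝ} {a b : ℝ}
    (h : ∀ N, a ≤ f N ∧ f N ≤ b) : a ≤ ∫ N, f N ∂(Po lam) ∧ ∫ N, f N ∂(Po lam) ≤ b := by
  have hi : Integrable f (Po lam) := by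
    refine integrable_linG lam (LinG.of_bounded (A := |a| + |b|) fun N => ?_)
    rw [abs_le]
    have h1 := neg_abs_le a
    have h2 := le_abs_self b
    have h3 := abs_nonneg a
    have h4 := abs_nonneg b
    exact ⟨by linarith [(h N).1], by linarith [(h N).2]⟩
  constructor
  · have := integral_mono (μ := Po lam) (integrable_const a) hi (fun N => (h N).1)
    simpa using this
  · have := integral_mono (μ := Po lam) hi (integrable_const b) (fun N => (h N).2)
    simpa using this

private lemma fc_LE_bounds {n : ℕ} (hn : 1 ≤ n) (J : Finset Species) (ε : ℝ≥0) (δ : ℝ) (u : UPar)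
    (G0 : Cf n → ℝ) (Lab : Type) [Fintype Lab] [DecidableEq Lab] (ψ : (Lab → Bool) → ℝ) {C : ℝ}
    (h1 : ∀ c, Real.exp (-(2 * C)) ≤ ψ c) (h2 : ∀ c, ψ c ≤ 1) :
    -(2 * C) ≤ LE J ε δ u G0 Lab ψ ∧ LE J ε δ u G0 Lab ψ ≤ 0 := by
  unfold LE
  refine avgI_bounds Lab hn _ fun e => ?_
  refine fc_integral_bounds _ fun N => ?_
  have := log_gav1_bounds (Ham (J := J) G0 δ u N) (fun σ => ψ (fun l => σ (e l)))
    (Real.exp_pos (-(2 * C))) (fun σ => h1 _) (fun σ => h2 _)
  rwa [Real.log_exp] at this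

private lemma fc_supNorm_nonneg {p : ℕ} (θ : Inter p) : 0 ≤ supNorm θ := by
  unfold supNorm
  exact Real.iSup_nonneg fun s => abs_nonneg _

private lemma fc_siteC_le {p k : ℕ} (μ : FinLaw (Inter p)) (ν : FinLaw ℝ) (j : Fin k → μ.ι) (i : ν.ι) :
    0 ≤ siteC (ν.x i) (fun a => μ.x (j a)) ∧
    siteC (ν.x i) (fun a => μ.x (j a)) ≤ (∑ i, |ν.x i|) + k * cM μ := by
  unfold siteC
  constructor
  · exact add_nonneg (abs_nonneg _) (Finset.sum_nonneg fun a _ => fc_supNorm_nonneg _)
  · have h1 : |ν.x i| ≤ ∑ i, |ν.x i| :=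
      Finset.single_le_sum (f := fun i => |ν.x i|) (fun i _ => abs_nonneg _) (Finset.mem_univ i)
    have h2 : ∀ a : Fin k, supNorm (μ.x (j a)) ≤ cM μ := fun a => by
      unfold cM
      exact Finset.single_le_sum (f := fun t => supNorm (μ.x t)) (fun t _ => fc_supNorm_nonneg _)
        (Finset.mem_univ (j a))
    have h3 : ∑ a : Fin k, supNorm (μ.x (j a)) ≤ ∑ _a : Fin k, cM μ :=
      Finset.sum_le_sum fun a _ => h2 a
    rw [Finset.sum_const, Finset.card_univ, Fintype.card_fin, nsmul_eq_mul] at h3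
    linarith

private lemma fc_prod_w {E : Type} (μ : FinLaw E) (k : ℕ) :
    ∑ j : Fin k → μ.ι, ∏ a, μ.w (j a) = 1 := by
  classical
  have h := Finset.prod_univ_sum (fun _ : Fin k => (Finset.univ : Finset μ.ι)) (fun _ i => μ.w i)
  rw [Fintype.piFinset_univ] at h
  rw [← h]
  simp [μ.w_sum]

private lemma fc_E_bound {E : Type} (μ : FinLaw E) (f : E → ℝ) {B : ℝ} (h : ∀ i, |f (μ.x i)| ≤ B) :
    |μ.E f| ≤ B := by
  unfold FinLaw.E
  calc |∑ i, μ.w i * f (μ.x i)| ≤ ∑ i, |μ.w i * f (μ.x i)| := Finset.abs_sum_le_sum_abs _ _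
    _ ≤ ∑ i, μ.w i * B := Finset.sum_le_sum fun i _ => by
        rw [abs_mul, abs_of_nonneg (μ.w_nonneg i)]
        exact mul_le_mul_of_nonneg_left (h i) (μ.w_nonneg i)
    _ = B := by rw [← Finset.sum_mul, μ.w_sum, one_mul]

private lemma fc_Epow_bound {E : Type} (μ : FinLaw E) (k : ℕ) (f : (Fin k → E) → ℝ) {B : ℝ}
    (h : ∀ j : Fin k → μ.ι, |f (fun a => μ.x (j a))| ≤ B) : |μ.Epow k f| ≤ B := by
  unfold FinLaw.Epow
  have hp : ∀ j : Fin k → μ.ι, 0 ≤ ∏ a, μ.w (j a) := fun j =>
    Finset.prod_nonneg fun a _ => μ.w_nonneg _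
  calc |∑ j : Fin k → μ.ι, (∏ a, μ.w (j a)) * f (fun a => μ.x (j a))|
      ≤ ∑ j : Fin k → μ.ι, |(∏ a, μ.w (j a)) * f (fun a => μ.x (j a))| :=
        Finset.abs_sum_le_sum_abs _ _
    _ ≤ ∑ j : Fin k → μ.ι, (∏ a, μ.w (j a)) * B := Finset.sum_le_sum fun j _ => by
        rw [abs_mul, abs_of_nonneg (hp j)]
        exact mul_le_mul_of_nonneg_left (h j) (hp j)
    _ = B := by rw [← Finset.sum_mul, fc_prod_w, one_mul]

private lemma fc_summable (lam A B : ℝ) :
    Summable (fun k : ℕ => poissonWeight lam k * (A + k * B)) := by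
  have h0 : Summable (poissonWeight lam) := by
    have h2 : poissonWeight lam = fun n => Real.exp (-lam) * (lam ^ n / (n.factorial : ℝ)) := by
      funext n
      unfold poissonWeight
      ring
    rw [h2]
    exact (Real.summable_pow_div_factorial lam).mul_left _
  have h1 : Summable (fun n : ℕ => poissonWeight lam n * n) := by
    rw [← summable_nat_add_iff 1]
    have h2 : (fun n : ℕ => poissonWeight lam (n + 1) * ((n + 1 : ℕ) : ℝ)) =
        fun n : ℕ => lam * poissonWeight lam n := by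
      funext n
      unfold poissonWeight
      have h3 : ((n + 1).factorial : ℝ) = (n + 1) * n.factorial := by
        exact_mod_cast Nat.factorial_succ n
      rw [h3, pow_succ]
      have h4 : (n.factorial : ℝ) ≠ 0 := by exact_mod_cast (Nat.factorial_pos n).ne'
      have h5 : (n : ℝ) + 1 ≠ 0 := by positivity
      push_cast
      field_simp
    rw [h2]
    exact h0.mul_left lam
  have e : (fun k : ℕ => poissonWeight lam k * (A + k * B)) =
      fun k : ℕ => poissonWeight lam k * A + (poissonWeight lam k * k) * B := by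
    funext k; ring
  rw [e]
  exact (h0.mul_right A).add (h1.mul_right B)

/-- `continuous_tsum` with the bound from `siteF_bound`. -/
theorem AAf_cont (p : ℕ) (α : ℝ≥0) (μ : FinLaw (Inter p)) (ν : FinLaw ℝ) (J : Finset Species)
    (ε : ℝ≥0) {δ : ℝ} (h0 : 0 ≤ δ) (h1 : δ ≤ 1) {n : ℕ} (hn : 1 ≤ n) (G0 : Cf n → ℝ) :
    Continuous (fun v : UIx J → unitInterval => AAf p α μ ν J ε δ (toU v) G0) := by
  unfold AAf
  refine (continuous_const.add ?_).sub (continuous_const.mul ?_)
  · refine continuous_tsum (u := fun k : ℕ => poissonWeight ((α : ℝ) * p) k *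
      ((∑ i, |ν.x i|) + k * cM μ)) ?_ (fc_summable _ _ _) ?_
    · intro k
      refine continuous_const.mul ?_
      unfold FinLaw.Epow FinLaw.E
      refine continuous_finsetSum _ fun j _ => continuous_const.mul ?_
      refine continuous_finsetSum _ fun i _ => continuous_const.mul ?_
      refine continuous_const.add ?_
      refine LE_cont ε h0 h1 _ _ (fun c => ?_) G0
      exact lt_of_lt_of_le (Real.exp_pos _) (siteψ_bounds _ _ c).1
    · intro k v
      rw [Real.norm_eq_abs, abs_mul]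
      have hw : 0 ≤ poissonWeight ((α : ℝ) * p) k := by
        unfold poissonWeight
        have : 0 ≤ (α : ℝ) * p := mul_nonneg α.2 (Nat.cast_nonneg _)
        positivity
      rw [abs_of_nonneg hw]
      refine mul_le_mul_of_nonneg_left ?_ hw
      refine fc_Epow_bound μ k _ fun j => ?_
      refine fc_E_bound ν _ fun i => ?_
      have hb := fc_LE_bounds hn J ε δ (toU v) G0 (Fin k × Fin (p - 1))
        (siteψ (ν.x i) (fun a => μ.x (j a))) (C := siteC (ν.x i) (fun a => μ.x (j a)))
        (fun c => (siteψ_bounds _ _ c).1) (fun c => (siteψ_bounds _ _ c).2)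
      have hs := fc_siteC_le μ ν j i
      rw [abs_le]
      constructor
      · linarith [hb.1, hs.2, hs.1]
      · linarith [hb.2, hs.2, hs.1]
  · unfold FinLaw.E
    refine continuous_finsetSum _ fun j _ => continuous_const.mul ?_
    refine continuous_const.add ?_
    refine LE_cont ε h0 h1 _ _ (fun c => ?_) G0
    exact lt_of_lt_of_le (Real.exp_pos _) (edgeψ_bounds _ c).1

/-- `softE_cont` and dominated convergence for `trueE` (bound linear in the counts, uniform in
`v`). -/
theorem aN_cont (p : ℕ) (α : ℝ≥0) (μ : FinLaw (Inter p)) (ν : FinLaw ℝ) (J : Finset Species)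
    (ε : ℝ≥0) {δ : ℝ} (h0 : 0 ≤ δ) (h1 : δ ≤ 1) {n : ℕ} (hn : 1 ≤ n) :
    Continuous (fun v : UIx J → unitInterval => aN p α μ ν J ε δ n (toU v)) := by
  unfold aN Efld
  refine continuous_finsetSum _ fun h _ => continuous_const.mul ?_
  unfold trueE
  have hlin : LinG (fun N : TIdx μ n → ℕ => logZ (tHam μ (fHam ν h) N)) := by
    have := (logZ_lipH (n := n)).linG (fHam ν h) (fun (a : TIdx μ n) σ => tfac a σ)
    exact this
  have hi : Integrable (fun N : TIdx μ n → ℕ => |logZ (tHam μ (fHam ν h) N)| +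
      cJ J * (J.card * ε * n)) (Po (fun a => (α * n) * tq μ n a)) :=
    (integrable_linG _ hlin).abs.add (integrable_const _)
  refine continuous_of_dominated (bound := fun N => |logZ (tHam μ (fHam ν h) N)| +
      cJ J * (J.card * ε * n)) ?_ ?_ hi ?_
  · intro v
    exact (measurable_of_countable _).aestronglyMeasurable
  · intro v
    refine ae_of_all _ fun N => ?_
    rw [Real.norm_eq_abs]
    have h2 := softE_sub_le hn (J := J) ε h0 h1 (toU_ok v) (logZ_lipH (n := n))
      (tHam μ (fHam ν h) N)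
    have h3 := abs_sub_abs_le_abs_sub (softE J ε δ (toU v) logZ (tHam μ (fHam ν h) N))
      (logZ (tHam μ (fHam ν h) N))
    linarith
  · exact ae_of_all _ fun N => softE_cont ε h0 h1 (logZ_lipH (n := n)) _

end Crest.Agent.MP.FA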