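import Crest.Agent.MP.FAsTools

/-!
# Module F4: continuity in the parameters
-/

set_option autoImplicit false

namespace Crest.Agent.MP.FA
open MeasureTheory ProbabilityTheory Filter Topology
open Crest.ProbabilityR.Diluted
open scoped NNReal

theorem toU_ok {J : Finset Species} (v : UIx J → unitInterval) : UOk (toU v) := by
  intro s c
  unfold toU
  split_ifs with h
  · exact ⟨(v _).2.1, (v _).2.2⟩
  · exact ⟨le_rfl, zero_le_one⟩

/-- A Lipschitz functional is continuous. -/
theorem contA_cont {n : ℕ} {Ψ : (Cf n → ℝ) → ℝ} (hΨ : LipH Ψ) : Continuous Ψ := by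
  have h : LipschitzWith 1 Ψ := by
    refine LipschitzWith.of_dist_le_mul fun H H' => ?_
    have h1 := hΨ H' (fun σ => H σ - H' σ) ‖H - H'‖ (fun σ => by
      have := norm_le_pi_norm (H - H') σ
      simpa [Real.norm_eq_abs] using this)
    have e : (fun σ => H' σ + (H σ - H' σ)) = H := by funext σ; ring
    rw [e] at h1
    rw [NNReal.coe_one, one_mul, Real.dist_eq, dist_eq_norm]
    exact h1
  exact h.continuous

theorem contA_toU {J : Finset Species} (s : Species) (c : s.Cfg) :
    Continuous (fun v : UIx J → unitInterval => toU v s c) := by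
  unfold toU
  by_cases h : s ∈ J
  · simp only [h, dif_pos]
    exact continuous_subtype_val.comp (continuous_apply _)
  · simp only [h, dif_neg, not_false_eq_true]
    exact continuous_const

theorem contA_Ham {n : ℕ} {J : Finset Species} (δ : ℝ) (G : Cf n → ℝ) (N : FIdx J n → ℕ) :
    Continuous (fun v : UIx J → unitInterval => Ham (J := J) G δ (toU v) N) := by
  refine continuous_pi fun σ => ?_
  unfold Ham fac
  refine continuous_const.add (continuous_finsetSum _ fun a _ => ?_)
  exact continuous_const.mul (continuous_const.add (continuous_const.mul (contA_toU _ _)))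

theorem contA_bound {n : ℕ} {J : Finset Species} {δ : ℝ} (h0 : 0 ≤ δ) (h1 : δ ≤ 1)
    {u : UPar} (hu : UOk u) {Ψ : (Cf n → ℝ) → ℝ} (hΨ : LipH Ψ) (G : Cf n → ℝ)
    (N : FIdx J n → ℕ) :
    |Ψ (Ham (J := J) G δ u N)| ≤ |Ψ G| + cJ J * ∑ a, (N a : ℝ) := by
  have h := hΨ G (fun σ => ∑ a, (N a : ℝ) * fac δ u a σ) (cJ J * ∑ a, (N a : ℝ)) (fun σ => by
    rw [Finset.mul_sum]
    refine (Finset.abs_sum_le_sum_abs _ _).trans (Finset.sum_le_sum fun a _ => ?_)
    rw [abs_mul, Nat.abs_cast, mul_comm]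
    exact mul_le_mul_of_nonneg_right (abs_fac_le h0 h1 hu a σ) (Nat.cast_nonneg _))
  have e : Ψ (Ham (J := J) G δ u N) = Ψ (fun σ => G σ + ∑ a, (N a : ℝ) * fac δ u a σ) := rfl
  rw [e]
  have h2 := abs_sub_abs_le_abs_sub (Ψ (fun σ => G σ + ∑ a, (N a : ℝ) * fac δ u a σ)) (Ψ G)
  linarith

theorem contA_int {n : ℕ} {J : Finset Species} {δ : ℝ} (h0 : 0 ≤ δ) (h1 : δ ≤ 1)
    {u : UPar} (hu : UOk u) {Ψ : (Cf n → ℝ) → ℝ} (hΨ : LipH Ψ) (G : Cf n → ℝ)
    (lam : FIdx J n → ℝ≥0) :
    Integrable (fun N => Ψ (Ham (J := J) G δ u N)) (Po lam) :=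
  integrable_linG lam ⟨|Ψ G|, cJ J, fun N => contA_bound h0 h1 hu hΨ G N⟩

/-- `softE` is continuous in the parameters: dominated convergence, `Ham` is continuous in `v`
for fixed counts and `Ψ` is Lipschitz; the bound is `|Ψ G| + cJ J Σ N_a`. -/
theorem softE_cont {n : ℕ} {J : Finset Species} (ε : ℝ≥0) {δ : ℝ} (h0 : 0 ≤ δ) (h1 : δ ≤ 1)
    {Ψ : (Cf n → ℝ) → ℝ} (hΨ : LipH Ψ) (G : Cf n → ℝ) :
    Continuous (fun v : UIx J → unitInterval => softE J ε δ (toU v) Ψ G) := by
  unfold softE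
  refine continuous_of_dominated
    (bound := fun N : FIdx J n → ℕ => |Ψ G| + cJ J * ∑ a, (N a : ℝ)) ?_ ?_ ?_ ?_
  · intro v
    exact (measurable_of_countable _).aestronglyMeasurable
  · intro v
    refine Filter.Eventually.of_forall fun N => ?_
    rw [Real.norm_eq_abs]
    exact contA_bound h0 h1 (toU_ok v) hΨ G N
  · exact (integrable_const _).add
      ((integrable_finsetSum _ fun a _ => integrable_coord _ a).const_mul _)
  · refine Filter.Eventually.of_forall fun N => ?_
    exact (contA_cont hΨ).comp (contA_Ham δ G N)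

/-- Shifting a Lipschitz functional. -/
theorem contA_shift {n : ℕ} {Ψ : (Cf n → ℝ) → ℝ} (hΨ : LipH Ψ) (φ : Cf n → ℝ) :
    LipH (fun H : Cf n → ℝ => Ψ (fun σ => H σ + φ σ)) := by
  intro H χ c hc
  have h := hΨ (fun σ => H σ + φ σ) χ c hc
  have e : (fun σ => H σ + χ σ + φ σ) = (fun σ => H σ + φ σ + χ σ) := by funext σ; ring
  simp only [e]
  exact h

/-- `log gav1 H ψ = logZ (H + log ψ) - logZ H`, so `LE` is a difference of two `softE`s
averaged over `e`. -/
theorem LE_cont {n : ℕ} {J : Finset Species} (ε : ℝ≥0) {δ : ℝ} (h0 : 0 ≤ δ) (h1 : δ ≤ 1)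
    (Lab : Type) [Fintype Lab] [DecidableEq Lab] (ψ : (Lab → Bool) → ℝ) (hψ : ∀ c, 0 < ψ c)
    (G : Cf n → ℝ) :
    Continuous (fun v : UIx J → unitInterval => LE J ε δ (toU v) G Lab ψ) := by
  unfold LE avgI
  refine (continuous_finsetSum _ fun e _ => ?_).div_const _
  have key : ∀ H : Cf n → ℝ, Real.log (gav1 H (fun σ => ψ (fun l => σ (e l)))) =
      logZ (fun σ => H σ + Real.log (ψ (fun l => σ (e l)))) - logZ H := by
    intro H
    rw [logZ_add]
    simp only [Real.exp_log (hψ _)]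
    ring
  have e2 : (fun v : UIx J → unitInterval => ∫ N, Real.log (gav1 (Ham (J := J) G δ (toU v) N)
      (fun σ => ψ (fun l => σ (e l)))) ∂(Po (frate J n ε))) =
      fun v => softE J ε δ (toU v)
        (fun H : Cf n → ℝ => logZ (fun σ => H σ + Real.log (ψ (fun l => σ (e l))))) G -
        softE J ε δ (toU v) logZ G := by
    funext v
    unfold softE
    rw [← integral_sub (contA_int h0 h1 (toU_ok v) (contA_shift logZ_lipH _) G _)
      (contA_int h0 h1 (toU_ok v) logZ_lipH G _)]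
    refine integral_congr_ae (Filter.Eventually.of_forall fun N => ?_)
    exact key _
  rw [e2]
  exact (softE_cont ε h0 h1 (contA_shift logZ_lipH _) G).sub (softE_cont ε h0 h1 logZ_lipH G)

end Crest.Agent.MP.FA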