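import Mathlib

/-!
# Module F, part 0: calculus of finitely many independent Poisson counts

All statements are about `Po lam = ⨂_i Poisson (lam i)` on `I → ℕ`, `I` finite.
-/

set_option autoImplicit false

namespace Crest.Agent.MP

open MeasureTheory ProbabilityTheory
open scoped NNReal

variable {I : Type} [Fintype I]

/-- Independent Poisson counts with rates `lam`. -/
noncomputable def Po (lam : I → ℝ≥0) : Measure (I → ℕ) :=
  Measure.pi (fun i => poissonMeasure (lam i))

instance (lam : I → ℝ≥0) : IsProbabilityMeasure (Po lam) := by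
  unfold Po; infer_instance

open Classical in
/-- Add one to the `i`-th count. -/
noncomputable def bump (N : I → ℕ) (i : I) : I → ℕ := fun j => N j + (if j = i then 1 else 0)

/-- At most linear growth. -/
def LinG (G : (I → ℕ) → ℝ) : Prop := ∃ A B : ℝ, ∀ N, |G N| ≤ A + B * ∑ i, (N i : ℝ)

lemma LinG.of_bounded {G : (I → ℕ) → ℝ} {A : ℝ} (h : ∀ N, |G N| ≤ A) : LinG G :=
  ⟨A, 0, fun N => by simpa using h N⟩

end Crest.Agent.MP
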