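import Crest.Agent.MP.Defs
import Crest.Agent.MP.FPois

/-!
# Module F, part 1: the finite system

`n` sites, an ARBITRARY base Hamiltonian `G0 : ({±1}^n) → ℝ`, a finite set `J` of species; for every species `s ∈ J` and every
`e : Fin s.k → Fin n` an independent Poisson number (rate `ε n / n^k`) of soft factors `log W_s + δ u_s` on the sites `e`.
-/

set_option autoImplicit false

namespace Crest.Agent.MP

open MeasureTheory ProbabilityTheory
open scoped NNReal

/-! ### Gibbs averages -/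

/-- Spin configurations. -/
abbrev Cf (n : ℕ) : Type := Fin n → Bool

/-- Gibbs weight. -/
noncomputable def gibbs {n : ℕ} (H : Cf n → ℝ) (σ : Cf n) : ℝ :=
  Real.exp (H σ) / ∑ τ : Cf n, Real.exp (H τ)

/-- Gibbs average over `L` replicas. -/
noncomputable def gav {n L : ℕ} (H : Cf n → ℝ) (F : (Fin L → Cf n) → ℝ) : ℝ :=
  ∑ σ : Fin L → Cf n, (∏ l, gibbs H (σ l)) * F σ

/-- One-replica Gibbs average. -/
noncomputable def gav1 {n : ℕ} (H : Cf n → ℝ) (f : Cf n → ℝ) : ℝ := ∑ σ : Cf n, gibbs H σ * f σ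

/-- Extend `L` replicas by the all-true configuration. -/
def extR {n L : ℕ} (σ : Fin L → Cf n) (l : ℕ) : Cf n :=
  if h : l < L then σ ⟨l, h⟩ else fun _ => true

/-! ### The soft factors -/

/-- Index of the counts: a species of `J` and a tuple of sites. -/
abbrev FIdx (J : Finset Species) (n : ℕ) : Type := Σ s : {s // s ∈ J}, (Fin s.1.k → Fin n)

/-- Rates `ε n / n^k`. -/
noncomputable def frate (J : Finset Species) (n : ℕ) (ε : ℝ≥0) : FIdx J n → ℝ≥0 :=
  fun a => ε * n / (n : ℝ≥0) ^ a.1.1.k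

/-- The parameters `u_s(c)`. -/
abbrev UPar : Type := (s : Species) → s.Cfg → ℝ

/-- Energy of the soft factor `(s, e)`. -/
noncomputable def fac {J : Finset Species} {n : ℕ} (δ : ℝ) (u : UPar) (a : FIdx J n) (σ : Cf n) : ℝ :=
  Real.log (a.1.1.W (fun i => σ (a.2 i)) : ℝ) + δ * u a.1.1 (fun i => σ (a.2 i))

/-- The Hamiltonian. -/
noncomputable def Ham {J : Finset Species} {n : ℕ} (G0 : Cf n → ℝ) (δ : ℝ) (u : UPar)
    (N : FIdx J n → ℕ) (σ : Cf n) : ℝ :=
  G0 σ + ∑ a, (N a : ℝ) * fac δ u a σ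

open Classical in
/-- Number of factors of species `s`. -/
noncomputable def tot {J : Finset Species} {n : ℕ} (s : Species) (N : FIdx J n → ℕ) : ℕ :=
  if h : s ∈ J then ∑ e : Fin s.k → Fin n, N ⟨⟨s, h⟩, e⟩ else 0

open Classical in
/-- The empirical joint law, over the factors of species `s`, of the configurations `σ (ls 0), …`
(point mass at the all-true configuration if there is no factor). -/
noncomputable def emp {J : Finset Species} {n : ℕ} (N : FIdx J n → ℕ) (σ : ℕ → Cf n)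
    (s : Species) {r : ℕ} (ls : Fin r → ℕ) (c : Fin r → s.Cfg) : ℝ :=
  if h : s ∈ J ∧ 0 < tot s N then
    (∑ e : Fin s.k → Fin n, (N ⟨⟨s, h.1⟩, e⟩ : ℝ) *
      (if ∀ j, (fun i => σ (ls j) (e i)) = c j then 1 else 0)) / (tot s N : ℝ)
  else (if ∀ j, c j = fun _ => true then 1 else 0)

lemma emp_mem {J : Finset Species} {n : ℕ} (N : FIdx J n → ℕ) (σ : ℕ → Cf n)
    (s : Species) {r : ℕ} (ls : Fin r → ℕ) (c : Fin r → s.Cfg) :
    emp N σ s ls c ∈ Set.Icc (0:ℝ) 1 := by
  classical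
  unfold emp
  by_cases h : s ∈ J ∧ 0 < tot s N
  · rw [dif_pos h]
    have ht : (tot s N : ℝ) = ∑ e : Fin s.k → Fin n, (N ⟨⟨s, h.1⟩, e⟩ : ℝ) := by
      have h2 : tot s N = ∑ e : Fin s.k → Fin n, N ⟨⟨s, h.1⟩, e⟩ := dif_pos h.1
      have h3 := congrArg (fun k : ℕ => (k : ℝ)) h2
      simpa using h3
    have hpos : (0 : ℝ) < tot s N := by exact_mod_cast h.2
    have h0 : 0 ≤ ∑ e : Fin s.k → Fin n, (N ⟨⟨s, h.1⟩, e⟩ : ℝ) *
        (if ∀ j, (fun i => σ (ls j) (e i)) = c j then 1 else 0) :=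
      Finset.sum_nonneg fun e _ => mul_nonneg (Nat.cast_nonneg _) (by split_ifs <;> norm_num)
    have h1 : ∑ e : Fin s.k → Fin n, (N ⟨⟨s, h.1⟩, e⟩ : ℝ) *
        (if ∀ j, (fun i => σ (ls j) (e i)) = c j then 1 else 0) ≤ tot s N := by
      rw [ht]
      refine Finset.sum_le_sum fun e _ => ?_
      have : (0 : ℝ) ≤ (N ⟨⟨s, h.1⟩, e⟩ : ℝ) := Nat.cast_nonneg _
      split_ifs
      · simp
      · simp
    exact ⟨div_nonneg h0 hpos.le, (div_le_one hpos).2 h1⟩
  · rw [dif_neg h]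
    split_ifs
    · exact ⟨zero_le_one, le_refl _⟩
    · exact ⟨le_refl _, zero_le_one⟩

/-- The array of the finite system. -/
noncomputable def arr {J : Finset Species} {n : ℕ} (N : FIdx J n → ℕ) (σ : ℕ → Cf n) : Obs :=
  fun i => ⟨emp N σ i.1 i.2.2.1 i.2.2.2, emp_mem N σ i.1 i.2.2.1 i.2.2.2⟩

/-- A finite system. -/
structure Sys where
  n : ℕ
  L : ℕ
  J : Finset Species
  ε : ℝ≥0
  δ : ℝ
  u : UPar
  G0 : Cf n → ℝ
  hn : 1 ≤ n
  hε : 0 < ε
  hδ : 0 ≤ δ
  hδ' : δ ≤ 1 / 2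
  hu : ∀ s c, 0 ≤ u s c ∧ u s c ≤ 1

/-- Law of the counts. -/
noncomputable def Sys.Pc (S : Sys) : Measure (FIdx S.J S.n → ℕ) := Po (frate S.J S.n S.ε)

/-- `E < Ψ >` over the counts and `L` replicas. -/
noncomputable def Sys.Ex (S : Sys) (Ψ : (FIdx S.J S.n → ℕ) → (Fin S.L → Cf S.n) → ℝ) : ℝ :=
  ∫ N, gav (Ham S.G0 S.δ S.u N) (Ψ N) ∂S.Pc

/-- The law of the array of the finite system. -/
noncomputable def Sys.law (S : Sys) : Measure Obs :=
  (S.Pc.bind (fun N => ∑ σ : Fin S.L → Cf S.n,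
    ENNReal.ofReal (∏ l, gibbs (Ham S.G0 S.δ S.u N) (σ l)) • Measure.dirac (arr N (extR σ))))

/-- The total rate of a species, `Λ = ε n`. -/
noncomputable def Sys.Λ (S : Sys) : ℝ := S.ε * S.n

lemma gibbs_nonneg' {n : ℕ} (H : Cf n → ℝ) (σ : Cf n) : 0 ≤ gibbs H σ := by
  unfold gibbs
  exact div_nonneg (Real.exp_pos _).le (Finset.sum_nonneg fun _ _ => (Real.exp_pos _).le)

lemma sum_gibbs' {n : ℕ} (H : Cf n → ℝ) : ∑ σ, gibbs H σ = 1 := by
  unfold gibbs
  rw [← Finset.sum_div]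
  exact div_self (Finset.sum_pos (fun _ _ => Real.exp_pos _) Finset.univ_nonempty).ne'

lemma sum_prod_gibbs' {n L : ℕ} (H : Cf n → ℝ) :
    ∑ σ : Fin L → Cf n, ∏ l, gibbs H (σ l) = 1 := by
  classical
  have h := Finset.prod_univ_sum (fun _ : Fin L => (Finset.univ : Finset (Cf n)))
    (fun _ σ => gibbs H σ)
  rw [Fintype.piFinset_univ] at h
  rw [← h]
  simp [sum_gibbs' H]

/-- The law of the array given the counts. -/
noncomputable def Sys.ker (S : Sys) (N : FIdx S.J S.n → ℕ) : Measure Obs :=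
  ∑ σ : Fin S.L → Cf S.n,
    ENNReal.ofReal (∏ l, gibbs (Ham S.G0 S.δ S.u N) (σ l)) • Measure.dirac (arr N (extR σ))

lemma Sys.ker_prob (S : Sys) (N : FIdx S.J S.n → ℕ) : IsProbabilityMeasure (S.ker N) := by
  constructor
  unfold Sys.ker
  rw [Measure.finsetSum_apply]
  simp only [Measure.smul_apply, measure_univ, smul_eq_mul, mul_one]
  rw [← ENNReal.ofReal_sum_of_nonneg (fun σ _ => Finset.prod_nonneg fun l _ => gibbs_nonneg' _ _),
    sum_prod_gibbs', ENNReal.ofReal_one]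

/-- `S.law` is a probability measure and its integrals are `Ex` of the pulled back functions. -/
theorem Sys.law_prob (S : Sys) : IsProbabilityMeasure S.law := by
  have : IsProbabilityMeasure S.Pc := by unfold Sys.Pc; infer_instance
  exact isProbabilityMeasure_bind (Measurable.of_discrete (f := S.ker)).aemeasurable
    (Filter.Eventually.of_forall fun N => S.ker_prob N)

theorem Sys.integral_law (S : Sys) (Φ : Obs → ℝ) (hΦ : Measurable Φ) (hb : ∃ C, ∀ x, |Φ x| ≤ C) :
    ∫ x, Φ x ∂S.law = S.Ex (fun N σ => Φ (arr N (extR σ))) := by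
  obtain ⟨C, hC⟩ := hb
  have hP := S.law_prob
  have hint : ∀ (μ : Measure Obs) [IsFiniteMeasure μ], Integrable Φ μ := by
    intro μ _
    exact Integrable.of_bound hΦ.aestronglyMeasurable C
      (Filter.Eventually.of_forall fun x => by rw [Real.norm_eq_abs]; exact hC x)
  let κ : Kernel (FIdx S.J S.n → ℕ) Obs := ⟨S.ker, Measurable.of_discrete⟩
  have hk : ∀ N, κ N = S.ker N := fun N => rfl
  have e : S.law = (κ ∘ₖ Kernel.const Unit S.Pc) () := by
    rw [Kernel.comp_apply, Kernel.const_apply]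
    rfl
  have h1 := Kernel.integral_comp (η := κ) (κ := Kernel.const Unit S.Pc) (a := ()) (f := Φ)
    (by rw [← e]; exact hint _)
  rw [e, h1, Kernel.const_apply]
  unfold Sys.Ex
  refine integral_congr_ae (Filter.Eventually.of_forall fun N => ?_)
  simp only [hk]
  unfold Sys.ker gav
  rw [integral_finsetSum_measure]
  · refine Finset.sum_congr rfl fun σ _ => ?_
    rw [integral_smul_measure, integral_dirac' _ _ hΦ.stronglyMeasurable, smul_eq_mul,
      ENNReal.toReal_ofReal (Finset.prod_nonneg fun l _ => gibbs_nonneg' _ _)]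
  · intro σ _
    exact (hint (Measure.dirac _)).smul_measure ENNReal.ofReal_ne_top

end Crest.Agent.MP
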