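import Crest.Agent.MP.FPois
import Crest.Agent.MP.FSys

/-!
# Module F4 (Aizenman-Sims-Starr + selection), definitions

`n` spins.  The true model: interactions with independent Poisson counts indexed by
`TIdx μ n = μ.ι × (Fin p → Fin n)`, fields `h : Fin n → ν.ι`.
-/

set_option autoImplicit false

namespace Crest.Agent.MP.FA
open MeasureTheory ProbabilityTheory Filter Topology
open Crest.ProbabilityR.Diluted
open scoped NNReal

/-- Uniform average over the tuples `Lab → Fin n`. -/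
noncomputable def avgI (Lab : Type) [Fintype Lab] [DecidableEq Lab] (n : ℕ)
    (f : (Lab → Fin n) → ℝ) : ℝ :=
  (∑ e : Lab → Fin n, f e) / (n : ℝ) ^ (Fintype.card Lab)

/-- `avg_e E_N log <ψ(σ ∘ e)>`. -/
noncomputable def LE {n : ℕ} (J : Finset Species) (ε : ℝ≥0) (δ : ℝ) (u : UPar) (G0 : Cf n → ℝ)
    (Lab : Type) [Fintype Lab] [DecidableEq Lab] (ψ : (Lab → Bool) → ℝ) : ℝ :=
  avgI Lab n (fun e => ∫ N, Real.log (gav1 (Ham (J := J) G0 δ u N) (fun σ => ψ (fun l => σ (e l))))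
    ∂(Po (frate J n ε)))

/-- The functional of the finite system (cf. `Afun`). -/
noncomputable def AAf (p : ℕ) (α : ℝ) (μ : FinLaw (Inter p)) (ν : FinLaw ℝ) (J : Finset Species)
    (ε : ℝ≥0) (δ : ℝ) (u : UPar) {n : ℕ} (G0 : Cf n → ℝ) : ℝ :=
  Real.log 2 +
    (∑' k : ℕ, poissonWeight (α * p) k *
      μ.Epow k (fun θs => ν.E (fun h =>
        siteC h θs + LE J ε δ u G0 (Fin k × Fin (p - 1)) (siteψ h θs)))) -
    α * (p - 1 : ℝ) * μ.E (fun θ => supNorm θ + LE J ε δ u G0 (Fin p) (edgeψ θ))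

/-- Log-partition function. -/
noncomputable def logZ {n : ℕ} (H : Cf n → ℝ) : ℝ := Real.log (∑ σ : Cf n, Real.exp (H σ))

/-- `1`-Lipschitz functionals of the Hamiltonian (sup norm). -/
def LipH {n : ℕ} (Ψ : (Cf n → ℝ) → ℝ) : Prop :=
  ∀ (H φ : Cf n → ℝ) (c : ℝ), (∀ σ, |φ σ| ≤ c) → |Ψ (fun σ => H σ + φ σ) - Ψ H| ≤ c

/-- Expectation over the soft factors. -/
noncomputable def softE {n : ℕ} (J : Finset Species) (ε : ℝ≥0) (δ : ℝ) (u : UPar)
    (Ψ : (Cf n → ℝ) → ℝ) (G : Cf n → ℝ) : ℝ :=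
  ∫ N, Ψ (Ham (J := J) G δ u N) ∂(Po (frate J n ε))

/-- Indices of the true interactions. -/
abbrev TIdx {p : ℕ} (μ : FinLaw (Inter p)) (n : ℕ) : Type := μ.ι × (Fin p → Fin n)

/-- Weights as nonnegative reals. -/
noncomputable def _root_.Crest.Agent.MP.FinLaw.wn {E : Type} (μ : FinLaw E) (i : μ.ι) : ℝ≥0 := ⟨μ.w i, μ.w_nonneg i⟩

/-- The probabilities `w_t / n^p` of the interaction indices. -/
noncomputable def tq {p : ℕ} (μ : FinLaw (Inter p)) (n : ℕ) (a : TIdx μ n) : ℝ≥0 :=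
  μ.wn a.1 / (n : ℝ≥0) ^ p

/-- Energy of an interaction. -/
noncomputable def tfac {p : ℕ} {μ : FinLaw (Inter p)} {n : ℕ} (a : TIdx μ n) (σ : Cf n) : ℝ :=
  μ.x a.1 (fun i => σ (a.2 i))

/-- Hamiltonian with interaction counts `N`. -/
noncomputable def tHam {p : ℕ} (μ : FinLaw (Inter p)) {n : ℕ} (G : Cf n → ℝ) (N : TIdx μ n → ℕ)
    (σ : Cf n) : ℝ :=
  G σ + ∑ a, (N a : ℝ) * tfac a σ

/-- Expectation over the true interactions with total rate `Λ`. -/
noncomputable def trueE {p : ℕ} (μ : FinLaw (Inter p)) {n : ℕ} (Λ : ℝ≥0) (Ψ : (Cf n → ℝ) → ℝ)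
    (G : Cf n → ℝ) : ℝ :=
  ∫ N, Ψ (tHam μ G N) ∂(Po (fun a => Λ * tq μ n a))

/-- Field Hamiltonian. -/
noncomputable def fHam (ν : FinLaw ℝ) {n : ℕ} (h : Fin n → ν.ι) (σ : Cf n) : ℝ :=
  ∑ i, ν.x (h i) * spinVal (σ i)

/-- Expectation over the fields. -/
noncomputable def Efld (ν : FinLaw ℝ) (n : ℕ) (f : (Fin n → ν.ι) → ℝ) : ℝ :=
  ∑ h : Fin n → ν.ι, (∏ i, ν.w (h i)) * f h

/-- `a_n(u) = E log Z_n(u)`. -/
noncomputable def aN (p : ℕ) (α : ℝ≥0) (μ : FinLaw (Inter p)) (ν : FinLaw ℝ) (J : Finset Species)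
    (ε : ℝ≥0) (δ : ℝ) (n : ℕ) (u : UPar) : ℝ :=
  Efld ν n (fun h => trueE μ (α * n) (softE J ε δ u logZ) (fHam ν h))

/-- Rate of the common part of the systems with `n` and `n + 1` spins:
`λ_c = α (n+1) (n/(n+1))^p`. -/
noncomputable def lamC (p : ℕ) (α : ℝ≥0) (n : ℕ) : ℝ≥0 :=
  α * (n + 1) * ((n : ℝ≥0) / (n + 1)) ^ p

/-- Expectation over the common Hamiltonian `G0`. -/
noncomputable def E0 (p : ℕ) (α : ℝ≥0) (μ : FinLaw (Inter p)) (ν : FinLaw ℝ) (n : ℕ)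
    (Ψ : (Cf n → ℝ) → ℝ) : ℝ :=
  Efld ν n (fun h => trueE μ (lamC p α n) Ψ (fHam ν h))

/-- Bound for the soft factors (for `0 ≤ δ ≤ 1`, `0 ≤ u ≤ 1`). -/
noncomputable def cJ (J : Finset Species) : ℝ :=
  (∑ s ∈ J, ∑ c : s.Cfg, |Real.log (s.W c : ℝ)|) + 1

/-- Bound for the interactions. -/
noncomputable def cM {p : ℕ} (μ : FinLaw (Inter p)) : ℝ := ∑ t, supNorm (μ.x t)

/-- Admissible parameters. -/
def UOk (u : UPar) : Prop := ∀ s c, 0 ≤ u s c ∧ u s c ≤ 1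

/-- Symmetry of an interaction law. -/
def _root_.Crest.Agent.MP.FinLaw.Symm {p : ℕ} (μ : FinLaw (Inter p)) : Prop :=
  ∀ (π : Equiv.Perm (Fin p)) (f : Inter p → ℝ),
    μ.E (fun θ => f (fun c => θ (fun i => c (π i)))) = μ.E f

/-- Parameter indices. -/
abbrev UIx (J : Finset Species) : Type := Σ s : {s // s ∈ J}, s.1.Cfg

open Classical in
/-- Extend by `0`. -/
noncomputable def toU {J : Finset Species} (v : UIx J → unitInterval) : UPar :=
  fun s c => if h : s ∈ J then (v ⟨⟨s, h⟩, c⟩ : ℝ) else 0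

/-! ### The new spin -/

/-- Configurations of `n + 1` spins restricted to the first `n`. -/
def ini {n : ℕ} (τ : Cf (n + 1)) : Cf n := fun i => τ i.castSucc

/-- The last position of a `p`-tuple. -/
def lastp {p : ℕ} (ℓ : Fin p) : Fin p := ⟨p - 1, by have := ℓ.isLt; omega⟩

/-- The tuple `(i', n+1)`: the last coordinate is the new spin. -/
def bt {p n : ℕ} (i' : Fin (p - 1) → Fin n) (j : Fin p) : Fin (n + 1) :=
  if h : j.val < p - 1 then (i' ⟨j.val, h⟩).castSucc else Fin.last n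

/-- Indices of the interactions containing the new spin exactly once: interaction, the other
spins, the position of the new spin. -/
abbrev SIdx {p : ℕ} (μ : FinLaw (Inter p)) (n : ℕ) : Type :=
  μ.ι × (Fin (p - 1) → Fin n) × Fin p

/-- The corresponding index in the system with `n + 1` spins. -/
def sIdxT {p : ℕ} {μ : FinLaw (Inter p)} {n : ℕ} (b : SIdx μ n) : TIdx μ (n + 1) :=
  (b.1, fun j => bt b.2.1 (Equiv.swap b.2.2 (lastp b.2.2) j))

/-- The interactions not containing the new spin. -/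
def cIdxT {p : ℕ} {μ : FinLaw (Inter p)} {n : ℕ} (a : TIdx μ n) : TIdx μ (n + 1) :=
  (a.1, fun j => (a.2 j).castSucc)

/-- Limit rate `α w_t / n^(p-1)` of the interactions containing the new spin once. -/
noncomputable def srate {p : ℕ} (α : ℝ≥0) (μ : FinLaw (Inter p)) (n : ℕ) (b : SIdx μ n) : ℝ≥0 :=
  α * (μ.wn b.1 / (n : ℝ≥0) ^ (p - 1))

end Crest.Agent.MP.FA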