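import Crest.Agent.MP.FAsBd
import Crest.Agent.MP.FAsTools

/-!
# Module F4: exchange of the soft average with the Poisson sum
-/

set_option autoImplicit false

namespace Crest.Agent.MP.FA
open MeasureTheory ProbabilityTheory Filter Topology
open Crest.ProbabilityR.Diluted
open scoped NNReal

namespace FAsExchAux

private lemma pw_nonneg {lam : ℝ} (h : 0 ≤ lam) (n : ℕ) : 0 ≤ poissonWeight lam n := by
  unfold poissonWeight
  positivity

private lemma pw_hasSum (lam : ℝ) : HasSum (poissonWeight lam) 1 := by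
  have h := (NormedSpace.expSeries_div_hasSum_exp lam).mul_left (Real.exp (-lam))
  rw [← Real.exp_eq_exp_ℝ, ← Real.exp_add, neg_add_cancel, Real.exp_zero] at h
  have h2 : poissonWeight lam = fun n => Real.exp (-lam) * (lam ^ n / (n.factorial : ℝ)) := by
    funext n
    unfold poissonWeight
    ring
  rw [h2]
  exact h

private lemma pw_mean (lam : ℝ) : HasSum (fun n : ℕ => poissonWeight lam n * n) lam := by
  have h1 := (pw_hasSum lam).mul_left lam
  rw [mul_one] at h1
  have h2 : (fun n : ℕ => lam * poissonWeight lam n) =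
      fun n : ℕ => poissonWeight lam (n + 1) * ((n + 1 : ℕ) : ℝ) := by
    funext n
    unfold poissonWeight
    rw [Nat.factorial_succ]
    have : ((n.factorial : ℕ) : ℝ) ≠ 0 := by exact_mod_cast (Nat.factorial_pos n).ne'
    push_cast
    have h3 : ((n : ℝ) + 1) ≠ 0 := by positivity
    field_simp
    ring
  rw [h2] at h1
  rw [← hasSum_nat_add_iff' (f := fun n : ℕ => poissonWeight lam n * n) 1]
  simpa using h1

private lemma sum_prod_w {E : Type} (μ : FinLaw E) (k : ℕ) :
    ∑ j : Fin k → μ.ι, ∏ a, μ.w (j a) = 1 := by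
  classical
  have h := Finset.prod_univ_sum (fun _ : Fin k => (Finset.univ : Finset μ.ι))
    (fun _ σ => μ.w σ)
  rw [Fintype.piFinset_univ] at h
  rw [← h]
  simp [μ.w_sum]

private lemma abs_Epow_le {E : Type} (μ : FinLaw E) (k : ℕ) (f : (Fin k → E) → ℝ) {c : ℝ}
    (h : ∀ j : Fin k → μ.ι, |f (fun a => μ.x (j a))| ≤ c) : |μ.Epow k f| ≤ c := by
  unfold FinLaw.Epow
  calc |∑ j : Fin k → μ.ι, (∏ a, μ.w (j a)) * f (fun a => μ.x (j a))|
      ≤ ∑ j : Fin k → μ.ι, |(∏ a, μ.w (j a)) * f (fun a => μ.x (j a))| :=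
        Finset.abs_sum_le_sum_abs _ _
    _ ≤ ∑ j : Fin k → μ.ι, (∏ a, μ.w (j a)) * c := by
        refine Finset.sum_le_sum fun j _ => ?_
        have h0 : 0 ≤ ∏ a, μ.w (j a) := Finset.prod_nonneg fun a _ => μ.w_nonneg _
        rw [abs_mul, abs_of_nonneg h0]
        exact mul_le_mul_of_nonneg_left (h j) h0
    _ = c := by rw [← Finset.sum_mul, sum_prod_w, one_mul]

private lemma supNorm_nonneg' {p : ℕ} (θ : Inter p) : 0 ≤ supNorm θ :=
  Real.iSup_nonneg fun _ => abs_nonneg _

private lemma supNorm_le_cM {p : ℕ} (μ : FinLaw (Inter p)) (t : μ.ι) :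
    supNorm (μ.x t) ≤ cM μ := by
  unfold cM
  exact Finset.single_le_sum (f := fun t => supNorm (μ.x t)) (fun i _ => supNorm_nonneg' _)
    (Finset.mem_univ t)

private lemma siteC_le {p : ℕ} (μ : FinLaw (Inter p)) {k : ℕ} (h : ℝ) (j : Fin k → μ.ι) :
    siteC h (fun a => μ.x (j a)) ≤ |h| + k * cM μ := by
  unfold siteC
  have : ∑ a : Fin k, supNorm (μ.x (j a)) ≤ ∑ _a : Fin k, cM μ :=
    Finset.sum_le_sum fun a _ => supNorm_le_cM μ _
  simp only [Finset.sum_const, Finset.card_univ, Fintype.card_fin, nsmul_eq_mul] at this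
  linarith

end FAsExchAux

open FAsExchAux

/-- Exchange of the expectation over the soft factors (and the new field) with the Poisson sum.
For `G = Ham G0 δ u N` the term of order `k` is bounded by `μ.Epow k (ν.E siteC) ≤ C (k+1)`
(`siteC + log <siteψ> ∈ [-siteC, siteC]`), `Σ_k poissonWeight (αp) k · C (k+1) < ∞`;
`integral_tsum_of_summable_integral_norm` (or `hasSum_integral_of_summable_integral_norm`). -/
theorem siteF_eq (p : ℕ) (α : ℝ≥0) (μ : FinLaw (Inter p)) (ν : FinLaw ℝ) (J : Finset Species)
    (ε : ℝ≥0) (δ : ℝ) (u : UPar) {n : ℕ} (hn : 1 ≤ n) (G0 : Cf n → ℝ) :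
    ∑ i, ν.w i * ∫ N, (∑' k : ℕ, poissonWeight (α * p) k *
        μ.Epow k (fun θs => siteC (ν.x i) θs + avgI (Fin k × Fin (p - 1)) n
          (fun e => Real.log (gav1 (Ham (J := J) G0 δ u N)
            (fun σ => siteψ (ν.x i) θs (fun l => σ (e l))))))) ∂(Po (frate J n ε)) =
      siteF p α μ ν J ε δ u G0 := by
  classical
  set P := Po (frate J n ε) with hP
  set g : ν.ι → ℕ → (FIdx J n → ℕ) → ℝ := fun i k N =>
    μ.Epow k (fun θs => siteC (ν.x i) θs + avgI (Fin k × Fin (p - 1)) n
          (fun e => Real.log (gav1 (Ham (J := J) G0 δ u N)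
            (fun σ => siteψ (ν.x i) θs (fun l => σ (e l)))))) with hg
  set h : ν.ι → ℕ → ℝ := fun i k =>
    μ.Epow k (fun θs => siteC (ν.x i) θs + LE J ε δ u G0 (Fin k × Fin (p - 1))
      (siteψ (ν.x i) θs)) with hh
  have hpos : (0 : ℝ) ≤ (α : ℝ) * p := by positivity
  have hC0 : ∀ (i : ν.ι) (k : ℕ), 0 ≤ |ν.x i| + k * cM μ := fun i k => by
    have := cM_nonneg μ
    positivity
  have hlog : ∀ (H : Cf n → ℝ) (i : ν.ι) (k : ℕ) (θs : Fin k → Inter p)
      (e : Fin k × Fin (p - 1) → Fin n),
      -(2 * siteC (ν.x i) θs) ≤ Real.log (gav1 H (fun σ => siteψ (ν.x i) θs (fun l => σ (e l)))) ∧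
        Real.log (gav1 H (fun σ => siteψ (ν.x i) θs (fun l => σ (e l)))) ≤ 0 := by
    intro H i k θs e
    have := log_gav1_bounds H (fun σ => siteψ (ν.x i) θs (fun l => σ (e l)))
      (Real.exp_pos (-(2 * siteC (ν.x i) θs))) (fun σ => (siteψ_bounds _ _ _).1)
      (fun σ => (siteψ_bounds _ _ _).2)
    rwa [Real.log_exp] at this
  have hgb : ∀ i k N, |g i k N| ≤ |ν.x i| + k * cM μ := by
    intro i k N
    refine abs_Epow_le μ k _ fun j => ?_
    have h1 := avgI_bounds (Fin k × Fin (p - 1)) hn
      (fun e => Real.log (gav1 (Ham (J := J) G0 δ u N)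
        (fun σ => siteψ (ν.x i) (fun a => μ.x (j a)) (fun l => σ (e l)))))
      (fun e => hlog _ i k _ e)
    have h2 := siteC_le μ (ν.x i) j
    rw [abs_le]
    constructor <;> linarith [h1.1, h1.2]
  have hLEint : ∀ (i : ν.ι) (k : ℕ) (θs : Fin k → Inter p) (e : Fin k × Fin (p - 1) → Fin n),
      Integrable (fun N => Real.log (gav1 (Ham (J := J) G0 δ u N)
        (fun σ => siteψ (ν.x i) θs (fun l => σ (e l))))) P := by
    intro i k θs e
    refine Integrable.of_bound (Measurable.of_discrete).aestronglyMeasurable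
      (2 * |siteC (ν.x i) θs|) (Filter.Eventually.of_forall fun N => ?_)
    have := hlog (Ham (J := J) G0 δ u N) i k θs e
    rw [Real.norm_eq_abs, abs_le]
    have h3 := le_abs_self (siteC (ν.x i) θs)
    have h4 := abs_nonneg (siteC (ν.x i) θs)
    constructor <;> linarith [this.1, this.2]
  have hint : ∀ i k, Integrable (g i k) P := fun i k =>
    Integrable.of_bound (Measurable.of_discrete).aestronglyMeasurable (|ν.x i| + k * cM μ)
      (Filter.Eventually.of_forall fun N => by rw [Real.norm_eq_abs]; exact hgb i k N)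
  have hgh : ∀ i k, ∫ N, g i k N ∂P = h i k := by
    intro i k
    simp only [hg, hh]
    unfold FinLaw.Epow LE avgI
    rw [integral_finsetSum]
    · refine Finset.sum_congr rfl fun j _ => ?_
      rw [integral_const_mul]
      congr 1
      rw [integral_add (integrable_const _)
        ((integrable_finsetSum _ fun e _ => hLEint i k _ e).div_const _)]
      rw [integral_const, integral_div, integral_finsetSum _ (fun e _ => hLEint i k _ e)]
      simp [P]
    · intro j _
      refine Integrable.const_mul ?_ _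
      exact (integrable_const _).add
        ((integrable_finsetSum _ fun e _ => hLEint i k _ e).div_const _)
  have hhb : ∀ i k, |h i k| ≤ |ν.x i| + k * cM μ := by
    intro i k
    rw [← hgh, ← Real.norm_eq_abs]
    refine (norm_integral_le_of_norm_le_const (C := |ν.x i| + k * cM μ)
      (Filter.Eventually.of_forall fun N => by rw [Real.norm_eq_abs]; exact hgb i k N)).trans ?_
    simp [P]
  have hsum : ∀ i : ν.ι, Summable (fun k : ℕ => poissonWeight (α * p) k * (|ν.x i| + k * cM μ)) := by
    intro i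
    have h1 := ((pw_hasSum ((α : ℝ) * p)).mul_right |ν.x i|).summable
    have h2 := ((pw_mean ((α : ℝ) * p)).mul_right (cM μ)).summable
    refine (h1.add h2).congr fun k => ?_
    ring
  have key : ∀ i, ∫ N, (∑' k : ℕ, poissonWeight (α * p) k * g i k N) ∂P =
      ∑' k : ℕ, poissonWeight (α * p) k * h i k := by
    intro i
    have h1 := hasSum_integral_of_summable_integral_norm (μ := P)
      (F := fun (k : ℕ) N => poissonWeight (α * p) k * g i k N)
      (fun k => (hint i k).const_mul _) ?_
    · rw [← h1.tsum_eq]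
      refine tsum_congr fun k => ?_
      rw [integral_const_mul, hgh]
    · refine Summable.of_nonneg_of_le (fun k => integral_nonneg fun N => norm_nonneg _)
        (fun k => ?_) (hsum i)
      calc ∫ N, ‖poissonWeight (α * p) k * g i k N‖ ∂P
          ≤ ∫ _N, poissonWeight (α * p) k * (|ν.x i| + k * cM μ) ∂P := by
            refine integral_mono ((hint i k).const_mul _).norm (integrable_const _) fun N => ?_
            simp only
            rw [norm_mul, Real.norm_of_nonneg (pw_nonneg hpos k), Real.norm_eq_abs]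
            exact mul_le_mul_of_nonneg_left (hgb i k N) (pw_nonneg hpos k)
        _ = _ := by simp [P]
  have hsumh : ∀ i, Summable (fun k : ℕ => poissonWeight (α * p) k * h i k) := by
    intro i
    refine Summable.of_norm_bounded (hsum i) fun k => ?_
    rw [norm_mul, Real.norm_of_nonneg (pw_nonneg hpos k), Real.norm_eq_abs]
    exact mul_le_mul_of_nonneg_left (hhb i k) (pw_nonneg hpos k)
  have hL : ∀ i, ν.w i * ∫ N, (∑' k : ℕ, poissonWeight (α * p) k * g i k N) ∂P =
      ∑' k : ℕ, ν.w i * (poissonWeight (α * p) k * h i k) := fun i => by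
    rw [key, tsum_mul_left]
  calc ∑ i, ν.w i * ∫ N, (∑' k : ℕ, poissonWeight (α * p) k * g i k N) ∂P
      = ∑ i, ∑' k : ℕ, ν.w i * (poissonWeight (α * p) k * h i k) :=
        Finset.sum_congr rfl fun i _ => hL i
    _ = ∑' k : ℕ, ∑ i, ν.w i * (poissonWeight (α * p) k * h i k) :=
        (Summable.tsum_finsetSum fun i _ => (hsumh i).mul_left _).symm
    _ = siteF p α μ ν J ε δ u G0 := by
        unfold siteF
        refine tsum_congr fun k => ?_
        have h1 : μ.Epow k (fun θs => ν.E (fun h =>
            siteC h θs + LE J ε δ u G0 (Fin k × Fin (p - 1)) (siteψ h θs))) =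
            ∑ i, ν.w i * h i k := by
          simp only [hh]
          unfold FinLaw.Epow FinLaw.E
          simp only [Finset.mul_sum]
          rw [Finset.sum_comm]
          refine Finset.sum_congr rfl fun i _ => Finset.sum_congr rfl fun j _ => ?_
          ring
        rw [h1, Finset.mul_sum]
        refine Finset.sum_congr rfl fun i _ => ?_
        ring

end Crest.Agent.MP.FA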