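import Crest.Agent.MP.FPoisAll

/-!
# Module F4: linear response of Poisson expectations
-/

set_option autoImplicit false

namespace Crest.Agent.MP.FA
open MeasureTheory ProbabilityTheory Filter Topology
open scoped NNReal

variable {I : Type} [Fintype I]

/-- The averaging operator `(A F)(N) = Σ_a q_a F(N + 1_a)`. -/
noncomputable def Aop (q : I → ℝ≥0) (F : (I → ℕ) → ℝ) (N : I → ℕ) : ℝ :=
  ∑ a, (q a : ℝ) * F (bump N a)

omit [Fintype I] in
theorem fasr_add_bump (N N' : I → ℕ) (a : I) : N + bump N' a = bump (N + N') a := by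
  funext i
  simp [bump, add_assoc]

/-- `Σ_{t ∈ I^M} Π q_{t_j} F(N + cnt t) = (A^M F)(N)` (induction on `M`, `Fin.cons`). -/
theorem sum_cntOf_eq (q : I → ℝ≥0) (F : (I → ℕ) → ℝ) (M : ℕ) (N : I → ℕ) :
    ∑ t : Fin M → I, (∏ j, (q (t j) : ℝ)) * F (N + cntOf t) = ((Aop q)^[M] F) N := by
  induction M generalizing F with
  | zero =>
    rw [Fintype.sum_unique]
    have h : cntOf (default : Fin 0 → I) = 0 := by
      funext i
      simp [cntOf]
    rw [h]
    simp
  | succ M ih =>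
    rw [Function.iterate_succ_apply, ← ih (Aop q F)]
    have h1 : ∑ t : Fin (M + 1) → I, (∏ j, (q (t j) : ℝ)) * F (N + cntOf t) =
        ∑ x : I × (Fin M → I), (∏ j, (q ((Fin.cons x.1 x.2 : Fin (M + 1) → I) j) : ℝ)) *
          F (N + cntOf (Fin.cons x.1 x.2 : Fin (M + 1) → I)) :=
      (Fintype.sum_equiv (Fin.consEquiv (fun _ : Fin (M + 1) => I)) _ _ (fun x => rfl)).symm
    rw [h1, Fintype.sum_prod_type, Finset.sum_comm]
    refine Finset.sum_congr rfl fun t _ => ?_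
    unfold Aop
    rw [Finset.mul_sum]
    refine Finset.sum_congr rfl fun a _ => ?_
    simp only [fpe_cntOf_cons, Fin.prod_univ_succ, Fin.cons_zero, Fin.cons_succ, fasr_add_bump]
    ring

theorem Aop_bound {q : I → ℝ≥0} (hq : ∑ a, q a = 1) {G : (I → ℕ) → ℝ} {K : ℝ}
    (hG : ∀ N, |G N| ≤ K) (N : I → ℕ) : |Aop q G N| ≤ K := by
  have hq' : ∑ a, (q a : ℝ) = 1 := by exact_mod_cast hq
  unfold Aop
  calc |∑ a, (q a : ℝ) * G (bump N a)| ≤ ∑ a, |(q a : ℝ) * G (bump N a)| :=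
        Finset.abs_sum_le_sum_abs _ _
    _ ≤ ∑ a, (q a : ℝ) * K := by
        refine Finset.sum_le_sum fun a _ => ?_
        rw [abs_mul, NNReal.abs_eq]
        exact mul_le_mul_of_nonneg_left (hG _) (q a).2
    _ = K := by rw [← Finset.sum_mul, hq', one_mul]

theorem Aop_iter_bound {q : I → ℝ≥0} (hq : ∑ a, q a = 1) {G : (I → ℕ) → ℝ} {K : ℝ}
    (hG : ∀ N, |G N| ≤ K) (j : ℕ) : ∀ N : I → ℕ, |((Aop q)^[j] G) N| ≤ K := by
  induction j with
  | zero => exact hG
  | succ j ih =>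
    intro N
    rw [Function.iterate_succ_apply']
    exact Aop_bound hq ih N

theorem Aop_sub (q : I → ℝ≥0) (f h : (I → ℕ) → ℝ) :
    Aop q (fun N => f N - h N) = fun N => Aop q f N - Aop q h N := by
  funext N
  unfold Aop
  rw [← Finset.sum_sub_distrib]
  exact Finset.sum_congr rfl fun a _ => by ring

theorem Aop_iter_sub (q : I → ℝ≥0) (f h : (I → ℕ) → ℝ) (j : ℕ) :
    (Aop q)^[j] (fun N => f N - h N) = fun N => ((Aop q)^[j] f) N - ((Aop q)^[j] h) N := by
  induction j with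
  | zero => rfl
  | succ j ih =>
    rw [Function.iterate_succ_apply', ih, Aop_sub, Function.iterate_succ_apply',
      Function.iterate_succ_apply']

/-- One more random factor, bounded function: `tv_bump` with `S = univ`, `lam = Λ q`, divided
by `Λ`. -/
theorem Aop_integral (q : I → ℝ≥0) (hq : ∑ a, q a = 1) {Λ : ℝ≥0} (hΛ : 0 < Λ)
    {G : (I → ℕ) → ℝ} {K : ℝ} (hG : ∀ N, |G N| ≤ K) :
    |(∫ N, Aop q G N ∂(Po (fun a => Λ * q a))) - ∫ N, G N ∂(Po (fun a => Λ * q a))| ≤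
      K / Real.sqrt Λ := by
  have hq' : ∑ a, (q a : ℝ) = 1 := by exact_mod_cast hq
  have hΛ' : (0 : ℝ) < Λ := by exact_mod_cast hΛ
  have h := tv_bump (fun a => Λ * q a) Finset.univ hG
  have e1 : ∑ i, (((Λ * q i : ℝ≥0)) : ℝ) = Λ := by
    push_cast
    rw [← Finset.mul_sum, hq', mul_one]
  have e2 : ∫ N, Aop q G N ∂(Po (fun a => Λ * q a)) =
      ∑ a, (q a : ℝ) * ∫ N, G (bump N a) ∂(Po (fun a => Λ * q a)) := by
    unfold Aop
    rw [integral_finsetSum]
    · exact Finset.sum_congr rfl fun a _ => integral_const_mul _ _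
    · intro a _
      exact (integrable_linG _ (LinG.of_bounded fun N => hG (bump N a))).const_mul _
  rw [e1] at h
  have e3 : ∑ i, (((Λ * q i : ℝ≥0)) : ℝ) * ∫ N, G (bump N i) ∂(Po (fun a => Λ * q a)) =
      Λ * ∫ N, Aop q G N ∂(Po (fun a => Λ * q a)) := by
    rw [e2, Finset.mul_sum]
    exact Finset.sum_congr rfl fun a _ => by push_cast; ring
  rw [e3, ← mul_sub, abs_mul, abs_of_pos hΛ'] at h
  have hs : 0 < Real.sqrt Λ := Real.sqrt_pos.2 hΛ'
  rw [le_div_iff₀ hs]
  have h2 : (Λ : ℝ) = Real.sqrt Λ * Real.sqrt Λ := (Real.mul_self_sqrt hΛ'.le).symm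
  have h3 : Real.sqrt Λ * (Real.sqrt Λ * |(∫ N, Aop q G N ∂(Po (fun a => Λ * q a))) -
      ∫ N, G N ∂(Po (fun a => Λ * q a))|) ≤ Real.sqrt Λ * K := by
    calc _ = (Λ : ℝ) * |(∫ N, Aop q G N ∂(Po (fun a => Λ * q a))) -
      ∫ N, G N ∂(Po (fun a => Λ * q a))| := by rw [← mul_assoc, ← h2]
      _ ≤ K * Real.sqrt Λ := h
      _ = _ := mul_comm _ _
  have h4 := le_of_mul_le_mul_left h3 hs
  linarith

/-- LINEAR RESPONSE.  PROOF. `g := A F - F`, `|g| ≤ K`, so `|A^j g| ≤ K` and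
`|E A^j g - E g| ≤ j K / √Λ` (`Aop_integral`, induction), `A^M F - F = Σ_{j<M} A^j g`;
`superposition` (`(Λ + τ) q = Λ q + τ q`), Fubini, `thinning` for the inner expectation and
`sum_cntOf_eq`: `E F(N + N') = Σ_M Pois_τ(M) E (A^M F)(N)`; `Σ_M Pois_τ(M) M = τ`,
`Σ_M Pois_τ(M) M (M-1)/2 = τ²/2`. -/
theorem response (q : I → ℝ≥0) (hq : ∑ a, q a = 1) (Λ τ : ℝ≥0) (hΛ : 0 < Λ)
    {F : (I → ℕ) → ℝ} {K : ℝ} (hF : ∀ N a, |F (bump N a) - F N| ≤ K) :
    ∫ N, F N ∂(Po (fun a => (Λ + τ) * q a)) ≤ (∫ N, F N ∂(Po (fun a => Λ * q a))) +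
      τ * (∑ a, (q a : ℝ) * ∫ N, (F (bump N a) - F N) ∂(Po (fun a => Λ * q a))) +
      K * (τ : ℝ) ^ 2 / Real.sqrt Λ := by
  have hq' : ∑ a, (q a : ℝ) = 1 := by exact_mod_cast hq
  have hΛ' : (0 : ℝ) < Λ := by exact_mod_cast hΛ
  have hs : 0 < Real.sqrt Λ := Real.sqrt_pos.2 hΛ'
  have hne : Nonempty I := by
    by_contra h
    rw [not_nonempty_iff] at h
    simp at hq
  have hK : 0 ≤ K := (abs_nonneg _).trans (hF 0 hne.some)
  have hFl : LinG F := linG_of_lip (L := fun _ => K) hF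
  set P := Po (fun a => Λ * q a) with hP
  set g : (I → ℕ) → ℝ := fun N => Aop q F N - F N with hg
  have hgsum : ∀ N, g N = ∑ a, (q a : ℝ) * (F (bump N a) - F N) := by
    intro N
    simp only [hg, Aop, mul_sub]
    rw [Finset.sum_sub_distrib, ← Finset.sum_mul, hq', one_mul]
  have hgb : ∀ N, |g N| ≤ K := by
    intro N
    rw [hgsum]
    calc |∑ a, (q a : ℝ) * (F (bump N a) - F N)| ≤ ∑ a, |(q a : ℝ) * (F (bump N a) - F N)| :=
          Finset.abs_sum_le_sum_abs _ _
      _ ≤ ∑ a, (q a : ℝ) * K := by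
          refine Finset.sum_le_sum fun a _ => ?_
          rw [abs_mul, NNReal.abs_eq]
          exact mul_le_mul_of_nonneg_left (hF _ _) (q a).2
      _ = K := by rw [← Finset.sum_mul, hq', one_mul]
  have hgj := Aop_iter_bound hq hgb
  have hgi : ∀ j, Integrable ((Aop q)^[j] g) P := fun j =>
    integrable_linG _ (LinG.of_bounded (hgj j))
  have hEj : ∀ j : ℕ, ∫ N, ((Aop q)^[j] g) N ∂P ≤ ∫ N, g N ∂P + j * (K / Real.sqrt Λ) := by
    intro j
    induction j with
    | zero => simp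
    | succ j ih =>
      have h1 := Aop_integral q hq hΛ (hgj j)
      rw [Function.iterate_succ_apply']
      have h2 := (abs_le.1 h1).2
      push_cast
      rw [← hP] at h2
      linarith
  have htel : ∀ (M : ℕ) (N : I → ℕ), ((Aop q)^[M] F) N - F N =
      ∑ j ∈ Finset.range M, ((Aop q)^[j] g) N := by
    intro M N
    induction M with
    | zero => simp
    | succ M ih =>
      rw [Finset.sum_range_succ, ← ih, hg, Aop_iter_sub]
      simp only
      rw [Function.iterate_succ_apply]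
      ring
  -- superposition
  have hsup : ∫ N, F N ∂(Po (fun a => (Λ + τ) * q a)) =
      ∫ N, ∫ N', F (N + N') ∂(Po (fun a => τ * q a)) ∂P := by
    rw [hP, ← superposition _ _ hFl]
    congr 2
    funext a
    simp only [Pi.add_apply]
    ring
  have hinner : ∀ N, HasSum (fun M : ℕ => fpcW τ M * ∑ j ∈ Finset.range M, ((Aop q)^[j] g) N)
      ((∫ N', F (N + N') ∂(Po (fun a => τ * q a))) - F N) := by
    intro N
    have hFN : LinG (fun N' => F (N + N')) := by
      refine linG_of_lip (L := fun _ => K) fun N' a => ?_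
      rw [fasr_add_bump]
      exact hF _ _
    have h1 := thinning τ q hq hFN
    have h2 := (fpc_hasSum_zero τ).mul_right (F N)
    rw [one_mul] at h2
    have h3 := h1.sub h2
    have h4 : (fun M : ℕ => fpcW τ M * ∑ j ∈ Finset.range M, ((Aop q)^[j] g) N) =
        fun M : ℕ => (Real.exp (-τ) * (τ : ℝ) ^ M / (Nat.factorial M : ℝ)) *
          (∑ t : Fin M → I, (∏ j, (q (t j) : ℝ)) * F (N + cntOf t)) - fpcW τ M * F N := by
      funext M
      rw [sum_cntOf_eq, ← htel]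
      unfold fpcW
      ring
    rw [h4]
    exact h3
  have hwn : ∀ M, 0 ≤ fpcW τ M := fun M => by unfold fpcW; positivity
  have hHi : ∀ M : ℕ, Integrable
      (fun N => fpcW τ M * ∑ j ∈ Finset.range M, ((Aop q)^[j] g) N) P := fun M =>
    (integrable_finsetSum _ fun j _ => hgi j).const_mul _
  have hHb : ∀ (M : ℕ) (N : I → ℕ),
      ‖fpcW τ M * ∑ j ∈ Finset.range M, ((Aop q)^[j] g) N‖ ≤ fpcW τ M * M * K := by
    intro M N
    rw [norm_mul, Real.norm_of_nonneg (hwn M), mul_assoc]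
    refine mul_le_mul_of_nonneg_left ?_ (hwn M)
    refine (norm_sum_le _ _).trans ?_
    refine (Finset.sum_le_sum fun j _ => hgj j N).trans ?_
    rw [Finset.sum_const, Finset.card_range, nsmul_eq_mul]
  have hsumm : Summable fun M : ℕ =>
      ∫ N, ‖fpcW τ M * ∑ j ∈ Finset.range M, ((Aop q)^[j] g) N‖ ∂P := by
    refine Summable.of_nonneg_of_le (fun M => integral_nonneg fun N => norm_nonneg _)
      (fun M => ?_) ((fpc_hasSum_one τ).summable.mul_right K)
    calc ∫ N, ‖fpcW τ M * ∑ j ∈ Finset.range M, ((Aop q)^[j] g) N‖ ∂P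
        ≤ ∫ _N, fpcW τ M * M * K ∂P := integral_mono (hHi M).norm (integrable_const _) (hHb M)
      _ = fpcW τ M * M * K := by simp
  have hmain := hasSum_integral_of_summable_integral_norm hHi hsumm
  have htsum : ∫ N, ∑' M : ℕ, fpcW τ M * ∑ j ∈ Finset.range M, ((Aop q)^[j] g) N ∂P =
      ∫ N, ((∫ N', F (N + N') ∂(Po (fun a => τ * q a))) - F N) ∂P :=
    integral_congr_ae (Eventually.of_forall fun N => (hinner N).tsum_eq)
  rw [htsum] at hmain
  have hgauss : ∀ M : ℕ, ∑ j ∈ Finset.range M, (j : ℝ) = ((M : ℝ) ^ 2 - M) / 2 := by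
    intro M
    induction M with
    | zero => simp
    | succ M ih => rw [Finset.sum_range_succ, ih]; push_cast; ring
  have hbound : HasSum (fun M : ℕ => (∫ N, g N ∂P) * (fpcW τ M * M) +
      (K / Real.sqrt Λ / 2) * (fpcW τ M * (M : ℝ) ^ 2 - fpcW τ M * M))
      ((∫ N, g N ∂P) * τ + (K / Real.sqrt Λ / 2) * (τ * (τ + 1) - τ)) :=
    ((fpc_hasSum_one τ).mul_left _).add
      (((fpc_hasSum_two τ).sub (fpc_hasSum_one τ)).mul_left _)
  have hle := hasSum_le (fun M => ?_) hmain hbound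
  · have hInt : Integrable (fun N => ∫ N', F (N + N') ∂(Po (fun a => τ * q a))) P := by
      have := hFl.comp_add (fun a => Λ * q a) (fun a => τ * q a)
      exact this.integral_prod_left
    rw [integral_sub hInt (integrable_linG _ hFl)] at hle
    have hEg : ∫ N, g N ∂P = ∑ a, (q a : ℝ) * ∫ N, (F (bump N a) - F N) ∂P := by
      rw [integral_congr_ae (Eventually.of_forall hgsum), integral_finsetSum]
      · exact Finset.sum_congr rfl fun a _ => integral_const_mul _ _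
      · intro a _
        exact (integrable_linG _ (LinG.of_bounded fun N => hF N a)).const_mul _
    rw [hsup, ← hEg]
    have e : (K / Real.sqrt Λ / 2) * ((τ : ℝ) * (τ + 1) - τ) = K * (τ : ℝ) ^ 2 / Real.sqrt Λ / 2 := by
      ring
    rw [e] at hle
    have hnn : 0 ≤ K * (τ : ℝ) ^ 2 / Real.sqrt Λ := by positivity
    linarith
  · rw [integral_const_mul, integral_finsetSum _ fun j _ => hgi j]
    have h1 : ∑ j ∈ Finset.range M, ∫ N, ((Aop q)^[j] g) N ∂P ≤
        ∑ j ∈ Finset.range M, (∫ N, g N ∂P + j * (K / Real.sqrt Λ)) :=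
      Finset.sum_le_sum fun j _ => hEj j
    rw [Finset.sum_add_distrib, Finset.sum_const, Finset.card_range, nsmul_eq_mul,
      ← Finset.sum_mul, hgauss] at h1
    calc fpcW τ M * ∑ j ∈ Finset.range M, ∫ N, ((Aop q)^[j] g) N ∂P
        ≤ fpcW τ M * (M * ∫ N, g N ∂P + ((M : ℝ) ^ 2 - M) / 2 * (K / Real.sqrt Λ)) :=
          mul_le_mul_of_nonneg_left h1 (hwn M)
      _ = _ := by ring

end Crest.Agent.MP.FA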