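import Crest.Agent.MP.FAsDefs

/-!
# Module F4: the partition function with the new spin; symmetry of `μ.Epow`
-/

set_option autoImplicit false

namespace Crest.Agent.MP.FA
open MeasureTheory ProbabilityTheory Filter Topology
open Crest.ProbabilityR.Diluted
open scoped NNReal

private theorem siteψ_pos' {p k : ℕ} (h : ℝ) (θs : Fin k → Inter p)
    (c : Fin k × Fin (p - 1) → Bool) : 0 < siteψ h θs c := by
  unfold siteψ
  rw [Fintype.sum_bool]
  positivity

private theorem two_siteψ {p k : ℕ} (h : ℝ) (θs : Fin k → Inter p)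
    (c : Fin k × Fin (p - 1) → Bool) :
    ∑ ε : Bool, Real.exp (h * spinVal ε +
      (∑ j : Fin k, θs j (fun ℓ => if hℓ : ℓ.val < p - 1 then c (j, ⟨ℓ.val, hℓ⟩) else ε))) =
      2 * Real.exp (siteC h θs) * siteψ h θs c := by
  unfold siteψ
  simp only [Real.exp_sub, Fintype.sum_bool]
  have := (Real.exp_pos (siteC h θs)).ne'
  field_simp

/-- The partition function with the new spin: interactions `θs j` with the new spin in the last
slot and the other spins at the sites `e (j, ·)`. (`Fin.snoc`/`Fin.consEquiv`-type bijection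
`Cf (n+1) ≃ Cf n × Bool`, and `Σ_ε exp(..) = 2 e^{siteC} siteψ`.) -/
theorem logZ_site {p n k : ℕ} (G : Cf n → ℝ) (x : ℝ) (θs : Fin k → Inter p)
    (e : Fin k × Fin (p - 1) → Fin n) :
    logZ (fun τ : Cf (n + 1) => G (ini τ) + x * spinVal (τ (Fin.last n)) +
        ∑ j : Fin k, θs j (fun l => τ (bt (fun m => e (j, m)) l))) =
      logZ G + Real.log 2 + (siteC x θs +
        Real.log (gav1 G (fun σ => siteψ x θs (fun l => σ (e l))))) := by
  unfold logZ
  let E : Cf (n + 1) ≃ Cf n × Bool :=
    { toFun := fun τ => (ini τ, τ (Fin.last n))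
      invFun := fun y => Fin.snoc (α := fun _ => Bool) y.1 y.2
      left_inv := fun τ => Fin.snoc_init_self τ
      right_inv := fun y => by
        refine Prod.ext ?_ ?_
        · funext i
          exact Fin.snoc_castSucc (α := fun _ => Bool) y.2 y.1 i
        · exact Fin.snoc_last (α := fun _ => Bool) y.2 y.1 }
  have hsum : ∑ τ : Cf (n + 1), Real.exp (G (ini τ) + x * spinVal (τ (Fin.last n)) +
        ∑ j : Fin k, θs j (fun l => τ (bt (fun m => e (j, m)) l))) =
      ∑ σ : Cf n, Real.exp (G σ) * (2 * Real.exp (siteC x θs) *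
        siteψ x θs (fun l => σ (e l))) := by
    have h1 : ∀ τ : Cf (n + 1), Real.exp (G (ini τ) + x * spinVal (τ (Fin.last n)) +
        ∑ j : Fin k, θs j (fun l => τ (bt (fun m => e (j, m)) l))) =
        (fun y : Cf n × Bool => Real.exp (G y.1) * Real.exp (x * spinVal y.2 +
          (∑ j : Fin k, θs j (fun ℓ => if hℓ : ℓ.val < p - 1 then
            y.1 (e (j, ⟨ℓ.val, hℓ⟩)) else y.2)))) (E τ) := by
      intro τ
      simp only [E, Equiv.coe_fn_mk]
      rw [← Real.exp_add, add_assoc]
      congr 3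
      refine Finset.sum_congr rfl fun j _ => ?_
      congr 1
      funext l
      unfold bt ini
      split_ifs <;> rfl
    refine (Finset.sum_congr rfl (fun τ _ => h1 τ)).trans ((Equiv.sum_comp E (fun y : Cf n × Bool =>
      Real.exp (G y.1) * Real.exp (x * spinVal y.2 +
          (∑ j : Fin k, θs j (fun ℓ => if hℓ : ℓ.val < p - 1 then
            y.1 (e (j, ⟨ℓ.val, hℓ⟩)) else y.2))))).trans ?_)
    rw [Fintype.sum_prod_type]
    refine Finset.sum_congr rfl fun σ _ => ?_
    rw [← two_siteψ, Finset.mul_sum]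
  rw [hsum]
  have hZ : 0 < ∑ σ : Cf n, Real.exp (G σ) :=
    Finset.sum_pos (fun _ _ => Real.exp_pos _) Finset.univ_nonempty
  have hgav : ∑ σ : Cf n, Real.exp (G σ) * (2 * Real.exp (siteC x θs) *
        siteψ x θs (fun l => σ (e l))) =
      (∑ σ : Cf n, Real.exp (G σ)) * (2 * (Real.exp (siteC x θs) *
        gav1 G (fun σ => siteψ x θs (fun l => σ (e l))))) := by
    unfold gav1 gibbs
    simp only [Finset.mul_sum]
    refine Finset.sum_congr rfl fun σ _ => ?_
    have := hZ.ne'
    field_simp
  rw [hgav]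
  have hg : 0 < gav1 G (fun σ => siteψ x θs (fun l => σ (e l))) := by
    unfold gav1 gibbs
    refine Finset.sum_pos (fun σ _ => mul_pos (div_pos (Real.exp_pos _) hZ) (siteψ_pos' _ _ _))
      Finset.univ_nonempty
  rw [Real.log_mul hZ.ne' (by positivity), Real.log_mul two_ne_zero (by positivity),
    Real.log_mul (Real.exp_pos _).ne' hg.ne', Real.log_exp]
  ring

private theorem Epow_succ' {E : Type} (μ : FinLaw E) (k : ℕ) (f : (Fin (k + 1) → E) → ℝ) :
    μ.Epow (k + 1) f = μ.E (fun θ => μ.Epow k (fun θs => f (Fin.cons θ θs))) := by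
  unfold FinLaw.Epow FinLaw.E
  rw [← Equiv.sum_comp (Fin.consEquiv (fun _ => μ.ι)), Fintype.sum_prod_type]
  refine Finset.sum_congr rfl fun i _ => ?_
  rw [Finset.mul_sum]
  refine Finset.sum_congr rfl fun j _ => ?_
  rw [← mul_assoc]
  congr 1
  · rw [Fin.prod_univ_succ]
    rfl
  · congr 1
    funext a
    refine Fin.cases ?_ (fun b => ?_) a
    · rfl
    · rfl

/-- Symmetry: the positions of the new spin do not matter under `μ.Epow k`. -/
theorem Epow_symm {p : ℕ} (μ : FinLaw (Inter p)) (hsym : μ.Symm) (k : ℕ)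
    (π : Fin k → Equiv.Perm (Fin p)) (f : (Fin k → Inter p) → ℝ) :
    μ.Epow k (fun θs => f (fun j c => θs j (fun i => c (π j i)))) = μ.Epow k f := by
  induction k with
  | zero =>
    congr 1
    funext θs
    congr 1
    funext j
    exact j.elim0
  | succ k ih =>
    rw [Epow_succ', Epow_succ']
    have h1 : ∀ θ : Inter p, μ.Epow k (fun θs =>
        f (fun j c => (Fin.cons θ θs : Fin (k + 1) → Inter p) j (fun i => c (π j i)))) =
        (fun θ' => μ.Epow k (fun θs => f (Fin.cons θ' θs))) (fun c => θ (fun i => c (π 0 i))) := by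
      intro θ
      simp only
      rw [← ih (fun j => π j.succ)
        (fun θs => f (Fin.cons (fun c => θ (fun i => c (π 0 i))) θs))]
      congr 1
      funext θs
      congr 1
      funext j
      refine Fin.cases ?_ (fun b => ?_) j
      · rfl
      · rfl
    have h2 := hsym (π 0) (fun θ' => μ.Epow k (fun θs => f (Fin.cons θ' θs)))
    rw [← h2]
    congr 1
    funext θ
    exact h1 θ

end Crest.Agent.MP.FA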