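import Crest.Agent.MP.FAsTools
import Crest.Agent.MP.FAsResp
import Crest.Agent.MP.FAsSiteA

/-!
# Module F4: the new spin
-/

set_option autoImplicit false

namespace Crest.Agent.MP.FA
open MeasureTheory ProbabilityTheory Filter Topology
open Crest.ProbabilityR.Diluted
open scoped NNReal

namespace FSt

theorem sum_cnt {I : Type} [Fintype I] {M : ℕ} (t : Fin M → I) (φ : I → ℝ) :
    ∑ b, (cntOf t b : ℝ) * φ b = ∑ j, φ (t j) := by
  classical
  have h : ∀ b, (cntOf t b : ℝ) = ∑ j : Fin M, if t j = b then (1 : ℝ) else 0 := by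
    intro b
    unfold cntOf
    rw [Finset.sum_boole]
  simp only [h, Finset.sum_mul]
  rw [Finset.sum_comm]
  refine Finset.sum_congr rfl fun j _ => ?_
  simp

theorem sum_prod_w {E : Type} (μ : FinLaw E) (k : ℕ) :
    ∑ s : Fin k → μ.ι, ∏ a, μ.w (s a) = 1 := by
  classical
  have h := Finset.prod_univ_sum (fun _ : Fin k => (Finset.univ : Finset μ.ι))
    (fun _ i => μ.w i)
  rw [Fintype.piFinset_univ] at h
  rw [← h]
  simp [μ.w_sum]

theorem Epow_const_add {E : Type} (μ : FinLaw E) (k : ℕ) (c : ℝ) (f : (Fin k → E) → ℝ) :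
    μ.Epow k (fun θs => c + f θs) = c + μ.Epow k f := by
  unfold FinLaw.Epow
  simp only [mul_add, Finset.sum_add_distrib]
  rw [← Finset.sum_mul, sum_prod_w, one_mul]

theorem Epow_sum {E : Type} {ι : Type} (μ : FinLaw E) (k : ℕ) (s : Finset ι)
    (f : ι → (Fin k → E) → ℝ) :
    μ.Epow k (fun θs => ∑ i ∈ s, f i θs) = ∑ i ∈ s, μ.Epow k (f i) := by
  unfold FinLaw.Epow
  simp only [Finset.mul_sum]
  rw [Finset.sum_comm]

theorem Epow_mul {E : Type} (μ : FinLaw E) (k : ℕ) (c : ℝ)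
    (f : (Fin k → E) → ℝ) :
    μ.Epow k (fun θs => c * f θs) = c * μ.Epow k f := by
  unfold FinLaw.Epow
  simp only [Finset.mul_sum]
  refine Finset.sum_congr rfl fun i _ => ?_
  ring

/-- `Fin k → A × B × C` as a triple product. -/
def tripEquiv (k : ℕ) (A B C : Type) :
    (Fin k → A × B × C) ≃ (Fin k → A) × (Fin k → B) × (Fin k → C) where
  toFun := fun t => (fun j => (t j).1, fun j => (t j).2.1, fun j => (t j).2.2)
  invFun := fun p j => (p.1 j, p.2.1 j, p.2.2 j)
  left_inv := fun _ => rfl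
  right_inv := fun _ => rfl

theorem term_value (p : ℕ) (hp : 1 ≤ p) (μ : FinLaw (Inter p)) (hsym : μ.Symm) {n : ℕ}
    (hn : 1 ≤ n) (G : Cf n → ℝ) (x : ℝ) (k : ℕ) (q : SIdx μ n → ℝ≥0)
    (hq : ∀ b, (q b : ℝ) = μ.w b.1 / ((n : ℝ) ^ (p - 1) * p)) :
    ∑ t : Fin k → SIdx μ n, (∏ j, (q (t j) : ℝ)) *
      logZ (fun τ : Cf (n + 1) => G (ini τ) + x * spinVal (τ (Fin.last n)) +
        ∑ b : SIdx μ n, (cntOf t b : ℝ) * tfac (sIdxT b) τ) =
      logZ G + Real.log 2 +
        μ.Epow k (fun θs => siteC x θs + avgI (Fin k × Fin (p - 1)) n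
          (fun e => Real.log (gav1 G (fun σ => siteψ x θs (fun l => σ (e l)))))) := by
  classical
  have hn0 : (0 : ℝ) < n := by exact_mod_cast hn
  have hp0 : (0 : ℝ) < p := by exact_mod_cast hp
  rw [← Epow_const_add]
  -- the function for given positions
  set f : (Fin k → Fin (p - 1) → Fin n) → (Fin k → Inter p) → ℝ := fun i' θs =>
    logZ (fun τ : Cf (n + 1) => G (ini τ) + x * spinVal (τ (Fin.last n)) +
        ∑ j : Fin k, θs j (fun l => τ (bt (i' j) l))) with hf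
  have hlast : ∀ ℓ ℓ' : Fin p, lastp ℓ = lastp ℓ' := fun _ _ => rfl
  have step1 : ∀ t : Fin k → SIdx μ n, (∏ j, (q (t j) : ℝ)) *
      logZ (fun τ : Cf (n + 1) => G (ini τ) + x * spinVal (τ (Fin.last n)) +
        ∑ b : SIdx μ n, (cntOf t b : ℝ) * tfac (sIdxT b) τ) =
      (1 / ((n : ℝ) ^ (p - 1) * p)) ^ k * ((∏ j, μ.w (t j).1) *
        f (fun j => (t j).2.1) (fun j c => μ.x (t j).1
          (fun i => c (Equiv.swap (t j).2.2 (lastp (t j).2.2) i)))) := by
    intro t
    have h1 : (∏ j, (q (t j) : ℝ)) = (1 / ((n : ℝ) ^ (p - 1) * p)) ^ k * ∏ j, μ.w (t j).1 := by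
      simp only [hq, div_eq_mul_inv, one_mul]
      rw [Finset.prod_mul_distrib, Finset.prod_const, Finset.card_univ, Fintype.card_fin, mul_comm]
    rw [h1, mul_assoc]
    congr 2
    rw [hf]
    congr 1
    funext τ
    rw [sum_cnt]
    rfl
  rw [Finset.sum_congr rfl fun t _ => step1 t, ← Finset.mul_sum]
  rw [← (tripEquiv k μ.ι (Fin (p - 1) → Fin n) (Fin p)).symm.sum_comp]
  rw [Fintype.sum_prod_type]
  simp only [Fintype.sum_prod_type]
  have step2 : (∑ s : Fin k → μ.ι, ∑ i' : Fin k → Fin (p - 1) → Fin n, ∑ ℓ : Fin k → Fin p,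
      (∏ j, μ.w (s j)) * f i' (fun j c => μ.x (s j)
          (fun i => c (Equiv.swap (ℓ j) (lastp (ℓ j)) i)))) =
      (p : ℝ) ^ k * ∑ i' : Fin k → Fin (p - 1) → Fin n, μ.Epow k (f i') := by
    rw [Finset.sum_comm, Finset.mul_sum]
    refine Finset.sum_congr rfl fun i' _ => ?_
    rw [Finset.sum_comm]
    have : ∀ ℓ : Fin k → Fin p, (∑ s : Fin k → μ.ι, (∏ j, μ.w (s j)) * f i' (fun j c => μ.x (s j)
          (fun i => c (Equiv.swap (ℓ j) (lastp (ℓ j)) i)))) = μ.Epow k (f i') := by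
      intro ℓ
      exact Epow_symm μ hsym k (fun j => Equiv.swap (ℓ j) (lastp (ℓ j))) (f i')
    simp only [this, Finset.sum_const, Finset.card_univ, Fintype.card_fun, Fintype.card_fin,
      nsmul_eq_mul]
    push_cast
    rfl
  have step3 : ∀ θs : Fin k → Inter p, ∑ i' : Fin k → Fin (p - 1) → Fin n, f i' θs =
      ((n : ℝ) ^ (p - 1)) ^ k * (logZ G + Real.log 2 + (siteC x θs +
        avgI (Fin k × Fin (p - 1)) n
          (fun e => Real.log (gav1 G (fun σ => siteψ x θs (fun l => σ (e l))))))) := by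
    intro θs
    rw [← (Equiv.curry (Fin k) (Fin (p - 1)) (Fin n)).sum_comp]
    have h1 : ∀ e : Fin k × Fin (p - 1) → Fin n, f ((Equiv.curry (Fin k) (Fin (p - 1)) (Fin n)) e) θs =
        logZ G + Real.log 2 + (siteC x θs +
        Real.log (gav1 G (fun σ => siteψ x θs (fun l => σ (e l))))) := by
      intro e
      exact logZ_site G x θs e
    simp only [h1]
    unfold avgI
    have hcard : (Fintype.card (Fin k × Fin (p - 1) → Fin n) : ℝ) = ((n : ℝ) ^ (p - 1)) ^ k := by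
      rw [Fintype.card_fun, Fintype.card_prod, Fintype.card_fin, Fintype.card_fin, Fintype.card_fin]
      push_cast
      rw [← pow_mul, mul_comm (p - 1) k]
    have hcard2 : (n : ℝ) ^ Fintype.card (Fin k × Fin (p - 1)) = ((n : ℝ) ^ (p - 1)) ^ k := by
      rw [Fintype.card_prod, Fintype.card_fin, Fintype.card_fin, ← pow_mul, mul_comm (p - 1) k]
    rw [Finset.sum_add_distrib, Finset.sum_const, Finset.card_univ, nsmul_eq_mul, hcard, hcard2]
    have hne : ((n : ℝ) ^ (p - 1)) ^ k ≠ 0 := by positivity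
    rw [Finset.sum_add_distrib, Finset.sum_const, Finset.card_univ, nsmul_eq_mul, hcard]
    have h3 : ((n : ℝ) ^ (p - 1)) ^ k * ((∑ e : Fin k × Fin (p - 1) → Fin n,
        Real.log (gav1 G (fun σ => siteψ x θs (fun l => σ (e l))))) / ((n : ℝ) ^ (p - 1)) ^ k) =
        ∑ e : Fin k × Fin (p - 1) → Fin n,
        Real.log (gav1 G (fun σ => siteψ x θs (fun l => σ (e l)))) := mul_div_cancel₀ _ hne
    rw [mul_add _ _ (siteC x θs + _), mul_add _ (siteC x θs), h3]
  show (1 / ((n : ℝ) ^ (p - 1) * p)) ^ k * (∑ s : Fin k → μ.ι,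
    ∑ i' : Fin k → Fin (p - 1) → Fin n, ∑ ℓ : Fin k → Fin p,
      (∏ j, μ.w (s j)) * f i' (fun j c => μ.x (s j)
          (fun i => c (Equiv.swap (ℓ j) (lastp (ℓ j)) i)))) = _
  rw [step2, ← Epow_sum]
  simp only [step3]
  rw [Epow_mul]
  have h2 : (1 / ((n : ℝ) ^ (p - 1) * p)) ^ k * ((p : ℝ) ^ k * (((n : ℝ) ^ (p - 1)) ^ k)) = 1 := by
    rw [← mul_pow, ← mul_pow, one_div, inv_mul_eq_div, mul_comm (p : ℝ), div_self (by positivity),
      one_pow]
  rw [← mul_assoc, ← mul_assoc, mul_assoc _ ((p : ℝ) ^ k), h2, one_mul]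

end FSt

open FSt in
/-- PROOF. `thinning` with `Λ = α p`, `q b = w_t/(n^(p-1) p)` (`srate = Λ q`);
`Σ_b (cntOf t b) tfac (sIdxT b) τ = Σ_j tfac (sIdxT (t j)) τ`, and
`tfac (sIdxT (t, i', ℓ)) τ = θ_t (fun i => (τ ∘ bt i') (swap ℓ last i))`; the sum over
`t : Fin k → SIdx μ n` splits into `Fin k → μ.ι`, `Fin k × Fin (p-1) → Fin n`
and `Fin k → Fin p`; `Epow_symm` removes the positions, `logZ_site` gives the value. -/
theorem site_value (p : ℕ) (hp : 1 ≤ p) (α : ℝ≥0) (μ : FinLaw (Inter p)) (hsym : μ.Symm) {n : ℕ}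
    (hn : 1 ≤ n) (G : Cf n → ℝ) (x : ℝ) :
    ∫ N, logZ (fun τ : Cf (n + 1) => G (ini τ) + x * spinVal (τ (Fin.last n)) +
        ∑ b : SIdx μ n, (N b : ℝ) * tfac (sIdxT b) τ) ∂(Po (srate α μ n)) =
      logZ G + Real.log 2 + ∑' k : ℕ, poissonWeight (α * p) k *
        μ.Epow k (fun θs => siteC x θs + avgI (Fin k × Fin (p - 1)) n
          (fun e => Real.log (gav1 G (fun σ => siteψ x θs (fun l => σ (e l)))))) := by
  classical
  have hn0 : (0 : ℝ) < n := by exact_mod_cast hn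
  have hp0 : (0 : ℝ) < p := by exact_mod_cast hp
  have hn0' : (n : ℝ≥0) ≠ 0 := by exact_mod_cast (by omega : n ≠ 0)
  have hp0' : (p : ℝ≥0) ≠ 0 := by exact_mod_cast (by omega : p ≠ 0)
  set q : SIdx μ n → ℝ≥0 := fun b => μ.wn b.1 / ((n : ℝ≥0) ^ (p - 1) * p) with hqdef
  have hq : ∀ b, (q b : ℝ) = μ.w b.1 / ((n : ℝ) ^ (p - 1) * p) := by
    intro b
    rw [hqdef]
    push_cast
    rfl
  have hqs : ∑ b, q b = 1 := by
    apply NNReal.eq
    push_cast
    simp only [hq]
    rw [Fintype.sum_prod_type]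
    simp only [Finset.sum_const, Finset.card_univ, Fintype.card_prod, Fintype.card_fun,
      Fintype.card_fin, nsmul_eq_mul]
    rw [← Finset.mul_sum, ← Finset.sum_div, μ.w_sum]
    push_cast
    field_simp
  have hrate : srate α μ n = fun b => (α * p) * q b := by
    funext b
    unfold srate
    rw [hqdef]
    simp only
    field_simp
  have hlin : LinG (fun N : SIdx μ n → ℕ =>
      logZ (fun τ : Cf (n + 1) => G (ini τ) + x * spinVal (τ (Fin.last n)) +
        ∑ b : SIdx μ n, (N b : ℝ) * tfac (sIdxT b) τ)) :=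
    LipH.linG logZ_lipH (fun τ : Cf (n + 1) => G (ini τ) + x * spinVal (τ (Fin.last n)))
      (fun b => tfac (sIdxT b))
  have hsum := thinning (α * p) q hqs hlin
  rw [← hrate] at hsum
  simp only [term_value p hp μ hsym hn G x _ q hq] at hsum
  have hw : ∀ k : ℕ, Real.exp (-((α * p : ℝ≥0) : ℝ)) * ((α * p : ℝ≥0) : ℝ) ^ k /
      (Nat.factorial k : ℝ) = poissonWeight (α * p) k := by
    intro k
    unfold poissonWeight
    push_cast
    rfl
  simp only [hw] at hsum
  have hone : HasSum (fun k => poissonWeight ((α : ℝ) * p) k) 1 := by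
    have := hasSum_one_poissonMeasure (α * p)
    have h2 : (fun k : ℕ => Real.exp (-((α * p : ℝ≥0) : ℝ)) * ((α * p : ℝ≥0) : ℝ) ^ k /
      (Nat.factorial k : ℝ)) = fun k => poissonWeight ((α : ℝ) * p) k := funext hw
    rw [← h2]
    exact this
  have hc := hone.mul_right (logZ G + Real.log 2)
  have hd := hsum.sub hc
  have he : (fun k : ℕ => poissonWeight (↑α * ↑p) k * (logZ G + Real.log 2 +
        μ.Epow k (fun θs => siteC x θs + avgI (Fin k × Fin (p - 1)) n
          (fun e => Real.log (gav1 G (fun σ => siteψ x θs (fun l => σ (e l))))))) -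
        poissonWeight (↑α * ↑p) k * (logZ G + Real.log 2)) =
      fun k : ℕ => poissonWeight (↑α * ↑p) k *
        μ.Epow k (fun θs => siteC x θs + avgI (Fin k × Fin (p - 1)) n
          (fun e => Real.log (gav1 G (fun σ => siteψ x θs (fun l => σ (e l)))))) := by
    funext k
    ring
  rw [he] at hd
  rw [hd.tsum_eq]
  ring

end Crest.Agent.MP.FA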