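import Crest.Agent.MP.FPoisAll

/-!
# Module F4: restriction of Poisson counts to a subset of indices
-/

set_option autoImplicit false

namespace Crest.Agent.MP.FA

open MeasureTheory ProbabilityTheory Filter Topology
open scoped NNReal

variable {I K K' : Type} [Fintype I] [Fintype K] [Fintype K']

theorem po_zero (G : (I → ℕ) → ℝ) : ∫ N, G N ∂(Po (fun _ : I => (0 : ℝ≥0))) = G (fun _ => 0) := by
  classical
  have h : Po (fun _ : I => (0 : ℝ≥0)) = Measure.dirac (fun _ => 0) := by
    refine Measure.ext_of_singleton fun N => ?_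
    have h1 := fpe_weight (fun _ : I => (0 : ℝ≥0)) N
    have h2 : (Po (fun _ : I => (0 : ℝ≥0))) {N} =
        ENNReal.ofReal ((Po (fun _ : I => (0 : ℝ≥0))).real {N}) := by
      rw [measureReal_def, ENNReal.ofReal_toReal (measure_ne_top _ _)]
    rw [h2, h1, Measure.dirac_apply]
    by_cases hN : N = fun _ => 0
    · subst hN
      simp
    · obtain ⟨i, hi⟩ : ∃ i, N i ≠ 0 := by
        by_contra hc
        push Not at hc
        exact hN (funext hc)
      rw [Finset.prod_eq_zero (Finset.mem_univ i) (by simp [hi])]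
      rw [Set.indicator_of_notMem (by
        simp only [Set.mem_singleton_iff]
        exact fun h => hN h.symm)]
      simp
  rw [h, integral_dirac]

open Classical in
/-- Extend counts along `κ` by `0`. -/
noncomputable def pushN (κ : K → I) (N : K → ℕ) : I → ℕ :=
  fun i => ∑ k, if κ k = i then N k else 0

/-- `Σ_i (push N)_i f_i = Σ_k N_k f_{κ k}`. -/
theorem sum_pushN (κ : K → I) (N : K → ℕ) (f : I → ℝ) :
    ∑ i, (pushN κ N i : ℝ) * f i = ∑ k, (N k : ℝ) * f (κ k) := by
  classical
  unfold pushN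
  push_cast
  simp only [Finset.sum_mul]
  rw [Finset.sum_comm]
  refine Finset.sum_congr rfl fun k _ => ?_
  simp only [ite_mul, zero_mul]
  rw [Finset.sum_ite_eq]
  simp

omit [Fintype I] in
theorem pushN_bump (κ : K → I) (N : K → ℕ) (k : K) :
    pushN κ (bump N k) = bump (pushN κ N) (κ k) := by
  classical
  funext i
  unfold pushN bump
  have h : ∀ j : K, (if κ j = i then N j + (if j = k then 1 else 0) else 0) =
      (if κ j = i then N j else 0) + (if j = k then (if κ j = i then 1 else 0) else 0) := by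
    intro j
    by_cases h2 : j = k
    · subst h2
      by_cases h1 : κ j = i <;> simp [h1]
    · simp [h2]
  have h3 : ∑ j, (if κ j = i then N j + (if j = k then 1 else 0) else 0) =
      (∑ j, if κ j = i then N j else 0) + (if i = κ k then 1 else 0) := by
    rw [Finset.sum_congr rfl fun j _ => h j, Finset.sum_add_distrib, Finset.sum_ite_eq']
    simp [eq_comm]
  convert! h3 using 2

omit [Fintype I] in
theorem linG_pushN (κ : K → I) {G : (I → ℕ) → ℝ} {L : I → ℝ}
    (hL : ∀ N i, |G (bump N i) - G N| ≤ L i) : LinG (fun N => G (pushN κ N)) := by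
  refine linG_of_lip (L := fun k => L (κ k)) fun N k => ?_
  rw [pushN_bump]
  exact hL _ _

open Classical in
/-- the equivalence `K ⊕ (range κ)ᶜ ≃ I` -/
noncomputable def frsSplit (κ : K → I) (hκ : Function.Injective κ) :
    K ⊕ {i : I // i ∉ Set.range κ} ≃ I :=
  (Equiv.sumCongr (Equiv.ofInjective κ hκ) (Equiv.refl _)).trans
    (Equiv.sumCompl (fun i => i ∈ Set.range κ))

theorem frsSplit_inl (κ : K → I) (hκ : Function.Injective κ) (k : K) :
    frsSplit κ hκ (Sum.inl k) = κ k := by
  simp [frsSplit]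

theorem frsSplit_inr (κ : K → I) (hκ : Function.Injective κ) (r : {i : I // i ∉ Set.range κ}) :
    frsSplit κ hκ (Sum.inr r) = r.1 := by
  simp [frsSplit]

/-- PROOF. `lip_rate` replaces `lam` by `lam'' := lam' ∘ κ⁻¹` on the range of `κ` and `0` outside
(error as stated); then `po_equiv` with `I ≃ K ⊕ (range κ)ᶜ`, `po_sum` and `po_zero` for the second
group. -/
theorem po_restrict (κ : K → I) (hκ : Function.Injective κ) (lam : I → ℝ≥0) (lam' : K → ℝ≥0)
    {G : (I → ℕ) → ℝ} {L : I → ℝ} (hL : ∀ N i, |G (bump N i) - G N| ≤ L i) :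
    |(∫ N, G N ∂(Po lam)) - ∫ N, G (pushN κ N) ∂(Po lam')| ≤
      (∑ k, |(lam (κ k) : ℝ) - lam' k| * L (κ k)) +
        ((∑ i, (lam i : ℝ) * L i) - ∑ k, (lam (κ k) : ℝ) * L (κ k)) := by
  classical
  let e := frsSplit κ hκ
  set lamE : K ⊕ {i : I // i ∉ Set.range κ} → ℝ≥0 := Sum.elim lam' (fun _ => 0) with hlamE
  set lam'' : I → ℝ≥0 := fun i => lamE (e.symm i) with hlam''
  have hsum : ∀ f : I → ℝ, ∑ i, f i = (∑ k, f (κ k)) + ∑ r : {i : I // i ∉ Set.range κ}, f r.1 := by
    intro f
    rw [← e.sum_comp, Fintype.sum_sum_type]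
    simp only [e, frsSplit_inl, frsSplit_inr]
  have h1 := lip_rate lam lam'' hL
  have h2 : (fun i' => lam'' (e i')) = lamE := by
    funext i'
    simp [hlam'']
  have hLinE : LinG (fun N' : K ⊕ {i : I // i ∉ Set.range κ} → ℕ => G (fun i => N' (e.symm i))) := by
    refine linG_of_lip (L := fun j => L (e j)) fun N j => ?_
    have hb : (fun i => bump N j (e.symm i)) = bump (fun i => N (e.symm i)) (e j) := by
      funext i
      unfold bump
      have : (e.symm i = j) ↔ (i = e j) := by
        rw [Equiv.symm_apply_eq]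
      by_cases hi : i = e j
      · rw [if_pos hi, if_pos (this.2 hi)]
      · rw [if_neg hi, if_neg (fun h => hi (this.1 h))]
    rw [hb]
    exact hL _ _
  have h3 : ∫ N, G N ∂(Po lam'') = ∫ N, G (pushN κ N) ∂(Po lam') := by
    rw [po_equiv e, h2, hlamE, po_sum _ _ hLinE]
    refine integral_congr_ae (ae_of_all _ fun N => ?_)
    simp only
    rw [po_zero]
    congr 1
    funext i
    obtain ⟨j, rfl⟩ := e.surjective i
    rw [e.symm_apply_apply]
    unfold pushN
    rcases j with k | r
    · rw [show e (Sum.inl k) = κ k from frsSplit_inl κ hκ k, Sum.elim_inl]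
      rw [Finset.sum_eq_single k]
      · simp
      · intro b _ hb
        rw [if_neg (fun h => hb (hκ h))]
      · simp
    · rw [show e (Sum.inr r) = r.1 from frsSplit_inr κ hκ r, Sum.elim_inr]
      symm
      refine Finset.sum_eq_zero fun k _ => ?_
      rw [if_neg]
      intro h
      exact r.2 ⟨k, h⟩
  rw [← h3]
  refine h1.trans (le_of_eq ?_)
  rw [hsum (fun i => |(lam i : ℝ) - lam'' i| * L i), hsum (fun i => (lam i : ℝ) * L i)]
  have h4 : ∀ k, lam'' (κ k) = lam' k := by
    intro k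
    have : κ k = e (Sum.inl k) := (frsSplit_inl κ hκ k).symm
    simp [hlam'', hlamE, this]
  have h5 : ∀ r : {i : I // i ∉ Set.range κ}, lam'' r.1 = 0 := by
    intro r
    have : r.1 = e (Sum.inr r) := (frsSplit_inr κ hκ r).symm
    rw [hlam'']
    simp only
    rw [this]
    simp [hlamE]
  simp only [h4, h5, NNReal.coe_zero, sub_zero, NNReal.abs_eq]
  ring

/-- Two independent groups. PROOF: `po_restrict` for `Sum.elim κ κ'` and `po_sum`. -/
theorem po_restrict₂ (κ : K → I) (κ' : K' → I) (hκ : Function.Injective (Sum.elim κ κ'))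
    (lam : I → ℝ≥0) (lam' : K → ℝ≥0) (lam'' : K' → ℝ≥0)
    {G : (I → ℕ) → ℝ} {L : I → ℝ} (hL : ∀ N i, |G (bump N i) - G N| ≤ L i) :
    |(∫ N, G N ∂(Po lam)) -
        ∫ N, ∫ N', G (fun i => pushN κ N i + pushN κ' N' i) ∂(Po lam'') ∂(Po lam')| ≤
      (∑ k, |(lam (κ k) : ℝ) - lam' k| * L (κ k)) +
      (∑ k, |(lam (κ' k) : ℝ) - lam'' k| * L (κ' k)) +
        ((∑ i, (lam i : ℝ) * L i) - (∑ k, (lam (κ k) : ℝ) * L (κ k)) -
          ∑ k, (lam (κ' k) : ℝ) * L (κ' k)) := by
  classical
  have h1 := po_restrict (Sum.elim κ κ') hκ lam (Sum.elim lam' lam'') hL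
  have h2 : ∫ N, G (pushN (Sum.elim κ κ') N) ∂(Po (Sum.elim lam' lam'')) =
      ∫ N, ∫ N', G (fun i => pushN κ N i + pushN κ' N' i) ∂(Po lam'') ∂(Po lam') := by
    rw [po_sum _ _ (linG_pushN (Sum.elim κ κ') hL)]
    refine integral_congr_ae (ae_of_all _ fun N => ?_)
    refine integral_congr_ae (ae_of_all _ fun N' => ?_)
    simp only
    congr 1
    funext i
    unfold pushN
    rw [Fintype.sum_sum_type]
    simp only [Sum.elim_inl, Sum.elim_inr]
    all_goals first | rfl | congr 1
  rw [h2] at h1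
  refine h1.trans (le_of_eq ?_)
  simp only [Fintype.sum_sum_type, Sum.elim_inl, Sum.elim_inr]
  ring

/-- Fubini for two groups of counts: `po_sum`, `po_equiv (Equiv.sumComm ..)`, or
`integral_integral_swap` with integrability from linear growth. -/
theorem po_swap (lam : K → ℝ≥0) (lam' : K' → ℝ≥0) (G : (K → ℕ) → (K' → ℕ) → ℝ)
    (hG : ∃ A B : ℝ, ∀ N N', |G N N'| ≤ A + B * ((∑ k, (N k : ℝ)) + ∑ k, (N' k : ℝ))) :
    ∫ N, ∫ N', G N N' ∂(Po lam') ∂(Po lam) = ∫ N', ∫ N, G N N' ∂(Po lam) ∂(Po lam') := by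
  obtain ⟨A, B, h⟩ := hG
  refine integral_integral_swap ?_
  have h1 : Integrable (fun z : (K → ℕ) × (K' → ℕ) =>
      A + B * ((∑ k, (z.1 k : ℝ)) + ∑ k, (z.2 k : ℝ))) ((Po lam).prod (Po lam')) := by
    refine (integrable_const A).add (Integrable.const_mul (Integrable.add ?_ ?_) B)
    · exact (integrable_psum lam Finset.univ).comp_fst _
    · exact (integrable_psum lam' Finset.univ).comp_snd _
  refine h1.mono' (measurable_of_countable _).aestronglyMeasurable (ae_of_all _ fun z => ?_)
  change |G z.1 z.2| ≤ _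
  exact h z.1 z.2

end Crest.Agent.MP.FA
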