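import Crest.Agent.MP.FAsDefs

/-!
# Module F4: tuples with and without the new spin
-/

set_option autoImplicit false

namespace Crest.Agent.MP.FA
open MeasureTheory ProbabilityTheory Filter Topology
open Crest.ProbabilityR.Diluted
open scoped NNReal

lemma fta_lastp {p : ℕ} (ℓ ℓ' : Fin p) : lastp ℓ = lastp ℓ' := rfl

lemma fta_bt_last {p n : ℕ} (i' : Fin (p - 1) → Fin n) (j ℓ : Fin p) :
    bt i' j = Fin.last n ↔ j = lastp ℓ := by
  unfold bt lastp
  constructor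
  · intro h
    by_cases hj : j.val < p - 1
    · rw [dif_pos hj] at h
      exact absurd h (Fin.castSucc_lt_last _).ne
    · apply Fin.ext
      have := j.isLt
      simp only
      omega
  · rintro rfl
    rw [dif_neg (by simp)]

lemma fta_sIdx_last {p n : ℕ} (i' : Fin (p - 1) → Fin n) (ℓ j : Fin p) :
    bt i' (Equiv.swap ℓ (lastp ℓ) j) = Fin.last n ↔ j = ℓ := by
  rw [fta_bt_last i' _ ℓ, Equiv.swap_apply_eq_iff, Equiv.swap_apply_right]

/-- The tuples without the new spin and those with it exactly once are all different. -/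
theorem idx_injective {p : ℕ} (μ : FinLaw (Inter p)) (n : ℕ) :
    Function.Injective (Sum.elim (cIdxT (μ := μ) (n := n)) (sIdxT (μ := μ) (n := n))) := by
  refine Function.Injective.sumElim ?_ ?_ ?_
  · rintro ⟨t, e⟩ ⟨t', e'⟩ h
    have h1 := congrArg Prod.fst h
    have h2 := congrArg Prod.snd h
    simp only [cIdxT] at h1 h2
    subst h1
    congr 1
    funext j
    exact Fin.castSucc_injective _ (congrFun h2 j)
  · rintro ⟨t, i', ℓ⟩ ⟨t', i'', ℓ'⟩ h
    have h1 := congrArg Prod.fst h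
    have h2 := congrArg Prod.snd h
    simp only [sIdxT] at h1 h2
    subst h1
    have h3 : ℓ = ℓ' := by
      have h4 := congrFun h2 ℓ
      rw [(fta_sIdx_last i' ℓ ℓ).2 rfl] at h4
      exact (fta_sIdx_last i'' ℓ' ℓ).1 h4.symm
    subst h3
    congr 2
    funext j
    have hj : j.val < p := by have := j.isLt; omega
    have h5 := congrFun h2 (Equiv.swap ℓ (lastp ℓ) ⟨j.val, hj⟩)
    simp only [Equiv.swap_apply_self] at h5
    unfold bt at h5
    rw [dif_pos j.isLt, dif_pos j.isLt] at h5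
    exact Fin.castSucc_injective _ h5
  · rintro ⟨t, e⟩ ⟨t', i', ℓ⟩ h
    have h2 := congrFun (congrArg Prod.snd h) ℓ
    simp only [cIdxT, sIdxT] at h2
    rw [(fta_sIdx_last i' ℓ ℓ).2 rfl] at h2
    exact (Fin.castSucc_lt_last _).ne h2

lemma fta_sum_wn {p : ℕ} (μ : FinLaw (Inter p)) : ∑ t, (μ.wn t : ℝ) = 1 := by
  rw [← μ.w_sum]
  rfl

/-- Rates. With `x = n/(n+1)`: the rate of every tuple of the system with `n+1` spins is
`α w_t (n+1)/(n+1)^p`; on the tuples `cIdxT a` it is exactly `lamC p α n * tq μ n a`; on the tuples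
`sIdxT b` it differs from `srate` by `α w_t n^{-(p-1)} (1 - x^{p-1})`: total
`≤ α p (1 - x^{p-1}) ≤ α p²/n`; the total rate of the remaining tuples is
`α (n+1) (1 - x^p - (p/(n+1)) x^{p-1}) ≤ α p²/(n+1)` (Bernoulli twice). -/
theorem rate_bounds (p : ℕ) (hp : 1 ≤ p) (α : ℝ≥0) (μ : FinLaw (Inter p)) (n : ℕ) (hn : 1 ≤ n) :
    (∀ a : TIdx μ n, (α * ((n + 1 : ℕ) : ℝ≥0)) * tq μ (n + 1) (cIdxT a) = lamC p α n * tq μ n a) ∧
    (∑ b : SIdx μ n, |((α * ((n + 1 : ℕ) : ℝ≥0) * tq μ (n + 1) (sIdxT b) : ℝ≥0) : ℝ) -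
      srate α μ n b| ≤ α * p ^ 2 / n) ∧
    ((∑ i : TIdx μ (n + 1), ((α * ((n + 1 : ℕ) : ℝ≥0) * tq μ (n + 1) i : ℝ≥0) : ℝ)) -
      (∑ a : TIdx μ n, ((α * ((n + 1 : ℕ) : ℝ≥0) * tq μ (n + 1) (cIdxT a) : ℝ≥0) : ℝ)) -
      (∑ b : SIdx μ n, ((α * ((n + 1 : ℕ) : ℝ≥0) * tq μ (n + 1) (sIdxT b) : ℝ≥0) : ℝ)) ≤
        α * p ^ 2 / n) := by
  obtain ⟨q, rfl⟩ : ∃ q, p = q + 1 := ⟨p - 1, by omega⟩
  have hα : (0 : ℝ) ≤ α := α.2
  have hn0 : (0 : ℝ) < n := by exact_mod_cast hn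
  have hn1 : (0 : ℝ) < (n : ℝ) + 1 := by positivity
  have hcard : (Fintype.card (Fin (q + 1)) : ℝ) = (q : ℝ) + 1 := by simp
  -- Bernoulli
  have hB : ∀ k : ℕ, 1 - (k : ℝ) / (n + 1) ≤ ((n : ℝ) / (n + 1)) ^ k := by
    intro k
    have h := one_add_mul_le_pow (a := -(1 / ((n : ℝ) + 1))) (by
      have : 1 / ((n : ℝ) + 1) ≤ 1 := by rw [div_le_one hn1]; linarith
      linarith) k
    have e : 1 + -(1 / ((n : ℝ) + 1)) = (n : ℝ) / (n + 1) := by field_simp; ring
    rw [e] at h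
    have e2 : 1 - (k : ℝ) / (n + 1) = 1 + (k : ℝ) * -(1 / ((n : ℝ) + 1)) := by ring
    linarith
  have hx1 : ∀ k : ℕ, ((n : ℝ) / (n + 1)) ^ k ≤ 1 := fun k =>
    pow_le_one₀ (by positivity) (by rw [div_le_one hn1]; linarith)
  have hfin : (α : ℝ) * ((q + 1) * q / (n + 1)) ≤ α * ((q : ℝ) + 1) ^ 2 / n := by
    rw [mul_div_assoc (α : ℝ) (((q : ℝ) + 1) ^ 2) (n : ℝ)]
    refine mul_le_mul_of_nonneg_left ?_ hα
    have hq : (0 : ℝ) ≤ q := Nat.cast_nonneg q
    calc (q + 1) * (q : ℝ) / (n + 1) ≤ ((q : ℝ) + 1) ^ 2 / (n + 1) := by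
          refine div_le_div_of_nonneg_right ?_ hn1.le
          nlinarith
      _ ≤ ((q : ℝ) + 1) ^ 2 / n := by
          refine div_le_div_of_nonneg_left (by positivity) hn0 (by linarith)
  -- the rates
  have hr : ∀ i : TIdx μ (n + 1), ((α * ((n + 1 : ℕ) : ℝ≥0) * tq μ (n + 1) i : ℝ≥0) : ℝ) =
      α * (μ.wn i.1 : ℝ) / ((n : ℝ) + 1) ^ q := by
    intro i
    unfold tq
    push_cast
    field_simp
    try ring
  refine ⟨?_, ?_, ?_⟩
  · intro a
    apply NNReal.coe_injective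
    rw [hr]
    unfold lamC tq cIdxT
    push_cast
    rw [div_pow]
    field_simp
    ring
  · have hterm : ∀ b : SIdx μ n,
        |((α * ((n + 1 : ℕ) : ℝ≥0) * tq μ (n + 1) (sIdxT b) : ℝ≥0) : ℝ) - srate α μ n b| =
        (μ.wn b.1 : ℝ) * (α * ((1 - ((n : ℝ) / (n + 1)) ^ q) / (n : ℝ) ^ q)) := by
      intro b
      have e1 : ((srate α μ n b : ℝ≥0) : ℝ) = α * (μ.wn b.1 : ℝ) / (n : ℝ) ^ q := by
        unfold srate
        push_cast
        show (α : ℝ) * ((μ.wn b.1 : ℝ) / (n : ℝ) ^ q) = _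
        ring
      have e2 : ((α * ((n + 1 : ℕ) : ℝ≥0) * tq μ (n + 1) (sIdxT b) : ℝ≥0) : ℝ) -
          srate α μ n b =
          -((μ.wn b.1 : ℝ) * (α * ((1 - ((n : ℝ) / (n + 1)) ^ q) / (n : ℝ) ^ q))) := by
        rw [hr, e1]
        unfold sIdxT
        rw [div_pow]
        field_simp
        ring
      rw [e2, abs_neg, abs_of_nonneg]
      have := hx1 q
      refine mul_nonneg (μ.wn b.1).2 (mul_nonneg hα (div_nonneg (by linarith) (by positivity)))
    simp only [hterm]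
    rw [Fintype.sum_prod_type]
    simp only [Finset.sum_const, Finset.card_univ, nsmul_eq_mul]
    rw [← Finset.mul_sum, ← Finset.sum_mul, fta_sum_wn]
    simp only [Fintype.card_prod, Fintype.card_fun, Fintype.card_fin, Nat.add_sub_cancel]
    have h1 := hB q
    have h2 : (((n ^ q * (q + 1) : ℕ) : ℝ)) *
        (1 * (α * ((1 - ((n : ℝ) / (n + 1)) ^ q) / (n : ℝ) ^ q))) =
        α * ((q + 1) * (1 - ((n : ℝ) / (n + 1)) ^ q)) := by
      push_cast
      field_simp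
    rw [h2]
    push_cast
    refine le_trans ?_ hfin
    refine mul_le_mul_of_nonneg_left ?_ hα
    have hq : (0 : ℝ) ≤ (q : ℝ) + 1 := by positivity
    calc ((q : ℝ) + 1) * (1 - ((n : ℝ) / (n + 1)) ^ q) ≤ (q + 1) * ((q : ℝ) / (n + 1)) :=
          mul_le_mul_of_nonneg_left (by linarith) hq
      _ = (q + 1) * q / (n + 1) := by ring
  · have s1 : ∑ i : TIdx μ (n + 1), ((α * ((n + 1 : ℕ) : ℝ≥0) * tq μ (n + 1) i : ℝ≥0) : ℝ) =
        α * (n + 1) := by
      simp only [hr]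
      rw [Fintype.sum_prod_type]
      simp only [Finset.sum_const, Finset.card_univ, nsmul_eq_mul]
      rw [← Finset.mul_sum, ← Finset.sum_div, ← Finset.mul_sum, fta_sum_wn]
      simp only [Fintype.card_fun, Fintype.card_fin]
      push_cast
      rw [pow_succ]
      field_simp
    have s2 : ∑ a : TIdx μ n, ((α * ((n + 1 : ℕ) : ℝ≥0) * tq μ (n + 1) (cIdxT a) : ℝ≥0) : ℝ) =
        α * (n + 1) * ((n : ℝ) / (n + 1)) ^ (q + 1) := by
      simp only [hr, cIdxT]
      rw [Fintype.sum_prod_type]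
      simp only [Finset.sum_const, Finset.card_univ, nsmul_eq_mul]
      rw [← Finset.mul_sum, ← Finset.sum_div, ← Finset.mul_sum, fta_sum_wn]
      simp only [Fintype.card_fun, Fintype.card_fin]
      push_cast
      rw [div_pow, pow_succ ((n : ℝ) + 1)]
      field_simp
    have s3 : ∑ b : SIdx μ n, ((α * ((n + 1 : ℕ) : ℝ≥0) * tq μ (n + 1) (sIdxT b) : ℝ≥0) : ℝ) =
        α * (q + 1) * ((n : ℝ) / (n + 1)) ^ q := by
      simp only [hr, sIdxT]
      rw [Fintype.sum_prod_type]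
      simp only [Finset.sum_const, Finset.card_univ, nsmul_eq_mul]
      rw [← Finset.mul_sum, ← Finset.sum_div, ← Finset.mul_sum, fta_sum_wn]
      simp only [Fintype.card_prod, Fintype.card_fun, Fintype.card_fin, Nat.add_sub_cancel]
      push_cast
      rw [div_pow]
      field_simp
    rw [s1, s2, s3]
    push_cast
    refine le_trans ?_ hfin
    have h1 := hB (q + 1)
    have h2 := hB q
    have e : (α : ℝ) * (n + 1) - α * (n + 1) * ((n : ℝ) / (n + 1)) ^ (q + 1) -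
        α * (q + 1) * ((n : ℝ) / (n + 1)) ^ q =
        α * ((n + 1) * (1 - ((n : ℝ) / (n + 1)) ^ (q + 1)) -
          (q + 1) * ((n : ℝ) / (n + 1)) ^ q) := by ring
    rw [e]
    refine mul_le_mul_of_nonneg_left ?_ hα
    have h3 : ((n : ℝ) + 1) * (1 - ((n : ℝ) / (n + 1)) ^ (q + 1)) ≤ q + 1 := by
      push_cast at h1
      calc ((n : ℝ) + 1) * (1 - ((n : ℝ) / (n + 1)) ^ (q + 1)) ≤ (n + 1) * ((q + 1) / (n + 1)) :=
            mul_le_mul_of_nonneg_left (by linarith) hn1.le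
        _ = q + 1 := by field_simp
    have h4 : ((q : ℝ) + 1) * (1 - (q : ℝ) / (n + 1)) ≤ (q + 1) * ((n : ℝ) / (n + 1)) ^ q :=
      mul_le_mul_of_nonneg_left h2 (by positivity)
    have e3 : ((q : ℝ) + 1) * q / (n + 1) = (q + 1) - (q + 1) * (1 - (q : ℝ) / (n + 1)) := by
      ring
    rw [e3]
    linarith

end Crest.Agent.MP.FA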