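import Crest.Agent.MP.FAsTools
import Crest.Agent.MP.FAsRestr
import Crest.Agent.MP.FAsTrueA

/-!
# Module F4: the true interactions of the system with `n + 1` spins
-/

set_option autoImplicit false

namespace Crest.Agent.MP.FA
open MeasureTheory ProbabilityTheory Filter Topology
open Crest.ProbabilityR.Diluted
open scoped NNReal

private theorem abs_le_supNorm {p : ℕ} (θ : Inter p) (s : Fin p → Bool) : |θ s| ≤ supNorm θ := by
  unfold supNorm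
  exact le_ciSup (f := fun s : Fin p → Bool => |θ s|) (Set.finite_range _).bddAbove s

private theorem supNorm_nn {p : ℕ} (θ : Inter p) : 0 ≤ supNorm θ :=
  (abs_nonneg _).trans (abs_le_supNorm θ (fun _ => true))

private theorem tfac_abs_le {p : ℕ} {μ : FinLaw (Inter p)} {n : ℕ} (a : TIdx μ n) (σ : Cf n) :
    |tfac a σ| ≤ cM μ := by
  unfold tfac cM
  refine (abs_le_supNorm _ _).trans ?_
  exact Finset.single_le_sum (f := fun t => supNorm (μ.x t)) (fun t _ => supNorm_nn _)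
    (Finset.mem_univ a.1)

/-- PROOF. `po_restrict₂` with `κ = cIdxT`, `κ' = sIdxT` (`idx_injective`), the rates
`rate_bounds`, `L = cM μ`; `sum_pushN`. -/
theorem true_step (p : ℕ) (hp : 1 ≤ p) (α : ℝ≥0) (μ : FinLaw (Inter p)) : ∃ C : ℝ, 0 ≤ C ∧
    ∀ (n : ℕ), 1 ≤ n → ∀ (Ψ : (Cf (n + 1) → ℝ) → ℝ), LipH Ψ → ∀ G : Cf (n + 1) → ℝ,
      |trueE μ (α * ((n + 1 : ℕ) : ℝ≥0)) Ψ G -
        ∫ N, ∫ N', Ψ (fun τ => G τ + (∑ a : TIdx μ n, (N a : ℝ) * tfac a (ini τ)) +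
            ∑ b : SIdx μ n, (N' b : ℝ) * tfac (sIdxT b) τ)
          ∂(Po (srate α μ n)) ∂(Po (fun a => lamC p α n * tq μ n a))| ≤ C / n := by
  classical
  have hcM : 0 ≤ cM μ := Finset.sum_nonneg fun t _ => supNorm_nn _
  refine ⟨2 * (cM μ * (α * p ^ 2)), by positivity, fun n hn Ψ hΨ G => ?_⟩
  have hL : ∀ (N : TIdx μ (n + 1) → ℕ) (i : TIdx μ (n + 1)),
      |Ψ (tHam μ G (bump N i)) - Ψ (tHam μ G N)| ≤ (fun _ => cM μ) i := by
    intro N i
    have h1 : tHam μ G (bump N i) = fun σ => tHam μ G N σ + tfac i σ := by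
      funext σ
      unfold tHam bump
      rw [add_assoc]
      congr 1
      have h2 : ∑ a, (N a : ℝ) * tfac a σ + tfac i σ =
          ∑ a, ((N a : ℝ) * tfac a σ + if a = i then tfac a σ else 0) := by
        rw [Finset.sum_add_distrib]
        simp
      rw [h2]
      refine Finset.sum_congr rfl fun a _ => ?_
      split_ifs <;> push_cast <;> ring
    rw [h1]
    exact hΨ _ _ _ (fun σ => tfac_abs_le i σ)
  obtain ⟨hr1, hr2, hr3⟩ := rate_bounds p hp α μ n hn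
  have key := po_restrict₂ (cIdxT (μ := μ) (n := n)) (sIdxT (μ := μ) (n := n))
    (idx_injective μ n) (fun i => α * ((n + 1 : ℕ) : ℝ≥0) * tq μ (n + 1) i)
    (fun a => lamC p α n * tq μ n a) (srate α μ n) (G := fun N => Ψ (tHam μ G N)) hL
  have e1 : trueE μ (α * ((n + 1 : ℕ) : ℝ≥0)) Ψ G =
      ∫ N, Ψ (tHam μ G N) ∂(Po (fun i => α * ((n + 1 : ℕ) : ℝ≥0) * tq μ (n + 1) i)) := rfl
  have e2 : ∀ (N : TIdx μ n → ℕ) (N' : SIdx μ n → ℕ),
      tHam μ G (fun i => pushN cIdxT N i + pushN sIdxT N' i) =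
      (fun τ => G τ + (∑ a : TIdx μ n, (N a : ℝ) * tfac a (ini τ)) +
            ∑ b : SIdx μ n, (N' b : ℝ) * tfac (sIdxT b) τ) := by
    intro N N'
    funext τ
    unfold tHam
    have h2 : ∀ i : TIdx μ (n + 1), ((pushN cIdxT N i + pushN sIdxT N' i : ℕ) : ℝ) * tfac i τ =
        (pushN cIdxT N i : ℝ) * tfac i τ + (pushN sIdxT N' i : ℝ) * tfac i τ := by
      intro i
      push_cast
      ring
    rw [Finset.sum_congr rfl (fun i _ => h2 i), Finset.sum_add_distrib, sum_pushN, sum_pushN,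
      ← add_assoc]
    rfl
  have e3 : (∫ N, ∫ N', Ψ (tHam μ G (fun i => pushN cIdxT N i + pushN sIdxT N' i))
        ∂(Po (srate α μ n)) ∂(Po (fun a => lamC p α n * tq μ n a))) =
      ∫ N, ∫ N', Ψ (fun τ => G τ + (∑ a : TIdx μ n, (N a : ℝ) * tfac a (ini τ)) +
            ∑ b : SIdx μ n, (N' b : ℝ) * tfac (sIdxT b) τ)
          ∂(Po (srate α μ n)) ∂(Po (fun a => lamC p α n * tq μ n a)) := by
    simp_rw [e2]
  rw [e1, ← e3]
  refine key.trans ?_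
  have b1 : ∑ k : TIdx μ n, |((α * ((n + 1 : ℕ) : ℝ≥0) * tq μ (n + 1) (cIdxT k) : ℝ≥0) : ℝ) -
      ((lamC p α n * tq μ n k : ℝ≥0) : ℝ)| * cM μ = 0 := by
    refine Finset.sum_eq_zero fun k _ => ?_
    rw [hr1 k, sub_self, abs_zero, zero_mul]
  have b2 : ∑ k : SIdx μ n, |((α * ((n + 1 : ℕ) : ℝ≥0) * tq μ (n + 1) (sIdxT k) : ℝ≥0) : ℝ) -
      ((srate α μ n k : ℝ≥0) : ℝ)| * cM μ ≤ α * p ^ 2 / n * cM μ := by
    rw [← Finset.sum_mul]
    exact mul_le_mul_of_nonneg_right hr2 hcM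
  have b3 : (∑ i : TIdx μ (n + 1), ((α * ((n + 1 : ℕ) : ℝ≥0) * tq μ (n + 1) i : ℝ≥0) : ℝ) * cM μ) -
      (∑ k : TIdx μ n, ((α * ((n + 1 : ℕ) : ℝ≥0) * tq μ (n + 1) (cIdxT k) : ℝ≥0) : ℝ) * cM μ) -
      (∑ k : SIdx μ n, ((α * ((n + 1 : ℕ) : ℝ≥0) * tq μ (n + 1) (sIdxT k) : ℝ≥0) : ℝ) * cM μ) ≤
      α * p ^ 2 / n * cM μ := by
    rw [← Finset.sum_mul, ← Finset.sum_mul, ← Finset.sum_mul, ← sub_mul, ← sub_mul]
    exact mul_le_mul_of_nonneg_right hr3 hcM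
  have b4 : 2 * (cM μ * ((α : ℝ) * p ^ 2)) / n = α * p ^ 2 / n * cM μ + α * p ^ 2 / n * cM μ := by
    ring
  rw [b4]
  refine le_trans (le_of_eq ?_) (add_le_add (add_le_add b1.le b2) b3 |>.trans (by rw [zero_add]))
  rfl

end Crest.Agent.MP.FA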