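import Crest.Agent.MP.FAsSoft
import Crest.Agent.MP.FAsTrue
import Crest.Agent.MP.FAsSite
import Crest.Agent.MP.FAsExch

/-!
# Module F4: lower bound for `a_{n+1}`
-/

set_option autoImplicit false

namespace Crest.Agent.MP.FA
open MeasureTheory ProbabilityTheory Filter Topology
open Crest.ProbabilityR.Diluted
open scoped NNReal

/-- Averaging over counts preserves the Lipschitz property. -/
theorem fasLow_avg {n : ℕ} {Ψ : (Cf n → ℝ) → ℝ} (hΨ : LipH Ψ) {I : Type} [Fintype I]
    (lam : I → ℝ≥0) (φ : I → Cf n → ℝ) :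
    LipH (fun H => ∫ N, Ψ (fun σ => H σ + ∑ a, (N a : ℝ) * φ a σ) ∂(Po lam)) := by
  intro H ψ c hc
  have i1 := integrable_linG lam (hΨ.linG (fun σ => H σ + ψ σ) φ)
  have i2 := integrable_linG lam (hΨ.linG H φ)
  simp only
  rw [← integral_sub i1 i2]
  have h1 : ∀ N : I → ℕ, |Ψ (fun σ => (H σ + ψ σ) + ∑ a, (N a : ℝ) * φ a σ) -
      Ψ (fun σ => H σ + ∑ a, (N a : ℝ) * φ a σ)| ≤ c := by
    intro N
    have h2 := hΨ (fun σ => H σ + ∑ a, (N a : ℝ) * φ a σ) ψ c hc
    have h3 : (fun σ => (H σ + ψ σ) + ∑ a, (N a : ℝ) * φ a σ) =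
        (fun σ => (H σ + ∑ a, (N a : ℝ) * φ a σ) + ψ σ) := by
      funext σ; ring
    rw [h3]
    exact h2
  calc |∫ N, (Ψ (fun σ => (H σ + ψ σ) + ∑ a, (N a : ℝ) * φ a σ) -
      Ψ (fun σ => H σ + ∑ a, (N a : ℝ) * φ a σ)) ∂(Po lam)|
      ≤ ∫ N, |Ψ (fun σ => (H σ + ψ σ) + ∑ a, (N a : ℝ) * φ a σ) -
      Ψ (fun σ => H σ + ∑ a, (N a : ℝ) * φ a σ)| ∂(Po lam) := abs_integral_le_integral_abs
    _ ≤ ∫ _N, c ∂(Po lam) := integral_mono (i1.sub i2).abs (integrable_const c) h1
    _ = c := by simp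

/-- Lipschitz functionals along two groups of counts. -/
theorem fasLow_two {n : ℕ} {Ψ : (Cf n → ℝ) → ℝ} (hΨ : LipH Ψ) {I I' : Type} [Fintype I] [Fintype I']
    (H : Cf n → ℝ) (φ : I → Cf n → ℝ) (φ' : I' → Cf n → ℝ) :
    ∃ A B : ℝ, ∀ (N : I → ℕ) (N' : I' → ℕ),
      |Ψ (fun σ => (H σ + ∑ a, (N a : ℝ) * φ a σ) + ∑ b, (N' b : ℝ) * φ' b σ)| ≤
        A + B * ((∑ k, (N k : ℝ)) + ∑ k, (N' k : ℝ)) := by
  obtain ⟨A, B, h⟩ := hΨ.linG H (Sum.elim φ φ')
  refine ⟨A, B, fun N N' => ?_⟩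
  have h1 := h (Sum.elim N N')
  simp only [Fintype.sum_sum_type, Sum.elim_inl, Sum.elim_inr] at h1
  simpa only [add_assoc] using h1

/-- PROOF. `Efld_succ`, `fHam_snoc`; `true_step` for `Ψ = softE J ε δ u logZ` (`softE_lipH`,
`logZ_lipH`); `soft_step` for `Ψ = logZ` inside; `po_swap` of `N'` and the soft counts; `site_value`
with `G = Ham (tHam μ (fHam ν h) N) δ u N''`; `siteF_eq`. -/
theorem aN_succ_ge (p : ℕ) (hp : 1 ≤ p) (α : ℝ≥0) (μ : FinLaw (Inter p)) (hsym : μ.Symm)
    (ν : FinLaw ℝ) (J : Finset Species) : ∃ C : ℝ, 0 ≤ C ∧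
    ∀ (ε : ℝ≥0) (δ : ℝ), 0 ≤ δ → δ ≤ 1 → ∀ (u : UPar), UOk u → ∀ (n : ℕ), 1 ≤ n →
      E0 p α μ ν n (fun G => softE J ε δ u logZ G + Real.log 2 + siteF p α μ ν J ε δ u G) -
        C * ε - C / n ≤ aN p α μ ν J ε δ (n + 1) u := by
  obtain ⟨C1, hC1, H1⟩ := true_step p hp α μ
  obtain ⟨C2, hC2, H2⟩ := soft_step J
  refine ⟨C1 + C2, by linarith, ?_⟩
  intro ε δ hδ0 hδ1 u hu n hn
  have hn0 : (0 : ℝ) < n := by exact_mod_cast hn
  have hε0 : (0 : ℝ) ≤ (ε : ℝ) := ε.2
  -- pointwise inequality in the fields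
  have key : ∀ h : Fin n → ν.ι,
      trueE μ (lamC p α n) (fun G => softE J ε δ u logZ G + Real.log 2 + siteF p α μ ν J ε δ u G)
        (fHam ν h) + (-(C2 * ε + C1 / n)) ≤
      ∑ i, ν.w i * trueE μ (α * ((n + 1 : ℕ) : ℝ≥0)) (softE J ε δ u logZ)
        (fHam ν (Fin.snoc (α := fun _ => ν.ι) h i)) := by
    intro h
    -- the functionals
    let L1 : (Cf (n + 1) → ℝ) → ℝ := logZ
    have hL1 : LipH L1 := logZ_lipH
    let S : (Cf (n + 1) → ℝ) → ℝ := softE J ε δ u logZ
    have hS : LipH S := softE_lipH ε δ u logZ_lipH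
    let φs : FIdx J n → Cf (n + 1) → ℝ := fun a τ => fac δ u a (ini τ)
    let φb : SIdx μ n → Cf (n + 1) → ℝ := fun b τ => tfac (sIdxT b) τ
    let φa : TIdx μ n → Cf (n + 1) → ℝ := fun a τ => tfac a (ini τ)
    let S' : (Cf (n + 1) → ℝ) → ℝ := fun H =>
      ∫ N, L1 (fun τ => H τ + ∑ a, (N a : ℝ) * φs a τ) ∂(Po (frate J n ε))
    have hS' : LipH S' := fasLow_avg hL1 _ φs
    have hSS' : ∀ H, S' H - C2 * ε ≤ S H := by
      intro H
      have h1 := H2 n hn L1 hL1 ε δ hδ0 hδ1 u hu H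
      have h2 := (abs_le.1 h1).1
      have h3 : S' H = ∫ N, L1 (fun τ => H τ + ∑ a : FIdx J n, (N a : ℝ) * fac δ u a (ini τ))
          ∂(Po (frate J n ε)) := rfl
      have h4 : S H = softE J ε δ u L1 H := rfl
      rw [h3, h4]
      linarith
    let A1 : (Cf (n + 1) → ℝ) → ℝ := fun H =>
      ∫ N, S (fun τ => H τ + ∑ b, (N b : ℝ) * φb b τ) ∂(Po (srate α μ n))
    let A2 : (Cf (n + 1) → ℝ) → ℝ := fun H =>
      ∫ N, S' (fun τ => H τ + ∑ b, (N b : ℝ) * φb b τ) ∂(Po (srate α μ n))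
    have hA1 : LipH A1 := fasLow_avg hS _ φb
    have hA2 : LipH A2 := fasLow_avg hS' _ φb
    have hA12 : ∀ H, A2 H - C2 * ε ≤ A1 H := by
      intro H
      have i1 := integrable_linG (srate α μ n) (hS.linG H φb)
      have i2 := integrable_linG (srate α μ n) (hS'.linG H φb)
      have h1 : ∫ N, (S' (fun τ => H τ + ∑ b, (N b : ℝ) * φb b τ) - C2 * ε) ∂(Po (srate α μ n)) ≤
          ∫ N, S (fun τ => H τ + ∑ b, (N b : ℝ) * φb b τ) ∂(Po (srate α μ n)) :=
        integral_mono (i2.sub (integrable_const _)) i1 (fun N => hSS' _)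
      rw [integral_sub i2 (integrable_const _)] at h1
      simpa using h1
    -- the common Hamiltonian
    let G0 : (TIdx μ n → ℕ) → Cf n → ℝ := fun N => tHam μ (fHam ν h) N
    let Gx : ν.ι → Cf (n + 1) → ℝ := fun i τ => fHam ν h (ini τ) + ν.x i * spinVal (τ (Fin.last n))
    let HN : ν.ι → (TIdx μ n → ℕ) → Cf (n + 1) → ℝ := fun i N τ =>
      Gx i τ + ∑ a, (N a : ℝ) * φa a τ
    -- value of `A2`
    let T : ν.ι → (TIdx μ n → ℕ) → (FIdx J n → ℕ) → ℝ := fun i N N'' =>
      ∑' k : ℕ, poissonWeight (α * p) k *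
        μ.Epow k (fun θs => siteC (ν.x i) θs + avgI (Fin k × Fin (p - 1)) n
          (fun e => Real.log (gav1 (Ham (J := J) (G0 N) δ u N'')
            (fun σ => siteψ (ν.x i) θs (fun l => σ (e l))))))
    have hval : ∀ i N, A2 (HN i N) = softE J ε δ u logZ (G0 N) + Real.log 2 +
        ∫ N'', T i N N'' ∂(Po (frate J n ε)) := by
      intro i N
      have e1 : A2 (HN i N) = ∫ N'', ∫ N', L1 (fun τ => (HN i N τ + ∑ b, (N' b : ℝ) * φb b τ) +
          ∑ a, (N'' a : ℝ) * φs a τ) ∂(Po (srate α μ n)) ∂(Po (frate J n ε)) :=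
        po_swap (srate α μ n) (frate J n ε) (fun N' N'' => L1 (fun τ =>
          (HN i N τ + ∑ b, (N' b : ℝ) * φb b τ) + ∑ a, (N'' a : ℝ) * φs a τ))
          (fasLow_two hL1 (HN i N) φb φs)
      have e2 : ∀ N'' : FIdx J n → ℕ, ∫ N', L1 (fun τ => (HN i N τ + ∑ b, (N' b : ℝ) * φb b τ) +
          ∑ a, (N'' a : ℝ) * φs a τ) ∂(Po (srate α μ n)) =
          logZ (Ham (J := J) (G0 N) δ u N'') + Real.log 2 + T i N N'' := by
        intro N''
        have h1 := site_value p hp α μ hsym hn (Ham (J := J) (G0 N) δ u N'') (ν.x i)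
        rw [← h1]
        refine integral_congr_ae (Eventually.of_forall fun N' => ?_)
        show logZ _ = logZ _
        congr 1
        funext τ
        simp only [HN, Gx, G0, φa, φb, φs, Ham, tHam]
        ring
      rw [e1]
      have iL : Integrable (fun N'' : FIdx J n → ℕ => logZ (Ham (J := J) (G0 N) δ u N''))
          (Po (frate J n ε)) :=
        integrable_linG _ ((logZ_lipH (n := n)).linG (G0 N) (fun (a : FIdx J n) σ => fac δ u a σ))
      have iV : Integrable (fun N'' : FIdx J n → ℕ => ∫ N', L1 (fun τ =>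
          (HN i N τ + ∑ b, (N' b : ℝ) * φb b τ) +
          ∑ a, (N'' a : ℝ) * φs a τ) ∂(Po (srate α μ n))) (Po (frate J n ε)) := by
        have h1 := (fasLow_avg hL1 (srate α μ n) φb).linG (HN i N) φs
        have h2 := integrable_linG (frate J n ε) h1
        refine h2.congr (Eventually.of_forall fun N'' => ?_)
        simp only
        refine integral_congr_ae (Eventually.of_forall fun N' => ?_)
        simp only
        congr 1
        funext τ
        ring
      have iT : Integrable (fun N'' => T i N N'') (Po (frate J n ε)) := by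
        have h1 := (iV.sub iL).sub (integrable_const (Real.log 2))
        refine h1.congr (Eventually.of_forall fun N'' => ?_)
        simp only [Pi.sub_apply]
        rw [e2]
        ring
      rw [integral_congr_ae (Eventually.of_forall e2)]
      have e3 : ∫ N'', (logZ (Ham (J := J) (G0 N) δ u N'') + Real.log 2 + T i N N'')
          ∂(Po (frate J n ε)) =
          (∫ N'', (logZ (Ham (J := J) (G0 N) δ u N'') + Real.log 2) ∂(Po (frate J n ε))) +
            ∫ N'', T i N N'' ∂(Po (frate J n ε)) :=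
        integral_add (iL.add (integrable_const _)) iT
      have e4 : ∫ N'', (logZ (Ham (J := J) (G0 N) δ u N'') + Real.log 2) ∂(Po (frate J n ε)) =
          (∫ N'', logZ (Ham (J := J) (G0 N) δ u N'') ∂(Po (frate J n ε))) +
            ∫ _N'', Real.log 2 ∂(Po (frate J n ε)) :=
        integral_add iL (integrable_const _)
      rw [e3, e4]
      simp only [integral_const, probReal_univ, one_smul]
      rfl
    have hsum : ∀ N, ∑ i, ν.w i * A2 (HN i N) =
        softE J ε δ u logZ (G0 N) + Real.log 2 + siteF p α μ ν J ε δ u (G0 N) := by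
      intro N
      have h1 := siteF_eq p α μ ν J ε δ u hn (G0 N)
      rw [← h1]
      simp only [hval]
      have h2 : ∀ i, ν.w i * (softE J ε δ u logZ (G0 N) + Real.log 2 +
          ∫ N'', T i N N'' ∂(Po (frate J n ε))) =
          ν.w i * (softE J ε δ u logZ (G0 N) + Real.log 2) +
            ν.w i * ∫ N'', T i N N'' ∂(Po (frate J n ε)) := fun i => by ring
      simp only [h2]
      rw [Finset.sum_add_distrib, ← Finset.sum_mul, ν.w_sum, one_mul]
    -- the true interactions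
    have htrue : ∀ i, (∫ N, A2 (HN i N) ∂(Po (fun a => lamC p α n * tq μ n a))) -
        (C2 * ε + C1 / n) ≤ trueE μ (α * ((n + 1 : ℕ) : ℝ≥0)) (softE J ε δ u logZ)
        (fHam ν (Fin.snoc (α := fun _ => ν.ι) h i)) := by
      intro i
      have e1 : fHam ν (Fin.snoc (α := fun _ => ν.ι) h i) = Gx i := by
        funext τ
        exact fHam_snoc ν h i τ
      rw [e1]
      have h1 := (abs_le.1 (H1 n hn S hS (Gx i))).1
      have h2 : (∫ N, ∫ N', S (fun τ => Gx i τ + (∑ a : TIdx μ n, (N a : ℝ) * tfac a (ini τ)) +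
            ∑ b : SIdx μ n, (N' b : ℝ) * tfac (sIdxT b) τ)
          ∂(Po (srate α μ n)) ∂(Po (fun a => lamC p α n * tq μ n a))) =
          ∫ N, A1 (HN i N) ∂(Po (fun a => lamC p α n * tq μ n a)) := rfl
      rw [h2] at h1
      have i1 : Integrable (fun N : TIdx μ n → ℕ => A1 (HN i N))
          (Po (fun a => lamC p α n * tq μ n a)) := integrable_linG _ (hA1.linG (Gx i) φa)
      have i2 : Integrable (fun N : TIdx μ n → ℕ => A2 (HN i N))
          (Po (fun a => lamC p α n * tq μ n a)) := integrable_linG _ (hA2.linG (Gx i) φa)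
      have h3 : ∫ N, (A2 (HN i N) - C2 * ε) ∂(Po (fun a => lamC p α n * tq μ n a)) ≤
          ∫ N, A1 (HN i N) ∂(Po (fun a => lamC p α n * tq μ n a)) :=
        integral_mono (i2.sub (integrable_const _)) i1 (fun N => hA12 _)
      rw [integral_sub i2 (integrable_const _)] at h3
      simp only [integral_const, probReal_univ, one_smul] at h3
      have h4 : trueE μ (α * ((n + 1 : ℕ) : ℝ≥0)) S (Gx i) =
        trueE μ (α * ((n + 1 : ℕ) : ℝ≥0)) (softE J ε δ u logZ) (Gx i) := rfl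
      rw [← h4]
      linarith
    have hmain : trueE μ (lamC p α n)
        (fun G => softE J ε δ u logZ G + Real.log 2 + siteF p α μ ν J ε δ u G) (fHam ν h) =
        ∑ i, ν.w i * ∫ N, A2 (HN i N) ∂(Po (fun a => lamC p α n * tq μ n a)) := by
      have h1 : trueE μ (lamC p α n)
        (fun G => softE J ε δ u logZ G + Real.log 2 + siteF p α μ ν J ε δ u G) (fHam ν h) =
        ∫ N, (∑ i, ν.w i * A2 (HN i N)) ∂(Po (fun a => lamC p α n * tq μ n a)) := by
        unfold trueE
        refine integral_congr_ae (Eventually.of_forall fun N => ?_)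
        simp only
        rw [hsum N]
      rw [h1, integral_finsetSum]
      · refine Finset.sum_congr rfl fun i _ => ?_
        rw [integral_const_mul]
      · intro i _
        exact (integrable_linG _ (hA2.linG (Gx i) φa)).const_mul _
    rw [hmain]
    have hconst : ∑ i, ν.w i * (C2 * (ε : ℝ) + C1 / n) = C2 * ε + C1 / n := by
      rw [← Finset.sum_mul, ν.w_sum, one_mul]
    calc (∑ i, ν.w i * ∫ N, A2 (HN i N) ∂(Po (fun a => lamC p α n * tq μ n a))) +
          (-(C2 * ε + C1 / n))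
        = ∑ i, ν.w i * ((∫ N, A2 (HN i N) ∂(Po (fun a => lamC p α n * tq μ n a))) -
            (C2 * ε + C1 / n)) := by
          simp only [mul_sub]
          rw [Finset.sum_sub_distrib, hconst]
          ring
      _ ≤ _ := Finset.sum_le_sum fun i _ => mul_le_mul_of_nonneg_left (htrue i) (ν.w_nonneg i)
  -- average over the fields
  have h1 : E0 p α μ ν n (fun G => softE J ε δ u logZ G + Real.log 2 + siteF p α μ ν J ε δ u G) +
      (-(C2 * ε + C1 / n)) ≤ aN p α μ ν J ε δ (n + 1) u := by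
    unfold E0 aN
    rw [Efld_succ, ← Efld_const ν n (-(C2 * (ε : ℝ) + C1 / n)), ← Efld_add]
    exact Efld_mono ν n key
  have h2 : C1 / (n : ℝ) ≤ (C1 + C2) / n := by
    apply div_le_div_of_nonneg_right _ hn0.le
    linarith
  have h3 : C2 * (ε : ℝ) ≤ (C1 + C2) * ε := by nlinarith
  linarith

end Crest.Agent.MP.FA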