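import Crest.Agent.MP.FAsTools
import Crest.Agent.MP.FASSa

/-!
# Module F4: the pressure as an expectation over independent Poisson counts
-/

set_option autoImplicit false

namespace Crest.Agent.MP.FA
open MeasureTheory ProbabilityTheory Filter Topology
open Crest.ProbabilityR.Diluted
open scoped NNReal

/-- The probabilities of the interaction indices sum to `1`. -/
theorem fpr_sum_tq {p : ℕ} (μ : FinLaw (Inter p)) {n : ℕ} (hn : 1 ≤ n) :
    ∑ a : TIdx μ n, tq μ n a = 1 := by
  have hn0 : ((n : ℝ≥0) ^ p) ≠ 0 := by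
    apply pow_ne_zero
    exact_mod_cast (by omega : n ≠ 0)
  have hw : ∑ i, μ.wn i = 1 := by
    rw [← NNReal.coe_inj, NNReal.coe_sum]
    exact μ.w_sum
  unfold tq
  rw [Fintype.sum_prod_type]
  simp only [Finset.sum_const, Finset.card_univ, Fintype.card_fun, Fintype.card_fin, nsmul_eq_mul,
    Nat.cast_pow]
  rw [← Finset.mul_sum, ← Finset.sum_div, hw, mul_one_div, div_self hn0]

/-- The energy of a list of interactions. -/
theorem fpr_tHam_cnt {p : ℕ} (μ : FinLaw (Inter p)) {n M : ℕ} (G : Cf n → ℝ)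
    (t : Fin M → TIdx μ n) (σ : Cf n) :
    tHam μ G (cntOf t) σ = G σ + ∑ k, tfac (t k) σ := by
  classical
  unfold tHam
  congr 1
  have h1 : ∀ k : Fin M, tfac (t k) σ = ∑ a : TIdx μ n, if t k = a then tfac a σ else 0 := by
    intro k
    rw [Finset.sum_ite_eq Finset.univ (t k), if_pos (Finset.mem_univ _)]
  rw [Finset.sum_congr rfl (fun k _ => h1 k), Finset.sum_comm]
  refine Finset.sum_congr rfl fun a _ => ?_
  rw [← Finset.sum_filter, Finset.sum_const, nsmul_eq_mul]
  congr 2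
  unfold cntOf
  congr

/-- One term of the pressure. -/
theorem fpr_term (p : ℕ) (μ : FinLaw (Inter p)) (ν : FinLaw ℝ) {n : ℕ} (M : ℕ) :
    μ.Epow M (fun θs => ν.Epow n (fun hs => ((Fintype.card (Fin M → Fin p → Fin n) : ℝ)⁻¹ *
        ∑ idx : Fin M → Fin p → Fin n, logPartition n θs idx hs))) =
      ∑ h : Fin n → ν.ι, (∏ i, ν.w (h i)) *
        ∑ t : Fin M → TIdx μ n, (∏ j, (tq μ n (t j) : ℝ)) * logZ (tHam μ (fHam ν h) (cntOf t)) := by
  classical
  unfold FinLaw.Epow
  simp only [Finset.mul_sum]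
  rw [Finset.sum_comm]
  refine Finset.sum_congr rfl fun h _ => ?_
  rw [← (Equiv.arrowProdEquivProdArrow (Fin M) (fun _ => μ.ι)
    (fun _ => Fin p → Fin n)).symm.sum_comp, Fintype.sum_prod_type]
  refine Finset.sum_congr rfl fun j _ => ?_
  refine Finset.sum_congr rfl fun idx _ => ?_
  have hq : (∏ k : Fin M, (tq μ n (((Equiv.arrowProdEquivProdArrow (Fin M) (fun _ => μ.ι)
      (fun _ => Fin p → Fin n)).symm (j, idx)) k) : ℝ)) =
      (∏ a, μ.w (j a)) * (Fintype.card (Fin M → Fin p → Fin n) : ℝ)⁻¹ := by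
    have h1 : ∀ k : Fin M, (tq μ n (((Equiv.arrowProdEquivProdArrow (Fin M) (fun _ => μ.ι)
      (fun _ => Fin p → Fin n)).symm (j, idx)) k) : ℝ) = μ.w (j k) * ((n : ℝ) ^ p)⁻¹ := by
      intro k
      unfold tq
      rw [NNReal.coe_div, div_eq_mul_inv, NNReal.coe_pow, NNReal.coe_natCast]
      rfl
    rw [Finset.prod_congr rfl (fun k _ => h1 k), Finset.prod_mul_distrib]
    simp
  have hZ : logZ (tHam μ (fHam ν h) (cntOf ((Equiv.arrowProdEquivProdArrow (Fin M) (fun _ => μ.ι)
      (fun _ => Fin p → Fin n)).symm (j, idx)))) =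
      logPartition n (fun a => μ.x (j a)) idx (fun a => ν.x (h a)) := by
    unfold logZ logPartition
    congr 1
    refine Finset.sum_congr rfl fun σ _ => ?_
    rw [fpr_tHam_cnt, add_comm]
    rfl
  rw [hq, hZ]
  ring

/-- PROOF. `FASS.integral_pi_finLaw` turns the two integrals in `pressure` into finite sums
`μ.Epow M`, `ν.Epow n` (`= Efld ν n`).  For fixed fields, `thinning` with `Λ = α n`,
`q (t, idx) = w_t / n^p` (`tq μ n`, sum `1`), `G N = logZ (tHam μ (fHam ν h) N)` (`LinG` by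
`LipH.linG`, `logZ_lipH`): the list `t : Fin M → TIdx μ n` is a pair (`Fin M → μ.ι`,
`Fin M → Fin p → Fin n`), `cntOf t` gives `Σ_a cntOf t a * tfac a σ = Σ_k tfac (t k) σ`, the weights are
`Π w / n^(pM)` and `card (Fin M → Fin p → Fin n) = n^(pM)`.  The factor `1/n · n = 1`; exchange the
finite sum over `h` with `tsum` (each is summable by `thinning`'s `HasSum`). -/
theorem pressure_eq (p : ℕ) (α : ℝ≥0) (μ : FinLaw (Inter p)) (ν : FinLaw ℝ) {n : ℕ} (hn : 1 ≤ n) :
    (n : ℝ) * pressure p α μ.toMeasure ν.toMeasure n =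
      Efld ν n (fun h => trueE μ (α * n) logZ (fHam ν h)) := by
  have hn0 : (n : ℝ) ≠ 0 := by exact_mod_cast (by omega : n ≠ 0)
  have hS : ∀ h : Fin n → ν.ι, HasSum (fun M : ℕ => (∏ i, ν.w (h i)) *
      ((Real.exp (-((α * n : ℝ≥0) : ℝ)) * ((α * n : ℝ≥0) : ℝ) ^ M / (Nat.factorial M : ℝ)) *
        ∑ t : Fin M → TIdx μ n, (∏ j, (tq μ n (t j) : ℝ)) *
          logZ (tHam μ (fHam ν h) (cntOf t))))
      ((∏ i, ν.w (h i)) * trueE μ (α * n) logZ (fHam ν h)) := by
    intro h
    exact (thinning (α * n) (tq μ n) (fpr_sum_tq μ hn)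
      (G := fun N => logZ (tHam μ (fHam ν h) N))
      (logZ_lipH.linG (fHam ν h) (fun a => tfac a))).mul_left _
  have hS2 := hasSum_sum (fun h (_ : h ∈ (Finset.univ : Finset (Fin n → ν.ι))) => hS h)
  have hR : Efld ν n (fun h => trueE μ (α * n) logZ (fHam ν h)) =
      ∑ h : Fin n → ν.ι, (∏ i, ν.w (h i)) * trueE μ (α * n) logZ (fHam ν h) := rfl
  rw [hR, ← hS2.tsum_eq]
  unfold pressure
  rw [← mul_assoc, mul_one_div, div_self hn0, one_mul]
  congr 1
  funext M
  have hint : ∀ θs : Fin M → Inter p,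
      ∫ hs, ((Fintype.card (Fin M → Fin p → Fin n) : ℝ)⁻¹ *
        ∑ idx : Fin M → Fin p → Fin n, logPartition n θs idx hs)
        ∂(Measure.pi fun _ : Fin n => ν.toMeasure) =
      ν.Epow n (fun hs => ((Fintype.card (Fin M → Fin p → Fin n) : ℝ)⁻¹ *
        ∑ idx : Fin M → Fin p → Fin n, logPartition n θs idx hs)) :=
    fun θs => FASS.integral_pi_finLaw ν n _
  simp only [hint]
  rw [FASS.integral_pi_finLaw, fpr_term, Finset.mul_sum]
  refine Finset.sum_congr rfl fun h _ => ?_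
  have hw : poissonWeight (α * n) M =
      Real.exp (-((α * n : ℝ≥0) : ℝ)) * ((α * n : ℝ≥0) : ℝ) ^ M / (Nat.factorial M : ℝ) := by
    unfold poissonWeight
    rw [NNReal.coe_mul, NNReal.coe_natCast]
  rw [hw]
  ring

/-- The soft factors change the free energy by `O(ε n)`. -/
theorem aN_sub_pressure (p : ℕ) (α : ℝ≥0) (μ : FinLaw (Inter p)) (ν : FinLaw ℝ)
    (J : Finset Species) (ε : ℝ≥0) {δ : ℝ} (h0 : 0 ≤ δ) (h1 : δ ≤ 1) {n : ℕ} (hn : 1 ≤ n)
    {u : UPar} (hu : UOk u) :
    |aN p α μ ν J ε δ n u - (n : ℝ) * pressure p α μ.toMeasure ν.toMeasure n| ≤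
      cJ J * (J.card * ε * n) := by
  rw [pressure_eq p α μ ν hn]
  unfold aN
  have key : ∀ h : Fin n → ν.ι,
      |trueE μ (α * n) (softE J ε δ u logZ) (fHam ν h) - trueE μ (α * n) logZ (fHam ν h)| ≤
        cJ J * (J.card * ε * n) := by
    intro h
    unfold trueE
    have i1 : Integrable (fun N => softE J ε δ u logZ (tHam μ (fHam ν h) N))
        (Po (fun a => α * n * tq μ n a)) :=
      integrable_linG _ ((softE_lipH ε δ u logZ_lipH).linG (fHam ν h) (fun a => tfac a))
    have i2 : Integrable (fun N => logZ (tHam μ (fHam ν h) N))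
        (Po (fun a => α * n * tq μ n a)) :=
      integrable_linG _ (logZ_lipH.linG (fHam ν h) (fun a => tfac a))
    rw [← integral_sub i1 i2]
    have := norm_integral_le_of_norm_le_const (μ := Po (fun a => α * n * tq μ n a))
      (f := fun N => softE J ε δ u logZ (tHam μ (fHam ν h) N) - logZ (tHam μ (fHam ν h) N))
      (C := cJ J * (J.card * ε * n)) (Filter.Eventually.of_forall fun N => by
        rw [Real.norm_eq_abs]
        exact softE_sub_le hn ε h0 h1 hu logZ_lipH _)
    simpa [Real.norm_eq_abs] using this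
  have hu1 : Efld ν n (fun h => trueE μ (α * n) (softE J ε δ u logZ) (fHam ν h)) ≤
      Efld ν n (fun h => trueE μ (α * n) logZ (fHam ν h) + cJ J * (J.card * ε * n)) :=
    Efld_mono ν n fun h => by linarith [(abs_le.1 (key h)).2]
  have hu2 : Efld ν n (fun h => trueE μ (α * n) logZ (fHam ν h)) ≤
      Efld ν n (fun h => trueE μ (α * n) (softE J ε δ u logZ) (fHam ν h) +
        cJ J * (J.card * ε * n)) :=
    Efld_mono ν n fun h => by linarith [(abs_le.1 (key h)).1]
  rw [Efld_add, Efld_const] at hu1 hu2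
  rw [abs_le]
  constructor <;> linarith

end Crest.Agent.MP.FA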