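import Crest.Agent.MP.FAsUp
import Crest.Agent.MP.FAsLow
import Crest.Agent.MP.FAsCont
import Crest.Agent.MP.FAsPress

/-!
# Module F4, assembly: the Aizenman-Sims-Starr inequality and the selection of `(G0, u)`
-/

set_option autoImplicit false

namespace Crest.Agent.MP.FA
open MeasureTheory ProbabilityTheory Filter Topology
open Crest.ProbabilityR.Diluted
open scoped NNReal

theorem AAf_eq (p : ℕ) (α : ℝ≥0) (μ : FinLaw (Inter p)) (ν : FinLaw ℝ) (J : Finset Species)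
    (ε : ℝ≥0) (δ : ℝ) (u : UPar) {n : ℕ} (G0 : Cf n → ℝ) :
    AAf p α μ ν J ε δ u G0 = Real.log 2 + siteF p α μ ν J ε δ u G0 -
      α * (p - 1 : ℝ) * μ.E (fun θ => supNorm θ + LE J ε δ u G0 (Fin p) (edgeψ θ)) := rfl

theorem AAf_bound (p : ℕ) (α : ℝ≥0) (μ : FinLaw (Inter p)) (ν : FinLaw ℝ) :
    ∃ B : ℝ, 0 ≤ B ∧ ∀ (J : Finset Species) (ε : ℝ≥0) (δ : ℝ) (u : UPar) (n : ℕ), 1 ≤ n →
      ∀ G0 : Cf n → ℝ, |AAf p α μ ν J ε δ u G0| ≤ B := by
  obtain ⟨B, hB0, hB⟩ := siteF_bound p α μ ν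
  refine ⟨Real.log 2 + B + |(α : ℝ) * (p - 1 : ℝ)| * cM μ, ?_, ?_⟩
  · have := Real.log_nonneg (by norm_num : (1 : ℝ) ≤ 2)
    have h2 := cM_nonneg μ
    positivity
  · intro J ε δ u n hn G0
    rw [AAf_eq]
    have h1 := hB J ε δ u n hn G0
    have h2 := edge_bound p μ J ε δ u hn G0
    have h3 : |(α : ℝ) * (p - 1 : ℝ) * μ.E (fun θ => supNorm θ + LE J ε δ u G0 (Fin p) (edgeψ θ))| ≤
        |(α : ℝ) * (p - 1 : ℝ)| * cM μ := by
      rw [abs_mul]
      exact mul_le_mul_of_nonneg_left h2 (abs_nonneg _)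
    have h4 := Real.log_nonneg (by norm_num : (1 : ℝ) ≤ 2)
    rw [abs_le] at h1 h3 ⊢
    constructor <;> linarith [h1.1, h1.2, h3.1, h3.2]

/-- Integrability along the common system. -/
def E0Int (p : ℕ) (α : ℝ≥0) (μ : FinLaw (Inter p)) (ν : FinLaw ℝ) (n : ℕ)
    (Ψ : (Cf n → ℝ) → ℝ) : Prop :=
  ∀ h : Fin n → ν.ι, Integrable (fun N => Ψ (tHam μ (fHam ν h) N))
    (Po (fun a => lamC p α n * tq μ n a))

theorem E0Int_of_bounded {p : ℕ} {α : ℝ≥0} {μ : FinLaw (Inter p)} {ν : FinLaw ℝ} {n : ℕ}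
    {Ψ : (Cf n → ℝ) → ℝ} {B : ℝ} (hB : ∀ G, |Ψ G| ≤ B) : E0Int p α μ ν n Ψ :=
  fun _ => integrable_linG _ (LinG.of_bounded fun _ => hB _)

theorem E0Int_of_lipH {p : ℕ} {α : ℝ≥0} {μ : FinLaw (Inter p)} {ν : FinLaw ℝ} {n : ℕ}
    {Ψ : (Cf n → ℝ) → ℝ} (hΨ : LipH Ψ) : E0Int p α μ ν n Ψ :=
  fun h => integrable_linG _ (hΨ.linG (fHam ν h) (fun a => tfac a))

theorem E0Int.add {p : ℕ} {α : ℝ≥0} {μ : FinLaw (Inter p)} {ν : FinLaw ℝ} {n : ℕ}
    {Ψ Ψ' : (Cf n → ℝ) → ℝ} (h1 : E0Int p α μ ν n Ψ) (h2 : E0Int p α μ ν n Ψ') :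
    E0Int p α μ ν n (fun G => Ψ G + Ψ' G) := fun h => (h1 h).add (h2 h)

theorem E0_sub {p : ℕ} {α : ℝ≥0} {μ : FinLaw (Inter p)} {ν : FinLaw ℝ} {n : ℕ}
    {Ψ Ψ' : (Cf n → ℝ) → ℝ} (h1 : E0Int p α μ ν n Ψ) (h2 : E0Int p α μ ν n Ψ') :
    E0 p α μ ν n (fun G => Ψ G - Ψ' G) = E0 p α μ ν n Ψ - E0 p α μ ν n Ψ' := by
  unfold E0 Efld trueE
  rw [← Finset.sum_sub_distrib]
  refine Finset.sum_congr rfl fun h _ => ?_
  have := integral_sub (h1 h) (h2 h)
  beta_reduce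
  rw [this]
  ring

theorem E0_mono {p : ℕ} {α : ℝ≥0} {μ : FinLaw (Inter p)} {ν : FinLaw ℝ} {n : ℕ}
    {Ψ Ψ' : (Cf n → ℝ) → ℝ} (h1 : E0Int p α μ ν n Ψ) (h2 : E0Int p α μ ν n Ψ')
    (h : ∀ G, Ψ G ≤ Ψ' G) : E0 p α μ ν n Ψ ≤ E0 p α μ ν n Ψ' :=
  Efld_mono _ _ fun x => integral_mono (h1 x) (h2 x) fun _ => h _

theorem E0_const {p : ℕ} {α : ℝ≥0} {μ : FinLaw (Inter p)} {ν : FinLaw ℝ} {n : ℕ} (c : ℝ) :
    E0 p α μ ν n (fun _ => c) = c := by
  unfold E0 trueE
  simp only [integral_const, probReal_univ, smul_eq_mul, one_mul]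
  exact Efld_const _ _ _

/-- Some value is at most the average. -/
theorem exists_le_E0 {p : ℕ} {α : ℝ≥0} {μ : FinLaw (Inter p)} {ν : FinLaw ℝ} {n : ℕ}
    {Ψ : (Cf n → ℝ) → ℝ} (hΨ : E0Int p α μ ν n Ψ) : ∃ G, Ψ G ≤ E0 p α μ ν n Ψ := by
  by_contra hcon
  push Not at hcon
  have key : ∀ h : Fin n → ν.ι, E0 p α μ ν n Ψ < trueE μ (lamC p α n) Ψ (fHam ν h) := by
    intro h
    obtain ⟨N, hN⟩ := exists_le_integral (hΨ h)
    exact lt_of_lt_of_le (hcon _) hN
  have h2 : E0 p α μ ν n Ψ = Efld ν n (fun _ => E0 p α μ ν n Ψ) := (Efld_const _ _ _).symm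
  have h3 : Efld ν n (fun _ => E0 p α μ ν n Ψ) < E0 p α μ ν n Ψ := by
    conv_rhs => unfold E0
    unfold Efld
    have hsum : ∑ h : Fin n → ν.ι, ∏ i, ν.w (h i) = 1 := by
      have := Efld_const ν n 1
      simpa [Efld] using this
    have hne : ∃ h : Fin n → ν.ι, 0 < ∏ i, ν.w (h i) := by
      by_contra hno
      push Not at hno
      have : ∑ h : Fin n → ν.ι, ∏ i, ν.w (h i) ≤ 0 := Finset.sum_nonpos fun h _ => hno h
      linarith
    obtain ⟨h0, hh0⟩ := hne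
    refine Finset.sum_lt_sum (fun h _ => ?_) ⟨h0, Finset.mem_univ _, ?_⟩
    · exact mul_le_mul_of_nonneg_left (key h).le (Finset.prod_nonneg fun i _ => ν.w_nonneg _)
    · exact mul_lt_mul_of_pos_left (key h0) hh0
  linarith

theorem E0_uncurry_integrable {p : ℕ} {α : ℝ≥0} {μ : FinLaw (Inter p)} {ν : FinLaw ℝ} {n : ℕ}
    {J : Finset Species} (Φ : (Cf n → ℝ) → (UIx J → unitInterval) → ℝ)
    (hc : ∀ G, Continuous (Φ G)) {B : ℝ} (hB : ∀ G v, |Φ G v| ≤ B) (h : Fin n → ν.ι) :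
    Integrable (Function.uncurry
      (fun (v : UIx J → unitInterval) (N : TIdx μ n → ℕ) => Φ (tHam μ (fHam ν h) N) v))
      ((volume : Measure (UIx J → unitInterval)).prod
        (Po (fun a => lamC p α n * tq μ n a))) := by
  refine Integrable.of_bound (C := B) ?_ ?_
  · refine Measurable.aestronglyMeasurable ?_
    refine measurable_from_prod_countable_left fun N => ?_
    exact (hc (tHam μ (fHam ν h) N)).measurable
  · exact Filter.Eventually.of_forall fun x => by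
      rw [Real.norm_eq_abs]; exact hB _ _

theorem E0_param_integrable {p : ℕ} {α : ℝ≥0} {μ : FinLaw (Inter p)} {ν : FinLaw ℝ} {n : ℕ}
    {J : Finset Species} (Φ : (Cf n → ℝ) → (UIx J → unitInterval) → ℝ)
    (hc : ∀ G, Continuous (Φ G)) {B : ℝ} (hB : ∀ G v, |Φ G v| ≤ B) :
    Integrable (fun v => E0 p α μ ν n (fun G => Φ G v)) volume := by
  unfold E0 Efld trueE
  refine integrable_finsetSum _ fun h _ => ?_
  exact (E0_uncurry_integrable Φ hc hB h).integral_prod_left.const_mul _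

/-- Fubini for the parameters and the common Hamiltonian. -/
theorem E0_integral_swap {p : ℕ} {α : ℝ≥0} {μ : FinLaw (Inter p)} {ν : FinLaw ℝ} {n : ℕ}
    {J : Finset Species} (Φ : (Cf n → ℝ) → (UIx J → unitInterval) → ℝ)
    (hc : ∀ G, Continuous (Φ G)) {B : ℝ} (hB : ∀ G v, |Φ G v| ≤ B) :
    ∫ v, E0 p α μ ν n (fun G => Φ G v) = E0 p α μ ν n (fun G => ∫ v, Φ G v) := by
  unfold E0 Efld trueE
  rw [integral_finsetSum]
  · refine Finset.sum_congr rfl fun h _ => ?_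
    rw [integral_const_mul]
    congr 1
    exact integral_integral_swap (E0_uncurry_integrable Φ hc hB h)
  · intro h _
    exact (E0_uncurry_integrable Φ hc hB h).integral_prod_left.const_mul _

/-- The Aizenman-Sims-Starr inequality. -/
theorem ass_ineq (p : ℕ) (hp : 1 ≤ p) (α : ℝ≥0) (hα : 0 < α) (μ : FinLaw (Inter p))
    (hsym : μ.Symm) (ν : FinLaw ℝ) (J : Finset Species) : ∃ C : ℝ, 0 ≤ C ∧
    ∀ (ε : ℝ≥0) (δ : ℝ), 0 ≤ δ → δ ≤ 1 → ∀ (u : UPar), UOk u → ∀ (n : ℕ), 1 ≤ n →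
      E0 p α μ ν n (fun G => AAf p α μ ν J ε δ u G) ≤
        aN p α μ ν J ε δ (n + 1) u - aN p α μ ν J ε δ n u + C * ε + C / Real.sqrt n := by
  obtain ⟨C1, hC1, h1⟩ := aN_le p hp α hα μ ν
  obtain ⟨C2, hC2, h2⟩ := aN_succ_ge p hp α μ hsym ν J
  obtain ⟨B, hB0, hB⟩ := siteF_bound p α μ ν
  refine ⟨C1 + C2, add_nonneg hC1 hC2, ?_⟩
  intro ε δ h0 hδ1 u hu n hn
  have e1 := h1 J ε δ u n hn
  have e2 := h2 ε δ h0 hδ1 u hu n hn
  have iS : E0Int p α μ ν n (fun G => softE J ε δ u logZ G) :=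
    E0Int_of_lipH (softE_lipH ε δ u logZ_lipH)
  have iL : E0Int p α μ ν n (fun _ => Real.log 2) := E0Int_of_bounded (fun _ => le_rfl)
  have iF : E0Int p α μ ν n (fun G => siteF p α μ ν J ε δ u G) :=
    E0Int_of_bounded (fun G => hB J ε δ u n hn G)
  have iE : E0Int p α μ ν n (fun G => α * (p - 1 : ℝ) *
      μ.E (fun θ => supNorm θ + LE J ε δ u G (Fin p) (edgeψ θ))) :=
    E0Int_of_bounded (B := |(α : ℝ) * (p - 1 : ℝ)| * cM μ) (fun G => by
      rw [abs_mul]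
      exact mul_le_mul_of_nonneg_left (edge_bound p μ J ε δ u hn G) (abs_nonneg _))
  have e3 := E0_sub ((iS.add iL).add iF) (iS.add iE)
  have e4 : E0 p α μ ν n (fun G => AAf p α μ ν J ε δ u G) =
      E0 p α μ ν n (fun G => (softE J ε δ u logZ G + Real.log 2 + siteF p α μ ν J ε δ u G) -
        (softE J ε δ u logZ G + α * (p - 1 : ℝ) *
          μ.E (fun θ => supNorm θ + LE J ε δ u G (Fin p) (edgeψ θ)))) := by
    congr 1
    funext G
    rw [AAf_eq]
    ring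
  rw [e4, e3]
  have hn' : (1 : ℝ) ≤ n := by exact_mod_cast hn
  have hsq : 1 ≤ Real.sqrt n := by rw [Real.one_le_sqrt]; exact hn'
  have hle : C2 / n ≤ C2 / Real.sqrt n := by
    refine div_le_div_of_nonneg_left hC2 (by linarith) ?_
    nlinarith [Real.sq_sqrt (show (0 : ℝ) ≤ n by linarith)]
  have h5 : (C1 + C2) / Real.sqrt n = C1 / Real.sqrt n + C2 / Real.sqrt n := by ring
  have h6 : 0 ≤ C1 * (ε : ℝ) := mul_nonneg hC1 ε.2
  rw [h5]
  linarith

/-- SELECTION. -/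
theorem select (p : ℕ) (hp : 1 ≤ p) (α : ℝ≥0) (hα : 0 < α) (μ : FinLaw (Inter p))
    (hsym : μ.Symm) (ν : FinLaw ℝ) (J : Finset Species) : ∃ C : ℝ, 0 ≤ C ∧
    ∀ (L : ℝ), (∃ᶠ n : ℕ in atTop, pressure p α μ.toMeasure ν.toMeasure n ≤ L) →
    ∀ (ε : ℝ≥0) (δ : ℝ), 0 ≤ δ → δ ≤ 1 →
    ∀ (d : (n : ℕ) → (Cf n → ℝ) → (UIx J → unitInterval) → ℝ) (b : ℕ → ℝ),
      (∀ n G v, 0 ≤ d n G v) → (∀ n, 1 ≤ n → ∀ G, Integrable (d n G) volume) →
      (∀ n, 1 ≤ n → ∀ G, ∫ v, d n G v ≤ b n) → Tendsto b atTop (𝓝 0) →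
    ∀ η : ℝ, 0 < η → ∀ n0 : ℕ, ∃ n : ℕ, n0 ≤ n ∧ 1 ≤ n ∧
      ∃ (G0 : Cf n → ℝ) (v : UIx J → unitInterval),
        AAf p α μ ν J ε δ (toU v) G0 ≤ L + C * ε + η ∧ d n G0 v ≤ η := by
  obtain ⟨C1, hC1, h1⟩ := ass_ineq p hp α hα μ hsym ν J
  obtain ⟨B, hB0, hB⟩ := AAf_bound p α μ ν
  set C2 : ℝ := cJ J * J.card with hC2def
  have hC2 : 0 ≤ C2 := mul_nonneg (cJ_pos J).le (Nat.cast_nonneg _)
  refine ⟨C1 + C2, add_nonneg hC1 hC2, ?_⟩
  intro L hL ε δ h0 hδ1 d b hd0 hdi hdb hb η hη n0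
  -- averaged free energies
  set A : ℕ → ℝ := fun n => ∫ v : UIx J → unitInterval, aN p α μ ν J ε δ n (toU v) with hA
  have hint : ∀ n, 1 ≤ n → Integrable
      (fun v : UIx J → unitInterval => aN p α μ ν J ε δ n (toU v)) volume := by
    intro n hn
    exact (aN_cont p α μ ν J ε h0 hδ1 hn).integrable_of_hasCompactSupport
      (HasCompactSupport.of_compactSpace _)
  have hfreq : ∃ᶠ n : ℕ in atTop, A n ≤ n * (L + C2 * ε) := by
    refine (hL.and_eventually (eventually_ge_atTop 1)).mono ?_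
    rintro n ⟨hn, hn1⟩
    have : ∀ v : UIx J → unitInterval, aN p α μ ν J ε δ n (toU v) ≤ n * (L + C2 * ε) := by
      intro v
      have h := aN_sub_pressure p α μ ν J ε h0 hδ1 hn1 (toU_ok v)
      rw [abs_le] at h
      have hn' : (0 : ℝ) ≤ n := Nat.cast_nonneg n
      have := mul_le_mul_of_nonneg_left hn hn'
      have e : cJ J * ((J.card : ℝ) * ε * n) = n * (C2 * ε) := by rw [hC2def]; ring
      rw [e] at h
      linarith [h.2]
    calc A n ≤ ∫ _ : UIx J → unitInterval, (n : ℝ) * (L + C2 * ε) :=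
          integral_mono (hint n hn1) (integrable_const _) this
      _ = n * (L + C2 * ε) := by simp
  have hst := FASS.stolz A (L + C2 * ε) hfreq (show (0 : ℝ) < η / 8 by positivity)
  -- constants
  set M : ℝ := |L| + (C1 + C2) * ε + η + B with hM
  have hε0 : (0 : ℝ) ≤ ε := ε.2
  have hM0 : 0 < M := by
    have : 0 ≤ (C1 + C2) * (ε : ℝ) := mul_nonneg (add_nonneg hC1 hC2) hε0
    have := abs_nonneg L
    positivity
  set K : ℝ := M / η with hK
  have hK0 : 0 < K := div_pos hM0 hη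
  have hev1 : ∀ᶠ n : ℕ in atTop, C1 / Real.sqrt n ≤ η / 8 := by
    have : Tendsto (fun n : ℕ => C1 / Real.sqrt n) atTop (𝓝 0) := by
      refine Tendsto.div_atTop tendsto_const_nhds ?_
      exact Real.tendsto_sqrt_atTop.comp tendsto_natCast_atTop_atTop
    exact (this.eventually (Iic_mem_nhds (show (0 : ℝ) < η / 8 by positivity)))
  have hev2 : ∀ᶠ n : ℕ in atTop, K * b n ≤ η / 4 := by
    have : Tendsto (fun n : ℕ => K * b n) atTop (𝓝 (K * 0)) := hb.const_mul K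
    rw [mul_zero] at this
    exact (this.eventually (Iic_mem_nhds (show (0 : ℝ) < η / 4 by positivity)))
  obtain ⟨n, hn, hn1, hn2, hn4⟩ := ((hst.and_eventually
    (hev1.and (hev2.and (eventually_ge_atTop (max n0 1)))))).exists
  have hn1' : 1 ≤ n := le_trans (le_max_right _ _) hn4
  have hnn0 : n0 ≤ n := le_trans (le_max_left _ _) hn4
  set Φ : (Cf n → ℝ) → (UIx J → unitInterval) → ℝ :=
    fun G v => AAf p α μ ν J ε δ (toU v) G with hΦ
  have hΦc : ∀ G, Continuous (Φ G) := fun G => AAf_cont p α μ ν J ε h0 hδ1 hn1' G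
  have hΦB : ∀ G v, |Φ G v| ≤ B := fun G v => hB J ε δ (toU v) n hn1' G
  -- the averaged functional
  have hav : E0 p α μ ν n (fun G => ∫ v, Φ G v) ≤ L + (C1 + C2) * ε + η / 4 := by
    rw [← E0_integral_swap Φ hΦc hΦB]
    have hle : ∀ v : UIx J → unitInterval, E0 p α μ ν n (fun G => Φ G v) ≤
        aN p α μ ν J ε δ (n + 1) (toU v) - aN p α μ ν J ε δ n (toU v) + C1 * ε +
          C1 / Real.sqrt n := fun v => h1 ε δ h0 hδ1 (toU v) (toU_ok v) n hn1'
    have i1 : Integrable (fun v : UIx J → unitInterval =>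
        aN p α μ ν J ε δ (n + 1) (toU v) - aN p α μ ν J ε δ n (toU v)) volume :=
      (hint (n + 1) (by omega)).sub (hint n hn1')
    have i1c : Integrable (fun v : UIx J → unitInterval =>
        aN p α μ ν J ε δ (n + 1) (toU v) - aN p α μ ν J ε δ n (toU v) + C1 * ε) volume :=
      i1.add (integrable_const _)
    have i2 : Integrable (fun v : UIx J → unitInterval =>
        aN p α μ ν J ε δ (n + 1) (toU v) - aN p α μ ν J ε δ n (toU v) + C1 * ε +
          C1 / Real.sqrt n) volume := i1c.add (integrable_const _)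
    have i0 : Integrable (fun v : UIx J → unitInterval => E0 p α μ ν n (fun G => Φ G v))
        volume := E0_param_integrable Φ hΦc hΦB
    have hle2 := integral_mono i0 i2 hle
    have hval : ∫ v : UIx J → unitInterval, (aN p α μ ν J ε δ (n + 1) (toU v) -
        aN p α μ ν J ε δ n (toU v) + C1 * ε + C1 / Real.sqrt n) =
        A (n + 1) - A n + C1 * ε + C1 / Real.sqrt n := by
      rw [integral_add i1c (integrable_const _),
        integral_add i1 (integrable_const _),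
        integral_sub (hint (n + 1) (by omega)) (hint n hn1')]
      simp [hA]
    have hle3 : ∫ v : UIx J → unitInterval, E0 p α μ ν n (fun G => Φ G v) ≤
        A (n + 1) - A n + C1 * ε + C1 / Real.sqrt n := by
      rw [← hval]; exact hle2
    linarith
  -- choose `G0`
  have hΦint : ∀ G, Integrable (Φ G) volume := fun G =>
    (hΦc G).integrable_of_hasCompactSupport (HasCompactSupport.of_compactSpace _)
  have hIb : ∀ G, |∫ v, Φ G v| ≤ B := by
    intro G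
    have := norm_integral_le_of_norm_le_const (μ := (volume : Measure (UIx J → unitInterval)))
      (f := Φ G) (C := B) (Filter.Eventually.of_forall fun v => by
        rw [Real.norm_eq_abs]; exact hΦB G v)
    simpa using this
  have hdb' : ∀ G, |∫ v, d n G v| ≤ |b n| := by
    intro G
    rw [abs_of_nonneg (integral_nonneg (hd0 n G))]
    exact (hdb n hn1' G).trans (le_abs_self _)
  obtain ⟨G0, hG0⟩ := exists_le_E0 (p := p) (α := α) (μ := μ) (ν := ν) (n := n)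
    (Ψ := fun G => (∫ v, Φ G v) + K * ∫ v, d n G v)
    ((E0Int_of_bounded hIb).add (E0Int_of_bounded (B := K * |b n|) (fun G => by
      rw [abs_mul, abs_of_pos hK0]
      exact mul_le_mul_of_nonneg_left (hdb' G) hK0.le)))
  have hE : E0 p α μ ν n (fun G => (∫ v, Φ G v) + K * ∫ v, d n G v) ≤
      L + (C1 + C2) * ε + η / 4 + K * b n := by
    have e1 : E0 p α μ ν n (fun G => (∫ v, Φ G v) + K * ∫ v, d n G v) ≤
        E0 p α μ ν n (fun G => (∫ v, Φ G v) - (-(K * b n))) := by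
      refine E0_mono ?_ ?_ fun G => ?_
      · exact (E0Int_of_bounded hIb).add (E0Int_of_bounded (B := K * |b n|) (fun G => by
          rw [abs_mul, abs_of_pos hK0]
          exact mul_le_mul_of_nonneg_left (hdb' G) hK0.le))
      · exact E0Int_of_bounded (B := B + |K * b n|) fun G => by
          have := hIb G
          rw [sub_neg_eq_add]
          exact (abs_add_le _ _).trans (by linarith)
      · have := mul_le_mul_of_nonneg_left (hdb n hn1' G) hK0.le
        linarith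
    have e2 : E0 p α μ ν n (fun G => (∫ v, Φ G v) - (-(K * b n))) =
        E0 p α μ ν n (fun G => ∫ v, Φ G v) - E0 p α μ ν n (fun _ => -(K * b n)) :=
      E0_sub (E0Int_of_bounded hIb) (E0Int_of_bounded fun _ => le_rfl)
    rw [E0_const] at e2
    linarith
  -- choose the parameters
  have hdint := hdi n hn1' G0
  obtain ⟨v, hv⟩ := exists_le_integral (μ := (volume : Measure (UIx J → unitInterval)))
    ((hΦint G0).add (hdint.const_mul K))
  rw [integral_add' (hΦint G0) (hdint.const_mul K), integral_const_mul] at hv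
  have hv' : Φ G0 v + K * d n G0 v ≤ L + (C1 + C2) * ε + η / 2 := by
    have : (Φ G0 + fun x => K * d n G0 x) v = Φ G0 v + K * d n G0 v := rfl
    rw [this] at hv
    linarith
  refine ⟨n, hnn0, hn1', G0, v, ?_, ?_⟩
  · have := mul_nonneg hK0.le (hd0 n G0 v)
    show Φ G0 v ≤ _
    linarith
  · have h5 := (abs_le.1 (hΦB G0 v)).1
    have h6 : K * d n G0 v ≤ M := by
      have := le_abs_self L
      rw [hM]
      linarith
    rw [hK, div_mul_eq_mul_div, div_le_iff₀ hη] at h6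
    exact le_of_mul_le_mul_left h6 hM0

end Crest.Agent.MP.FA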