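import Crest.Agent.MP.FAsTools
import Crest.Agent.MP.FAsRestr

/-!
# Module F4: the soft factors of the system with `n + 1` spins
-/

set_option autoImplicit false

namespace Crest.Agent.MP.FA
open MeasureTheory ProbabilityTheory Filter Topology
open Crest.ProbabilityR.Diluted
open scoped NNReal

/-- One species: the rates of the common indices. -/
private theorem soft_rate_aux {n : ℕ} (hn : 1 ≤ n) (k : ℕ) (ε : ℝ) (hε : 0 ≤ ε) :
    (n : ℝ) ^ k * |ε * ((n : ℝ) + 1) / ((n : ℝ) + 1) ^ k - ε * n / (n : ℝ) ^ k| ≤ ε * (k + 1) ∧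
      ε * ((n : ℝ) + 1) - (n : ℝ) ^ k * (ε * ((n : ℝ) + 1) / ((n : ℝ) + 1) ^ k) ≤ ε * k := by
  have hn' : (0 : ℝ) < n := by exact_mod_cast hn
  have hn1 : (0 : ℝ) < (n : ℝ) + 1 := by positivity
  set x : ℝ := n / ((n : ℝ) + 1) with hx
  have hx0 : 0 ≤ x := by positivity
  have hx1 : x ≤ 1 := by rw [hx, div_le_one hn1]; linarith
  have hxk1 : x ^ k ≤ 1 := pow_le_one₀ hx0 hx1
  have hbern : 1 + (k : ℝ) * (x - 1) ≤ x ^ k := by
    have := one_add_mul_le_pow (a := x - 1) (by linarith) k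
    simpa using this
  have hx2 : ((n : ℝ) + 1) * (x - 1) = -1 := by
    rw [hx]; field_simp; ring
  have hbern2 : (n : ℝ) + 1 - k ≤ ((n : ℝ) + 1) * x ^ k := by
    have h1 : ((n : ℝ) + 1) * (1 + (k : ℝ) * (x - 1)) ≤ ((n : ℝ) + 1) * x ^ k := by gcongr
    have h2 : ((n : ℝ) + 1) * (1 + (k : ℝ) * (x - 1)) = (n : ℝ) + 1 + k * (((n : ℝ) + 1) * (x - 1)) := by
      ring
    rw [h2, hx2] at h1
    linarith
  have hup : ((n : ℝ) + 1) * x ^ k ≤ (n : ℝ) + 1 := by nlinarith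
  have e1 : (n : ℝ) ^ k * (ε * ((n : ℝ) + 1) / ((n : ℝ) + 1) ^ k) = ε * (((n : ℝ) + 1) * x ^ k) := by
    rw [hx, div_pow]; field_simp
  have e2 : (n : ℝ) ^ k * (ε * n / (n : ℝ) ^ k) = ε * n := by field_simp
  constructor
  · have h3 : (n : ℝ) ^ k * |ε * ((n : ℝ) + 1) / ((n : ℝ) + 1) ^ k - ε * n / (n : ℝ) ^ k| =
        |ε * (((n : ℝ) + 1) * x ^ k - n)| := by
      rw [← abs_of_pos (by positivity : (0 : ℝ) < (n : ℝ) ^ k), ← abs_mul,
        abs_of_pos (by positivity : (0 : ℝ) < (n : ℝ) ^ k), mul_sub, e1, e2]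
      congr 1
      ring
    rw [h3, abs_mul, abs_of_nonneg hε]
    refine mul_le_mul_of_nonneg_left ?_ hε
    have hk : (0 : ℝ) ≤ k := Nat.cast_nonneg k
    rw [abs_le]
    constructor <;> linarith
  · rw [e1, ← mul_sub]
    refine mul_le_mul_of_nonneg_left ?_ hε
    linarith

/-- PROOF. `po_restrict` with `I = FIdx J (n+1)`, `K = FIdx J n`, `κ (s, e) = (s, castSucc ∘ e)`,
`lam = frate J (n+1) ε`, `lam' = frate J n ε`, `L = cJ J`.  With `x = n/(n+1)`, `k = s.k`: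
`Σ_e |lam (κ e) - lam' e| = n^k |ε (n+1)/(n+1)^k - ε n/n^k| = ε |(n+1) x^k - n| ≤ ε (k + 1)` and
`Σ_i lam_i - Σ_e lam (κ e) = ε (n+1) (1 - x^k) ≤ ε k`  (Bernoulli: `x^k ≥ 1 - k/(n+1)`). So
`C = cJ J · Σ_{s ∈ J} (2 k_s + 1)`. `sum_pushN` identifies the Hamiltonian,
`fac δ u (κ a) τ = fac δ u a (ini τ)`. -/
theorem soft_step (J : Finset Species) : ∃ C : ℝ, 0 ≤ C ∧ ∀ (n : ℕ), 1 ≤ n →
    ∀ (Ψ : (Cf (n + 1) → ℝ) → ℝ), LipH Ψ → ∀ (ε : ℝ≥0) (δ : ℝ), 0 ≤ δ → δ ≤ 1 →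
    ∀ (u : UPar), UOk u → ∀ G : Cf (n + 1) → ℝ,
      |softE J ε δ u Ψ G -
        ∫ N, Ψ (fun τ => G τ + ∑ a : FIdx J n, (N a : ℝ) * fac δ u a (ini τ))
          ∂(Po (frate J n ε))| ≤ C * ε := by
  refine ⟨(∑ s : {s // s ∈ J}, (2 * (s.1.k : ℝ) + 1)) * cJ J,
    mul_nonneg (Finset.sum_nonneg fun s _ => by positivity) (cJ_pos J).le, ?_⟩
  intro n hn Ψ hΨ ε δ h0 h1 u hu G
  set κ : FIdx J n → FIdx J (n + 1) := fun a => ⟨a.1, fun i => (a.2 i).castSucc⟩ with hκ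
  have hκi : Function.Injective κ := by
    rintro ⟨s, e⟩ ⟨s', e'⟩ h
    simp only [hκ, Sigma.mk.injEq] at h
    obtain ⟨rfl, h⟩ := h
    rw [heq_eq_eq] at h
    simp only [Sigma.mk.injEq, heq_eq_eq, true_and]
    ext i
    have := congrFun h i
    exact congrArg Fin.val (Fin.castSucc_injective _ this)
  have hL : ∀ (N : FIdx J (n + 1) → ℕ) (a : FIdx J (n + 1)),
      |(fun N : FIdx J (n + 1) → ℕ => Ψ (fun τ => G τ + ∑ b, (N b : ℝ) * fac δ u b τ)) (bump N a) -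
        (fun N : FIdx J (n + 1) → ℕ => Ψ (fun τ => G τ + ∑ b, (N b : ℝ) * fac δ u b τ)) N| ≤
        (fun _ => cJ J) a := fun N a =>
    hΨ.bump_le G (fun a => fac δ u a) (c := fun _ => cJ J) (fun a σ => abs_fac_le h0 h1 hu a σ) N a
  have key := po_restrict κ hκi (frate J (n + 1) ε) (frate J n ε)
    (G := fun N : FIdx J (n + 1) → ℕ => Ψ (fun τ => G τ + ∑ b, (N b : ℝ) * fac δ u b τ))
    (L := fun _ => cJ J) hL
  have e1 : softE J ε δ u Ψ G = ∫ N, Ψ (fun τ => G τ + ∑ b, (N b : ℝ) * fac δ u b τ)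
      ∂(Po (frate J (n + 1) ε)) := rfl
  have e2 : ∀ N : FIdx J n → ℕ, (fun τ => G τ + ∑ b, (pushN κ N b : ℝ) * fac δ u b τ) =
      fun τ => G τ + ∑ a : FIdx J n, (N a : ℝ) * fac δ u a (ini τ) := by
    intro N
    ext τ
    rw [sum_pushN κ N (fun b => fac δ u b τ)]
    rfl
  rw [e1]
  simp only [e2] at key
  refine key.trans ?_
  -- the two sums
  have hr1 : ∀ (s : {s // s ∈ J}) (e : Fin s.1.k → Fin n),
      ((frate J (n + 1) ε (κ ⟨s, e⟩) : ℝ≥0) : ℝ) = ε * ((n : ℝ) + 1) / ((n : ℝ) + 1) ^ s.1.k := by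
    intro s e
    simp only [frate, hκ]
    push_cast
    rfl
  have hr2 : ∀ (s : {s // s ∈ J}) (e : Fin s.1.k → Fin n),
      ((frate J n ε ⟨s, e⟩ : ℝ≥0) : ℝ) = ε * (n : ℝ) / (n : ℝ) ^ s.1.k := by
    intro s e
    simp only [frate]
    push_cast
    rfl
  have hr3 : ∀ (s : {s // s ∈ J}) (e : Fin s.1.k → Fin (n + 1)),
      ((frate J (n + 1) ε ⟨s, e⟩ : ℝ≥0) : ℝ) = ε * ((n : ℝ) + 1) / ((n : ℝ) + 1) ^ s.1.k := by
    intro s e
    simp only [frate]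
    push_cast
    rfl
  have hcard : ∀ (s : {s // s ∈ J}) (m : ℕ), (Fintype.card (Fin s.1.k → Fin m) : ℝ) = (m : ℝ) ^ s.1.k := by
    intro s m
    rw [Fintype.card_fun, Fintype.card_fin, Fintype.card_fin]
    push_cast
    rfl
  have hcJ := (cJ_pos J).le
  have s1 : ∑ k : FIdx J n, |((frate J (n + 1) ε (κ k) : ℝ≥0) : ℝ) - frate J n ε k| * cJ J ≤
      (∑ s : {s // s ∈ J}, (ε : ℝ) * (s.1.k + 1)) * cJ J := by
    rw [← Finset.sum_mul, Fintype.sum_sigma]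
    refine mul_le_mul_of_nonneg_right (Finset.sum_le_sum fun s _ => ?_) hcJ
    simp_rw [hr1, hr2]
    rw [Finset.sum_const, Finset.card_univ, nsmul_eq_mul, hcard]
    exact (soft_rate_aux hn s.1.k ε ε.2).1
  have s2 : (∑ i : FIdx J (n + 1), ((frate J (n + 1) ε i : ℝ≥0) : ℝ) * cJ J) -
      ∑ k : FIdx J n, ((frate J (n + 1) ε (κ k) : ℝ≥0) : ℝ) * cJ J ≤
      (∑ s : {s // s ∈ J}, (ε : ℝ) * s.1.k) * cJ J := by
    rw [← Finset.sum_mul, ← Finset.sum_mul, ← sub_mul, Fintype.sum_sigma, Fintype.sum_sigma,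
      ← Finset.sum_sub_distrib]
    refine mul_le_mul_of_nonneg_right (Finset.sum_le_sum fun s _ => ?_) hcJ
    simp_rw [hr1, hr3]
    rw [Finset.sum_const, Finset.card_univ, nsmul_eq_mul, hcard, Finset.sum_const, Finset.card_univ,
      nsmul_eq_mul, hcard]
    have h4 := (soft_rate_aux hn s.1.k ε ε.2).2
    have h5 : (((n + 1 : ℕ) : ℝ)) ^ s.1.k * ((ε : ℝ) * ((n : ℝ) + 1) / ((n : ℝ) + 1) ^ s.1.k) =
        ε * ((n : ℝ) + 1) := by
      push_cast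
      have : (0 : ℝ) < (n : ℝ) + 1 := by positivity
      field_simp
    rw [h5]
    exact h4
  refine (add_le_add s1 s2).trans (le_of_eq ?_)
  have e3 : (∑ s : {s // s ∈ J}, (ε : ℝ) * ((s.1.k : ℝ) + 1)) + ∑ s : {s // s ∈ J}, (ε : ℝ) * s.1.k =
      ε * ∑ s : {s // s ∈ J}, (2 * (s.1.k : ℝ) + 1) := by
    rw [← Finset.sum_add_distrib, Finset.mul_sum]
    exact Finset.sum_congr rfl fun s _ => by ring
  rw [← add_mul, e3]
  ring

end Crest.Agent.MP.FA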