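import Crest.Agent.MP.FPoisA

/-!
# Poisson calculus C: variance (Efron-Stein)
-/

set_option autoImplicit false

namespace Crest.Agent.MP

open MeasureTheory ProbabilityTheory
open scoped NNReal Nat

variable {I : Type} [Fintype I]

/-! ### One variable -/

/-- the Poisson weights -/
noncomputable def fpcW (r : ℝ≥0) (n : ℕ) : ℝ := Real.exp (-r) * r ^ n / (n)!

theorem fpcW_succ (r : ℝ≥0) (n : ℕ) : ((n : ℝ) + 1) * fpcW r (n + 1) = r * fpcW r n := by
  unfold fpcW
  have : ((n + 1)! : ℝ) = (n + 1) * n ! := by exact_mod_cast Nat.factorial_succ n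
  rw [this, pow_succ]
  have h1 : (n ! : ℝ) ≠ 0 := by exact_mod_cast (Nat.factorial_pos n).ne'
  have h2 : (n : ℝ) + 1 ≠ 0 := by positivity
  field_simp

theorem fpc_hasSum_zero (r : ℝ≥0) : HasSum (fun n => fpcW r n) 1 := hasSum_one_poissonMeasure r

theorem fpc_hasSum_one (r : ℝ≥0) : HasSum (fun n : ℕ => fpcW r n * n) r := by
  have h : HasSum (fun n : ℕ => fpcW r (n + 1) * ((n + 1 : ℕ) : ℝ)) r := by
    have := (fpc_hasSum_zero r).mul_left (r : ℝ)
    rw [mul_one] at this
    convert! this using 2 with n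
    push_cast
    rw [mul_comm, fpcW_succ]
  rw [hasSum_nat_add_iff (f := fun n : ℕ => fpcW r n * (n : ℝ)) 1] at h
  simpa using h

theorem fpc_hasSum_two (r : ℝ≥0) :
    HasSum (fun n : ℕ => fpcW r n * (n : ℝ) ^ 2) (r * (r + 1)) := by
  have h : HasSum (fun n : ℕ => fpcW r (n + 1) * ((n + 1 : ℕ) : ℝ) ^ 2) (r * (r + 1)) := by
    have := ((fpc_hasSum_one r).add (fpc_hasSum_zero r)).mul_left (r : ℝ)
    convert! this using 2 with n
    push_cast
    have e := fpcW_succ r n
    calc fpcW r (n + 1) * ((n : ℝ) + 1) ^ 2 = (((n : ℝ) + 1) * fpcW r (n + 1)) * ((n : ℝ) + 1) := by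
          ring
      _ = _ := by rw [e]; ring
  rw [hasSum_nat_add_iff (f := fun n : ℕ => fpcW r n * (n : ℝ) ^ 2) 1] at h
  simpa using h

theorem fpc_hasSum_var (r : ℝ≥0) :
    HasSum (fun n : ℕ => fpcW r n * ((n : ℝ) - r) ^ 2) r := by
  have h := ((fpc_hasSum_two r).sub ((fpc_hasSum_one r).mul_left (2 * (r : ℝ)))).add
    ((fpc_hasSum_zero r).mul_left ((r : ℝ) ^ 2))
  convert! h using 2 with n
  · ring
  · ring

theorem fpc_integrable_var (r : ℝ≥0) :
    Integrable (fun n : ℕ => ((n : ℝ) - r) ^ 2) (poissonMeasure r) := by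
  rw [integrable_poissonMeasure_iff]
  convert! (fpc_hasSum_var r).summable using 2 with n
  rw [Real.norm_of_nonneg (by positivity)]
  rfl

theorem fpc_integral_var (r : ℝ≥0) :
    ∫ n : ℕ, ((n : ℝ) - r) ^ 2 ∂(poissonMeasure r) = r := by
  rw [integral_poissonMeasure]
  exact (fpc_hasSum_var r).tsum_eq

theorem fpc_lip {g : ℕ → ℝ} {L : ℝ} (hg : ∀ n, |g (n + 1) - g n| ≤ L) (a b : ℕ) :
    |g a - g b| ≤ L * |(a : ℝ) - b| := by
  have key : ∀ a k : ℕ, |g (a + k) - g a| ≤ L * k := by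
    intro a k
    induction k with
    | zero => simp
    | succ k ih =>
      have h1 := hg (a + k)
      have h2 : g (a + (k + 1)) - g a = (g (a + k + 1) - g (a + k)) + (g (a + k) - g a) := by
        rw [← add_assoc]; ring
      rw [h2]
      refine (abs_add_le _ _).trans ?_
      push_cast
      linarith
  rcases le_total a b with h | h
  · obtain ⟨k, rfl⟩ := Nat.exists_eq_add_of_le h
    rw [abs_sub_comm]
    have := key a k
    have e : |(a : ℝ) - ((a + k : ℕ) : ℝ)| = k := by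
      push_cast
      rw [sub_add_cancel_left, abs_neg, abs_of_nonneg (by positivity)]
    rwa [e]
  · obtain ⟨k, rfl⟩ := Nat.exists_eq_add_of_le h
    have := key b k
    have e : |((b + k : ℕ) : ℝ) - (b : ℝ)| = k := by
      push_cast
      rw [add_sub_cancel_left, abs_of_nonneg (by positivity)]
    rwa [e]

/-- a value of the Lipschitz extension of `g` at the real point `r` -/
theorem fpc_center {g : ℕ → ℝ} {L : ℝ} (hg : ∀ n, |g (n + 1) - g n| ≤ L) (r : ℝ) :
    ∃ c : ℝ, ∀ n : ℕ, |g n - c| ≤ L * |(n : ℝ) - r| := by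
  have hL : 0 ≤ L := (abs_nonneg _).trans (hg 0)
  have h1 : ∀ n k : ℕ, g n - L * |(n : ℝ) - r| ≤ g k + L * |(k : ℝ) - r| := by
    intro n k
    have := (abs_le.1 (fpc_lip hg n k)).2
    have h2 : |(n : ℝ) - k| ≤ |(n : ℝ) - r| + |(k : ℝ) - r| := by
      have : (n : ℝ) - k = ((n : ℝ) - r) - ((k : ℝ) - r) := by ring
      rw [this]
      exact abs_sub _ _
    nlinarith [mul_le_mul_of_nonneg_left h2 hL]
  refine ⟨⨆ n : ℕ, (g n - L * |(n : ℝ) - r|), fun n => ?_⟩
  have hb : BddAbove (Set.range fun n : ℕ => g n - L * |(n : ℝ) - r|) :=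
    ⟨_, by rintro _ ⟨k, rfl⟩; exact h1 k 0⟩
  have hlow : g n - L * |(n : ℝ) - r| ≤ ⨆ n : ℕ, (g n - L * |(n : ℝ) - r|) := le_ciSup hb n
  have hup : (⨆ n : ℕ, (g n - L * |(n : ℝ) - r|)) ≤ g n + L * |(n : ℝ) - r| :=
    ciSup_le fun k => h1 k n
  rw [abs_le]
  constructor <;> linarith

theorem fpc_var_one (r : ℝ≥0) {g : ℕ → ℝ} {L : ℝ} (hg : ∀ n, |g (n + 1) - g n| ≤ L) :
    ∫ n, (g n - ∫ k, g k ∂(poissonMeasure r)) ^ 2 ∂(poissonMeasure r) ≤ (r : ℝ) * L ^ 2 := by
  have hL : 0 ≤ L := (abs_nonneg _).trans (hg 0)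
  obtain ⟨c, hc⟩ := fpc_center hg (r : ℝ)
  have hsq : ∀ n : ℕ, (g n - c) ^ 2 ≤ L ^ 2 * ((n : ℝ) - r) ^ 2 := by
    intro n
    rw [← mul_pow, ← sq_abs (g n - c), ← sq_abs (L * _), abs_mul, abs_of_nonneg hL]
    exact pow_le_pow_left₀ (abs_nonneg _) (hc n) 2
  have hI2 : Integrable (fun n : ℕ => (g n - c) ^ 2) (poissonMeasure r) := by
    refine Integrable.mono' ((fpc_integrable_var r).const_mul (L ^ 2))
      (Measurable.of_discrete.aestronglyMeasurable) (Filter.Eventually.of_forall fun n => ?_)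
    rw [Real.norm_of_nonneg (by positivity)]
    exact hsq n
  have hI1 : Integrable (fun n : ℕ => g n - c) (poissonMeasure r) := by
    refine Integrable.mono' (hI2.add (integrable_const (1 : ℝ)))
      (Measurable.of_discrete.aestronglyMeasurable) (Filter.Eventually.of_forall fun n => ?_)
    rw [Real.norm_eq_abs]
    simp only [Pi.add_apply]
    nlinarith [sq_abs (g n - c), sq_nonneg (|g n - c| - 1), abs_nonneg (g n - c)]
  have hg0 : Integrable g (poissonMeasure r) := by
    have := hI1.add (integrable_const c)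
    refine this.congr (Filter.Eventually.of_forall fun n => ?_)
    simp
  set m := ∫ k, g k ∂(poissonMeasure r) with hm
  have e1 : ∫ n, (g n - c) ∂(poissonMeasure r) = m - c := by
    rw [integral_sub hg0 (integrable_const c), ← hm]; simp
  have e2 : ∀ n, (g n - m) ^ 2 = (g n - c) ^ 2 - 2 * (m - c) * (g n - c) + (m - c) ^ 2 := by
    intro n; ring
  have e3 : ∫ n, (g n - m) ^ 2 ∂(poissonMeasure r) =
      (∫ n, (g n - c) ^ 2 ∂(poissonMeasure r)) - (m - c) ^ 2 := by
    simp_rw [e2]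
    have i1 : Integrable (fun n => (g n - c) ^ 2 - 2 * (m - c) * (g n - c)) (poissonMeasure r) :=
      hI2.sub (hI1.const_mul _)
    rw [integral_add i1 (integrable_const _),
      integral_sub hI2 (hI1.const_mul _), integral_const_mul, e1]
    simp
    ring
  rw [e3]
  have e4 : ∫ n, (g n - c) ^ 2 ∂(poissonMeasure r) ≤ ∫ n : ℕ, L ^ 2 * ((n : ℝ) - r) ^ 2 ∂(poissonMeasure r) :=
    integral_mono hI2 ((fpc_integrable_var r).const_mul _) hsq
  rw [integral_const_mul, fpc_integral_var] at e4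
  nlinarith [sq_nonneg (m - c)]

/-! ### Tensorisation -/

theorem fpc_step {X Y : Type} [MeasurableSpace X] [MeasurableSpace Y]
    [DiscreteMeasurableSpace X] (μ : Measure X) (ν : Measure Y)
    [IsProbabilityMeasure μ] [IsProbabilityMeasure ν] (G : X → Y → ℝ)
    (hG : Integrable (fun z : X × Y => G z.1 z.2) (μ.prod ν))
    (hx : ∀ x, Integrable (G x) ν) {a b : ℝ} (hab : 0 ≤ a + b)
    (ha : ∀ x, ∫ y, (G x y - ∫ y', G x y' ∂ν) ^ 2 ∂ν ≤ a)
    (hb : ∫ x, ((∫ y, G x y ∂ν) - ∫ x', ∫ y, G x' y ∂ν ∂μ) ^ 2 ∂μ ≤ b) :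
    ∫ z : X × Y, (G z.1 z.2 - ∫ z' : X × Y, G z'.1 z'.2 ∂(μ.prod ν)) ^ 2 ∂(μ.prod ν) ≤ a + b := by
  have hm : ∫ z' : X × Y, G z'.1 z'.2 ∂(μ.prod ν) = ∫ x', ∫ y, G x' y ∂ν ∂μ :=
    integral_prod _ hG
  rw [hm]
  set m := ∫ x', ∫ y, G x' y ∂ν ∂μ with hmdef
  by_cases hI : Integrable (fun z : X × Y => (G z.1 z.2 - m) ^ 2) (μ.prod ν)
  · rw [integral_prod _ hI]
    have hI' : Integrable (fun x => ∫ y, (G x y - m) ^ 2 ∂ν) μ := hI.integral_prod_left
    have hs : ∀ᵐ x ∂μ, Integrable (fun y => (G x y - m) ^ 2) ν := hI.prod_right_ae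
    set H : X → ℝ := fun x => ∫ y, G x y ∂ν with hH
    have key : ∀ᵐ x ∂μ, ∫ y, (G x y - m) ^ 2 ∂ν =
        (∫ y, (G x y - H x) ^ 2 ∂ν) + (H x - m) ^ 2 := by
      filter_upwards [hs] with x hx2
      have hx1 : Integrable (fun y => G x y - m) ν := (hx x).sub (integrable_const m)
      have e2 : ∀ y, (G x y - H x) ^ 2 =
          (G x y - m) ^ 2 - 2 * (H x - m) * (G x y - m) + (H x - m) ^ 2 := by intro y; ring
      have e1 : ∫ y, (G x y - m) ∂ν = H x - m := by
        rw [integral_sub (hx x) (integrable_const m)]; simp [hH]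
      have e3 : ∫ y, (G x y - H x) ^ 2 ∂ν = (∫ y, (G x y - m) ^ 2 ∂ν) - (H x - m) ^ 2 := by
        simp_rw [e2]
        have i1 : Integrable (fun y => (G x y - m) ^ 2 - 2 * (H x - m) * (G x y - m)) ν :=
          hx2.sub (hx1.const_mul _)
        rw [integral_add i1 (integrable_const _),
          integral_sub hx2 (hx1.const_mul _), integral_const_mul, e1]
        simp
        ring
      rw [e3]; ring
    have hnn : ∀ x, 0 ≤ ∫ y, (G x y - H x) ^ 2 ∂ν := fun x =>
      integral_nonneg fun y => sq_nonneg _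
    have hHint : Integrable (fun x => (H x - m) ^ 2) μ := by
      refine Integrable.mono' hI' Measurable.of_discrete.aestronglyMeasurable ?_
      filter_upwards [key] with x hk
      rw [Real.norm_of_nonneg (sq_nonneg _), hk]
      linarith [hnn x]
    calc ∫ x, ∫ y, (G x y - m) ^ 2 ∂ν ∂μ ≤ ∫ x, (a + (H x - m) ^ 2) ∂μ := by
          refine integral_mono_ae hI' ((integrable_const a).add hHint) ?_
          filter_upwards [key] with x hk
          rw [hk]
          linarith [ha x]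
      _ = a + ∫ x, (H x - m) ^ 2 ∂μ := by
          rw [integral_add (integrable_const a) hHint]; simp
      _ ≤ a + b := by linarith
  · rw [integral_undef hI]
    exact hab

/-! ### Finitely many coordinates -/

theorem fpc_insert_bump {n : ℕ} (x : ℕ) (y : Fin n → ℕ) (j : Fin n) :
    (Fin.insertNth (α := fun _ : Fin (n + 1) => ℕ) 0 x (bump y j)) =
      bump (Fin.insertNth (α := fun _ : Fin (n + 1) => ℕ) 0 x y) j.succ := by
  funext k
  refine Fin.cases ?_ (fun k => ?_) k
  · simp [bump]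
    intro h
    exact absurd h (Fin.succ_ne_zero j).symm
  · simp [bump]

theorem fpc_insert_bump_zero {n : ℕ} (x : ℕ) (y : Fin n → ℕ) :
    (Fin.insertNth (α := fun _ : Fin (n + 1) => ℕ) 0 (x + 1) y) =
      bump (Fin.insertNth (α := fun _ : Fin (n + 1) => ℕ) 0 x y) 0 := by
  funext k
  refine Fin.cases ?_ (fun k => ?_) k
  · simp [bump]
  · simp [bump, Fin.succ_ne_zero]

theorem fpc_var_fin : ∀ (n : ℕ) (lam : Fin n → ℝ≥0) {G : (Fin n → ℕ) → ℝ} {L : Fin n → ℝ}
    (_ : ∀ N i, |G (bump N i) - G N| ≤ L i),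
    ∫ N, (G N - ∫ N', G N' ∂(Po lam)) ^ 2 ∂(Po lam) ≤ ∑ i, (lam i : ℝ) * L i ^ 2
  | 0, lam, G, L, hL => by
    have hc : ∀ N, G N = G (fun _ => 0) := fun N => congrArg G (Subsingleton.elim _ _)
    have h1 : ∫ N', G N' ∂(Po lam) = G (fun _ => 0) := by
      rw [integral_congr_ae (Filter.Eventually.of_forall hc)]
      simp
    have h2 : ∀ N, (G N - ∫ N', G N' ∂(Po lam)) ^ 2 = 0 := by
      intro N; rw [h1, hc N]; ring
    simp [h2]
  | n + 1, lam, G, L, hL => by
    set μ : Measure ℕ := poissonMeasure (lam 0)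
    set ν : Measure (Fin n → ℕ) := Po (fun j : Fin n => lam j.succ)
    set e := MeasurableEquiv.piFinSuccAbove (fun _ : Fin (n + 1) => ℕ) 0
    have hmp : MeasurePreserving e (Po lam) (μ.prod ν) := by
      have := measurePreserving_piFinSuccAbove (fun i : Fin (n + 1) => poissonMeasure (lam i)) 0
      simp only [Fin.succAbove_zero] at this
      exact this
    have hint : ∀ F : (Fin (n + 1) → ℕ) → ℝ, ∫ N, F N ∂(Po lam) =
        ∫ z : ℕ × (Fin n → ℕ), F (Fin.insertNth 0 z.1 z.2) ∂(μ.prod ν) := by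
      intro F
      have := hmp.symm.integral_comp' F
      rw [← this]
      rfl
    set G2 : ℕ → (Fin n → ℕ) → ℝ := fun x y => G (Fin.insertNth 0 x y) with hG2
    have hGi : Integrable G (Po lam) := integrable_linG lam (linG_of_lip hL)
    have hG : Integrable (fun z : ℕ × (Fin n → ℕ) => G2 z.1 z.2) (μ.prod ν) :=
      (hmp.symm.integrable_comp_emb (MeasurableEquiv.measurableEmbedding _)).2 hGi
    have hLx : ∀ x N (i : Fin n), |G2 x (bump N i) - G2 x N| ≤ L i.succ := by
      intro x N i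
      simp only [hG2, fpc_insert_bump]
      exact hL _ _
    have hx : ∀ x, Integrable (G2 x) ν := fun x => integrable_linG _ (linG_of_lip (hLx x))
    have ih : ∀ x, ∫ y, (G2 x y - ∫ y', G2 x y' ∂ν) ^ 2 ∂ν ≤
        ∑ i : Fin n, (lam i.succ : ℝ) * L i.succ ^ 2 := fun x => fpc_var_fin n _ (hLx x)
    have hb : ∫ x, ((∫ y, G2 x y ∂ν) - ∫ x', ∫ y, G2 x' y ∂ν ∂μ) ^ 2 ∂μ ≤
        (lam 0 : ℝ) * L 0 ^ 2 := by
      refine fpc_var_one (lam 0) (g := fun x => ∫ y, G2 x y ∂ν) fun x => ?_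
      rw [← integral_sub (hx _) (hx _)]
      have hpt : ∀ y, ‖G2 (x + 1) y - G2 x y‖ ≤ L 0 := by
        intro y
        simp only [hG2, fpc_insert_bump_zero]
        exact hL _ _
      have := norm_integral_le_of_norm_le_const (μ := ν) (Filter.Eventually.of_forall hpt)
      simpa using this
    have hstep := fpc_step μ ν G2 hG hx
      (by have : 0 ≤ ∑ i : Fin n, (lam i.succ : ℝ) * L i.succ ^ 2 := by positivity
          positivity) ih hb
    rw [hint G, hint (fun N => (G N - ∫ z : ℕ × (Fin n → ℕ), G (Fin.insertNth 0 z.1 z.2)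
      ∂(μ.prod ν)) ^ 2), Fin.sum_univ_succ]
    refine hstep.trans (le_of_eq ?_)
    ring

/-- EFRON-STEIN + one-dimensional Lipschitz bound: if `|G(N + 1_i) - G(N)| ≤ L_i` then `Var G ≤ Σ lam_i L_i²`.
PROOF. Induction on `Fintype.card I` (or on a `Finset` of coordinates already averaged): for a product measure
`Var_{μ×ν} G = E_μ Var_ν G + Var_μ (E_ν G)`, and `E_ν G` is again Lipschitz in the remaining coordinates. One variable: for
`g : ℕ → ℝ` with `|g(n+1) - g(n)| ≤ L`: `Var g(N) = (1/2) E (g(N) - g(N'))² ≤ (L²/2) E (N - N')² = L² Var N = L² r`. -/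
theorem var_le (lam : I → ℝ≥0) {G : (I → ℕ) → ℝ} {L : I → ℝ}
    (hL : ∀ N i, |G (bump N i) - G N| ≤ L i) :
    ∫ N, (G N - ∫ N', G N' ∂(Po lam)) ^ 2 ∂(Po lam) ≤ ∑ i, (lam i : ℝ) * L i ^ 2 := by
  classical
  let e : Fin (Fintype.card I) ≃ I := (Fintype.equivFin I).symm
  have hmp : MeasurePreserving (MeasurableEquiv.piCongrLeft (fun _ : I => ℕ) e)
      (Po fun j => lam (e j)) (Po lam) :=
    measurePreserving_piCongrLeft (fun i : I => poissonMeasure (lam i)) e
  have hcomp : ∀ M : Fin (Fintype.card I) → ℕ,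
      MeasurableEquiv.piCongrLeft (fun _ : I => ℕ) e M = fun i => M (e.symm i) := by
    intro M
    funext i
    obtain ⟨j, rfl⟩ := e.surjective i
    have := MeasurableEquiv.piCongrLeft_apply_apply (β := fun _ : I => ℕ) e M j
    rw [this]; simp
  have hint : ∀ F : (I → ℕ) → ℝ, ∫ N, F N ∂(Po lam) =
      ∫ M, F (fun i => M (e.symm i)) ∂(Po fun j => lam (e j)) := by
    intro F
    rw [← hmp.integral_comp' F]
    simp only [hcomp]
  rw [hint G, hint (fun N => (G N - ∫ M, G (fun i => M (e.symm i))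
    ∂(Po fun j => lam (e j))) ^ 2)]
  have hb : ∀ (M : Fin (Fintype.card I) → ℕ) (j : Fin (Fintype.card I)),
      (fun i => bump M j (e.symm i)) = bump (fun i => M (e.symm i)) (e j) := by
    intro M j
    funext i
    simp only [bump]
    congr 1
    by_cases h : i = e j
    · subst h; simp
    · rw [if_neg h, if_neg]
      intro h'
      apply h
      rw [← h']; simp
  have := fpc_var_fin _ (fun j => lam (e j)) (G := fun M => G (fun i => M (e.symm i)))
    (L := fun j => L (e j)) (fun M j => by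
      have := hL (fun i => M (e.symm i)) (e j)
      rwa [← hb] at this)
  refine this.trans (le_of_eq ?_)
  exact e.sum_comp (fun i => (lam i : ℝ) * L i ^ 2)

end Crest.Agent.MP
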