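import Crest.Agent.MP.FPoisA

/-!
# Poisson calculus D: superposition, dependence on the rates
-/

set_option autoImplicit false

namespace Crest.Agent.MP

open MeasureTheory ProbabilityTheory
open scoped NNReal

variable {I : Type} [Fintype I]

/-- the law of the sum of two independent families of counts -/
theorem Po_add (lam lam' : I → ℝ≥0) :
    Po (lam + lam') = ((Po lam).prod (Po lam')).map (fun p : (I → ℕ) × (I → ℕ) => p.1 + p.2) := by
  have h1 := (measurePreserving_arrowProdEquivProdArrow ℕ ℕ I (fun i => poissonMeasure (lam i))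
    (fun i => poissonMeasure (lam' i))).map_eq
  have h2 : Po (lam + lam') = (Measure.pi (fun i => (poissonMeasure (lam i)).prod
      (poissonMeasure (lam' i)))).map (fun x i => (fun p : ℕ × ℕ => p.1 + p.2) (x i)) := by
    rw [Measure.pi_map_pi (f := fun _ (p : ℕ × ℕ) => p.1 + p.2)
      (fun i => (measurable_of_countable _).aemeasurable)]
    unfold Po
    congr 1
    funext i
    exact (poissonMeasure_conv_poissonMeasure (lam i) (lam' i)).symm
  unfold Po at h2 ⊢
  rw [h2, ← h1, Measure.map_map (measurable_of_countable _) (MeasurableEquiv.measurable _)]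
  rfl

theorem LinG.comp_add {G : (I → ℕ) → ℝ} (hG : LinG G) (lam lam' : I → ℝ≥0) :
    Integrable (fun p : (I → ℕ) × (I → ℕ) => G (p.1 + p.2)) ((Po lam).prod (Po lam')) := by
  have h := integrable_linG (lam + lam') hG
  rw [Po_add, integrable_map_measure (measurable_of_countable _).aestronglyMeasurable
    (measurable_of_countable _).aemeasurable] at h
  exact h

/-- SUPERPOSITION: `Po (lam + lam') = law of N + N'`. From `poissonMeasure_conv_poissonMeasure` coordinate by coordinate. -/
theorem superposition (lam lam' : I → ℝ≥0) {G : (I → ℕ) → ℝ} (hG : LinG G) :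
    ∫ N, G N ∂(Po (lam + lam')) = ∫ N, ∫ N', G (N + N') ∂(Po lam') ∂(Po lam) := by
  rw [Po_add, integral_map (measurable_of_countable _).aemeasurable
    (measurable_of_countable _).aestronglyMeasurable, integral_prod _ (hG.comp_add lam lam')]

theorem lip_add {G : (I → ℕ) → ℝ} {L : I → ℝ} (hL : ∀ N i, |G (bump N i) - G N| ≤ L i)
    (N N' : I → ℕ) : |G (N + N') - G N| ≤ ∑ i, L i * N' i := by
  classical
  have key : ∀ (s : ℕ) (N' : I → ℕ), ∑ i, N' i = s → |G (N + N') - G N| ≤ ∑ i, L i * N' i := by
    intro s
    induction s with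
    | zero =>
      intro N' hN
      have : N' = 0 := by
        funext i
        have := Finset.sum_eq_zero_iff.1 hN i (Finset.mem_univ i)
        simpa using this
      rw [this]; simp
    | succ s ih =>
      intro N' hN
      have h1 : ∃ i, N' i ≠ 0 := by
        by_contra hcon
        push Not at hcon
        simp [hcon] at hN
      obtain ⟨i, hi⟩ := h1
      set M : I → ℕ := Function.update N' i (N' i - 1) with hM
      have h2 : bump M i = N' := by
        funext j
        unfold bump
        by_cases hj : j = i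
        · subst hj; simp [hM]; omega
        · simp [hM, hj]
      have h2' : bump (N + M) i = N + N' := by
        rw [← h2]
        funext j
        simp only [bump, Pi.add_apply]
        ring
      have h3 : ∑ j, M j = s := by
        have e1 : ∑ j, N' j = ∑ j, M j + 1 := by
          rw [← h2]
          unfold bump
          rw [Finset.sum_add_distrib]
          simp
        omega
      have h4 := ih M h3
      have h5 := hL (N + M) i
      rw [h2'] at h5
      have h6 : ∑ j, L j * (N' j : ℝ) = ∑ j, L j * (M j : ℝ) + L i := by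
        rw [← h2]
        unfold bump
        push_cast
        simp only [mul_add, Finset.sum_add_distrib]
        simp
      rw [h6]
      calc |G (N + N') - G N| = |(G (N + N') - G (N + M)) + (G (N + M) - G N)| := by ring_nf
        _ ≤ |G (N + N') - G (N + M)| + |G (N + M) - G N| := abs_add_le _ _
        _ ≤ _ := by linarith
  exact key _ N' rfl

theorem lip_rate_aux (lam d : I → ℝ≥0) {G : (I → ℕ) → ℝ} {L : I → ℝ}
    (hL : ∀ N i, |G (bump N i) - G N| ≤ L i) :
    |(∫ N, G N ∂(Po (lam + d))) - ∫ N, G N ∂(Po lam)| ≤ ∑ i, L i * (d i : ℝ) := by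
  have hG : LinG G := linG_of_lip hL
  have hcs : ∫ N, (∑ i, L i * (N i : ℝ)) ∂(Po d) = ∑ i, L i * (d i : ℝ) := by
    rw [integral_finsetSum _ (fun i _ => (integrable_coord d i).const_mul (L i))]
    apply Finset.sum_congr rfl
    intro i _
    rw [integral_const_mul]
    have h := mecke d i (G := fun _ => 1) (LinG.of_bounded (A := 1) fun N => by simp)
    simp only [mul_one] at h
    rw [h]; simp
  have hsi : Integrable (fun N : I → ℕ => ∑ i, L i * (N i : ℝ)) (Po d) :=
    integrable_finsetSum _ fun i _ => (integrable_coord d i).const_mul (L i)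
  have hsi2 : Integrable (fun p : (I → ℕ) × (I → ℕ) => ∑ i, L i * (p.2 i : ℝ))
      ((Po lam).prod (Po d)) := hsi.comp_snd (Po lam)
  have hGf : Integrable (fun p : (I → ℕ) × (I → ℕ) => G p.1) ((Po lam).prod (Po d)) :=
    (integrable_linG lam hG).comp_fst (Po d)
  have hGp := hG.comp_add lam d
  have e1 : ∫ N, G N ∂(Po (lam + d)) = ∫ p, G (p.1 + p.2) ∂((Po lam).prod (Po d)) := by
    rw [Po_add, integral_map (measurable_of_countable _).aemeasurable
      (measurable_of_countable _).aestronglyMeasurable]
  have e2 : ∫ N, G N ∂(Po lam) = ∫ p, G p.1 ∂((Po lam).prod (Po d)) := by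
    rw [integral_prod _ hGf]; simp
  have e3 : ∫ p, (∑ i, L i * (p.2 i : ℝ)) ∂((Po lam).prod (Po d)) = ∑ i, L i * (d i : ℝ) := by
    rw [integral_prod _ hsi2]; simp [hcs]
  rw [e1, e2, ← integral_sub hGp hGf, ← e3]
  refine abs_integral_le_integral_abs.trans ?_
  apply integral_mono (hGp.sub hGf).abs hsi2
  intro p
  exact lip_add hL p.1 p.2

/-- Lipschitz dependence on the rates: from superposition (compare both rates with `min`, or
with `lam ⊔ lam'`), `|G(N + N') - G(N)| ≤ Σ L_i N'_i`. -/
theorem lip_rate (lam lam' : I → ℝ≥0) {G : (I → ℕ) → ℝ} {L : I → ℝ}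
    (hL : ∀ N i, |G (bump N i) - G N| ≤ L i) :
    |(∫ N, G N ∂(Po lam)) - ∫ N, G N ∂(Po lam')| ≤ ∑ i, |(lam i : ℝ) - lam' i| * L i := by
  set m : I → ℝ≥0 := fun i => min (lam i) (lam' i) with hm
  set d : I → ℝ≥0 := fun i => lam i - m i with hd
  set d' : I → ℝ≥0 := fun i => lam' i - m i with hd'
  have h1 : lam = m + d := by
    funext i
    simp only [hd, hm, Pi.add_apply]
    exact (add_tsub_cancel_of_le (min_le_left _ _)).symm
  have h2 : lam' = m + d' := by
    funext i
    simp only [hd', hm, Pi.add_apply]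
    exact (add_tsub_cancel_of_le (min_le_right _ _)).symm
  have h3 := lip_rate_aux m d hL
  have h4 := lip_rate_aux m d' hL
  rw [← h1] at h3
  rw [← h2] at h4
  have h5 : ∑ i, |(lam i : ℝ) - lam' i| * L i = ∑ i, L i * (d i : ℝ) + ∑ i, L i * (d' i : ℝ) := by
    rw [← Finset.sum_add_distrib]
    apply Finset.sum_congr rfl
    intro i _
    simp only [hd, hd', hm]
    rw [NNReal.coe_sub (min_le_left _ _), NNReal.coe_sub (min_le_right _ _)]
    rcases le_total (lam i) (lam' i) with h | h
    · have h' : (lam i : ℝ) ≤ lam' i := by exact_mod_cast h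
      rw [min_eq_left h, abs_of_nonpos (by linarith)]
      ring
    · have h' : (lam' i : ℝ) ≤ lam i := by exact_mod_cast h
      rw [min_eq_right h, abs_of_nonneg (by linarith)]
      ring
  rw [h5]
  calc |(∫ N, G N ∂(Po lam)) - ∫ N, G N ∂(Po lam')|
      = |((∫ N, G N ∂(Po lam)) - ∫ N, G N ∂(Po m)) - ((∫ N, G N ∂(Po lam')) - ∫ N, G N ∂(Po m))| := by
        ring_nf
    _ ≤ |(∫ N, G N ∂(Po lam)) - ∫ N, G N ∂(Po m)| + |(∫ N, G N ∂(Po lam')) - ∫ N, G N ∂(Po m)| :=
        abs_sub _ _
    _ ≤ _ := by linarith

end Crest.Agent.MP
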