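import Crest.Agent.MP.FPoisA

/-!
# Poisson calculus E: thinning
-/

set_option autoImplicit false

namespace Crest.Agent.MP

open MeasureTheory ProbabilityTheory
open scoped NNReal

variable {I : Type} [Fintype I]

open Classical in
/-- Counts of a list of indices. -/
noncomputable def cntOf {M : ℕ} (t : Fin M → I) : I → ℕ := fun i => (Finset.univ.filter (fun j => t j = i)).card

omit [Fintype I] in
open Classical in
lemma fpe_cntOf_cons {M : ℕ} (a : I) (t : Fin M → I) :
    cntOf (Fin.cons a t : Fin (M + 1) → I) = bump (cntOf t) a := by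
  funext i
  unfold cntOf bump
  simp only [Finset.card_filter]
  rw [Fin.sum_univ_succ]
  simp only [Fin.cons_zero, Fin.cons_succ]
  rw [add_comm]
  congr 1
  by_cases h : a = i
  · simp [h]
  · rw [if_neg h, if_neg (Ne.symm h)]

lemma fpe_sum_cntOf {M : ℕ} (t : Fin M → I) : ∑ i, cntOf t i = M := by
  classical
  unfold cntOf
  have := Finset.card_eq_sum_card_fiberwise (f := t) (s := Finset.univ) (t := Finset.univ)
    (fun _ _ => Finset.mem_coe.2 (Finset.mem_univ _))
  simpa using this.symm

/-- sums over `Fin (M+1) → I` -/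
lemma fpe_sum_cons {M : ℕ} (F : (Fin (M + 1) → I) → ℕ) :
    ∑ t : Fin (M + 1) → I, F t = ∑ a : I, ∑ t : Fin M → I, F (Fin.cons a t) := by
  rw [← Fintype.sum_prod_type']
  exact (Fintype.sum_equiv (Fin.consEquiv (fun _ : Fin (M + 1) => I)) _ _ (fun x => rfl)).symm

open Classical in
/-- the number of lists with given counts -/
noncomputable def fpe_num (M : ℕ) (N : I → ℕ) : ℕ := ∑ t : Fin M → I, if cntOf t = N then 1 else 0

open Classical in
/-- remove one -/
noncomputable def fpe_drop (N : I → ℕ) (i : I) : I → ℕ := fun j => N j - (if j = i then 1 else 0)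

omit [Fintype I] in
lemma fpe_bump_eq_iff (N N' : I → ℕ) (i : I) (h : 1 ≤ N i) : bump N' i = N ↔ N' = fpe_drop N i := by
  classical
  constructor
  · intro e
    subst e
    funext j
    unfold fpe_drop bump
    split_ifs <;> omega
  · intro e
    subst e
    funext j
    unfold fpe_drop bump
    by_cases hj : j = i
    · subst hj; simp; omega
    · simp [hj]

omit [Fintype I] in
lemma fpe_bump_ne (N N' : I → ℕ) (i : I) (h : N i = 0) : bump N' i ≠ N := by
  classical
  intro e
  have := congrFun e i
  unfold bump at this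
  simp at this
  omega

lemma fpe_prod_drop (N : I → ℕ) (i : I) (h : 1 ≤ N i) :
    ∏ j, (N j).factorial = N i * ∏ j, (fpe_drop N i j).factorial := by
  classical
  rw [← Finset.mul_prod_erase _ (fun j => (N j).factorial) (Finset.mem_univ i),
    ← Finset.mul_prod_erase _ (fun j => (fpe_drop N i j).factorial) (Finset.mem_univ i)]
  have h1 : (fpe_drop N i i) = N i - 1 := by simp [fpe_drop]
  have h2 : ∏ j ∈ Finset.univ.erase i, (fpe_drop N i j).factorial =
      ∏ j ∈ Finset.univ.erase i, (N j).factorial := by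
    refine Finset.prod_congr rfl fun j hj => ?_
    have : j ≠ i := (Finset.mem_erase.1 hj).1
    simp [fpe_drop, this]
  rw [h1, h2, ← mul_assoc, Nat.mul_factorial_pred (by omega)]

lemma fpe_sum_drop (N : I → ℕ) (i : I) (h : 1 ≤ N i) :
    ∑ j, fpe_drop N i j + 1 = ∑ j, N j := by
  classical
  rw [← Finset.add_sum_erase _ N (Finset.mem_univ i),
    ← Finset.add_sum_erase _ (fun j => (fpe_drop N i j)) (Finset.mem_univ i)]
  have h1 : (fpe_drop N i i) = N i - 1 := by simp [fpe_drop]
  have h2 : ∑ j ∈ Finset.univ.erase i, (fpe_drop N i j) =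
      ∑ j ∈ Finset.univ.erase i, (N j) := by
    refine Finset.sum_congr rfl fun j hj => ?_
    have : j ≠ i := (Finset.mem_erase.1 hj).1
    simp [fpe_drop, this]
  rw [h1, h2]
  omega

theorem fpe_num_eq (M : ℕ) : ∀ N : I → ℕ,
    fpe_num M N * ∏ i, (N i).factorial = if ∑ i, N i = M then M.factorial else 0 := by
  classical
  induction M with
  | zero =>
    intro N
    unfold fpe_num
    have hc : ∀ t : Fin 0 → I, cntOf t = (fun _ => 0) := by
      intro t
      funext i
      simp [cntOf]
    simp only [hc]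
    by_cases h : ∑ i, N i = 0
    · have h0 : N = fun _ => 0 := by
        funext i
        exact (Finset.sum_eq_zero_iff.1 h) i (Finset.mem_univ i)
      subst h0
      simp
    · rw [if_neg h]
      have h0 : (fun _ => 0) ≠ N := by
        rintro rfl
        exact h (by simp)
      simp [h0]
  | succ M ih =>
    intro N
    have h1 : fpe_num (M + 1) N =
        ∑ i, ∑ t : Fin M → I, if bump (cntOf t) i = N then 1 else 0 := by
      unfold fpe_num
      rw [fpe_sum_cons]
      simp only [fpe_cntOf_cons]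
    have h2 : ∀ i, (∑ t : Fin M → I, if bump (cntOf t) i = N then 1 else 0) *
        ∏ j, (N j).factorial = N i * if ∑ j, N j = M + 1 then M.factorial else 0 := by
      intro i
      rcases Nat.eq_zero_or_pos (N i) with h | h
      · rw [h, zero_mul]
        have : ∀ t : Fin M → I, ¬ (bump (cntOf t) i = N) := fun t => fpe_bump_ne _ _ _ h
        simp [this]
      · have e : (∑ t : Fin M → I, if bump (cntOf t) i = N then 1 else 0) =
            fpe_num M (fpe_drop N i) := by
          unfold fpe_num
          refine Finset.sum_congr rfl fun t _ => ?_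
          simp only [fpe_bump_eq_iff N (cntOf t) i h]
        rw [e, fpe_prod_drop N i h]
        have := ih (fpe_drop N i)
        have hs := fpe_sum_drop N i h
        have hiff : (∑ j, fpe_drop N i j = M) ↔ (∑ j, N j = M + 1) := by omega
        rw [show fpe_num M (fpe_drop N i) * (N i * ∏ j, (fpe_drop N i j).factorial) =
          N i * (fpe_num M (fpe_drop N i) * ∏ j, (fpe_drop N i j).factorial) by ring, this]
        simp only [hiff]
    rw [h1, Finset.sum_mul]
    simp only [h2]
    rw [← Finset.sum_mul]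
    by_cases h : ∑ j, N j = M + 1
    · rw [if_pos h, if_pos h, h, Nat.factorial_succ]
    · rw [if_neg h, if_neg h, mul_zero]

/-- the weights of `Po` -/
lemma fpe_weight (lam : I → ℝ≥0) (N : I → ℕ) :
    (Po lam).real {N} = ∏ i, (Real.exp (-(lam i : ℝ)) * (lam i : ℝ) ^ (N i) / (N i).factorial) := by
  unfold Po
  rw [measureReal_def, Measure.pi_singleton, ENNReal.toReal_prod]
  refine Finset.prod_congr rfl fun i _ => ?_
  rw [← measureReal_def, poissonMeasure_real_singleton]

lemma fpe_hasSum (lam : I → ℝ≥0) {G : (I → ℕ) → ℝ} (hG : Integrable G (Po lam)) :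
    HasSum (fun N => (Po lam).real {N} * G N) (∫ N, G N ∂(Po lam)) := by
  have hG' := hG
  rw [← Measure.sum_smul_dirac (Po lam)] at hG'
  have := hasSum_integral_measure hG'
  rw [Measure.sum_smul_dirac] at this
  have h2 : (fun N => (Po lam).real {N} * G N) =
      fun i => ∫ x : I → ℕ, G x ∂((Po lam) {i} • Measure.dirac i) := by
    funext N
    rw [integral_smul_measure, integral_dirac, smul_eq_mul, measureReal_def]
  rw [h2]
  exact this

lemma fpe_prod_q {M : ℕ} (q : I → ℝ≥0) (t : Fin M → I) :
    ∏ j, (q (t j) : ℝ) = ∏ i, (q i : ℝ) ^ (cntOf t i) := by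
  classical
  rw [← Finset.prod_fiberwise (s := Finset.univ) (g := t)]
  refine Finset.prod_congr rfl fun i _ => ?_
  rw [Finset.prod_congr rfl (g := fun _ => (q i : ℝ))
    (fun j hj => by rw [(Finset.mem_filter.1 hj).2]), Finset.prod_const]
  unfold cntOf
  congr 1

/-- THINNING: Poisson counts with rates `Λ q_i`, `Σ q_i = 1`, are the counts of `M ~ Poisson(Λ)` independent draws from `q`.
PROOF. Both sides are sums over `N : I → ℕ` of `G N` with the same weights: the number of `t : Fin M → I` with counts `N`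
(`Σ N = M`) is the multinomial coefficient `M!/Π N_i!`. Alternatively induction on `I` with the binomial theorem, or generating
functions: by density/`ext` for measures on the countable space `I → ℕ` it is enough to compare singletons. -/
theorem thinning (Λ : ℝ≥0) (q : I → ℝ≥0) (hq : ∑ i, q i = 1) {G : (I → ℕ) → ℝ} (hG : LinG G) :
    HasSum (fun M : ℕ => (Real.exp (-Λ) * (Λ : ℝ) ^ M / (Nat.factorial M : ℝ)) *
        ∑ t : Fin M → I, (∏ j, (q (t j) : ℝ)) * G (cntOf t))
      (∫ N, G N ∂(Po (fun i => Λ * q i))) := by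
  classical
  have hs := fpe_hasSum _ (integrable_linG (fun i => Λ * q i) hG)
  have hf := hs.tsum_fiberwise (fun N : I → ℕ => ∑ i, N i)
  have key : (fun M : ℕ => (Real.exp (-Λ) * (Λ : ℝ) ^ M / (Nat.factorial M : ℝ)) *
        ∑ t : Fin M → I, (∏ j, (q (t j) : ℝ)) * G (cntOf t)) =
      fun c => ∑' b : ((fun N : I → ℕ => ∑ i, N i) ⁻¹' {c} : Set (I → ℕ)),
        (Po fun i => Λ * q i).real {(b : I → ℕ)} * G b := ?_
  · rw [key]; exact hf
  funext M
  symm
  -- the fibre
  have hw : ∀ N : I → ℕ, (Po (fun i => Λ * q i)).real {N} =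
      Real.exp (-(Λ : ℝ)) * (Λ : ℝ) ^ (∑ i, N i) * (∏ i, (q i : ℝ) ^ N i) /
        (∏ i, ((N i).factorial : ℝ)) := by
    intro N
    rw [fpe_weight, Finset.prod_div_distrib, Finset.prod_mul_distrib, ← Real.exp_sum]
    congr 1
    have h1 : ∑ i, -(((Λ * q i : ℝ≥0) : ℝ)) = -(Λ : ℝ) := by
      rw [Finset.sum_neg_distrib, ← NNReal.coe_sum, ← Finset.mul_sum, hq, mul_one]
    rw [h1, mul_assoc]
    congr 1
    rw [← Finset.prod_pow_eq_pow_sum, ← Finset.prod_mul_distrib]
    refine Finset.prod_congr rfl fun i _ => ?_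
    rw [NNReal.coe_mul, mul_pow]
  set A : Finset (I → ℕ) := Finset.univ.image (fun t : Fin M → I => cntOf t) with hA
  have hAM : ∀ N ∈ A, ∑ i, N i = M := by
    intro N hN
    obtain ⟨t, _, rfl⟩ := Finset.mem_image.1 hN
    exact fpe_sum_cntOf t
  have hAM' : ∀ N : I → ℕ, ∑ i, N i = M → N ∈ A := by
    intro N hN
    by_contra hcon
    have h0 : fpe_num M N = 0 := by
      unfold fpe_num
      refine Finset.sum_eq_zero fun t _ => ?_
      rw [if_neg]
      rintro rfl
      exact hcon (Finset.mem_image_of_mem _ (Finset.mem_univ t))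
    have := fpe_num_eq M N
    rw [h0, zero_mul, if_pos hN] at this
    exact (Nat.factorial_ne_zero M) this.symm
  have hfib : ∑' b : ((fun N : I → ℕ => ∑ i, N i) ⁻¹' {M} : Set (I → ℕ)),
      (Po (fun i => Λ * q i)).real {(b : I → ℕ)} * G b =
      ∑ N ∈ A, (Po (fun i => Λ * q i)).real {N} * G N := by
    have hset : ((fun N : I → ℕ => ∑ i, N i) ⁻¹' {M} : Set (I → ℕ)) = (A : Set (I → ℕ)) := by
      ext N
      simp only [Set.mem_preimage, Set.mem_singleton_iff, Finset.mem_coe]
      exact ⟨hAM' N, hAM N⟩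
    rw [hset]
    exact Finset.tsum_subtype' A (fun N => (Po (fun i => Λ * q i)).real {N} * G N)
  rw [hfib]
  have hsum : ∑ t : Fin M → I, (∏ j, (q (t j) : ℝ)) * G (cntOf t) =
      ∑ N ∈ A, (fpe_num M N : ℝ) * ((∏ i, (q i : ℝ) ^ N i) * G N) := by
    rw [← Finset.sum_fiberwise_of_maps_to (s := Finset.univ) (t := A) (g := fun t => cntOf t)
      (fun t _ => Finset.mem_image_of_mem _ (Finset.mem_univ t))]
    refine Finset.sum_congr rfl fun N _ => ?_
    rw [Finset.sum_congr rfl (g := fun _ => (∏ i, (q i : ℝ) ^ N i) * G N) (fun t ht => by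
      rw [fpe_prod_q, (Finset.mem_filter.1 ht).2]), Finset.sum_const, nsmul_eq_mul]
    congr 2
    unfold fpe_num
    rw [Finset.card_filter]
  rw [hsum, Finset.mul_sum]
  refine Finset.sum_congr rfl fun N hN => ?_
  rw [hw, hAM N hN]
  have hnum := fpe_num_eq M N
  rw [if_pos (hAM N hN)] at hnum
  have hnum' : (fpe_num M N : ℝ) * ∏ i, ((N i).factorial : ℝ) = (M.factorial : ℝ) := by
    exact_mod_cast hnum
  have hP : (∏ i, ((N i).factorial : ℝ)) ≠ 0 :=
    Finset.prod_ne_zero_iff.2 fun i _ => by exact_mod_cast Nat.factorial_ne_zero _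
  have hM : (M.factorial : ℝ) ≠ 0 := by exact_mod_cast Nat.factorial_ne_zero M
  field_simp
  rw [← hnum']
  ring

end Crest.Agent.MP
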