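import Crest.Agent.MP.FPoisA

/-!
# Poisson calculus F: sums and reindexing
-/

set_option autoImplicit false

namespace Crest.Agent.MP

open MeasureTheory ProbabilityTheory
open scoped NNReal

variable {I : Type} [Fintype I]

/-- Independent groups of counts: an index set which is a disjoint sum. -/
theorem po_sum {I' : Type} [Fintype I'] (lam : I → ℝ≥0) (lam' : I' → ℝ≥0) {G : (I ⊕ I' → ℕ) → ℝ} (hG : LinG G) :
    ∫ N, G N ∂(Po (Sum.elim lam lam')) = ∫ N, ∫ N', G (Sum.elim N N') ∂(Po lam') ∂(Po lam) := by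
  have hmp := measurePreserving_sumPiEquivProdPi_symm
    (fun i : I ⊕ I' => poissonMeasure (Sum.elim lam lam' i))
  have h1 := hmp.integral_comp' (f := (MeasurableEquiv.sumPiEquivProdPi fun _ : I ⊕ I' => ℕ).symm) G
  have hint : Integrable G (Po (Sum.elim lam lam')) := integrable_linG _ hG
  have h2 : Integrable (fun z : (I → ℕ) × (I' → ℕ) =>
      G ((MeasurableEquiv.sumPiEquivProdPi fun _ : I ⊕ I' => ℕ).symm z))
      ((Measure.pi fun i : I => poissonMeasure (Sum.elim lam lam' (Sum.inl i))).prod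
        (Measure.pi fun i : I' => poissonMeasure (Sum.elim lam lam' (Sum.inr i)))) :=
    hmp.integrable_comp_of_integrable hint
  unfold Po
  rw [← h1, integral_prod _ h2]
  rfl

/-- Reindexing. -/
theorem po_equiv {I' : Type} [Fintype I'] (e : I' ≃ I) (lam : I → ℝ≥0) (G : (I → ℕ) → ℝ) :
    ∫ N, G N ∂(Po lam) = ∫ N', G (fun i => N' (e.symm i)) ∂(Po (fun i' => lam (e i'))) := by
  have hmp := measurePreserving_piCongrLeft (fun i : I => poissonMeasure (lam i)) e
  have h1 := hmp.integral_comp' (f := MeasurableEquiv.piCongrLeft (fun _ : I => ℕ) e) G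
  unfold Po
  rw [← h1]
  refine integral_congr_ae (ae_of_all _ fun N' => ?_)
  change G _ = G _
  congr 1
  funext i
  obtain ⟨j, rfl⟩ := e.surjective i
  rw [e.symm_apply_apply]
  exact Equiv.piCongrLeft_apply_apply (fun _ : I => ℕ) e N' j


end Crest.Agent.MP
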