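import Crest.Agent.MP.FPoisB
import Crest.Agent.MP.FPoisC
import Crest.Agent.MP.FPoisD
import Crest.Agent.MP.FPoisE
import Crest.Agent.MP.FPoisF
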