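import Crest.Agent.MP.FAsDefs
import Crest.Agent.MP.FPoisAll

/-!
# Module F4, tools A: Lipschitz functionals of the Hamiltonian
-/

set_option autoImplicit false

namespace Crest.Agent.MP.FA
open MeasureTheory ProbabilityTheory Filter Topology
open Crest.ProbabilityR.Diluted
open scoped NNReal

private theorem Z_pos {n : ℕ} (H : Cf n → ℝ) : 0 < ∑ σ : Cf n, Real.exp (H σ) :=
  Finset.sum_pos (fun _ _ => Real.exp_pos _) Finset.univ_nonempty

private theorem logZ_le {n : ℕ} (H H' : Cf n → ℝ) (c : ℝ) (h : ∀ σ, H' σ ≤ H σ + c) :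
    logZ H' ≤ logZ H + c := by
  unfold logZ
  have h1 : ∑ σ : Cf n, Real.exp (H' σ) ≤ (∑ σ : Cf n, Real.exp (H σ)) * Real.exp c := by
    rw [Finset.sum_mul]
    refine Finset.sum_le_sum fun σ _ => ?_
    rw [← Real.exp_add]
    exact Real.exp_le_exp.2 (h σ)
  calc Real.log (∑ σ : Cf n, Real.exp (H' σ))
      ≤ Real.log ((∑ σ : Cf n, Real.exp (H σ)) * Real.exp c) := Real.log_le_log (Z_pos H') h1
    _ = _ := by rw [Real.log_mul (Z_pos H).ne' (Real.exp_pos c).ne', Real.log_exp]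

/-- `log Z` is `1`-Lipschitz. -/
theorem logZ_lipH {n : ℕ} : LipH (logZ (n := n)) := by
  intro H φ c hφ
  have h1 := logZ_le H (fun σ => H σ + φ σ) c (fun σ => by
    have := (abs_le.1 (hφ σ)).2
    linarith)
  have h2 := logZ_le (fun σ => H σ + φ σ) H c (fun σ => by
    have := (abs_le.1 (hφ σ)).1
    linarith)
  rw [abs_le]
  constructor <;> linarith

/-- `log Z(H + φ) = log Z(H) + log <e^φ>_H`. -/
theorem logZ_add {n : ℕ} (H φ : Cf n → ℝ) :
    logZ (fun σ => H σ + φ σ) = logZ H + Real.log (gav1 H (fun σ => Real.exp (φ σ))) := by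
  have hZ := Z_pos H
  have h1 : gav1 H (fun σ => Real.exp (φ σ)) =
      (∑ σ : Cf n, Real.exp (H σ + φ σ)) / ∑ σ : Cf n, Real.exp (H σ) := by
    unfold gav1 gibbs
    rw [Finset.sum_div]
    refine Finset.sum_congr rfl fun σ _ => ?_
    rw [Real.exp_add]
    ring
  unfold logZ
  rw [h1, Real.log_div (Z_pos (fun σ => H σ + φ σ)).ne' hZ.ne']
  ring

private theorem sum_bump {I : Type} [Fintype I] (N : I → ℕ) (a : I) (f : I → ℝ) :
    ∑ b, ((bump N a) b : ℝ) * f b = ∑ b, (N b : ℝ) * f b + f a := by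
  classical
  have h1 : ∀ b, ((bump N a) b : ℝ) * f b = (N b : ℝ) * f b + (if b = a then f a else 0) := by
    intro b
    unfold bump
    by_cases h : b = a
    · subst h
      simp
      ring
    · simp [h]
  simp only [h1]
  rw [Finset.sum_add_distrib]
  congr 1
  rw [Finset.sum_eq_single a]
  · simp
  · intro b _ hb
    simp [hb]
  · intro h
    exact absurd (Finset.mem_univ a) h

theorem Ham_bump {J : Finset Species} {n : ℕ} (G : Cf n → ℝ) (δ : ℝ) (u : UPar)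
    (N : FIdx J n → ℕ) (a : FIdx J n) :
    Ham G δ u (bump N a) = fun σ => Ham G δ u N σ + fac δ u a σ := by
  funext σ
  unfold Ham
  rw [sum_bump]
  ring

theorem tHam_bump {p : ℕ} (μ : FinLaw (Inter p)) {n : ℕ} (G : Cf n → ℝ) (N : TIdx μ n → ℕ)
    (a : TIdx μ n) :
    tHam μ G (bump N a) = fun σ => tHam μ G N σ + tfac a σ := by
  funext σ
  unfold tHam
  rw [sum_bump]
  ring

theorem cJ_pos (J : Finset Species) : 0 < cJ J := by
  unfold cJ; positivity

private theorem abs_le_supN {p : ℕ} (θ : Inter p) (s : Fin p → Bool) : |θ s| ≤ supNorm θ :=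
  le_ciSup (f := fun s => |θ s|) (Set.finite_range _).bddAbove s

private theorem supN_nonneg {p : ℕ} (θ : Inter p) : 0 ≤ supNorm θ :=
  (abs_nonneg _).trans (abs_le_supN θ (fun _ => true))

theorem cM_nonneg {p : ℕ} (μ : FinLaw (Inter p)) : 0 ≤ cM μ :=
  Finset.sum_nonneg fun _ _ => supN_nonneg _

theorem abs_fac_le {J : Finset Species} {n : ℕ} {δ : ℝ} (h0 : 0 ≤ δ) (h1 : δ ≤ 1) {u : UPar}
    (hu : UOk u) (a : FIdx J n) (σ : Cf n) : |fac δ u a σ| ≤ cJ J := by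
  unfold fac cJ
  refine (abs_add_le _ _).trans (add_le_add ?_ ?_)
  · have h2 : |Real.log (a.1.1.W (fun i => σ (a.2 i)) : ℝ)| ≤
        ∑ c : a.1.1.Cfg, |Real.log (a.1.1.W c : ℝ)| :=
      Finset.single_le_sum (f := fun c : a.1.1.Cfg => |Real.log (a.1.1.W c : ℝ)|)
        (fun _ _ => abs_nonneg _) (Finset.mem_univ _)
    have h3 : ∑ c : a.1.1.Cfg, |Real.log (a.1.1.W c : ℝ)| ≤
        ∑ s ∈ J, ∑ c : s.Cfg, |Real.log (s.W c : ℝ)| :=
      Finset.single_le_sum (f := fun s : Species => ∑ c : s.Cfg, |Real.log (s.W c : ℝ)|)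
        (fun _ _ => Finset.sum_nonneg fun _ _ => abs_nonneg _) a.1.2
    exact h2.trans h3
  · have h4 := hu a.1.1 (fun i => σ (a.2 i))
    rw [abs_of_nonneg (mul_nonneg h0 h4.1)]
    calc δ * u a.1.1 (fun i => σ (a.2 i)) ≤ 1 * 1 :=
          mul_le_mul h1 h4.2 h4.1 zero_le_one
      _ = 1 := one_mul 1

theorem abs_tfac_le {p : ℕ} {μ : FinLaw (Inter p)} {n : ℕ} (a : TIdx μ n) (σ : Cf n) :
    |tfac a σ| ≤ cM μ := by
  unfold tfac cM
  refine (abs_le_supN _ _).trans ?_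
  exact Finset.single_le_sum (f := fun t => supNorm (μ.x t)) (fun _ _ => supN_nonneg _)
    (Finset.mem_univ a.1)

/-- A Lipschitz functional has bounded increments, hence linear growth, along the counts
(also with an arbitrary family of energies `φ a`). -/
theorem LipH.linG {n : ℕ} {Ψ : (Cf n → ℝ) → ℝ} (hΨ : LipH Ψ) {I : Type} [Fintype I]
    (G : Cf n → ℝ) (φ : I → Cf n → ℝ) :
    LinG (fun N : I → ℕ => Ψ (fun σ => G σ + ∑ a, (N a : ℝ) * φ a σ)) := by
  refine ⟨|Ψ G|, ∑ a, ∑ σ, |φ a σ|, fun N => ?_⟩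
  have h1 : ∀ σ, |∑ a, (N a : ℝ) * φ a σ| ≤ (∑ a, ∑ σ, |φ a σ|) * ∑ i, (N i : ℝ) := by
    intro σ
    calc |∑ a, (N a : ℝ) * φ a σ| ≤ ∑ a, |(N a : ℝ) * φ a σ| := Finset.abs_sum_le_sum_abs _ _
      _ ≤ ∑ a, (N a : ℝ) * ∑ a, ∑ σ, |φ a σ| := by
          refine Finset.sum_le_sum fun a _ => ?_
          rw [abs_mul, abs_of_nonneg (Nat.cast_nonneg (N a))]
          refine mul_le_mul_of_nonneg_left ?_ (Nat.cast_nonneg _)
          calc |φ a σ| ≤ ∑ σ, |φ a σ| :=
                Finset.single_le_sum (f := fun σ => |φ a σ|) (fun _ _ => abs_nonneg _)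
                  (Finset.mem_univ σ)
            _ ≤ ∑ a, ∑ σ, |φ a σ| :=
                Finset.single_le_sum (f := fun a => ∑ σ, |φ a σ|)
                  (fun _ _ => Finset.sum_nonneg fun _ _ => abs_nonneg _) (Finset.mem_univ a)
      _ = _ := by rw [← Finset.sum_mul]; ring
  have h2 := hΨ G (fun σ => ∑ a, (N a : ℝ) * φ a σ) _ h1
  have h3 := abs_sub_abs_le_abs_sub (Ψ (fun σ => G σ + ∑ a, (N a : ℝ) * φ a σ)) (Ψ G)
  linarith

/-- The increments of a Lipschitz functional along the counts. -/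
theorem LipH.bump_le {n : ℕ} {Ψ : (Cf n → ℝ) → ℝ} (hΨ : LipH Ψ) {I : Type} [Fintype I]
    (G : Cf n → ℝ) (φ : I → Cf n → ℝ) {c : I → ℝ} (hc : ∀ a σ, |φ a σ| ≤ c a) (N : I → ℕ) (a : I) :
    |Ψ (fun σ => G σ + ∑ b, ((bump N a) b : ℝ) * φ b σ) -
      Ψ (fun σ => G σ + ∑ b, (N b : ℝ) * φ b σ)| ≤ c a := by
  have h1 : (fun σ => G σ + ∑ b, ((bump N a) b : ℝ) * φ b σ) =
      fun σ => (G σ + ∑ b, (N b : ℝ) * φ b σ) + φ a σ := by
    funext σ
    rw [sum_bump]
    ring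
  rw [h1]
  exact hΨ _ _ _ (hc a)

end Crest.Agent.MP.FA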