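import Crest.Agent.MP.FAsTools

/-!
# Module F4: increments along the true interactions
-/

set_option autoImplicit false

namespace Crest.Agent.MP.FA
open MeasureTheory ProbabilityTheory Filter Topology
open Crest.ProbabilityR.Diluted
open scoped NNReal

theorem fup_gibbs_pos {n : ℕ} (H : Cf n → ℝ) (σ : Cf n) : 0 < gibbs H σ := by
  unfold gibbs
  exact div_pos (Real.exp_pos _) (Finset.sum_pos (fun _ _ => Real.exp_pos _) Finset.univ_nonempty)

theorem fup_gav1_pos {n : ℕ} (H : Cf n → ℝ) {f : Cf n → ℝ} (hf : ∀ σ, 0 < f σ) : 0 < gav1 H f := by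
  unfold gav1
  exact Finset.sum_pos (fun σ _ => mul_pos (fup_gibbs_pos H σ) (hf σ)) Finset.univ_nonempty

theorem fup_log_gav1 {n p : ℕ} (H : Cf n → ℝ) (θ : Inter p) (e : Fin p → Fin n) :
    Real.log (gav1 H (fun σ => Real.exp (θ (fun i => σ (e i))))) =
      supNorm θ + Real.log (gav1 H (fun σ => edgeψ θ (fun l => σ (e l)))) := by
  have h1 : gav1 H (fun σ => Real.exp (θ (fun i => σ (e i)))) =
      Real.exp (supNorm θ) * gav1 H (fun σ => edgeψ θ (fun l => σ (e l))) := by
    unfold gav1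
    rw [Finset.mul_sum]
    refine Finset.sum_congr rfl fun σ _ => ?_
    have : Real.exp (θ (fun i => σ (e i))) =
        Real.exp (supNorm θ) * edgeψ θ (fun l => σ (e l)) := by
      unfold edgeψ
      rw [← Real.exp_add]
      congr 1
      ring
    show gibbs H σ * Real.exp (θ (fun i => σ (e i))) =
      Real.exp (supNorm θ) * (gibbs H σ * edgeψ θ (fun l => σ (e l)))
    rw [this]
    ring
  have h2 : 0 < gav1 H (fun σ => edgeψ θ (fun l => σ (e l))) :=
    fup_gav1_pos H fun σ => by unfold edgeψ; exact Real.exp_pos _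
  rw [h1, Real.log_mul (Real.exp_pos _).ne' h2.ne', Real.log_exp]

theorem fup_incr_one (p : ℕ) (μ : FinLaw (Inter p)) (J : Finset Species) (ε : ℝ≥0) (δ : ℝ)
    (u : UPar) {n : ℕ} (G : Cf n → ℝ) (t : μ.ι) (e : Fin p → Fin n) :
    softE J ε δ u logZ (fun σ => G σ + tfac (μ := μ) (n := n) (t, e) σ) - softE J ε δ u logZ G =
      supNorm (μ.x t) + ∫ N, Real.log (gav1 (Ham (J := J) G δ u N)
        (fun σ => edgeψ (μ.x t) (fun l => σ (e l)))) ∂(Po (frate J n ε)) := by
  unfold softE
  set φ : Cf n → ℝ := fun σ => tfac (μ := μ) (n := n) (t, e) σ with hφ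
  have i1 : Integrable (fun N => logZ (Ham (J := J) (fun σ => G σ + φ σ) δ u N))
      (Po (frate J n ε)) :=
    integrable_linG _ (logZ_lipH.linG (fun σ => G σ + φ σ) (fac δ u))
  have i2 : Integrable (fun N => logZ (Ham (J := J) G δ u N)) (Po (frate J n ε)) :=
    integrable_linG _ (logZ_lipH.linG G (fac δ u))
  have hH : ∀ N, Ham (J := J) (fun σ => G σ + φ σ) δ u N = fun σ => Ham (J := J) G δ u N σ + φ σ := by
    intro N
    funext σ
    unfold Ham
    ring
  have hpt : ∀ N, logZ (Ham (J := J) (fun σ => G σ + φ σ) δ u N) - logZ (Ham (J := J) G δ u N) =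
      supNorm (μ.x t) + Real.log (gav1 (Ham (J := J) G δ u N)
        (fun σ => edgeψ (μ.x t) (fun l => σ (e l)))) := by
    intro N
    rw [hH, logZ_add, add_sub_cancel_left]
    exact fup_log_gav1 (Ham (J := J) G δ u N) (μ.x t) e
  rw [← integral_sub i1 i2]
  have i3 := i1.sub i2
  have i4 : Integrable (fun N => Real.log (gav1 (Ham (J := J) G δ u N)
        (fun σ => edgeψ (μ.x t) (fun l => σ (e l))))) (Po (frate J n ε)) := by
    have := i3.sub (integrable_const (supNorm (μ.x t)))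
    refine this.congr (Filter.Eventually.of_forall fun N => ?_)
    simp only [Pi.sub_apply]
    rw [hpt N]
    ring
  simp_rw [hpt]
  rw [integral_add (integrable_const _) i4]
  simp

/-- The increment of `softE logZ` along a true interaction:
`softE logZ (G + θ_a) - softE logZ G = ∫ log <e^{θ_a}>`, averaged over `a ~ tq`:
`Σ_a tq_a (...) = μ.E (supNorm θ + LE J ε δ u G (Fin p) (edgeψ θ))` (`logZ_add`,
`e^θ = e^{‖θ‖} edgeψ`). -/
theorem softE_incr (p : ℕ) (μ : FinLaw (Inter p)) (J : Finset Species) (ε : ℝ≥0) (δ : ℝ) (u : UPar)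
    {n : ℕ} (hn : 1 ≤ n) (G : Cf n → ℝ) :
    ∑ a : TIdx μ n, (tq μ n a : ℝ) *
      (softE J ε δ u logZ (fun σ => G σ + tfac a σ) - softE J ε δ u logZ G) =
      μ.E (fun θ => supNorm θ + LE J ε δ u G (Fin p) (edgeψ θ)) := by
  have hn0 : (n : ℝ) ^ p ≠ 0 := by
    have : (0 : ℝ) < n := by exact_mod_cast hn
    positivity
  rw [Fintype.sum_prod_type]
  unfold FinLaw.E
  refine Finset.sum_congr rfl fun t _ => ?_
  have h1 : ∀ e : Fin p → Fin n, (tq μ n (t, e) : ℝ) *
      (softE J ε δ u logZ (fun σ => G σ + tfac (μ := μ) (n := n) (t, e) σ) - softE J ε δ u logZ G) =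
      μ.w t / (n : ℝ) ^ p * (supNorm (μ.x t) + ∫ N, Real.log (gav1 (Ham (J := J) G δ u N)
        (fun σ => edgeψ (μ.x t) (fun l => σ (e l)))) ∂(Po (frate J n ε))) := by
    intro e
    rw [fup_incr_one]
    congr 1
  rw [Finset.sum_congr rfl fun e _ => h1 e, ← Finset.mul_sum, Finset.sum_add_distrib]
  unfold LE avgI
  rw [Finset.sum_const, Finset.card_univ, Fintype.card_fun, Fintype.card_fin, Fintype.card_fin,
    nsmul_eq_mul]
  push_cast
  field_simp

end Crest.Agent.MP.FA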