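import Crest.Agent.MP.FAsUpA
import Crest.Agent.MP.FAsUpB
import Crest.Agent.MP.FAsResp

/-!
# Module F4: upper bound for `a_n`
-/

set_option autoImplicit false

namespace Crest.Agent.MP.FA
open MeasureTheory ProbabilityTheory Filter Topology
open Crest.ProbabilityR.Diluted
open scoped NNReal

private theorem up_sum_wn {E : Type} (μ : FinLaw E) : ∑ i, μ.wn i = 1 := by
  apply NNReal.coe_injective
  rw [NNReal.coe_sum, NNReal.coe_one]
  exact μ.w_sum

private theorem up_sum_tq {p : ℕ} (μ : FinLaw (Inter p)) {n : ℕ} (hn : 1 ≤ n) :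
    ∑ a : TIdx μ n, tq μ n a = 1 := by
  have hn0 : (n : ℝ≥0) ≠ 0 := by exact_mod_cast (by omega : n ≠ 0)
  have hp : ((n : ℝ≥0) ^ p) ≠ 0 := pow_ne_zero _ hn0
  rw [Fintype.sum_prod_type]
  simp only [tq, Finset.sum_const, Finset.card_univ, Fintype.card_fun, Fintype.card_fin,
    nsmul_eq_mul, Nat.cast_pow]
  rw [← Finset.mul_sum, ← Finset.sum_div, up_sum_wn, mul_one_div, div_self hp]

/-- PROOF. For fixed fields `response` with `q = tq μ n`, `Λ = lamC`, `τ = α n - lamC`,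
`F N = softE J ε δ u logZ (tHam μ (fHam ν h) N)`, `K = cM μ`; `tHam_bump` and `softE_incr` identify the
linear term as `τ · E_N (μ.E (supNorm θ + LE ..))`, which is bounded by `cM μ` in absolute value, and
`|τ - α(p-1)| ≤ C/n`, `τ ≤ α p`, `√Λ ≥ c √n`. Then average over the fields. (`α = 0`: both sides are
equal up to the error, since the expectations over `Po 0` agree.) -/
theorem aN_le (p : ℕ) (hp : 1 ≤ p) (α : ℝ≥0) (hα : 0 < α) (μ : FinLaw (Inter p)) (ν : FinLaw ℝ) :
    ∃ C : ℝ, 0 ≤ C ∧ ∀ (J : Finset Species) (ε : ℝ≥0) (δ : ℝ) (u : UPar) (n : ℕ), 1 ≤ n →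
      aN p α μ ν J ε δ n u ≤ E0 p α μ ν n (fun G => softE J ε δ u logZ G +
        α * (p - 1 : ℝ) * μ.E (fun θ => supNorm θ + LE J ε δ u G (Fin p) (edgeψ θ))) +
        C / Real.sqrt n := by
  obtain ⟨C0, hC0, hb⟩ := lamC_bounds p hp α
  have hα' : (0 : ℝ) < α := hα
  have hp1 : (0 : ℝ) ≤ (p : ℝ) - 1 := by
    have : (1 : ℝ) ≤ p := by exact_mod_cast hp
    linarith
  have hK : 0 ≤ cM μ := cM_nonneg μ
  set K := cM μ with hKdef
  refine ⟨K * C0 + K * (α * (p - 1 : ℝ) + C0) ^ 2 * Real.sqrt (C0 / α), by positivity, ?_⟩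
  intro J ε δ u n hn
  obtain ⟨hle, hτ, hΛn⟩ := hb n hn
  have hn1 : (1 : ℝ) ≤ n := by exact_mod_cast hn
  have hn0 : (0 : ℝ) < n := by linarith
  have hC0' : 0 < C0 := by
    rcases hC0.lt_or_eq with h | h
    · exact h
    · exfalso
      rw [← h, zero_mul] at hΛn
      have : 0 < (α : ℝ) * n := by positivity
      linarith
  set Λ := lamC p α n with hΛdef
  have hΛpos' : (0 : ℝ) < Λ := by
    by_contra h
    have h0 : (Λ : ℝ) = 0 := le_antisymm (not_lt.1 h) Λ.2
    rw [h0, mul_zero] at hΛn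
    have : 0 < (α : ℝ) * n := by positivity
    linarith
  have hΛpos : 0 < Λ := hΛpos'
  obtain ⟨τ, hτe⟩ : ∃ τ : ℝ≥0, Λ + τ = α * n := ⟨α * n - Λ, add_tsub_cancel_of_le hle⟩
  have hτr : ((α * n : ℝ≥0) : ℝ) - Λ = τ := by
    rw [← hτe]; push_cast; ring
  rw [hτr] at hτ
  set Ψ2 : (Cf n → ℝ) → ℝ := fun G =>
    μ.E (fun θ => supNorm θ + LE J ε δ u G (Fin p) (edgeψ θ)) with hΨ2
  have hq := up_sum_tq μ hn
  have hqr : ∑ a : TIdx μ n, (tq μ n a : ℝ) = 1 := by
    rw [← NNReal.coe_sum, hq, NNReal.coe_one]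
  -- increments
  have hinc : ∀ (G : Cf n → ℝ) (N : TIdx μ n → ℕ) (a : TIdx μ n),
      |softE J ε δ u logZ (tHam μ G (bump N a)) - softE J ε δ u logZ (tHam μ G N)| ≤ K := by
    intro G N a
    rw [tHam_bump]
    exact softE_lipH ε δ u logZ_lipH _ _ _ (fun σ => abs_tfac_le a σ)
  have hΨeq : ∀ (G : Cf n → ℝ) (N : TIdx μ n → ℕ),
      ∑ a : TIdx μ n, (tq μ n a : ℝ) *
        (softE J ε δ u logZ (tHam μ G (bump N a)) - softE J ε δ u logZ (tHam μ G N)) =
      Ψ2 (tHam μ G N) := by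
    intro G N
    rw [hΨ2]
    simp only
    rw [← softE_incr p μ J ε δ u hn (tHam μ G N)]
    refine Finset.sum_congr rfl fun a _ => ?_
    rw [tHam_bump]
  have hΨb : ∀ (G : Cf n → ℝ) (N : TIdx μ n → ℕ), |Ψ2 (tHam μ G N)| ≤ K := by
    intro G N
    rw [← hΨeq]
    refine (Finset.abs_sum_le_sum_abs _ _).trans ?_
    calc ∑ a : TIdx μ n, |(tq μ n a : ℝ) *
        (softE J ε δ u logZ (tHam μ G (bump N a)) - softE J ε δ u logZ (tHam μ G N))|
        ≤ ∑ a : TIdx μ n, (tq μ n a : ℝ) * K := by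
          refine Finset.sum_le_sum fun a _ => ?_
          rw [abs_mul, abs_of_nonneg (NNReal.coe_nonneg (tq μ n a))]
          exact mul_le_mul_of_nonneg_left (hinc G N a) (tq μ n a).2
      _ = K := by rw [← Finset.sum_mul, hqr, one_mul]
  -- fixed fields
  have hfix : ∀ G : Cf n → ℝ, trueE μ (α * n) (softE J ε δ u logZ) G ≤
      trueE μ Λ (fun G => softE J ε δ u logZ G + α * (p - 1 : ℝ) * Ψ2 G) G +
        (K * C0 + K * (α * (p - 1 : ℝ) + C0) ^ 2 * Real.sqrt (C0 / α)) / Real.sqrt n := by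
    intro G
    have hr := response (tq μ n) hq Λ τ hΛpos
      (F := fun N => softE J ε δ u logZ (tHam μ G N)) (K := K) (hinc G)
    have hI1 : Integrable (fun N : TIdx μ n → ℕ => softE J ε δ u logZ (tHam μ G N))
        (Po (fun a => Λ * tq μ n a)) :=
      integrable_linG _ (linG_of_lip (L := fun _ => K) (fun N a => hinc G N a))
    have hI2 : Integrable (fun N : TIdx μ n → ℕ => Ψ2 (tHam μ G N))
        (Po (fun a => Λ * tq μ n a)) :=
      integrable_linG _ (LinG.of_bounded (A := K) (hΨb G))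
    have hI3 : ∀ a : TIdx μ n, Integrable (fun N : TIdx μ n → ℕ =>
        softE J ε δ u logZ (tHam μ G (bump N a)) - softE J ε δ u logZ (tHam μ G N))
        (Po (fun a => Λ * tq μ n a)) := fun a =>
      integrable_linG _ (LinG.of_bounded (A := K) (fun N => hinc G N a))
    have hlin : ∑ a, (tq μ n a : ℝ) * ∫ N, (softE J ε δ u logZ (tHam μ G (bump N a)) -
        softE J ε δ u logZ (tHam μ G N)) ∂(Po (fun a => Λ * tq μ n a)) =
        ∫ N, Ψ2 (tHam μ G N) ∂(Po (fun a => Λ * tq μ n a)) := by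
      simp_rw [← integral_const_mul]
      rw [← integral_finsetSum _ (fun a _ => (hI3 a).const_mul _)]
      congr 1
      ext N
      exact hΨeq G N
    have hΛe : (fun a : TIdx μ n => (Λ + τ) * tq μ n a) = fun a => (α * n) * tq μ n a := by
      rw [hτe]
    rw [hlin, hΛe] at hr
    unfold trueE
    rw [integral_add hI1 (hI2.const_mul _), integral_const_mul]
    set A := ∫ N, softE J ε δ u logZ (tHam μ G N) ∂(Po (fun a => Λ * tq μ n a)) with hA
    set B := ∫ N, Ψ2 (tHam μ G N) ∂(Po (fun a => Λ * tq μ n a)) with hB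
    have hBb : |B| ≤ K := by
      rw [hB]
      have := norm_integral_le_of_norm_le_const (μ := Po (fun a => Λ * tq μ n a))
        (f := fun N => Ψ2 (tHam μ G N)) (C := K) (Eventually.of_forall (fun N => by
          rw [Real.norm_eq_abs]; exact hΨb G N))
      simpa using this
    have h1 : (τ : ℝ) * B ≤ α * (p - 1 : ℝ) * B + K * C0 / Real.sqrt n := by
      have e : (τ : ℝ) * B = α * (p - 1 : ℝ) * B + ((τ : ℝ) - α * (p - 1 : ℝ)) * B := by ring
      rw [e]
      have h2 : ((τ : ℝ) - α * (p - 1 : ℝ)) * B ≤ K * C0 / Real.sqrt n := by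
        refine (le_abs_self _).trans ?_
        rw [abs_mul]
        calc |(τ : ℝ) - α * (p - 1 : ℝ)| * |B| ≤ (C0 / n) * K :=
              mul_le_mul hτ hBb (abs_nonneg _) (by positivity)
          _ ≤ (C0 / Real.sqrt n) * K := by
              refine mul_le_mul_of_nonneg_right ?_ hK
              refine div_le_div_of_nonneg_left hC0 (Real.sqrt_pos.2 hn0) ?_
              rw [Real.sqrt_le_left hn0.le]
              nlinarith
          _ = K * C0 / Real.sqrt n := by ring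
      linarith
    have h3 : K * (τ : ℝ) ^ 2 / Real.sqrt Λ ≤
        K * (α * (p - 1 : ℝ) + C0) ^ 2 * Real.sqrt (C0 / α) / Real.sqrt n := by
      have hτle : (τ : ℝ) ≤ α * (p - 1 : ℝ) + C0 := by
        have h4 := (abs_le.1 hτ).2
        have h5 : C0 / n ≤ C0 := div_le_self hC0 hn1
        linarith
      have hs : Real.sqrt n ≤ Real.sqrt (C0 / α) * Real.sqrt Λ := by
        rw [← Real.sqrt_mul (by positivity)]
        refine Real.sqrt_le_sqrt ?_
        rw [div_mul_eq_mul_div, le_div_iff₀ hα']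
        linarith
      have hsΛ : 0 < Real.sqrt Λ := Real.sqrt_pos.2 hΛpos'
      have hsn : 0 < Real.sqrt n := Real.sqrt_pos.2 hn0
      rw [div_le_div_iff₀ hsΛ hsn]
      have h6 : (τ : ℝ) ^ 2 ≤ (α * (p - 1 : ℝ) + C0) ^ 2 := by
        refine pow_le_pow_left₀ τ.2 hτle 2
      calc K * (τ : ℝ) ^ 2 * Real.sqrt n
          ≤ K * (α * (p - 1 : ℝ) + C0) ^ 2 * (Real.sqrt (C0 / α) * Real.sqrt Λ) := by
            refine mul_le_mul (mul_le_mul_of_nonneg_left h6 hK) hs hsn.le (by positivity)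
        _ = K * (α * (p - 1 : ℝ) + C0) ^ 2 * Real.sqrt (C0 / α) * Real.sqrt Λ := by ring
    have h7 : (K * C0 + K * (α * (p - 1 : ℝ) + C0) ^ 2 * Real.sqrt (C0 / α)) / Real.sqrt n =
        K * C0 / Real.sqrt n +
          K * (α * (p - 1 : ℝ) + C0) ^ 2 * Real.sqrt (C0 / α) / Real.sqrt n := by
      rw [add_div]
    rw [h7]
    linarith
  unfold aN E0
  refine (Efld_mono ν n (fun h => hfix (fHam ν h))).trans ?_
  rw [Efld_add, Efld_const]

end Crest.Agent.MP.FA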