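import Crest.Agent.MP.FAsDefs

/-!
# Module F4: the common rate `λ_c`
-/

set_option autoImplicit false

namespace Crest.Agent.MP.FA
open MeasureTheory ProbabilityTheory Filter Topology
open Crest.ProbabilityR.Diluted
open scoped NNReal

theorem lamC_coe (q : ℕ) (α : ℝ≥0) (n : ℕ) (hn : 1 ≤ n) :
    ((lamC (q + 1) α n : ℝ≥0) : ℝ) = α * n * ((n : ℝ) / (n + 1)) ^ q := by
  have hn0 : (n : ℝ) ≠ 0 := by positivity
  unfold lamC
  push_cast
  rw [pow_succ]
  field_simp

/-- `λ_c ≤ α n` and `α n - λ_c = α n (1 - (n/(n+1))^(p-1)) ∈ [α(p-1) - C/n, α(p-1)]`. -/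
theorem lamC_bounds (p : ℕ) (hp : 1 ≤ p) (α : ℝ≥0) : ∃ C : ℝ, 0 ≤ C ∧ ∀ n : ℕ, 1 ≤ n →
    lamC p α n ≤ α * n ∧
    |((α * n : ℝ≥0) : ℝ) - lamC p α n - α * (p - 1 : ℝ)| ≤ C / n ∧
    (α : ℝ) * n ≤ C * lamC p α n := by
  obtain ⟨q, rfl⟩ : ∃ q, p = q + 1 := ⟨p - 1, by omega⟩
  have hα : (0 : ℝ) ≤ α := α.2
  refine ⟨α * (q * (q + 1)) + 2 ^ q, by positivity, fun n hn => ?_⟩
  have hn1 : (1 : ℝ) ≤ n := by exact_mod_cast hn
  have hn0 : (0 : ℝ) < n := by linarith
  set r : ℝ := (n : ℝ) / (n + 1) with hr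
  have hr0 : 0 < r := by positivity
  have hr1 : r ≤ 1 := by rw [hr, div_le_one (by positivity)]; linarith
  have hcoe := lamC_coe q α n hn
  have hrq1 : r ^ q ≤ 1 := pow_le_one₀ hr0.le hr1
  have hrq0 : 0 < r ^ q := pow_pos hr0 q
  -- Bernoulli bounds
  have hup : 1 - r ^ q ≤ q / (n + 1) := by
    have h := one_add_mul_le_pow (a := r - 1) (by linarith) q
    have e : 1 + (r - 1) = r := by ring
    rw [e] at h
    have e2 : r - 1 = -(1 / ((n : ℝ) + 1)) := by rw [hr]; field_simp; ring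
    rw [e2] at h
    have e3 : (q : ℝ) * -(1 / ((n : ℝ) + 1)) = -(q / (n + 1)) := by ring
    rw [e3] at h
    linarith
  have hlow : r ^ q ≤ n / (n + q) := by
    have h := one_add_mul_le_pow (a := 1 / (n : ℝ)) (by
      have : (0 : ℝ) ≤ 1 / n := by positivity
      linarith) q
    have e : (1 + 1 / (n : ℝ)) = r⁻¹ := by rw [hr]; field_simp
    rw [e, inv_pow] at h
    have e2 : 1 + (q : ℝ) * (1 / n) = (n + q) / n := by field_simp
    rw [e2, div_le_iff₀ hn0] at h
    rw [le_div_iff₀ (by positivity)]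
    calc r ^ q * (n + q) ≤ r ^ q * ((r ^ q)⁻¹ * n) := mul_le_mul_of_nonneg_left h hrq0.le
      _ = n := by field_simp
  refine ⟨?_, ?_, ?_⟩
  · rw [← NNReal.coe_le_coe, hcoe]
    push_cast
    calc (α : ℝ) * n * r ^ q ≤ α * n * 1 := mul_le_mul_of_nonneg_left hrq1 (by positivity)
      _ = α * n := mul_one _
  · rw [hcoe]
    push_cast
    have e : (α : ℝ) * n - α * n * r ^ q - α * (q + 1 - 1) = α * (n * (1 - r ^ q) - q) := by ring
    rw [e, abs_mul, abs_of_nonneg hα]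
    have h1 : n * (1 - r ^ q) ≤ q := by
      calc n * (1 - r ^ q) ≤ n * (q / (n + 1)) := mul_le_mul_of_nonneg_left hup hn0.le
        _ = q * (n / (n + 1)) := by ring
        _ ≤ q * 1 := mul_le_mul_of_nonneg_left hr1 (by positivity)
        _ = q := mul_one _
    have h2 : (q : ℝ) - q * (q + 1) / n ≤ n * (1 - r ^ q) := by
      have h3 : n * (1 - n / ((n : ℝ) + q)) ≤ n * (1 - r ^ q) :=
        mul_le_mul_of_nonneg_left (by linarith) hn0.le
      refine le_trans ?_ h3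
      have e4 : n * (1 - n / ((n : ℝ) + q)) = q - q * q / (n + q) := by
        field_simp; ring
      rw [e4]
      have h5 : (q : ℝ) * q / (n + q) ≤ q * (q + 1) / n := by
        apply div_le_div₀ (by positivity) (by nlinarith [Nat.cast_nonneg (α := ℝ) q]) hn0
        linarith [Nat.cast_nonneg (α := ℝ) q]
      linarith
    have h6 : |n * (1 - r ^ q) - q| ≤ q * (q + 1) / n := by
      rw [abs_le]
      have : 0 ≤ (q : ℝ) * (q + 1) / n := by positivity
      constructor <;> linarith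
    calc (α : ℝ) * |n * (1 - r ^ q) - q| ≤ α * (q * (q + 1) / n) :=
          mul_le_mul_of_nonneg_left h6 hα
      _ = α * (q * (q + 1)) / n := by ring
      _ ≤ _ := by
        apply div_le_div_of_nonneg_right _ hn0.le
        have : (0 : ℝ) ≤ 2 ^ q := by positivity
        linarith
  · rw [hcoe]
    have hhalf : 1 / 2 ≤ r := by
      rw [hr, div_le_div_iff₀ (by norm_num) (by positivity)]
      linarith
    have h1 : (1 / 2 : ℝ) ^ q ≤ r ^ q := pow_le_pow_left₀ (by norm_num) hhalf q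
    have h2 : 1 ≤ 2 ^ q * r ^ q := by
      calc (1 : ℝ) = 2 ^ q * (1 / 2) ^ q := by rw [← mul_pow]; norm_num
        _ ≤ 2 ^ q * r ^ q := mul_le_mul_of_nonneg_left h1 (by positivity)
    have h3 : 0 ≤ (α : ℝ) * n := by positivity
    have h4 : 0 ≤ (α : ℝ) * (q * (q + 1)) * (α * n * r ^ q) := by positivity
    calc (α : ℝ) * n = (α * n) * 1 := (mul_one _).symm
      _ ≤ (α * n) * (2 ^ q * r ^ q) := mul_le_mul_of_nonneg_left h2 h3
      _ ≤ (α * (q * (q + 1)) + 2 ^ q) * (α * n * r ^ q) := by nlinarith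

end Crest.Agent.MP.FA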