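import Crest.Agent.MP.FGibbs

/-!
# Module F: exact properties of the array of a finite system
-/

set_option autoImplicit false

namespace Crest.Agent.MP

open MeasureTheory ProbabilityTheory Filter Topology
open scoped NNReal


variable {J : Finset Species} {n : ℕ}

private lemma sum_ind {r : ℕ} {C : Type} [Fintype C] [DecidableEq C] (a : Fin r → C)
    (D : ∀ c : Fin r → C, Decidable (∀ j, a j = c j)) (θ : (Fin r → C) → ℝ) :
    ∑ c : Fin r → C, (if ∀ j, a j = c j then (1:ℝ) else 0) * θ c = θ a := by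
  have h : ∀ c : Fin r → C, (if ∀ j, a j = c j then (1:ℝ) else 0) * θ c
      = if a = c then θ c else 0 := by
    intro c
    by_cases hc : a = c
    · subst hc
      simp
    · have hc' : ¬ ∀ j, a j = c j := fun h => hc (funext h)
      rw [if_neg hc, if_neg hc', zero_mul]
  rw [Finset.sum_congr rfl fun c _ => h c]
  simp

private lemma sum_ind' {r : ℕ} {C : Type} [Fintype C] [DecidableEq C] (a : C)
    (D : ∀ c : Fin r → C, Decidable (∀ j, c j = a)) (θ : (Fin r → C) → ℝ) :
    ∑ c : Fin r → C, (if ∀ j, c j = a then (1:ℝ) else 0) * θ c = θ (fun _ => a) := by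
  have h : ∀ c : Fin r → C, (if ∀ j, c j = a then (1:ℝ) else 0) * θ c
      = if (fun _ => a) = c then θ c else 0 := by
    intro c
    by_cases hc : (fun _ => a) = c
    · subst hc
      simp
    · have hc' : ¬ ∀ j, c j = a := fun h => hc (funext fun j => (h j).symm)
      rw [if_neg hc, if_neg hc', zero_mul]
  rw [Finset.sum_congr rfl fun c _ => h c]
  simp

/-- integration of a function against the empirical law, when there is a factor -/
lemma emp_theta_pos (N : FIdx J n → ℕ) (σ : ℕ → Cf n) (s : Species) {r : ℕ} (ls : Fin r → ℕ)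
    (h : s ∈ J ∧ 0 < tot s N) (θ : (Fin r → s.Cfg) → ℝ) :
    ∑ c : Fin r → s.Cfg, emp N σ s ls c * θ c =
      (∑ e : Fin s.k → Fin n, (N ⟨⟨s, h.1⟩, e⟩ : ℝ) * θ (fun j i => σ (ls j) (e i))) /
        (tot s N : ℝ) := by
  classical
  have h1 : ∀ c : Fin r → s.Cfg, emp N σ s ls c * θ c =
      (∑ e : Fin s.k → Fin n, (N ⟨⟨s, h.1⟩, e⟩ : ℝ) *
        ((if ∀ j, (fun i => σ (ls j) (e i)) = c j then 1 else 0) * θ c)) / (tot s N : ℝ) := by
    intro c
    unfold emp
    rw [dif_pos h, div_mul_eq_mul_div, Finset.sum_mul]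
    congr 1
    exact Finset.sum_congr rfl fun e _ => mul_assoc _ _ _
  rw [Finset.sum_congr rfl fun c _ => h1 c, ← Finset.sum_div, Finset.sum_comm]
  congr 1
  refine Finset.sum_congr rfl fun e _ => ?_
  rw [← Finset.mul_sum]
  congr 1
  exact sum_ind (fun j i => σ (ls j) (e i)) _ θ

/-- integration of a function against the empirical law, when there is no factor -/
lemma emp_theta_neg (N : FIdx J n → ℕ) (σ : ℕ → Cf n) (s : Species) {r : ℕ} (ls : Fin r → ℕ)
    (h : ¬ (s ∈ J ∧ 0 < tot s N)) (θ : (Fin r → s.Cfg) → ℝ) :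
    ∑ c : Fin r → s.Cfg, emp N σ s ls c * θ c = θ (fun _ _ => true) := by
  classical
  have h1 : ∀ c : Fin r → s.Cfg, emp N σ s ls c * θ c =
      (if ∀ j, c j = fun _ => true then 1 else 0) * θ c := by
    intro c
    unfold emp
    rw [dif_neg h]
  rw [Finset.sum_congr rfl fun c _ => h1 c]
  exact sum_ind' (fun _ => true) _ θ

lemma tot_eq (s : Species) (hs : s ∈ J) (N : FIdx J n → ℕ) :
    tot s N = ∑ e : Fin s.k → Fin n, N ⟨⟨s, hs⟩, e⟩ := by
  classical
  unfold tot
  rw [dif_pos hs]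

/-- `(emp)` is a probability vector. -/
theorem emp_sum (N : FIdx J n → ℕ) (σ : ℕ → Cf n) (s : Species) {r : ℕ} (ls : Fin r → ℕ) :
    ∑ c : Fin r → s.Cfg, emp N σ s ls c = 1 := by
  classical
  have h1 : ∑ c : Fin r → s.Cfg, emp N σ s ls c = ∑ c : Fin r → s.Cfg, emp N σ s ls c * 1 :=
    Finset.sum_congr rfl fun c _ => (mul_one _).symm
  rw [h1]
  by_cases h : s ∈ J ∧ 0 < tot s N
  · rw [emp_theta_pos N σ s ls h (fun _ => 1)]
    have hpos : (0 : ℝ) < tot s N := by exact_mod_cast h.2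
    have ht : (tot s N : ℝ) = ∑ e : Fin s.k → Fin n, (N ⟨⟨s, h.1⟩, e⟩ : ℝ) * 1 := by
      have h2 := congrArg (fun k : ℕ => (k : ℝ)) (tot_eq s h.1 N)
      simpa using h2
    rw [← ht]
    exact div_self hpos.ne'
  · exact emp_theta_neg N σ s ls h (fun _ => 1)

/-- relabelling / restriction is exact for the empirical laws (cf. `LimitModel.map`). -/
theorem emp_map (N : FIdx J n → ℕ) (σ : ℕ → Cf n) (s : Species) {r m : ℕ} (ls : Fin m → ℕ) (g : Fin r → Fin m)
    (θ : (Fin r → s.Cfg) → ℝ) :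
    Dθ s (ls ∘ g) θ (arr N σ) = Dθ s ls (fun c => θ (c ∘ g)) (arr N σ) := by
  classical
  show ∑ c : Fin r → s.Cfg, emp N σ s (ls ∘ g) c * θ c
    = ∑ c : Fin m → s.Cfg, emp N σ s ls c * θ (c ∘ g)
  by_cases h : s ∈ J ∧ 0 < tot s N
  · rw [emp_theta_pos N σ s (ls ∘ g) h θ, emp_theta_pos N σ s ls h (fun c => θ (c ∘ g))]
    rfl
  · rw [emp_theta_neg N σ s (ls ∘ g) h θ, emp_theta_neg N σ s ls h (fun c => θ (c ∘ g))]
    rfl

/-- Relabelling the replicas of the array = relabelling the configurations. -/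
theorem swapRep_arr (N : FIdx J n → ℕ) (σ : ℕ → Cf n) (a b : ℕ) :
    swapRep a b (arr N σ) = arr N (fun l => σ (Equiv.swap a b l)) := by
  funext i
  exact Subtype.ext rfl

/-- The total of species `s` after adding a factor of species `s`. -/
theorem tot_bump (s : Species) (hs : s ∈ J) (N : FIdx J n → ℕ) (e : Fin s.k → Fin n) :
    tot s (bump N ⟨⟨s, hs⟩, e⟩) = tot s N + 1 := by
  classical
  rw [tot_eq s hs, tot_eq s hs]
  have h1 : ∀ e' : Fin s.k → Fin n,
      bump N ⟨⟨s, hs⟩, e⟩ ⟨⟨s, hs⟩, e'⟩ = N ⟨⟨s, hs⟩, e'⟩ + (if e' = e then 1 else 0) := by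
    intro e'
    unfold bump
    congr 1
    by_cases he : e' = e
    · subst he
      simp
    · rw [if_neg he, if_neg]
      intro h
      exact he (by simpa using h)
  rw [Finset.sum_congr rfl fun e' _ => h1 e', Finset.sum_add_distrib]
  simp

theorem tot_bump_ne (s s' : Species) (hs : s ∈ J) (h : s' ≠ s) (N : FIdx J n → ℕ) (e : Fin s.k → Fin n) :
    tot s' (bump N ⟨⟨s, hs⟩, e⟩) = tot s' N := by
  classical
  by_cases hs' : s' ∈ J
  · rw [tot_eq s' hs', tot_eq s' hs']
    refine Finset.sum_congr rfl fun e' _ => ?_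
    unfold bump
    rw [if_neg, add_zero]
    intro heq
    apply h
    have h2 := congrArg (fun a : FIdx J n => a.1.1) heq
    exact h2
  · unfold tot
    rw [dif_neg hs', dif_neg hs']

/-- The Hamiltonian after adding a factor. -/
theorem Ham_bump (G0 : Cf n → ℝ) (δ : ℝ) (u : UPar) (N : FIdx J n → ℕ) (a : FIdx J n) (σ : Cf n) :
    Ham G0 δ u (bump N a) σ = Ham G0 δ u N σ + fac δ u a σ := by
  classical
  unfold Ham
  have h1 : ∀ b : FIdx J n, ((bump N a b : ℕ) : ℝ) * fac δ u b σ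
      = (N b : ℝ) * fac δ u b σ + (if b = a then fac δ u b σ else 0) := by
    intro b
    unfold bump
    by_cases hb : b = a
    · rw [if_pos hb, if_pos hb]
      push_cast
      ring
    · rw [if_neg hb, if_neg hb]
      simp
  rw [Finset.sum_congr rfl fun b _ => h1 b, Finset.sum_add_distrib]
  simp only [Finset.sum_ite_eq', Finset.mem_univ, if_true]
  ring

end Crest.Agent.MP
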