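import Crest.Agent.MP.FBump

/-!
# Module F: how the array changes when a factor is added; Lipschitz cylinder functions
-/

set_option autoImplicit false

namespace Crest.Agent.MP

open MeasureTheory ProbabilityTheory Filter Topology
open scoped NNReal


variable {J : Finset Species} {n : ℕ}

/-- New entry after adding a factor of the same species. -/
theorem emp_bump_eq (s : Species) (hs : s ∈ J) (N : FIdx J n → ℕ) (e : Fin s.k → Fin n)
    (σ : ℕ → Cf n) {r : ℕ} (ls : Fin r → ℕ) (c : Fin r → s.Cfg) :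
    emp (bump N ⟨⟨s, hs⟩, e⟩) σ s ls c =
      ((tot s N : ℝ) * emp N σ s ls c +
        (if ∀ j, (fun i => σ (ls j) (e i)) = c j then 1 else 0)) / ((tot s N : ℝ) + 1) := by
  classical
  have hT : tot s (bump N ⟨⟨s, hs⟩, e⟩) = tot s N + 1 := tot_bump s hs N e
  have hpos : 0 < tot s (bump N ⟨⟨s, hs⟩, e⟩) := by omega
  have h1 : emp (bump N ⟨⟨s, hs⟩, e⟩) σ s ls c =
      (∑ e' : Fin s.k → Fin n, ((bump N ⟨⟨s, hs⟩, e⟩ ⟨⟨s, hs⟩, e'⟩ : ℕ) : ℝ) *
      (if ∀ j, (fun i => σ (ls j) (e' i)) = c j then 1 else 0)) /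
        (tot s (bump N ⟨⟨s, hs⟩, e⟩) : ℝ) := by
    unfold emp
    rw [dif_pos ⟨hs, hpos⟩]
  have h2 : (tot s N : ℝ) * emp N σ s ls c =
      ∑ e' : Fin s.k → Fin n, (N ⟨⟨s, hs⟩, e'⟩ : ℝ) *
      (if ∀ j, (fun i => σ (ls j) (e' i)) = c j then 1 else 0) := by
    by_cases h0 : 0 < tot s N
    · unfold emp
      rw [dif_pos ⟨hs, h0⟩]
      have hne : (tot s N : ℝ) ≠ 0 := by exact_mod_cast h0.ne'
      rw [mul_div_cancel₀ _ hne]
    · have h00 : tot s N = 0 := by omega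
      have h3 : tot s N = ∑ e : Fin s.k → Fin n, N ⟨⟨s, hs⟩, e⟩ := dif_pos hs
      rw [h00] at h3
      have h4 : ∀ e' : Fin s.k → Fin n, N ⟨⟨s, hs⟩, e'⟩ = 0 := fun e' =>
        Finset.sum_eq_zero_iff.1 h3.symm e' (Finset.mem_univ _)
      rw [h00]
      simp [h4]
  rw [h1, h2, hT]
  push_cast
  congr 1
  have h3 : ∀ e' : Fin s.k → Fin n, ((bump N ⟨⟨s, hs⟩, e⟩ ⟨⟨s, hs⟩, e'⟩ : ℕ) : ℝ) =
      (N ⟨⟨s, hs⟩, e'⟩ : ℝ) + (if e' = e then 1 else 0) := by
    intro e'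
    unfold bump
    by_cases h : e' = e
    · subst h
      simp
    · have h' : (⟨⟨s, hs⟩, e'⟩ : FIdx J n) ≠ ⟨⟨s, hs⟩, e⟩ := by
        intro hh
        apply h
        have := (Sigma.mk.inj hh).2
        exact eq_of_heq this
      simp [h, h']
  simp only [h3, add_mul]
  rw [Finset.sum_add_distrib]
  congr 1
  rw [Finset.sum_eq_single e]
  · simp
  · intro b _ hb
    simp [hb]
  · intro h
    exact absurd (Finset.mem_univ _) h

/-- Entries of the other species do not change. -/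
theorem emp_bump_ne (s : Species) (hs : s ∈ J) (N : FIdx J n → ℕ) (e : Fin s.k → Fin n)
    (σ : ℕ → Cf n) (s' : Species) (hne : s' ≠ s) {r : ℕ} (ls : Fin r → ℕ) (c : Fin r → s'.Cfg) :
    emp (bump N ⟨⟨s, hs⟩, e⟩) σ s' ls c = emp N σ s' ls c := by
  classical
  have hT : tot s' (bump N ⟨⟨s, hs⟩, e⟩) = tot s' N := tot_bump_ne s s' hs hne N e
  have hb : ∀ (h : s' ∈ J) (e' : Fin s'.k → Fin n),
      bump N ⟨⟨s, hs⟩, e⟩ ⟨⟨s', h⟩, e'⟩ = N ⟨⟨s', h⟩, e'⟩ := by
    intro h e'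
    unfold bump
    have h' : (⟨⟨s', h⟩, e'⟩ : FIdx J n) ≠ ⟨⟨s, hs⟩, e⟩ := by
      intro hh
      apply hne
      have := (Sigma.mk.inj hh).1
      exact congrArg Subtype.val this
    simp [h']
  unfold emp
  by_cases h : s' ∈ J ∧ 0 < tot s' N
  · rw [dif_pos (show s' ∈ J ∧ 0 < tot s' (bump N ⟨⟨s, hs⟩, e⟩) from ⟨h.1, by rw [hT]; exact h.2⟩),
      dif_pos h]
    simp only [hb, hT]
  · rw [dif_neg (show ¬ (s' ∈ J ∧ 0 < tot s' (bump N ⟨⟨s, hs⟩, e⟩)) from by rw [hT]; exact h),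
      dif_neg h]

theorem chi_sum {s : Species} {r : ℕ} (ls : Fin r → ℕ) (e : Fin s.k → Fin n) (σ : ℕ → Cf n) :
    ∑ c : Fin r → s.Cfg, (if ∀ j, (fun i => σ (ls j) (e i)) = c j then (1 : ℝ) else 0) = 1 := by
  classical
  rw [Finset.sum_eq_single (fun j i => σ (ls j) (e i))]
  · simp
  · intro c _ hc
    rw [if_neg]
    intro h
    exact hc (funext fun j => (h j).symm)
  · intro h
    exact absurd (Finset.mem_univ _) h

/-- Adding one factor of species `s` moves every entry by at most `1/(T_s+1)` and the whole law (any species `s'`) by at most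
`2/(T_s+1)` in total variation (`ℓ¹`).
PROOF. If `s' ≠ s` (or the numbers are unchanged) the difference is `0`. If `s' = s`: with `T = tot s N`, `A_c = Σ_e N(e) 1(..=c)`, the
new entry is `(A_c + 1(c = c_e))/(T+1)`; for `T ≥ 1` the difference with `A_c/T` is `(1(c=c_e) - A_c/T)/(T+1)`; for `T = 0` use
`emp_mem`/`emp_sum`. -/
theorem emp_bump (s : Species) (hs : s ∈ J) (N : FIdx J n → ℕ) (e : Fin s.k → Fin n) (σ : ℕ → Cf n)
    (s' : Species) {r : ℕ} (ls : Fin r → ℕ) (c : Fin r → s'.Cfg) :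
    |emp (bump N ⟨⟨s, hs⟩, e⟩) σ s' ls c - emp N σ s' ls c| ≤ 1 / ((tot s N : ℝ) + 1) := by
  classical
  have hT0 : (0 : ℝ) < (tot s N : ℝ) + 1 := by positivity
  by_cases hne : s' = s
  · subst hne
    rw [emp_bump_eq]
    have hm := emp_mem N σ s' ls c
    have e1 : ((tot s' N : ℝ) * emp N σ s' ls c +
        (if ∀ j, (fun i => σ (ls j) (e i)) = c j then 1 else 0)) / ((tot s' N : ℝ) + 1) -
        emp N σ s' ls c = ((if ∀ j, (fun i => σ (ls j) (e i)) = c j then 1 else 0) -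
          emp N σ s' ls c) / ((tot s' N : ℝ) + 1) := by
      field_simp
      ring
    rw [e1, abs_div, abs_of_pos hT0]
    refine div_le_div_of_nonneg_right ?_ hT0.le
    rw [abs_le]
    split_ifs
    · constructor <;> linarith [hm.1, hm.2]
    · constructor <;> linarith [hm.1, hm.2]
  · rw [emp_bump_ne s hs N e σ s' hne, sub_self, abs_zero]
    positivity

theorem emp_bump_tv (s : Species) (hs : s ∈ J) (N : FIdx J n → ℕ) (e : Fin s.k → Fin n) (σ : ℕ → Cf n)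
    (s' : Species) {r : ℕ} (ls : Fin r → ℕ) :
    ∑ c : Fin r → s'.Cfg, |emp (bump N ⟨⟨s, hs⟩, e⟩) σ s' ls c - emp N σ s' ls c| ≤ 2 / ((tot s N : ℝ) + 1) := by
  classical
  have hT0 : (0 : ℝ) < (tot s N : ℝ) + 1 := by positivity
  by_cases hne : s' = s
  · subst hne
    have hbd : ∀ c : Fin r → s'.Cfg, |emp (bump N ⟨⟨s', hs⟩, e⟩) σ s' ls c - emp N σ s' ls c| ≤
        ((if ∀ j, (fun i => σ (ls j) (e i)) = c j then 1 else 0) +
          emp N σ s' ls c) / ((tot s' N : ℝ) + 1) := by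
      intro c
      rw [emp_bump_eq]
      have hm := emp_mem N σ s' ls c
      have e1 : ((tot s' N : ℝ) * emp N σ s' ls c +
          (if ∀ j, (fun i => σ (ls j) (e i)) = c j then 1 else 0)) / ((tot s' N : ℝ) + 1) -
          emp N σ s' ls c = ((if ∀ j, (fun i => σ (ls j) (e i)) = c j then 1 else 0) -
            emp N σ s' ls c) / ((tot s' N : ℝ) + 1) := by
        field_simp
        ring
      rw [e1, abs_div, abs_of_pos hT0]
      refine div_le_div_of_nonneg_right ?_ hT0.le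
      rw [abs_le]
      split_ifs
      · constructor <;> linarith [hm.1, hm.2]
      · constructor <;> linarith [hm.1, hm.2]
    refine (Finset.sum_le_sum fun c _ => hbd c).trans (le_of_eq ?_)
    rw [← Finset.sum_div, Finset.sum_add_distrib, chi_sum, emp_sum]
    norm_num
  · simp only [emp_bump_ne s hs N e σ s' hne, sub_self, abs_zero, Finset.sum_const_zero]
    positivity

/-- Lipschitz cylinder functions of the replicas `< m`. -/
def LipCyl (m : ℕ) (F : Finset OIdx) (K : ℝ) (Φ : Obs → ℝ) : Prop :=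
  (∀ i ∈ F, ∀ j, i.2.2.1 j < m) ∧ 0 ≤ K ∧ ∀ x y : Obs, |Φ x - Φ y| ≤ K * ∑ i ∈ F, |(x i : ℝ) - (y i : ℝ)|

theorem lipCyl_bump {m : ℕ} {F : Finset OIdx} {K : ℝ} {Φ : Obs → ℝ} (hΦ : LipCyl m F K Φ)
    (s : Species) (hs : s ∈ J) (N : FIdx J n → ℕ) (e : Fin s.k → Fin n) (σ : ℕ → Cf n) :
    |Φ (arr (bump N ⟨⟨s, hs⟩, e⟩) σ) - Φ (arr N σ)| ≤ (K * F.card) / ((tot s N : ℝ) + 1) := by
  refine (hΦ.2.2 _ _).trans ?_
  rw [mul_div_assoc]
  refine mul_le_mul_of_nonneg_left ?_ hΦ.2.1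
  have h : ∀ i ∈ F, |((arr (bump N ⟨⟨s, hs⟩, e⟩) σ i : unitInterval) : ℝ) -
      ((arr N σ i : unitInterval) : ℝ)| ≤ 1 / ((tot s N : ℝ) + 1) := by
    intro i _
    exact emp_bump s hs N e σ i.1 i.2.2.1 i.2.2.2
  refine (Finset.sum_le_sum h).trans (le_of_eq ?_)
  rw [Finset.sum_const, nsmul_eq_mul]
  ring

/-- A Lipschitz cylinder function of the array depends only on the replicas `< m`. -/
theorem lipCyl_congr {m : ℕ} {F : Finset OIdx} {K : ℝ} {Φ : Obs → ℝ} (hΦ : LipCyl m F K Φ)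
    (N : FIdx J n → ℕ) (σ σ' : ℕ → Cf n) (h : ∀ l < m, σ l = σ' l) : Φ (arr N σ) = Φ (arr N σ') := by
  classical
  have h1 := hΦ.2.2 (arr N σ) (arr N σ')
  have h2 : ∑ i ∈ F, |((arr N σ i : unitInterval) : ℝ) - ((arr N σ' i : unitInterval) : ℝ)| = 0 := by
    refine Finset.sum_eq_zero fun i hi => ?_
    have e : emp N σ i.1 i.2.2.1 i.2.2.2 = emp N σ' i.1 i.2.2.1 i.2.2.2 := by
      unfold emp
      have h3 : ∀ j, σ (i.2.2.1 j) = σ' (i.2.2.1 j) := fun j => h _ (hΦ.1 i hi j)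
      simp only [h3]
    show |emp N σ i.1 i.2.2.1 i.2.2.2 - emp N σ' i.1 i.2.2.1 i.2.2.2| = 0
    rw [e, sub_self, abs_zero]
  rw [h2, mul_zero] at h1
  have h3 := abs_nonneg (Φ (arr N σ) - Φ (arr N σ'))
  have h4 : |Φ (arr N σ) - Φ (arr N σ')| = 0 := le_antisymm h1 h3
  exact sub_eq_zero.1 (abs_eq_zero.1 h4)

theorem lipCyl_continuous {m : ℕ} {F : Finset OIdx} {K : ℝ} {Φ : Obs → ℝ} (hΦ : LipCyl m F K Φ) :
    Continuous Φ := by
  rw [continuous_iff_continuousAt]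
  intro x
  unfold ContinuousAt
  rw [tendsto_iff_dist_tendsto_zero]
  have hlim : Tendsto (fun y : Obs => K * ∑ i ∈ F, |(y i : ℝ) - (x i : ℝ)|) (𝓝 x)
      (𝓝 (K * ∑ i ∈ F, |(x i : ℝ) - (x i : ℝ)|)) := by
    have hc : Continuous (fun y : Obs => K * ∑ i ∈ F, |(y i : ℝ) - (x i : ℝ)|) := by
      refine continuous_const.mul (continuous_finsetSum _ fun i _ => ?_)
      exact (((continuous_subtype_val.comp (continuous_apply i)).sub continuous_const)).abs
    exact hc.tendsto x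
  have h0 : K * ∑ i ∈ F, |(x i : ℝ) - (x i : ℝ)| = 0 := by simp
  rw [h0] at hlim
  refine squeeze_zero (fun y => dist_nonneg) (fun y => ?_) hlim
  rw [Real.dist_eq]
  exact hΦ.2.2 y x

end Crest.Agent.MP
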