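import Mathlib

/-!
# Module F, concentration: convexity lemmas (deterministic, one real variable)
-/

set_option autoImplicit false

namespace Crest.Agent.MP

open MeasureTheory

section LogSumExp

variable {X : Type} [Fintype X] [Nonempty X]

/-- `f(v) = log Σ_x exp(a_x + v b_x)`. -/
noncomputable def lse (a b : X → ℝ) (v : ℝ) : ℝ := Real.log (∑ x, Real.exp (a x + v * b x))

/-- Gibbs average of `g` at parameter `v`. -/
noncomputable def lav (a b : X → ℝ) (v : ℝ) (g : X → ℝ) : ℝ :=
  (∑ x, Real.exp (a x + v * b x) * g x) / ∑ x, Real.exp (a x + v * b x)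

theorem lse_Z_pos (a b : X → ℝ) (v : ℝ) : 0 < ∑ x, Real.exp (a x + v * b x) :=
  Finset.sum_pos (fun x _ => Real.exp_pos _) Finset.univ_nonempty

omit [Nonempty X] in
theorem lse_N_hasDerivAt (a b g : X → ℝ) (v : ℝ) :
    HasDerivAt (fun v => ∑ x, Real.exp (a x + v * b x) * g x)
      (∑ x, Real.exp (a x + v * b x) * (b x * g x)) v := by
  have h : ∀ x ∈ (Finset.univ : Finset X), HasDerivAt (fun v => Real.exp (a x + v * b x) * g x)
      (Real.exp (a x + v * b x) * (b x * g x)) v := by
    intro x _
    have h1 : HasDerivAt (fun v => a x + v * b x) (b x) v := by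
      simpa using ((hasDerivAt_id v).mul_const (b x)).const_add (a x)
    have h2 := h1.exp.mul_const (g x)
    exact h2.congr_deriv (by ring)
  exact HasDerivAt.fun_sum h

omit [Nonempty X] in
theorem lse_Z_hasDerivAt (a b : X → ℝ) (v : ℝ) :
    HasDerivAt (fun v => ∑ x, Real.exp (a x + v * b x))
      (∑ x, Real.exp (a x + v * b x) * b x) v := by
  have h := lse_N_hasDerivAt a b (fun _ => 1) v
  simpa using h

theorem lse_hasDerivAt (a b : X → ℝ) (v : ℝ) : HasDerivAt (lse a b) (lav a b v b) v := by
  have h := (lse_Z_hasDerivAt a b v).log (lse_Z_pos a b v).ne'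
  exact h

theorem lav_hasDerivAt (a b : X → ℝ) (v : ℝ) :
    HasDerivAt (fun v => lav a b v b) (lav a b v (fun x => (b x - lav a b v b) ^ 2)) v := by
  have hZ := lse_Z_pos a b v
  have h := (lse_N_hasDerivAt a b b v).div (lse_Z_hasDerivAt a b v) hZ.ne'
  have e : lav a b v (fun x => (b x - lav a b v b) ^ 2) =
      ((∑ x, Real.exp (a x + v * b x) * (b x * b x)) * (∑ x, Real.exp (a x + v * b x)) -
        (∑ x, Real.exp (a x + v * b x) * b x) * (∑ x, Real.exp (a x + v * b x) * b x)) /
        (∑ x, Real.exp (a x + v * b x)) ^ 2 := by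
    have e1 : ∀ m : ℝ, (∑ x, Real.exp (a x + v * b x) * (b x - m) ^ 2) =
        (∑ x, Real.exp (a x + v * b x) * (b x * b x)) -
          2 * m * (∑ x, Real.exp (a x + v * b x) * b x) +
          m ^ 2 * ∑ x, Real.exp (a x + v * b x) := by
      intro m
      rw [Finset.mul_sum, Finset.mul_sum, ← Finset.sum_sub_distrib, ← Finset.sum_add_distrib]
      refine Finset.sum_congr rfl (fun x _ => ?_)
      ring
    unfold lav
    rw [e1]
    generalize (∑ x, Real.exp (a x + v * b x) * (b x * b x)) = A
    generalize (∑ x, Real.exp (a x + v * b x) * b x) = B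
    revert hZ
    generalize (∑ x, Real.exp (a x + v * b x)) = Z
    intro hZ
    have hZ' : Z ≠ 0 := hZ.ne'
    field_simp
    ring
  rw [e]
  exact h

theorem lav_continuous (a b g : X → ℝ) : Continuous (fun v => lav a b v g) := by
  unfold lav
  refine Continuous.div ?_ ?_ (fun v => (lse_Z_pos a b v).ne')
  · fun_prop
  · fun_prop

theorem lav_var_nonneg (a b : X → ℝ) (v m : ℝ) : 0 ≤ lav a b v (fun x => (b x - m) ^ 2) := by
  unfold lav
  refine div_nonneg (Finset.sum_nonneg (fun x _ => ?_)) (lse_Z_pos a b v).le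
  exact mul_nonneg (Real.exp_pos _).le (sq_nonneg _)

/-- the derivative is monotone (second derivative `≥ 0`) -/
theorem lav_monotone (a b : X → ℝ) : Monotone (fun v => lav a b v b) := by
  refine monotone_of_deriv_nonneg (fun v => (lav_hasDerivAt a b v).differentiableAt) ?_
  intro v
  rw [(lav_hasDerivAt a b v).deriv]
  exact lav_var_nonneg a b v _

/-- convexity of `lse`: difference quotients versus derivatives -/
theorem lse_slope (a b : X → ℝ) (v y : ℝ) (hy : 0 < y) :
    lav a b v b * y ≤ lse a b (v + y) - lse a b v ∧ lse a b (v + y) - lse a b v ≤ lav a b (v + y) b * y := by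
  obtain ⟨c, hc, hc'⟩ := exists_hasDerivAt_eq_slope (lse a b) (fun v => lav a b v b)
    (show v < v + y by linarith)
    (fun w _ => (lse_hasDerivAt a b w).continuousAt.continuousWithinAt)
    (fun w _ => lse_hasDerivAt a b w)
  have hy' : v + y - v = y := by ring
  rw [hy', eq_div_iff hy.ne'] at hc'
  rw [← hc']
  constructor
  · exact mul_le_mul_of_nonneg_right (lav_monotone a b hc.1.le) hy.le
  · exact mul_le_mul_of_nonneg_right (lav_monotone a b hc.2.le) hy.le

/-- `∫_0^1 Var_v(b) dv = f'(1) - f'(0)`. -/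
theorem integral_var (a b : X → ℝ) :
    ∫ v in (0:ℝ)..1, lav a b v (fun x => (b x - lav a b v b) ^ 2) = lav a b 1 b - lav a b 0 b := by
  refine intervalIntegral.integral_eq_sub_of_hasDerivAt
    (f := fun v => lav a b v b) (fun v _ => lav_hasDerivAt a b v) ?_
  refine Continuous.intervalIntegrable ?_ _ _
  have h1 : Continuous (fun v => lav a b v b) := lav_continuous a b b
  have e : (fun v => lav a b v (fun x => (b x - lav a b v b) ^ 2)) =
      fun v => lav a b v (fun x => b x * b x) - (lav a b v b) ^ 2 := by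
    funext v
    have hZ := lse_Z_pos a b v
    have e1 : ∀ m : ℝ, (∑ x, Real.exp (a x + v * b x) * (b x - m) ^ 2) =
        (∑ x, Real.exp (a x + v * b x) * (b x * b x)) -
          2 * m * (∑ x, Real.exp (a x + v * b x) * b x) +
          m ^ 2 * ∑ x, Real.exp (a x + v * b x) := by
      intro m
      rw [Finset.mul_sum, Finset.mul_sum, ← Finset.sum_sub_distrib, ← Finset.sum_add_distrib]
      refine Finset.sum_congr rfl (fun x _ => ?_)
      ring
    unfold lav
    rw [e1]
    generalize (∑ x, Real.exp (a x + v * b x) * (b x * b x)) = A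
    generalize (∑ x, Real.exp (a x + v * b x) * b x) = B
    revert hZ
    generalize (∑ x, Real.exp (a x + v * b x)) = Z
    intro hZ
    have hZ' : Z ≠ 0 := hZ.ne'
    field_simp
    ring
  rw [e]
  exact (lav_continuous a b _).sub (h1.pow 2)

end LogSumExp

end Crest.Agent.MP
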