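import Crest.Agent.MP.FConcA

/-!
# Module F, concentration: random convex functions
-/

set_option autoImplicit false

namespace Crest.Agent.MP

open MeasureTheory

section LavAux

variable {X : Type} [Fintype X] [Nonempty X]

theorem lavZ_pos (a b : X → ℝ) (v : ℝ) : 0 < ∑ x, Real.exp (a x + v * b x) :=
  Finset.sum_pos (fun x _ => Real.exp_pos _) Finset.univ_nonempty

theorem lav_mono (a b : X → ℝ) (v : ℝ) {f g : X → ℝ} (h : ∀ x, f x ≤ g x) :
    lav a b v f ≤ lav a b v g := by
  unfold lav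
  refine div_le_div_of_nonneg_right ?_ (lavZ_pos a b v).le
  exact Finset.sum_le_sum (fun x _ => mul_le_mul_of_nonneg_left (h x) (Real.exp_pos _).le)

theorem lav_const (a b : X → ℝ) (v c : ℝ) : lav a b v (fun _ => c) = c := by
  unfold lav
  rw [← Finset.sum_mul, mul_comm, mul_div_assoc, div_self (lavZ_pos a b v).ne', mul_one]

theorem lav_add (a b : X → ℝ) (v : ℝ) (f g : X → ℝ) :
    lav a b v (fun x => f x + g x) = lav a b v f + lav a b v g := by
  unfold lav
  rw [← add_div, ← Finset.sum_add_distrib]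
  congr 1
  exact Finset.sum_congr rfl (fun x _ => by ring)

theorem lav_smul (a b : X → ℝ) (v c : ℝ) (f : X → ℝ) :
    lav a b v (fun x => c * f x) = c * lav a b v f := by
  unfold lav
  rw [← mul_div_assoc, Finset.mul_sum]
  congr 1
  exact Finset.sum_congr rfl (fun x _ => by ring)

theorem lav_var_eq (a b : X → ℝ) (v : ℝ) :
    lav a b v (fun x => (b x - lav a b v b) ^ 2) =
      lav a b v (fun x => b x ^ 2) - (lav a b v b) ^ 2 := by
  have h : (fun x => (b x - lav a b v b) ^ 2) =
      fun x => b x ^ 2 + ((-2 * lav a b v b) * b x + (lav a b v b) ^ 2) := by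
    funext x; ring
  rw [h, lav_add, lav_add, lav_const]
  have h2 : lav a b v (fun x => (-2 * lav a b v b) * b x) = (-2 * lav a b v b) * lav a b v b :=
    lav_smul a b v _ b
  rw [h2]
  ring

theorem lav_var_nonneg2 (a b : X → ℝ) (v : ℝ) :
    0 ≤ lav a b v (fun x => (b x - lav a b v b) ^ 2) := by
  rw [← lav_const a b v 0]
  exact lav_mono a b v (fun x => by positivity)

theorem lav_var_continuous (a b : X → ℝ) :
    Continuous (fun v => lav a b v (fun x => (b x - lav a b v b) ^ 2)) := by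
  have h : (fun v => lav a b v (fun x => (b x - lav a b v b) ^ 2)) =
      fun v => lav a b v (fun x => b x ^ 2) - (lav a b v b) ^ 2 := by
    funext v
    exact lav_var_eq a b v
  rw [h]
  exact (lav_continuous a b _).sub ((lav_continuous a b b).pow 2)

/-- Pointwise bound of the Gibbs average of `|b - c|`. -/
theorem lav_abs_le (a b : X → ℝ) (v c t : ℝ) (ht : 0 < t) :
    lav a b v (fun x => |b x - c|) ≤
      (t + lav a b v (fun x => (b x - lav a b v b) ^ 2) / t) / 2 + |lav a b v b - c| := by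
  have h1 : ∀ x, |b x - c| ≤
      (1 / (2 * t)) * (b x - lav a b v b) ^ 2 + (t / 2 + |lav a b v b - c|) := by
    intro x
    have h2 : |b x - c| ≤ |b x - lav a b v b| + |lav a b v b - c| := abs_sub_le _ _ _
    have h3 : |b x - lav a b v b| ≤ (1 / (2 * t)) * (b x - lav a b v b) ^ 2 + t / 2 := by
      have h4 : 0 ≤ (|b x - lav a b v b| - t) ^ 2 := sq_nonneg _
      have h5 : |b x - lav a b v b| ^ 2 = (b x - lav a b v b) ^ 2 := sq_abs _
      have h6 : (1 / (2 * t)) * (b x - lav a b v b) ^ 2 + t / 2 - |b x - lav a b v b| =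
          (1 / (2 * t)) * (|b x - lav a b v b| - t) ^ 2 := by
        rw [← h5]
        field_simp
        ring
      have h7 : 0 ≤ (1 / (2 * t)) * (|b x - lav a b v b| - t) ^ 2 := by positivity
      linarith
    linarith
  refine (lav_mono a b v h1).trans (le_of_eq ?_)
  rw [lav_add, lav_const, lav_smul]
  field_simp
  ring

end LavAux

/-- `E|Z| ≤ √(E Z²)`. -/
theorem integral_abs_le_sqrt {Ω : Type} [MeasurableSpace Ω] (P : Measure Ω)
    [IsProbabilityMeasure P] (Z : Ω → ℝ) (h1 : Integrable Z P)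
    (h2 : Integrable (fun ω => Z ω ^ 2) P) {V : ℝ} (hV : ∫ ω, Z ω ^ 2 ∂P ≤ V) :
    ∫ ω, |Z ω| ∂P ≤ Real.sqrt V := by
  set m := ∫ ω, |Z ω| ∂P with hm
  apply Real.le_sqrt_of_sq_le
  refine le_trans ?_ hV
  have h3 : 0 ≤ ∫ ω, (|Z ω| - m) ^ 2 ∂P := integral_nonneg (fun ω => sq_nonneg _)
  have h4 : ∫ ω, (|Z ω| - m) ^ 2 ∂P = ∫ ω, Z ω ^ 2 ∂P - 2 * m * m + m ^ 2 := by
    have h5 : (fun ω => (|Z ω| - m) ^ 2) = fun ω => Z ω ^ 2 - 2 * m * |Z ω| + m ^ 2 := by
      funext ω
      rw [← sq_abs (Z ω)]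
      ring
    have h7 : Integrable (fun ω => 2 * m * |Z ω|) P := h1.abs.const_mul _
    have h6 : Integrable (fun ω => Z ω ^ 2 - 2 * m * |Z ω|) P := h2.sub h7
    rw [h5, integral_add h6 (integrable_const _),
      integral_sub h2 h7, integral_const_mul, integral_const, probReal_univ, one_smul, ← hm]
  nlinarith [h3, h4]

/-- RANDOM LOG-SUM-EXP. On a probability space let `f_ω(v) = log Σ_x exp(a_ω(x) + v b_ω(x))` with `0 ≤ b_ω(x) ≤ B_ω`,
`E B ≤ Λ'`, `Var f(v) ≤ V` for `v ∈ [-1, 2]`. Then, averaged over `v ∈ [0,1]`,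
`∫_0^1 E < |b - E<b>| > dv ≤ √Λ' + 4 √V / y + 4 y Λ'` for every `0 < y ≤ 1`.
PROOF. `|b - E<b>| ≤ |b - <b>| + |<b> - E<b>|`.
(1) `∫_0^1 E<|b - <b>|> dv ≤ (∫_0^1 E <(b-<b>)²> dv)^{1/2} = (E[f'(1) - f'(0)])^{1/2} ≤ √Λ'` (`integral_var`, Fubini, Jensen; `0 ≤ f' ≤ B`).
(2) put `g(v) = E f'(v)`, `F = E f`, `Δ(v) = E|f(v) - F(v)| ≤ √V`. From `lse_slope`, pathwise and in expectation,
`f'(v) ≤ (f(v+y) - f(v))/y ≤ (F(v+y) - F(v))/y + (|f-F|(v+y) + |f-F|(v))/y ≤ g(v+y) + ...`, similarly from below with `v - y`; so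
`E|f'(v) - g(v)| ≤ g(v+y) - g(v-y) + 4 √V / y` and `∫_0^1 (g(v+y) - g(v-y)) dv ≤ 4 y Λ'` (`g` monotone with values in `[0, Λ']`:
`∫_0^1 g(v+y) - g(v-y) = ∫_{1-y}^{1+y} g - ∫_{-y}^{y} g ≤ 2 y Λ'`).
Here `lav a b v (fun x => |b x - g v|)` is the Gibbs average of `|b - g(v)|`. Countable discrete `Ω` is enough for the application
(all functions are measurable), so `[Countable Ω] [MeasurableSingletonClass Ω]` is assumed; integrability of `f_ω(v)` and
`B` is assumed. -/
theorem random_lse {X : Type} [Fintype X] [Nonempty X] {Ω : Type} [Countable Ω] [MeasurableSpace Ω]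
    [MeasurableSingletonClass Ω] (P : Measure Ω) [IsProbabilityMeasure P]
    (a b : Ω → X → ℝ) (B : Ω → ℝ) (hb : ∀ ω x, 0 ≤ b ω x ∧ b ω x ≤ B ω) (hB : Integrable B P)
    (Λ' V : ℝ) (hΛ : ∫ ω, B ω ∂P ≤ Λ') (hV0 : 0 ≤ V)
    (hint : ∀ v ∈ Set.Icc (-1:ℝ) 2, Integrable (fun ω => lse (a ω) (b ω) v) P)
    (hint2 : ∀ v ∈ Set.Icc (-1:ℝ) 2, Integrable (fun ω => (lse (a ω) (b ω) v - ∫ ω', lse (a ω') (b ω') v ∂P) ^ 2) P)
    (hvar : ∀ v ∈ Set.Icc (-1:ℝ) 2, ∫ ω, (lse (a ω) (b ω) v - ∫ ω', lse (a ω') (b ω') v ∂P) ^ 2 ∂P ≤ V)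
    (y : ℝ) (hy : 0 < y) (hy1 : y ≤ 1) :
    ∫ v in (0:ℝ)..1, ∫ ω, lav (a ω) (b ω) v
        (fun x => |b ω x - ∫ ω', lav (a ω') (b ω') v (b ω') ∂P|) ∂P
      ≤ Real.sqrt Λ' + 4 * Real.sqrt V / y + 4 * y * Λ' := by
  set D : Ω → ℝ → ℝ := fun ω v => lav (a ω) (b ω) v (b ω) with hDdef
  set g : ℝ → ℝ := fun v => ∫ ω, D ω v ∂P with hgdef
  set L : Ω → ℝ → ℝ := fun ω v => lse (a ω) (b ω) v with hLdef
  set F : ℝ → ℝ := fun v => ∫ ω, L ω v ∂P with hFdef
  set W : Ω → ℝ → ℝ := fun ω v => lav (a ω) (b ω) v (fun x => (b ω x - D ω v) ^ 2) with hWdef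
  have hD0 : ∀ ω v, 0 ≤ D ω v := by
    intro ω v
    rw [← lav_const (a ω) (b ω) v 0]
    exact lav_mono _ _ _ (fun x => (hb ω x).1)
  have hDB : ∀ ω v, D ω v ≤ B ω := by
    intro ω v
    rw [← lav_const (a ω) (b ω) v (B ω)]
    exact lav_mono _ _ _ (fun x => (hb ω x).2)
  have hDint : ∀ v, Integrable (fun ω => D ω v) P := by
    intro v
    refine hB.mono (measurable_of_countable _).aestronglyMeasurable ?_
    refine Filter.Eventually.of_forall (fun ω => ?_)
    rw [Real.norm_eq_abs, abs_of_nonneg (hD0 ω v)]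
    exact (hDB ω v).trans (le_abs_self _)
  have hg0 : ∀ v, 0 ≤ g v := fun v => integral_nonneg (fun ω => hD0 ω v)
  have hgΛ : ∀ v, g v ≤ Λ' := fun v =>
    (integral_mono (hDint v) hB (fun ω => hDB ω v)).trans hΛ
  have hΛ0 : 0 ≤ Λ' := (hg0 0).trans (hgΛ 0)
  have hgmono : Monotone g := by
    intro u v huv
    exact integral_mono (hDint u) (hDint v) (fun ω => lav_monotone (a ω) (b ω) huv)
  -- `Δ`
  have hΔ : ∀ v ∈ Set.Icc (-1:ℝ) 2, ∫ ω, |L ω v - F v| ∂P ≤ Real.sqrt V := by
    intro v hv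
    exact integral_abs_le_sqrt P (fun ω => L ω v - F v) ((hint v hv).sub (integrable_const _))
      (hint2 v hv) (hvar v hv)
  have hΔint : ∀ v ∈ Set.Icc (-1:ℝ) 2, Integrable (fun ω => |L ω v - F v|) P := by
    intro v hv
    exact ((hint v hv).sub (integrable_const _)).abs
  -- pathwise bound of `|D - g|`
  have hpath : ∀ v ∈ Set.Icc (0:ℝ) 1, ∀ ω, |D ω v - g v| ≤ (g (v + y) - g (v - y)) +
      ((|L ω (v + y) - F (v + y)| + |L ω v - F v|) + (|L ω v - F v| + |L ω (v - y) - F (v - y)|))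
        / y := by
    intro v hv ω
    have hv1 : v + y ∈ Set.Icc (-1:ℝ) 2 := ⟨by linarith [hv.1], by linarith [hv.2]⟩
    have hv2 : v - y ∈ Set.Icc (-1:ℝ) 2 := ⟨by linarith [hv.1], by linarith [hv.2]⟩
    have hv0 : v ∈ Set.Icc (-1:ℝ) 2 := ⟨by linarith [hv.1], by linarith [hv.2]⟩
    have s1 : D ω v * y ≤ L ω (v + y) - L ω v := (lse_slope (a ω) (b ω) v y hy).1
    have s2 : L ω v - L ω (v - y) ≤ D ω v * y := by
      have := (lse_slope (a ω) (b ω) (v - y) y hy).2
      rw [sub_add_cancel] at this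
      exact this
    have e1 : F (v + y) - F v ≤ g (v + y) * y := by
      have h1 : F (v + y) - F v = ∫ ω, (L ω (v + y) - L ω v) ∂P :=
        (integral_sub (hint _ hv1) (hint _ hv0)).symm
      have h2 : g (v + y) * y = ∫ ω, D ω (v + y) * y ∂P := (integral_mul_const _ _).symm
      rw [h1, h2]
      exact integral_mono ((hint _ hv1).sub (hint _ hv0)) ((hDint _).mul_const _)
        (fun ω => (lse_slope (a ω) (b ω) v y hy).2)
    have e2 : g (v - y) * y ≤ F v - F (v - y) := by
      have h1 : F v - F (v - y) = ∫ ω, (L ω v - L ω (v - y)) ∂P :=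
        (integral_sub (hint _ hv0) (hint _ hv2)).symm
      have h2 : g (v - y) * y = ∫ ω, D ω (v - y) * y ∂P := (integral_mul_const _ _).symm
      rw [h1, h2]
      refine integral_mono ((hDint _).mul_const _) ((hint _ hv0).sub (hint _ hv2))
        (fun ω => ?_)
      have := (lse_slope (a ω) (b ω) (v - y) y hy).1
      rw [sub_add_cancel] at this
      exact this
    have m1 : g v ≤ g (v + y) := hgmono (by linarith)
    have m2 : g (v - y) ≤ g v := hgmono (by linarith)
    have a1 := abs_le.mp (le_refl |L ω (v + y) - F (v + y)|)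
    have a2 := abs_le.mp (le_refl |L ω v - F v|)
    have a3 := abs_le.mp (le_refl |L ω (v - y) - F (v - y)|)
    set T := (|L ω (v + y) - F (v + y)| + |L ω v - F v|) +
      (|L ω v - F v| + |L ω (v - y) - F (v - y)|) with hT
    have hTy : T / y * y = T := div_mul_cancel₀ _ hy.ne'
    have n1 := abs_nonneg (L ω (v + y) - F (v + y))
    have n2 := abs_nonneg (L ω v - F v)
    have n3 := abs_nonneg (L ω (v - y) - F (v - y))
    have key1 : (D ω v - g v) * y ≤ ((g (v + y) - g (v - y)) + T / y) * y := by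
      have : (g (v + y) - g (v - y)) * y = (g (v + y) - g v) * y + (g v - g (v - y)) * y := by ring
      have m2' : 0 ≤ (g v - g (v - y)) * y := mul_nonneg (by linarith) hy.le
      rw [add_mul, hTy, this]
      nlinarith [a1.1, a1.2, a2.1, a2.2, s1, e1]
    have key2 : -(D ω v - g v) * y ≤ ((g (v + y) - g (v - y)) + T / y) * y := by
      have : (g (v + y) - g (v - y)) * y = (g (v + y) - g v) * y + (g v - g (v - y)) * y := by ring
      have m1' : 0 ≤ (g (v + y) - g v) * y := mul_nonneg (by linarith) hy.le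
      rw [add_mul, hTy, this]
      nlinarith [a2.1, a2.2, a3.1, a3.2, s2, e2]
    rw [abs_le']
    exact ⟨le_of_mul_le_mul_right key1 hy, le_of_mul_le_mul_right key2 hy⟩
  -- measurability of `W` on the product
  have hW0 : ∀ ω v, 0 ≤ W ω v := fun ω v => lav_var_nonneg2 (a ω) (b ω) v
  have hWc : ∀ ω, Continuous (fun v => W ω v) := fun ω => lav_var_continuous (a ω) (b ω)
  have hWmeas : Measurable (Function.uncurry W) := by
    refine measurable_from_prod_countable_right (fun ω => ?_)
    exact (hWc ω).measurable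
  set ℓ : Measure ℝ := volume.restrict (Set.Ioc (0:ℝ) 1) with hℓ
  have hWprod : Integrable (Function.uncurry W) (P.prod ℓ) := by
    rw [integrable_prod_iff hWmeas.aestronglyMeasurable]
    constructor
    · refine Filter.Eventually.of_forall (fun ω => ?_)
      have := (hWc ω).intervalIntegrable 0 1 (μ := volume)
      rw [intervalIntegrable_iff_integrableOn_Ioc_of_le zero_le_one] at this
      exact this
    · have h1 : (fun ω => ∫ v, ‖Function.uncurry W (ω, v)‖ ∂ℓ) = fun ω => D ω 1 - D ω 0 := by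
        funext ω
        have h2 : ∀ v, ‖Function.uncurry W (ω, v)‖ = W ω v := by
          intro v
          rw [Real.norm_eq_abs]
          exact abs_of_nonneg (hW0 ω v)
        simp_rw [h2]
        rw [hℓ, ← intervalIntegral.integral_of_le zero_le_one]
        exact integral_var (a ω) (b ω)
      rw [h1]
      exact (hDint 1).sub (hDint 0)
  have hWint : ∫ v, ∫ ω, W ω v ∂P ∂ℓ ≤ Λ' := by
    have h1 : ∫ v, ∫ ω, W ω v ∂P ∂ℓ = ∫ ω, ∫ v, W ω v ∂ℓ ∂P :=
      (integral_integral_swap hWprod).symm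
    rw [h1]
    have h2 : ∀ ω, ∫ v, W ω v ∂ℓ = D ω 1 - D ω 0 := by
      intro ω
      rw [hℓ, ← intervalIntegral.integral_of_le zero_le_one]
      exact integral_var (a ω) (b ω)
    simp_rw [h2]
    rw [integral_sub (hDint 1) (hDint 0)]
    have h3 : ∫ ω, D ω 1 ∂P ≤ Λ' := hgΛ 1
    have h4 : 0 ≤ ∫ ω, D ω 0 ∂P := hg0 0
    linarith
  have hWae : ∀ᵐ v ∂ℓ, Integrable (fun ω => W ω v) P := by
    have := hWprod.swap.prod_right_ae
    exact this
  have hWv : Integrable (fun v => ∫ ω, W ω v ∂P) ℓ := hWprod.integral_prod_right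
  -- the bound for fixed `t`
  have hfix : ∀ t : ℝ, 0 < t → ∫ v in (0:ℝ)..1, ∫ ω, lav (a ω) (b ω) v
        (fun x => |b ω x - g v|) ∂P ≤ (t + Λ' / t) / 2 + 4 * Real.sqrt V / y + 2 * y * Λ' := by
    intro t ht
    have hRHS0 : 0 ≤ (t + Λ' / t) / 2 + 4 * Real.sqrt V / y + 2 * y * Λ' := by positivity
    set G : ℝ → ℝ := fun v => ∫ ω, lav (a ω) (b ω) v (fun x => |b ω x - g v|) ∂P with hG
    set H : ℝ → ℝ := fun v => (t + (∫ ω, W ω v ∂P) / t) / 2 +
      ((g (v + y) - g (v - y)) + 4 * Real.sqrt V / y) with hH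
    have gI1 : Integrable (fun v => g (v + y)) ℓ := by
      have hm : Monotone (fun v => g (v + y)) := fun u v h => hgmono (by linarith)
      have := hm.intervalIntegrable (a := 0) (b := 1) (μ := volume)
      rw [intervalIntegrable_iff_integrableOn_Ioc_of_le zero_le_one] at this
      exact this
    have gI2 : Integrable (fun v => g (v - y)) ℓ := by
      have hm : Monotone (fun v => g (v - y)) := fun u v h => hgmono (by linarith)
      have := hm.intervalIntegrable (a := 0) (b := 1) (μ := volume)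
      rw [intervalIntegrable_iff_integrableOn_Ioc_of_le zero_le_one] at this
      exact this
    have : IsProbabilityMeasure ℓ := by
      constructor
      rw [hℓ, Measure.restrict_apply MeasurableSet.univ, Set.univ_inter, Real.volume_Ioc]
      simp
    have hHint : Integrable H ℓ := by
      refine (((integrable_const t).add (hWv.div_const t)).div_const 2).add
        ((gI1.sub gI2).add (integrable_const _))
    have hGH : ∀ᵐ v ∂ℓ, G v ≤ H v := by
      have hmem : ∀ᵐ v ∂ℓ, v ∈ Set.Ioc (0:ℝ) 1 := ae_restrict_mem measurableSet_Ioc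
      filter_upwards [hWae, hmem] with v hv1 hv2
      have hv : v ∈ Set.Icc (0:ℝ) 1 := ⟨hv2.1.le, hv2.2⟩
      have hvp : v + y ∈ Set.Icc (-1:ℝ) 2 := ⟨by linarith [hv.1], by linarith [hv.2]⟩
      have hvm : v - y ∈ Set.Icc (-1:ℝ) 2 := ⟨by linarith [hv.1], by linarith [hv.2]⟩
      have hv0 : v ∈ Set.Icc (-1:ℝ) 2 := ⟨by linarith [hv.1], by linarith [hv.2]⟩
      have I1 : Integrable (fun ω => (t + W ω v / t) / 2) P :=
        ((integrable_const t).add (hv1.div_const t)).div_const 2
      have I2 : Integrable (fun ω => ((|L ω (v + y) - F (v + y)| + |L ω v - F v|) +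
          (|L ω v - F v| + |L ω (v - y) - F (v - y)|)) / y) P :=
        (((hΔint _ hvp).add (hΔint _ hv0)).add ((hΔint _ hv0).add (hΔint _ hvm))).div_const y
      have hle : G v ≤ ∫ ω, ((t + W ω v / t) / 2 + ((g (v + y) - g (v - y)) +
          ((|L ω (v + y) - F (v + y)| + |L ω v - F v|) +
          (|L ω v - F v| + |L ω (v - y) - F (v - y)|)) / y)) ∂P := by
        refine integral_mono_of_nonneg (Filter.Eventually.of_forall (fun ω => ?_))
          (I1.add ((integrable_const _).add I2)) (Filter.Eventually.of_forall (fun ω => ?_))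
        · rw [Pi.zero_apply, ← lav_const (a ω) (b ω) v 0]
          exact lav_mono _ _ _ (fun x => abs_nonneg _)
        · exact (lav_abs_le (a ω) (b ω) v (g v) t ht).trans
            (add_le_add le_rfl (hpath v hv ω))
      refine hle.trans ?_
      have I12 : Integrable (fun ω => (g (v + y) - g (v - y)) +
          ((|L ω (v + y) - F (v + y)| + |L ω v - F v|) +
          (|L ω v - F v| + |L ω (v - y) - F (v - y)|)) / y) P := (integrable_const _).add I2
      have I3 : Integrable (fun ω => W ω v / t) P := hv1.div_const t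
      have I4 : Integrable (fun ω => |L ω (v + y) - F (v + y)| + |L ω v - F v|) P :=
        (hΔint _ hvp).add (hΔint _ hv0)
      have I5 : Integrable (fun ω => |L ω v - F v| + |L ω (v - y) - F (v - y)|) P :=
        (hΔint _ hv0).add (hΔint _ hvm)
      rw [integral_add I1 I12, integral_add (integrable_const _) I2,
        integral_div, integral_add (integrable_const t) I3, integral_div,
        integral_div, integral_add I4 I5, integral_add (hΔint _ hvp) (hΔint _ hv0),
        integral_add (hΔint _ hv0) (hΔint _ hvm), integral_const, integral_const]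
      simp only [probReal_univ, smul_eq_mul, one_mul]
      rw [hH]
      simp only
      have b1 := hΔ _ hvp
      have b2 := hΔ _ hv0
      have b3 := hΔ _ hvm
      have : ((∫ ω, |L ω (v + y) - F (v + y)| ∂P + ∫ ω, |L ω v - F v| ∂P) +
          (∫ ω, |L ω v - F v| ∂P + ∫ ω, |L ω (v - y) - F (v - y)| ∂P)) / y ≤
          4 * Real.sqrt V / y := by
        apply div_le_div_of_nonneg_right _ hy.le
        linarith
      linarith
    rw [intervalIntegral.integral_of_le zero_le_one]
    change ∫ v, G v ∂ℓ ≤ _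
    by_cases hGI : Integrable G ℓ
    · have h1 : ∫ v, G v ∂ℓ ≤ ∫ v, H v ∂ℓ := integral_mono_ae hGI hHint hGH
      refine h1.trans ?_
      rw [hH]
      simp only
      have K1 : Integrable (fun v => (∫ ω, W ω v ∂P) / t) ℓ := hWv.div_const t
      have K2 : Integrable (fun v => (t + (∫ ω, W ω v ∂P) / t) / 2) ℓ :=
        ((integrable_const t).add K1).div_const 2
      have K3 : Integrable (fun v => g (v + y) - g (v - y)) ℓ := gI1.sub gI2
      have K4 : Integrable (fun v => (g (v + y) - g (v - y)) + 4 * Real.sqrt V / y) ℓ :=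
        K3.add (integrable_const _)
      rw [integral_add K2 K4, integral_add K3 (integrable_const _),
        integral_sub gI1 gI2, integral_div, integral_add (integrable_const t) K1,
        integral_div, integral_const, integral_const]
      simp only [probReal_univ, smul_eq_mul, one_mul]
      -- the shifted integrals
      have J1 : ∫ v, g (v + y) ∂ℓ = ∫ v in (0 + y)..(1 + y), g v := by
        rw [hℓ, ← intervalIntegral.integral_of_le zero_le_one]
        exact intervalIntegral.integral_comp_add_right (fun v => g v) y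
      have J2 : ∫ v, g (v - y) ∂ℓ = ∫ v in (0 - y)..(1 - y), g v := by
        rw [hℓ, ← intervalIntegral.integral_of_le zero_le_one]
        exact intervalIntegral.integral_comp_sub_right (fun v => g v) y
      have gI : ∀ p q : ℝ, IntervalIntegrable g volume p q := fun p q =>
        hgmono.intervalIntegrable
      have J3 : (∫ v in (0 + y)..(1 + y), g v) - (∫ v in (0 - y)..(1 - y), g v) =
          (∫ v in (1 - y)..(1 + y), g v) - (∫ v in (0 - y)..(0 + y), g v) := by
        have k1 := intervalIntegral.integral_add_adjacent_intervals (gI (0 - y) (0 + y))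
          (gI (0 + y) (1 + y))
        have k2 := intervalIntegral.integral_add_adjacent_intervals (gI (0 - y) (1 - y))
          (gI (1 - y) (1 + y))
        linarith
      have J4 : ∫ v in (1 - y)..(1 + y), g v ≤ 2 * y * Λ' := by
        have := intervalIntegral.integral_mono_on (a := 1 - y) (b := 1 + y) (by linarith)
          (gI _ _) (intervalIntegrable_const (c := Λ')) (fun v _ => hgΛ v)
        rw [intervalIntegral.integral_const, smul_eq_mul] at this
        have e : (1 + y - (1 - y)) * Λ' = 2 * y * Λ' := by ring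
        rw [e] at this
        exact this
      have J5 : 0 ≤ ∫ v in (0 - y)..(0 + y), g v :=
        intervalIntegral.integral_nonneg (by linarith) (fun v _ => hg0 v)
      have J6 : (t + (∫ v, ∫ ω, W ω v ∂P ∂ℓ) / t) / 2 ≤ (t + Λ' / t) / 2 := by
        have : (∫ v, ∫ ω, W ω v ∂P ∂ℓ) / t ≤ Λ' / t := div_le_div_of_nonneg_right hWint ht.le
        linarith
      rw [J1, J2]
      linarith
    · rw [integral_undef hGI]
      exact hRHS0
  -- optimise over `t`
  change ∫ v in (0:ℝ)..1, ∫ ω, lav (a ω) (b ω) v (fun x => |b ω x - g v|) ∂P ≤ _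
  have hyΛ : 2 * y * Λ' ≤ 4 * y * Λ' := by nlinarith [mul_nonneg hy.le hΛ0]
  rcases hΛ0.eq_or_lt with h0 | hpos
  · have : ∀ ε : ℝ, 0 < ε → ∫ v in (0:ℝ)..1, ∫ ω, lav (a ω) (b ω) v
        (fun x => |b ω x - g v|) ∂P ≤ Real.sqrt Λ' + 4 * Real.sqrt V / y + 4 * y * Λ' + ε := by
      intro ε hε
      have h1 := hfix ε hε
      rw [← h0] at h1 ⊢
      simp only [zero_div, add_zero, mul_zero, Real.sqrt_zero, zero_add] at h1 ⊢
      linarith
    exact le_of_forall_pos_le_add this
  · have hs : 0 < Real.sqrt Λ' := Real.sqrt_pos.mpr hpos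
    have h1 := hfix (Real.sqrt Λ') hs
    rw [Real.div_sqrt] at h1
    linarith

end Crest.Agent.MP
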