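import Crest.Agent.MP.FPoisA

/-!
# Poisson calculus B: moments, TV closeness
-/

set_option autoImplicit false

namespace Crest.Agent.MP

open MeasureTheory ProbabilityTheory
open scoped NNReal

variable {I : Type} [Fintype I]

/-- `N_i G(N)` is integrable if `G` has linear growth. -/
theorem integrable_mul_linG (lam : I → ℝ≥0) (i : I) {G : (I → ℕ) → ℝ} (hG : LinG G) :
    Integrable (fun N => (N i : ℝ) * G N) (Po lam) := by
  have hb : LinG (fun N => G (bump N i)) := by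
    classical
    obtain ⟨A, B, h⟩ := hG
    refine ⟨A + |B|, |B|, fun N => ?_⟩
    refine (h _).trans ?_
    have e1 : ∑ j, ((bump N i j : ℕ) : ℝ) = ∑ j, (N j : ℝ) + 1 := by
      unfold bump
      push_cast
      rw [Finset.sum_add_distrib]
      simp
    rw [e1]
    have h1 : 0 ≤ ∑ j, (N j : ℝ) := Finset.sum_nonneg fun j _ => by positivity
    have h2 : B ≤ |B| := le_abs_self B
    nlinarith
  have h1 := integrable_linG lam hb
  have h2 : Integrable G ((lam i : ENNReal) • (Po lam).map (fun N => bump N i)) := by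
    apply Integrable.smul_measure _ ENNReal.coe_ne_top
    rw [integrable_map_measure (measurable_of_countable _).aestronglyMeasurable
      (measurable_of_countable _).aemeasurable]
    exact h1
  rw [← mecke_measure, integrable_withDensity_iff_integrable_smul (measurable_of_countable _)] at h2
  simpa [NNReal.smul_def] using h2

theorem integrable_psum (lam : I → ℝ≥0) (S : Finset I) :
    Integrable (fun N : I → ℕ => ∑ i ∈ S, (N i : ℝ)) (Po lam) :=
  integrable_finsetSum _ fun i _ => integrable_coord lam i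

/-- Mean of a partial sum of counts. -/
theorem mean_sum (lam : I → ℝ≥0) (S : Finset I) :
    ∫ N, (∑ i ∈ S, (N i : ℝ)) ∂(Po lam) = ∑ i ∈ S, (lam i : ℝ) := by
  rw [integral_finsetSum _ (fun i _ => integrable_coord lam i)]
  apply Finset.sum_congr rfl
  intro i _
  have h := mecke lam i (G := fun _ => 1) (LinG.of_bounded (A := 1) fun N => by simp)
  simpa using h

/-- Summed Mecke formula. -/
theorem mecke_sum (lam : I → ℝ≥0) (S : Finset I) {G : (I → ℕ) → ℝ} (hG : LinG G) :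
    ∫ N, (∑ i ∈ S, (N i : ℝ)) * G N ∂(Po lam) = ∑ i ∈ S, (lam i : ℝ) * ∫ N, G (bump N i) ∂(Po lam) := by
  simp only [Finset.sum_mul]
  rw [integral_finsetSum _ (fun i _ => integrable_mul_linG lam i hG)]
  exact Finset.sum_congr rfl fun i _ => mecke lam i hG

theorem linG_psum (S : Finset I) : LinG (fun N : I → ℕ => ∑ i ∈ S, (N i : ℝ)) := by
  refine ⟨0, 1, fun N => ?_⟩
  have h1 : 0 ≤ ∑ i ∈ S, (N i : ℝ) := Finset.sum_nonneg fun j _ => by positivity
  rw [abs_of_nonneg h1, zero_add, one_mul]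
  exact Finset.sum_le_sum_of_subset_of_nonneg (Finset.subset_univ _) fun j _ _ => by positivity

theorem psum_bump {S : Finset I} {i : I} (hi : i ∈ S) (N : I → ℕ) :
    ∑ j ∈ S, ((bump N i j : ℕ) : ℝ) = ∑ j ∈ S, (N j : ℝ) + 1 := by
  classical
  unfold bump
  push_cast
  rw [Finset.sum_add_distrib]
  simp [hi]

theorem integrable_psum_sq (lam : I → ℝ≥0) (S : Finset I) :
    Integrable (fun N : I → ℕ => (∑ i ∈ S, (N i : ℝ)) * (∑ i ∈ S, (N i : ℝ))) (Po lam) := by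
  have : (fun N : I → ℕ => (∑ i ∈ S, (N i : ℝ)) * (∑ i ∈ S, (N i : ℝ))) =
      fun N : I → ℕ => ∑ i ∈ S, (N i : ℝ) * (∑ i ∈ S, (N i : ℝ)) := by
    funext N; rw [Finset.sum_mul]
  rw [this]
  exact integrable_finsetSum _ fun i _ => integrable_mul_linG lam i (linG_psum S)

theorem second_sum (lam : I → ℝ≥0) (S : Finset I) :
    ∫ N, (∑ i ∈ S, (N i : ℝ)) * (∑ i ∈ S, (N i : ℝ)) ∂(Po lam) =
      (∑ i ∈ S, (lam i : ℝ)) ^ 2 + ∑ i ∈ S, (lam i : ℝ) := by
  rw [mecke_sum lam S (linG_psum S)]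
  have : ∀ i ∈ S, (lam i : ℝ) * ∫ N, (∑ j ∈ S, ((bump N i j : ℕ) : ℝ)) ∂(Po lam) =
      (lam i : ℝ) * ((∑ j ∈ S, (lam j : ℝ)) + 1) := by
    intro i hi
    congr 1
    simp only [psum_bump hi]
    rw [integral_add (integrable_psum lam S) (integrable_const _), mean_sum]
    simp
  rw [Finset.sum_congr rfl this, ← Finset.sum_mul]
  ring

/-- `E |N_S - Λ| ≤ √Λ`, `Λ = Σ_{i ∈ S} lam_i` (`E N_S² = Λ² + Λ` by Mecke twice, Cauchy-Schwarz). -/
theorem dev_sum (lam : I → ℝ≥0) (S : Finset I) :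
    ∫ N, |(∑ i ∈ S, (N i : ℝ)) - ∑ i ∈ S, (lam i : ℝ)| ∂(Po lam) ≤ Real.sqrt (∑ i ∈ S, (lam i : ℝ)) := by
  set Λ : ℝ := ∑ i ∈ S, (lam i : ℝ) with hΛ
  set X : (I → ℕ) → ℝ := fun N => ∑ i ∈ S, (N i : ℝ) with hX
  have hXi : Integrable X (Po lam) := integrable_psum lam S
  have hX2 : Integrable (fun N => X N * X N) (Po lam) := integrable_psum_sq lam S
  have hD : Integrable (fun N => X N - Λ) (Po lam) := hXi.sub (integrable_const _)
  have hDa : Integrable (fun N => |X N - Λ|) (Po lam) := hD.abs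
  have hD2 : Integrable (fun N => (X N - Λ) ^ 2) (Po lam) := by
    have : (fun N => (X N - Λ) ^ 2) = fun N => X N * X N - 2 * Λ * X N + Λ ^ 2 := by
      funext N; ring
    rw [this]
    exact (hX2.sub (hXi.const_mul _)).add (integrable_const _)
  have hval : ∫ N, (X N - Λ) ^ 2 ∂(Po lam) = Λ := by
    have e : (fun N => (X N - Λ) ^ 2) = fun N => (X N * X N - 2 * Λ * X N) + Λ ^ 2 := by
      funext N; ring
    have hi : Integrable (fun N => X N * X N - 2 * Λ * X N) (Po lam) :=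
      hX2.sub (hXi.const_mul (2 * Λ))
    rw [e, integral_add hi (integrable_const _),
      integral_sub hX2 (hXi.const_mul _), integral_const_mul]
    have h1 : ∫ N, X N * X N ∂(Po lam) = Λ ^ 2 + Λ := second_sum lam S
    have h2 : ∫ N, X N ∂(Po lam) = Λ := mean_sum lam S
    rw [h1, h2]
    simp
    ring
  set c : ℝ := ∫ N, |X N - Λ| ∂(Po lam) with hc
  have hc0 : 0 ≤ c := integral_nonneg fun N => abs_nonneg _
  have h3 : 0 ≤ ∫ N, (|X N - Λ| - c) ^ 2 ∂(Po lam) := integral_nonneg fun N => sq_nonneg _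
  have e2 : (fun N => (|X N - Λ| - c) ^ 2) = fun N => ((X N - Λ) ^ 2 - 2 * c * |X N - Λ|) + c ^ 2 := by
    funext N
    have := sq_abs (X N - Λ)
    nlinarith
  have hi : Integrable (fun N => (X N - Λ) ^ 2 - 2 * c * |X N - Λ|) (Po lam) :=
    hD2.sub (hDa.const_mul (2 * c))
  rw [e2, integral_add hi (integrable_const _),
      integral_sub hD2 (hDa.const_mul _), integral_const_mul, hval, ← hc] at h3
  have h4 : c ^ 2 ≤ Λ := by
    simp at h3
    nlinarith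
  exact Real.le_sqrt_of_sq_le h4

/-- `E [1/(N_S + 1)] ≤ 1/Λ` (Mecke for `G = 1/N_S`: `Λ E[1/(N_S+1)] = P(N_S ≥ 1) ≤ 1`; in Lean `G N = (N_S)⁻¹`, bounded by `1`). -/
theorem inv_sum (lam : I → ℝ≥0) (S : Finset I) (hS : 0 < ∑ i ∈ S, (lam i : ℝ)) :
    ∫ N, ((∑ i ∈ S, (N i : ℝ)) + 1)⁻¹ ∂(Po lam) ≤ (∑ i ∈ S, (lam i : ℝ))⁻¹ := by
  have hcast : ∀ N : I → ℕ, ∑ i ∈ S, (N i : ℝ) = ((∑ i ∈ S, N i : ℕ) : ℝ) := by
    intro N; push_cast; rfl
  have hb : ∀ N : I → ℕ, |(∑ i ∈ S, (N i : ℝ))⁻¹| ≤ 1 := by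
    intro N
    rw [hcast, abs_of_nonneg (by positivity)]
    exact Nat.cast_inv_le_one _
  have hG : LinG (fun N : I → ℕ => (∑ i ∈ S, (N i : ℝ))⁻¹) := LinG.of_bounded hb
  have h1 := mecke_sum lam S hG
  have h2 : ∑ i ∈ S, (lam i : ℝ) * ∫ N, (∑ j ∈ S, ((bump N i j : ℕ) : ℝ))⁻¹ ∂(Po lam) =
      (∑ i ∈ S, (lam i : ℝ)) * ∫ N, ((∑ i ∈ S, (N i : ℝ)) + 1)⁻¹ ∂(Po lam) := by
    rw [Finset.sum_mul]
    apply Finset.sum_congr rfl
    intro i hi
    simp only [psum_bump hi]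
  rw [h2] at h1
  have h3 : ∫ N, (∑ i ∈ S, (N i : ℝ)) * (∑ i ∈ S, (N i : ℝ))⁻¹ ∂(Po lam) ≤ 1 := by
    have hm : ∀ N : I → ℕ, (∑ i ∈ S, (N i : ℝ)) * (∑ i ∈ S, (N i : ℝ))⁻¹ ≤ 1 := fun N =>
      mul_inv_le_one
    have hn : ∀ N : I → ℕ, 0 ≤ (∑ i ∈ S, (N i : ℝ)) * (∑ i ∈ S, (N i : ℝ))⁻¹ := by
      intro N; rw [hcast]; positivity
    calc _ ≤ ∫ _N, (1 : ℝ) ∂(Po lam) := by
          apply integral_mono_of_nonneg (Filter.Eventually.of_forall hn) (integrable_const _)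
            (Filter.Eventually.of_forall hm)
      _ = 1 := by simp
  rw [h1] at h3
  rw [← one_div, le_div_iff₀ hS, mul_comm]
  exact h3

/-- TV CLOSENESS: adding one random factor of a class `S` of total rate `Λ` changes expectations of bounded
functions by at most `√Λ/Λ`. PROOF: by Mecke the left side is `|E[(N_S - Λ) G]|`. -/
theorem tv_bump (lam : I → ℝ≥0) (S : Finset I) {G : (I → ℕ) → ℝ} {C : ℝ} (hG : ∀ N, |G N| ≤ C) :
    |(∑ i ∈ S, (lam i : ℝ) * ∫ N, G (bump N i) ∂(Po lam)) - (∑ i ∈ S, (lam i : ℝ)) * ∫ N, G N ∂(Po lam)|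
      ≤ C * Real.sqrt (∑ i ∈ S, (lam i : ℝ)) := by
  have hLG : LinG G := LinG.of_bounded hG
  have hC : 0 ≤ C := (abs_nonneg _).trans (hG 0)
  rw [← mecke_sum lam S hLG, ← integral_const_mul]
  have hi1 : Integrable (fun N : I → ℕ => (∑ i ∈ S, (N i : ℝ)) * G N) (Po lam) := by
    simp only [Finset.sum_mul]
    exact integrable_finsetSum _ fun i _ => integrable_mul_linG lam i hLG
  have hi2 := (integrable_linG lam hLG).const_mul (∑ i ∈ S, (lam i : ℝ))
  rw [← integral_sub hi1 hi2]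
  have hD : Integrable (fun N : I → ℕ => |(∑ i ∈ S, (N i : ℝ)) - ∑ i ∈ S, (lam i : ℝ)|) (Po lam) :=
    ((integrable_psum lam S).sub (integrable_const _)).abs
  calc |∫ N, ((∑ i ∈ S, (N i : ℝ)) * G N - (∑ i ∈ S, (lam i : ℝ)) * G N) ∂(Po lam)|
      ≤ ∫ N, |(∑ i ∈ S, (N i : ℝ)) * G N - (∑ i ∈ S, (lam i : ℝ)) * G N| ∂(Po lam) :=
        abs_integral_le_integral_abs
    _ ≤ ∫ N, C * |(∑ i ∈ S, (N i : ℝ)) - ∑ i ∈ S, (lam i : ℝ)| ∂(Po lam) := by
        apply integral_mono (hi1.sub hi2).abs (hD.const_mul C)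
        intro N
        show |(∑ i ∈ S, (N i : ℝ)) * G N - (∑ i ∈ S, (lam i : ℝ)) * G N| ≤
          C * |(∑ i ∈ S, (N i : ℝ)) - ∑ i ∈ S, (lam i : ℝ)|
        rw [← sub_mul, abs_mul, mul_comm]
        exact mul_le_mul_of_nonneg_right (hG N) (abs_nonneg _)
    _ ≤ _ := by
        rw [integral_const_mul]
        exact mul_le_mul_of_nonneg_left (dev_sum lam S) hC

end Crest.Agent.MP
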