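import Crest.Agent.MP.FBump2
import Crest.Agent.MP.FPoisB

/-!
# Module F: the insertion lemma (Mecke)
-/

set_option autoImplicit false

namespace Crest.Agent.MP

open MeasureTheory ProbabilityTheory
open scoped NNReal

/-- Add `V` to the base Hamiltonian. -/
noncomputable def Sys.addG (S : Sys) (V : Cf S.n → ℝ) : Sys :=
  { S with G0 := fun σ => S.G0 σ + V σ }

/-- Energy `log W_s` on the sites `e`. -/
noncomputable def lw {n : ℕ} (s : Species) (e : Fin s.k → Fin n) (σ : Cf n) : ℝ :=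
  Real.log (s.W (fun i => σ (e i)) : ℝ)

/-- The error term. -/
noncomputable def Sys.err (S : Sys) (ℓ : ℝ) : ℝ := (Real.sqrt S.Λ)⁻¹ + ℓ / S.Λ + 4 * S.L * S.δ

lemma Sys.Λ_pos (S : Sys) : 0 < S.Λ := by
  unfold Sys.Λ
  have h1 : (0:ℝ) < S.ε := S.hε
  have h2 : (0:ℝ) < S.n := by exact_mod_cast S.hn
  positivity

lemma Sys.integrable_gav (S : Sys) {Ψ : (FIdx S.J S.n → ℕ) → (Fin S.L → Cf S.n) → ℝ} {C : ℝ}
    (hΨ : ∀ N σ, |Ψ N σ| ≤ C) : Integrable (fun N => gav (Ham S.G0 S.δ S.u N) (Ψ N)) S.Pc :=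
  integrable_linG _ (LinG.of_bounded (A := C) fun N => abs_gav_le _ (hΨ N))

/-- the rate of one factor -/
lemma frate_eq (S : Sys) (s : Species) (hs : s ∈ S.J) (e : Fin s.k → Fin S.n) :
    (frate S.J S.n S.ε ⟨⟨s, hs⟩, e⟩ : ℝ) = S.Λ / (S.n : ℝ) ^ s.k := by
  unfold frate Sys.Λ
  push_cast
  rfl

/-- the rates of species `s` sum to `Λ` -/
lemma frate_sum (S : Sys) (s : Species) (hs : s ∈ S.J) :
    ∑ e : Fin s.k → Fin S.n, (frate S.J S.n S.ε ⟨⟨s, hs⟩, e⟩ : ℝ) = S.Λ := by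
  have h2 : (0:ℝ) < S.n := by exact_mod_cast S.hn
  simp only [frate_eq, Finset.sum_const, Finset.card_univ, Fintype.card_fun, Fintype.card_fin,
    nsmul_eq_mul]
  push_cast
  field_simp

/-- The factor indices of species `s`. -/
noncomputable def sIdx {J : Finset Species} {n : ℕ} (s : Species) (hs : s ∈ J) : Finset (FIdx J n) :=
  Finset.univ.map ⟨fun e : Fin s.k → Fin n => (⟨⟨s, hs⟩, e⟩ : FIdx J n), by
    intro e e' h
    simpa using h⟩

lemma sum_sIdx {J : Finset Species} {n : ℕ} (s : Species) (hs : s ∈ J) (f : FIdx J n → ℝ) :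
    ∑ a ∈ sIdx s hs, f a = ∑ e : Fin s.k → Fin n, f ⟨⟨s, hs⟩, e⟩ := by
  unfold sIdx
  rw [Finset.sum_map]
  rfl

lemma tot_eqR {J : Finset Species} {n : ℕ} (s : Species) (hs : s ∈ J) (N : FIdx J n → ℕ) :
    (tot s N : ℝ) = ∑ e : Fin s.k → Fin n, (N ⟨⟨s, hs⟩, e⟩ : ℝ) := by
  unfold tot
  rw [dif_pos hs]
  push_cast
  rfl

lemma Ham_addG (S : Sys) (V : Cf S.n → ℝ) (N : FIdx S.J S.n → ℕ) (σ : Cf S.n) :
    Ham (S.addG V).G0 (S.addG V).δ (S.addG V).u N σ = Ham S.G0 S.δ S.u N σ + V σ := by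
  unfold Ham Sys.addG
  ring

/-- pointwise form of step (A) -/
lemma insertion_pointwise {J : Finset Species} {n : ℕ} (s : Species) (hs : s ∈ J) {r : ℕ}
    (ls : Fin r → ℕ) (N : FIdx J n → ℕ) (σ : ℕ → Cf n) (φ : (Fin r → s.Cfg) → ℝ)
    (hφ : ∀ c, |φ c| ≤ 1) (Λ : ℝ) (hΛ : 0 < Λ) :
    |(∑ c : Fin r → s.Cfg, Dl s ls (arr N σ) c * φ c)
      - (∑ e : Fin s.k → Fin n, (N ⟨⟨s, hs⟩, e⟩ : ℝ) * φ (fun j i => σ (ls j) (e i))) / Λ|
      ≤ |(tot s N : ℝ) / Λ - 1| := by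
  have hD : ∀ c : Fin r → s.Cfg, Dl s ls (arr N σ) c = emp N σ s ls c := fun c => rfl
  simp only [hD]
  set X := ∑ e : Fin s.k → Fin n, (N ⟨⟨s, hs⟩, e⟩ : ℝ) * φ (fun j i => σ (ls j) (e i)) with hX
  have hXT : |X| ≤ tot s N := by
    rw [tot_eqR s hs, hX]
    refine (Finset.abs_sum_le_sum_abs _ _).trans ?_
    refine Finset.sum_le_sum fun e _ => ?_
    rw [abs_mul, abs_of_nonneg (by positivity : (0:ℝ) ≤ N ⟨⟨s, hs⟩, e⟩)]
    have := hφ (fun j i => σ (ls j) (e i))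
    have h0 : (0:ℝ) ≤ N ⟨⟨s, hs⟩, e⟩ := by positivity
    nlinarith
  rcases Nat.eq_zero_or_pos (tot s N) with h0 | hpos
  · have hX0 : X = 0 := by
      rw [h0] at hXT
      simpa using hXT
    rw [hX0, h0]
    have h1 : |∑ c : Fin r → s.Cfg, emp N σ s ls c * φ c| ≤ 1 := by
      refine (Finset.abs_sum_le_sum_abs _ _).trans ?_
      rw [← emp_sum N σ s ls]
      refine Finset.sum_le_sum fun c _ => ?_
      rw [abs_mul, abs_of_nonneg (emp_mem N σ s ls c).1]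
      have := hφ c
      have h0 := (emp_mem N σ s ls c).1
      nlinarith
    simpa using h1
  · have hT : (0:ℝ) < tot s N := by exact_mod_cast hpos
    have hsum : (∑ c : Fin r → s.Cfg, emp N σ s ls c * φ c) = X / tot s N := by
      unfold emp
      simp only [dif_pos (And.intro hs hpos)]
      rw [hX, Finset.sum_div]
      simp only [div_mul_eq_mul_div, Finset.sum_mul]
      rw [← Finset.sum_div, Finset.sum_comm, ← Finset.sum_div]
      congr 1
      refine Finset.sum_congr rfl fun e _ => ?_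
      rw [Finset.sum_eq_single (fun j i => σ (ls j) (e i))]
      · simp
      · intro c _ hc
        have : ¬ ∀ j, (fun i => σ (ls j) (e i)) = c j := by
          intro h
          exact hc (funext fun j => (h j).symm)
        rw [if_neg this]
        ring
      · intro h
        exact absurd (Finset.mem_univ _) h
    rw [hsum]
    have e1 : X / tot s N - X / Λ = (X / tot s N) * (1 - tot s N / Λ) := by
      field_simp
    rw [e1, abs_mul]
    have h2 : |X / tot s N| ≤ 1 := by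
      rw [abs_div, abs_of_pos hT, div_le_one hT]
      exact hXT
    have h3 : |1 - (tot s N : ℝ) / Λ| = |(tot s N : ℝ) / Λ - 1| := abs_sub_comm _ _
    rw [h3]
    have := abs_nonneg ((tot s N : ℝ) / Λ - 1)
    nlinarith

/-- INSERTION LEMMA. For `Ψ(N, σ, c)` bounded by `1` and changing by at most `ℓ/(T_s+1)` when a factor of species `s` is added:
`E< Σ_c D_s(ls)(c) Ψ(N,σ,c) > = avg_e E_{G0 + log W_s(e)} < Ψ(N, σ, σ^{ls}_e) > + error`.
PROOF. `Λ = ε n`, `T = T_s`, `ψ_e(N,σ) = Ψ(N, σ, (j,i) ↦ extR σ (ls j) (e i))`.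
(A) `Σ_c D_s(ls)(c) Ψ(N,σ,c) = (1/T) Σ_e N_e ψ_e` if `T > 0` (definition of `emp`), so it differs from `(1/Λ) Σ_e N_e ψ_e` by at most
`|1 - T/Λ|` (also for `T = 0`, `emp_sum`). `dev_sum`: expectation `≤ Λ^{-1/2}`.
(B) `mecke` for each `e`: `(1/Λ) Σ_e ∫ N_e gav(Ham N)(ψ_e(N)) = (1/Λ) Σ_e (Λ/n^k) ∫ gav(Ham (bump N e)) (ψ_e(bump N e))`,
and `Ham (bump N e) = Ham N + fac e` (`Ham_bump`).
(C) replace `ψ_e(bump N e)` by `ψ_e(N)`: error `≤ ℓ E[1/(T+1)] ≤ ℓ/Λ` (`inv_sum`).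
(D) replace `fac = log W + δ u` by `log W`: `gav_perturb` with `η = δ`: error `≤ 4 L δ`. -/
theorem insertion (S : Sys) (s : Species) (hs : s ∈ S.J) {r : ℕ} (ls : Fin r → ℕ)
    (Ψ : (FIdx S.J S.n → ℕ) → (Fin S.L → Cf S.n) → (Fin r → s.Cfg) → ℝ) (hΨ : ∀ N σ c, |Ψ N σ c| ≤ 1)
    (ℓ : ℝ) (hℓ : 0 ≤ ℓ)
    (hb : ∀ N e σ c, |Ψ (bump N ⟨⟨s, hs⟩, e⟩) σ c - Ψ N σ c| ≤ ℓ / ((tot s N : ℝ) + 1)) :
    |S.Ex (fun N σ => ∑ c : Fin r → s.Cfg, Dl s ls (arr N (extR σ)) c * Ψ N σ c)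
      - (∑ e : Fin s.k → Fin S.n, (S.addG (lw s e)).Ex
          (fun N σ => Ψ N σ (fun j i => extR σ (ls j) (e i)))) / (S.n : ℝ) ^ s.k| ≤ S.err ℓ := by
  have hΛ := S.Λ_pos
  have hn : (0:ℝ) < S.n := by exact_mod_cast S.hn
  have hnk : (0:ℝ) < (S.n : ℝ) ^ s.k := by positivity
  have hPr : IsProbabilityMeasure S.Pc := by unfold Sys.Pc; infer_instance
  -- notations
  set H := fun N : FIdx S.J S.n → ℕ => Ham S.G0 S.δ S.u N with hH
  set ψ : (Fin s.k → Fin S.n) → (FIdx S.J S.n → ℕ) → (Fin S.L → Cf S.n) → ℝ :=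
    fun e N σ => Ψ N σ (fun j i => extR σ (ls j) (e i)) with hψdef
  have hψ : ∀ e N σ, |ψ e N σ| ≤ 1 := fun e N σ => hΨ N σ _
  set A := fun N : FIdx S.J S.n → ℕ =>
    gav (H N) (fun σ => ∑ c : Fin r → s.Cfg, Dl s ls (arr N (extR σ)) c * Ψ N σ c) with hA
  set B := fun N : FIdx S.J S.n → ℕ =>
    (∑ e : Fin s.k → Fin S.n, (N ⟨⟨s, hs⟩, e⟩ : ℝ) * gav (H N) (ψ e N)) / S.Λ with hB
  have hgψ : ∀ e, LinG (fun N => gav (H N) (ψ e N)) := fun e =>
    LinG.of_bounded (A := 1) fun N => abs_gav_le _ (hψ e N)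
  -- pointwise bound (A)
  have hAB : ∀ N, |A N - B N| ≤ |(tot s N : ℝ) / S.Λ - 1| := by
    intro N
    have e1 : B N = gav (H N) (fun σ => (∑ e : Fin s.k → Fin S.n,
        (N ⟨⟨s, hs⟩, e⟩ : ℝ) * ψ e N σ) / S.Λ) := by
      rw [hB]
      simp only [gav, Finset.mul_sum, Finset.sum_div]
      rw [Finset.sum_comm]
      refine Finset.sum_congr rfl fun σ _ => ?_
      refine Finset.sum_congr rfl fun e _ => ?_
      ring
    rw [e1, hA, ← gav_sub]
    refine abs_gav_le _ fun σ => ?_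
    exact insertion_pointwise s hs ls N (extR σ) (Ψ N σ) (hΨ N σ) S.Λ hΛ
  have hAbd : ∀ N, |A N| ≤ 1 := by
    intro N
    refine abs_gav_le _ fun σ => ?_
    refine (Finset.abs_sum_le_sum_abs _ _).trans ?_
    rw [← emp_sum N (extR σ) s ls]
    refine Finset.sum_le_sum fun c _ => ?_
    rw [abs_mul]
    have h1 := hΨ N σ c
    have h2 := (emp_mem N (extR σ) s ls c).1
    have h3 : |Dl s ls (arr N (extR σ)) c| = emp N (extR σ) s ls c := abs_of_nonneg h2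
    rw [h3]
    nlinarith
  have hAint : Integrable A S.Pc := integrable_linG _ (LinG.of_bounded hAbd)
  have hNint : ∀ e, Integrable (fun N : FIdx S.J S.n → ℕ =>
      (N ⟨⟨s, hs⟩, e⟩ : ℝ) * gav (H N) (ψ e N)) S.Pc := fun e => integrable_mul_linG _ _ (hgψ e)
  have hBint : Integrable B S.Pc := (integrable_finsetSum _ fun e _ => hNint e).div_const _
  have hTint : Integrable (fun N : FIdx S.J S.n → ℕ => |(tot s N : ℝ) / S.Λ - 1|) S.Pc := by
    have : Integrable (fun N : FIdx S.J S.n → ℕ => (tot s N : ℝ)) S.Pc := by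
      simp only [tot_eqR s hs]
      exact integrable_finsetSum _ fun e _ => integrable_coord _ _
    exact ((this.div_const _).sub (integrable_const _)).abs
  -- step (A)
  have stepA : |(∫ N, A N ∂S.Pc) - ∫ N, B N ∂S.Pc| ≤ (Real.sqrt S.Λ)⁻¹ := by
    rw [← integral_sub hAint hBint]
    calc |∫ N, (A N - B N) ∂S.Pc| ≤ ∫ N, |A N - B N| ∂S.Pc := abs_integral_le_integral_abs
      _ ≤ ∫ N, |(tot s N : ℝ) / S.Λ - 1| ∂S.Pc :=
          integral_mono (hAint.sub hBint).abs hTint hAB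
      _ = (∫ N, |(tot s N : ℝ) - S.Λ| ∂S.Pc) / S.Λ := by
          rw [← integral_div]
          refine integral_congr_ae (Filter.Eventually.of_forall fun N => ?_)
          show |(tot s N : ℝ) / S.Λ - 1| = |(tot s N : ℝ) - S.Λ| / S.Λ
          rw [← abs_of_pos hΛ, ← abs_div, abs_of_pos hΛ]
          congr 1
          field_simp
      _ ≤ Real.sqrt S.Λ / S.Λ := by
          have h := dev_sum (frate S.J S.n S.ε) (sIdx s hs)
          simp only [sum_sIdx s hs] at h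
          rw [frate_sum S s hs] at h
          have h' : ∫ N, |(tot s N : ℝ) - S.Λ| ∂S.Pc ≤ Real.sqrt S.Λ := by
            simp only [tot_eqR s hs]
            exact h
          exact div_le_div_of_nonneg_right h' hΛ.le
      _ = (Real.sqrt S.Λ)⁻¹ := by
          rw [Real.sqrt_div_self]
  -- step (B)
  have stepB : ∫ N, B N ∂S.Pc = (∑ e : Fin s.k → Fin S.n,
      ∫ N, gav (fun σ => H N σ + fac S.δ S.u (⟨⟨s, hs⟩, e⟩ : FIdx S.J S.n) σ)
        (ψ e (bump N ⟨⟨s, hs⟩, e⟩)) ∂S.Pc) / (S.n : ℝ) ^ s.k := by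
    rw [hB, integral_div, integral_finsetSum _ fun e _ => hNint e]
    have : ∀ e : Fin s.k → Fin S.n, ∫ N, (N ⟨⟨s, hs⟩, e⟩ : ℝ) * gav (H N) (ψ e N) ∂S.Pc
        = (S.Λ / (S.n : ℝ) ^ s.k) * ∫ N, gav (fun σ => H N σ + fac S.δ S.u (⟨⟨s, hs⟩, e⟩ : FIdx S.J S.n) σ)
        (ψ e (bump N ⟨⟨s, hs⟩, e⟩)) ∂S.Pc := by
      intro e
      have h := mecke (frate S.J S.n S.ε) ⟨⟨s, hs⟩, e⟩ (hgψ e)
      rw [frate_eq S s hs e] at h
      have h2 : ∀ N : FIdx S.J S.n → ℕ, H (bump N ⟨⟨s, hs⟩, e⟩)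
          = fun σ => H N σ + fac S.δ S.u (⟨⟨s, hs⟩, e⟩ : FIdx S.J S.n) σ := by
        intro N
        funext σ
        exact Ham_bump _ _ _ _ _ _
      simp only [h2] at h
      exact h
    simp only [this]
    rw [← Finset.mul_sum]
    field_simp
  -- steps (C), (D)
  have hfac : ∀ (e : Fin s.k → Fin S.n) (σ : Cf S.n),
      |fac S.δ S.u (⟨⟨s, hs⟩, e⟩ : FIdx S.J S.n) σ - lw s e σ| ≤ S.δ := by
    intro e σ
    unfold fac lw
    have h1 := S.hu s (fun i => σ (e i))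
    have h2 := S.hδ
    rw [add_sub_cancel_left, abs_of_nonneg (mul_nonneg h2 h1.1)]
    nlinarith [h1.2]
  have stepCD : ∀ e : Fin s.k → Fin S.n,
      |(∫ N, gav (fun σ => H N σ + fac S.δ S.u (⟨⟨s, hs⟩, e⟩ : FIdx S.J S.n) σ)
        (ψ e (bump N ⟨⟨s, hs⟩, e⟩)) ∂S.Pc) - (S.addG (lw s e)).Ex (ψ e)|
        ≤ ℓ / S.Λ + 4 * S.L * S.δ := by
    intro e
    have e0 : (S.addG (lw s e)).Ex (ψ e) = ∫ N, gav (fun σ => H N σ + lw s e σ) (ψ e N) ∂S.Pc := by
      have : ∀ N : FIdx S.J S.n → ℕ, Ham (S.addG (lw s e)).G0 (S.addG (lw s e)).δ (S.addG (lw s e)).u N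
          = fun σ => H N σ + lw s e σ := fun N => funext fun σ => Ham_addG S (lw s e) N σ
      show ∫ N, gav (Ham (S.addG (lw s e)).G0 (S.addG (lw s e)).δ (S.addG (lw s e)).u N) (ψ e N) ∂S.Pc = _
      simp only [this]
      rfl
    rw [e0]
    have i1 : Integrable (fun N : FIdx S.J S.n → ℕ => gav (fun σ => H N σ + fac S.δ S.u (⟨⟨s, hs⟩, e⟩ : FIdx S.J S.n) σ)
        (ψ e (bump N ⟨⟨s, hs⟩, e⟩))) S.Pc :=
      integrable_linG _ (LinG.of_bounded (A := 1) fun N => abs_gav_le _ (hψ e _))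
    have i2 : Integrable (fun N : FIdx S.J S.n → ℕ => gav (fun σ => H N σ + lw s e σ) (ψ e N)) S.Pc :=
      integrable_linG _ (LinG.of_bounded (A := 1) fun N => abs_gav_le _ (hψ e _))
    have i3 : Integrable (fun N : FIdx S.J S.n → ℕ => ℓ * ((tot s N : ℝ) + 1)⁻¹ + 4 * S.L * S.δ) S.Pc := by
      refine Integrable.add ?_ (integrable_const _)
      refine Integrable.const_mul ?_ _
      refine integrable_linG _ (LinG.of_bounded (A := 1) fun N => ?_)
      have h0 : (0:ℝ) ≤ tot s N := by positivity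
      rw [abs_of_nonneg (by positivity)]
      exact inv_le_one_of_one_le₀ (by linarith)
    rw [← integral_sub i1 i2]
    refine (abs_integral_le_integral_abs).trans ?_
    calc _ ≤ ∫ N : FIdx S.J S.n → ℕ, (ℓ * ((tot s N : ℝ) + 1)⁻¹ + 4 * S.L * S.δ) ∂S.Pc := by
          refine integral_mono (i1.sub i2).abs i3 fun N => ?_
          have h1 : |gav (fun σ => H N σ + fac S.δ S.u (⟨⟨s, hs⟩, e⟩ : FIdx S.J S.n) σ)
              (ψ e (bump N ⟨⟨s, hs⟩, e⟩)) - gav (fun σ => H N σ + fac S.δ S.u (⟨⟨s, hs⟩, e⟩ : FIdx S.J S.n) σ)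
              (ψ e N)| ≤ ℓ * ((tot s N : ℝ) + 1)⁻¹ := by
            rw [← gav_sub]
            refine abs_gav_le _ fun σ => ?_
            have := hb N e σ (fun j i => extR σ (ls j) (e i))
            rwa [div_eq_mul_inv] at this
          have h2 : |gav (fun σ => H N σ + fac S.δ S.u (⟨⟨s, hs⟩, e⟩ : FIdx S.J S.n) σ)
              (ψ e N) - gav (fun σ => H N σ + lw s e σ) (ψ e N)| ≤ 4 * S.L * S.δ * 1 := by
            refine gav_perturb _ _ S.δ S.hδ S.hδ' (fun σ => ?_) (hψ e N)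
            have := hfac e σ
            rwa [show H N σ + fac S.δ S.u (⟨⟨s, hs⟩, e⟩ : FIdx S.J S.n) σ - (H N σ + lw s e σ)
              = fac S.δ S.u (⟨⟨s, hs⟩, e⟩ : FIdx S.J S.n) σ - lw s e σ by ring]
          have h3 := abs_sub_le (gav (fun σ => H N σ + fac S.δ S.u (⟨⟨s, hs⟩, e⟩ : FIdx S.J S.n) σ)
              (ψ e (bump N ⟨⟨s, hs⟩, e⟩))) (gav (fun σ => H N σ + fac S.δ S.u (⟨⟨s, hs⟩, e⟩ : FIdx S.J S.n) σ)
              (ψ e N)) (gav (fun σ => H N σ + lw s e σ) (ψ e N))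
          simp only [mul_one] at h2
          exact h3.trans (add_le_add h1 h2)
      _ = ℓ * (∫ N, ((tot s N : ℝ) + 1)⁻¹ ∂S.Pc) + 4 * S.L * S.δ := by
          have i4 : Integrable (fun N : FIdx S.J S.n → ℕ => ((tot s N : ℝ) + 1)⁻¹) S.Pc := by
            refine integrable_linG _ (LinG.of_bounded (A := 1) fun N => ?_)
            have h0 : (0:ℝ) ≤ tot s N := by positivity
            rw [abs_of_nonneg (by positivity)]
            exact inv_le_one_of_one_le₀ (by linarith)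
          rw [integral_add (i4.const_mul _) (integrable_const _), integral_const_mul]
          simp
      _ ≤ ℓ / S.Λ + 4 * S.L * S.δ := by
          have h := inv_sum (frate S.J S.n S.ε) (sIdx s hs) (by
            rw [sum_sIdx s hs (fun a => (frate S.J S.n S.ε a : ℝ)), frate_sum S s hs]; exact hΛ)
          simp only [sum_sIdx s hs] at h
          rw [frate_sum S s hs] at h
          have h' : ∫ N, ((tot s N : ℝ) + 1)⁻¹ ∂S.Pc ≤ S.Λ⁻¹ := by
            simp only [tot_eqR s hs]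
            exact h
          have := mul_le_mul_of_nonneg_left h' hℓ
          rw [div_eq_mul_inv]
          linarith
  -- conclusion
  have hEx : S.Ex (fun N σ => ∑ c : Fin r → s.Cfg, Dl s ls (arr N (extR σ)) c * Ψ N σ c) = ∫ N, A N ∂S.Pc := rfl
  have hfinal : |(∫ N, B N ∂S.Pc) - (∑ e : Fin s.k → Fin S.n, (S.addG (lw s e)).Ex (ψ e)) / (S.n : ℝ) ^ s.k|
      ≤ ℓ / S.Λ + 4 * S.L * S.δ := by
    rw [stepB, ← sub_div, ← Finset.sum_sub_distrib, abs_div, abs_of_pos hnk, div_le_iff₀ hnk]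
    refine (Finset.abs_sum_le_sum_abs _ _).trans ?_
    refine (Finset.sum_le_sum fun e _ => stepCD e).trans ?_
    rw [Finset.sum_const, Finset.card_univ, Fintype.card_fun, Fintype.card_fin, Fintype.card_fin,
      nsmul_eq_mul]
    push_cast
    rw [mul_comm]
  rw [hEx]
  unfold Sys.err
  have h3 := abs_sub_le (∫ N, A N ∂S.Pc) (∫ N, B N ∂S.Pc)
    ((∑ e : Fin s.k → Fin S.n, (S.addG (lw s e)).Ex (ψ e)) / (S.n : ℝ) ^ s.k)
  refine h3.trans ?_
  linarith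

end Crest.Agent.MP
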