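import Crest.Agent.MP.FConcDef
import Crest.Agent.MP.FInsert

/-!
# Module F, concentration: elementary properties of the defect
-/

set_option autoImplicit false

namespace Crest.Agent.MP

open MeasureTheory ProbabilityTheory Filter Topology
open scoped NNReal

private lemma fd_toU_measurable (J : Finset Species) (s : Species) (c : s.Cfg) :
    Measurable (fun v : UIdx J → ℝ => toUf J v s c) := by
  unfold toUf
  by_cases h : s ∈ J
  · simp only [h, dif_pos]
    exact measurable_pi_apply _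
  · simp only [h, dif_neg, not_false_eq_true]
    exact measurable_const

private lemma fd_gibbs_measurable (J : Finset Species) (n : ℕ) (δ : ℝ) (G0 : Cf n → ℝ)
    (N : FIdx J n → ℕ) (σ : Cf n) :
    Measurable (fun v : UIdx J → ℝ => gibbs (Ham G0 δ (toUf J v) N) σ) := by
  have hH : ∀ σ : Cf n, Measurable (fun v : UIdx J → ℝ => Ham G0 δ (toUf J v) N σ) := by
    intro σ
    unfold Ham fac
    refine measurable_const.add (Finset.measurable_fun_sum _ fun a _ => ?_)
    exact measurable_const.mul (measurable_const.add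
      (measurable_const.mul (fd_toU_measurable J _ _)))
  unfold gibbs
  exact (Real.measurable_exp.comp (hH σ)).div
    (Finset.measurable_fun_sum _ fun τ _ => Real.measurable_exp.comp (hH τ))

private lemma fd_gav1_measurable (J : Finset Species) (n : ℕ) (δ : ℝ) (G0 : Cf n → ℝ)
    (N : FIdx J n → ℕ) (F : (UIdx J → ℝ) → Cf n → ℝ) (hF : ∀ σ, Measurable (fun v => F v σ)) :
    Measurable (fun v : UIdx J → ℝ => gav1 (Ham G0 δ (toUf J v) N) (F v)) := by
  unfold gav1
  exact Finset.measurable_fun_sum _ fun σ _ => (fd_gibbs_measurable J n δ G0 N σ).mul (hF σ)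

private lemma fd_integral_measurable (J : Finset Species) (n : ℕ) (ε : ℝ≥0)
    (h : (UIdx J → ℝ) → (FIdx J n → ℕ) → ℝ) (hh : ∀ N, Measurable (fun v => h v N)) :
    Measurable (fun v => ∫ N, h v N ∂(Po (frate J n ε))) := by
  have h1 : Measurable (Function.uncurry h) := measurable_from_prod_countable_left hh
  exact (h1.stronglyMeasurable.integral_prod_right (ν := Po (frate J n ε))).measurable

/-- measurability of the defect in the parameters (for the selection step) -/
theorem cdef_measurable (J : Finset Species) (n : ℕ) (ε : ℝ≥0) (δ : ℝ) (G0 : Cf n → ℝ)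
    (s : Species) (c : s.Cfg) : Measurable (fun v => cdef J n ε δ (toUf J v) G0 s c) := by
  unfold cdef
  refine fd_integral_measurable J n ε _ fun N => ?_
  refine fd_gav1_measurable J n δ G0 N _ fun σ => ?_
  have hm : Measurable fun v : UIdx J → ℝ => ∫ N' : FIdx J n → ℕ, gav1 (Ham G0 δ (toUf J v) N')
      (fun σ' => emp N' (fun _ => σ') s (rg 1) (fun _ => c)) ∂(Po (frate J n ε)) := by
    refine fd_integral_measurable J n ε _ fun N' => ?_
    exact fd_gav1_measurable J n δ G0 N' _ fun σ' => measurable_const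
  exact (measurable_const.sub hm).abs

private lemma fd_gav1_mem {n : ℕ} (H : Cf n → ℝ) {f : Cf n → ℝ} (h : ∀ σ, f σ ∈ Set.Icc (0:ℝ) 1) :
    gav1 H f ∈ Set.Icc (0:ℝ) 1 := by
  unfold gav1
  constructor
  · exact Finset.sum_nonneg fun σ _ => mul_nonneg (gibbs_nonneg' H σ) (h σ).1
  · calc ∑ σ : Cf n, gibbs H σ * f σ ≤ ∑ σ : Cf n, gibbs H σ :=
          Finset.sum_le_sum fun σ _ => mul_le_of_le_one_right (gibbs_nonneg' H σ) (h σ).2
      _ = 1 := sum_gibbs' H

private lemma fd_integral_mem {I : Type} [Fintype I] (lam : I → ℝ≥0) {f : (I → ℕ) → ℝ}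
    (h : ∀ N, f N ∈ Set.Icc (0:ℝ) 1) : ∫ N, f N ∂(Po lam) ∈ Set.Icc (0:ℝ) 1 := by
  constructor
  · exact integral_nonneg fun N => (h N).1
  · have h1 := norm_integral_le_of_norm_le_const (μ := Po lam) (f := f) (C := 1)
      (Eventually.of_forall fun N => by
        rw [Real.norm_eq_abs, abs_of_nonneg (h N).1]; exact (h N).2)
    rw [probReal_univ, mul_one, Real.norm_eq_abs] at h1
    exact (le_abs_self _).trans h1

theorem cdef_nonneg_le (J : Finset Species) (n : ℕ) (ε : ℝ≥0) (δ : ℝ) (u : UPar) (G0 : Cf n → ℝ)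
    (s : Species) (c : s.Cfg) : 0 ≤ cdef J n ε δ u G0 s c ∧ cdef J n ε δ u G0 s c ≤ 1 := by
  unfold cdef
  have hm : ∫ N' : FIdx J n → ℕ, gav1 (Ham G0 δ u N')
      (fun σ' => emp N' (fun _ => σ') s (rg 1) (fun _ => c)) ∂(Po (frate J n ε)) ∈
      Set.Icc (0:ℝ) 1 :=
    fd_integral_mem _ fun N' => fd_gav1_mem _ fun σ' => emp_mem _ _ _ _ _
  refine fd_integral_mem _ fun N => fd_gav1_mem _ fun σ => ?_
  have he := emp_mem N (fun _ => σ) s (rg 1) (fun _ => c)
  refine ⟨abs_nonneg _, abs_le.2 ⟨?_, ?_⟩⟩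
  · linarith [he.1, hm.2]
  · linarith [he.2, hm.1]

private lemma fd_emp (S : Sys) (hL : 1 ≤ S.L) (s : Species) (c : s.Cfg) (N : FIdx S.J S.n → ℕ)
    (σ : Fin S.L → Cf S.n) :
    Dl s (rg 1) (arr N (extR σ)) (fun _ => c) =
      emp N (fun _ => σ ⟨0, hL⟩) s (rg 1) (fun _ => c) := by
  have h1 : Dl s (rg 1) (arr N (extR σ)) (fun _ => c) =
      emp N (extR σ) s (rg 1) (fun _ => c) := rfl
  have h2 : ∀ j : Fin 1, extR σ (rg 1 j) = σ ⟨0, hL⟩ := by
    intro j
    have : rg 1 j = 0 := by simp [rg]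
    rw [this]
    unfold extR
    rw [dif_pos (show 0 < S.L from hL)]
  rw [h1]
  unfold emp
  simp only [h2]

/-- The defect controls the fluctuations of the array entry `Dl s (rg 1)`. -/
theorem cdef_law (S : Sys) (hL : 1 ≤ S.L) (s : Species) (c : s.Cfg) :
    ∫ x, |Dl s (rg 1) x (fun _ => c) - ∫ y, Dl s (rg 1) y (fun _ => c) ∂S.law| ∂S.law
      = cdef S.J S.n S.ε S.δ S.u S.G0 s c := by
  have hmeas : Measurable fun x : Obs => Dl s (rg 1) x (fun _ => c) :=
    measurable_subtype_coe.comp (measurable_pi_apply _)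
  have hb : ∀ x : Obs, Dl s (rg 1) x (fun _ => c) ∈ Set.Icc (0:ℝ) 1 := fun x =>
    (x ⟨s, 1, rg 1, fun _ => c⟩).2
  have hm : ∫ y, Dl s (rg 1) y (fun _ => c) ∂S.law =
      ∫ N' : FIdx S.J S.n → ℕ, gav1 (Ham S.G0 S.δ S.u N')
      (fun σ' => emp N' (fun _ => σ') s (rg 1) (fun _ => c)) ∂(Po (frate S.J S.n S.ε)) := by
    rw [S.integral_law _ hmeas ⟨1, fun x => by
      rw [abs_of_nonneg (hb x).1]; exact (hb x).2⟩]
    unfold Sys.Ex
    simp only [fd_emp S hL]
    refine integral_congr_ae (Eventually.of_forall fun N => ?_)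
    exact gav_one _ ⟨0, hL⟩ (fun σ' => emp N (fun _ => σ') s (rg 1) (fun _ => c))
  set m : ℝ := ∫ y, Dl s (rg 1) y (fun _ => c) ∂S.law with hmdef
  rw [S.integral_law (fun x => |Dl s (rg 1) x (fun _ => c) - m|) (hmeas.sub measurable_const).abs
    ⟨1 + |m|, fun x => by
      rw [abs_abs]
      have := (hb x)
      have h1 : |Dl s (rg 1) x (fun _ => c)| ≤ 1 := by
        rw [abs_of_nonneg this.1]; exact this.2
      exact (abs_sub _ _).trans (by linarith)⟩]
  unfold Sys.Ex cdef
  simp only [fd_emp S hL]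
  rw [← hm]
  refine integral_congr_ae (Eventually.of_forall fun N => ?_)
  exact gav_one _ ⟨0, hL⟩ (fun σ' => |emp N (fun _ => σ') s (rg 1) (fun _ => c) - m|)

end Crest.Agent.MP
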