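import Crest.Agent.MP.FConcDef
import Crest.Agent.MP.FConcB
import Crest.Agent.MP.FConcD
import Crest.Agent.MP.FInsert
import Crest.Agent.MP.FPoisC

/-!
# Module F, concentration: the empirical law of one replica concentrates, on average over the parameters `u`
-/

set_option autoImplicit false

namespace Crest.Agent.MP

open MeasureTheory ProbabilityTheory Filter Topology
open scoped NNReal

namespace ConcC

/-! ### Resampling one coordinate of a product measure -/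

section resample

variable {ι : Type} [Fintype ι]

open Classical in
/-- replacing one coordinate by an independent copy preserves the product measure -/
lemma map_update (μ : ι → Measure ℝ) [∀ i, IsProbabilityMeasure (μ i)] (i : ι) :
    ((Measure.pi μ).prod (μ i)).map (fun p : (ι → ℝ) × ℝ => Function.update p.1 i p.2) =
      Measure.pi μ := by
  have hmeas : Measurable (fun p : (ι → ℝ) × ℝ => Function.update p.1 i p.2) := by
    refine measurable_pi_lambda _ fun j => ?_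
    by_cases h : j = i
    · subst h; simpa using measurable_snd
    · simp only [Function.update_of_ne h]
      exact (measurable_pi_apply j).comp measurable_fst
  symm
  apply Measure.pi_eq
  intro s hs
  rw [Measure.map_apply hmeas (MeasurableSet.univ_pi hs)]
  have e : (fun p : (ι → ℝ) × ℝ => Function.update p.1 i p.2) ⁻¹' (Set.univ.pi s) =
      (Set.univ.pi (Function.update s i Set.univ)) ×ˢ (s i) := by
    ext ⟨v, t⟩
    simp only [Set.mem_preimage, Set.mem_pi, Set.mem_univ, true_implies, Set.mem_prod]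
    constructor
    · intro h
      refine ⟨fun j => ?_, by simpa using h i⟩
      by_cases hj : j = i
      · subst hj; simp
      · have := h j
        rw [Function.update_of_ne hj] at this ⊢
        exact this
    · rintro ⟨h1, h2⟩ j
      by_cases hj : j = i
      · subst hj; simpa using h2
      · have := h1 j
        rw [Function.update_of_ne hj] at this ⊢
        exact this
  rw [e, Measure.prod_prod, Measure.pi_pi]
  rw [← Finset.mul_prod_erase Finset.univ (fun j => μ j (Function.update s i Set.univ j))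
    (Finset.mem_univ i), ← Finset.mul_prod_erase Finset.univ (fun j => μ j (s j))
    (Finset.mem_univ i)]
  have h2 : ∏ j ∈ Finset.univ.erase i, μ j (Function.update s i Set.univ j) =
      ∏ j ∈ Finset.univ.erase i, μ j (s j) :=
    Finset.prod_congr rfl fun j hj => by rw [Function.update_of_ne (Finset.ne_of_mem_erase hj)]
  rw [h2, Function.update_self, measure_univ, one_mul, mul_comm]

open Classical in
/-- resampling inequality: it is enough to bound the average over one coordinate -/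
lemma integral_le_of_update (μ : ι → Measure ℝ) [∀ i, IsProbabilityMeasure (μ i)] (i : ι)
    (f : (ι → ℝ) → ℝ) (hf : Measurable f) (hb : ∃ C, ∀ v, |f v| ≤ C) (K : ℝ)
    (h : ∀ᵐ v ∂(Measure.pi μ), ∫ t, f (Function.update v i t) ∂(μ i) ≤ K) :
    ∫ v, f v ∂(Measure.pi μ) ≤ K := by
  obtain ⟨C, hC⟩ := hb
  have hmeas : Measurable (fun p : (ι → ℝ) × ℝ => Function.update p.1 i p.2) := by
    refine measurable_pi_lambda _ fun j => ?_
    by_cases h : j = i
    · subst h; simpa using measurable_snd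
    · simp only [Function.update_of_ne h]
      exact (measurable_pi_apply j).comp measurable_fst
  have hint : Integrable (fun p : (ι → ℝ) × ℝ => f (Function.update p.1 i p.2))
      ((Measure.pi μ).prod (μ i)) :=
    Integrable.of_bound (hf.comp hmeas).aestronglyMeasurable C
      (Eventually.of_forall fun p => by rw [Real.norm_eq_abs]; exact hC _)
  have e1 : ∫ v, f v ∂(Measure.pi μ) =
      ∫ v, ∫ t, f (Function.update v i t) ∂(μ i) ∂(Measure.pi μ) := by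
    conv_lhs => rw [← map_update μ i]
    rw [integral_map hmeas.aemeasurable hf.aestronglyMeasurable, integral_prod _ hint]
  rw [e1]
  calc ∫ v, ∫ t, f (Function.update v i t) ∂(μ i) ∂(Measure.pi μ)
      ≤ ∫ _v, K ∂(Measure.pi μ) := by
        refine integral_mono_ae hint.integral_prod_left (integrable_const _) h
    _ = K := by simp

end resample

/-! ### log-sum-exp -/

section lsum

variable {X : Type} [Fintype X] [Nonempty X]

lemma log_sum_exp_le {f g : X → ℝ} {K : ℝ} (h : ∀ x, f x ≤ g x + K) :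
    Real.log (∑ x, Real.exp (f x)) ≤ Real.log (∑ x, Real.exp (g x)) + K := by
  have h1 : ∑ x, Real.exp (f x) ≤ (∑ x, Real.exp (g x)) * Real.exp K := by
    rw [Finset.sum_mul]
    refine Finset.sum_le_sum fun x _ => ?_
    rw [← Real.exp_add]
    exact Real.exp_le_exp.2 (h x)
  have h2 : 0 < ∑ x, Real.exp (f x) :=
    Finset.sum_pos (fun _ _ => Real.exp_pos _) Finset.univ_nonempty
  have h3 : 0 < ∑ x, Real.exp (g x) :=
    Finset.sum_pos (fun _ _ => Real.exp_pos _) Finset.univ_nonempty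
  calc _ ≤ Real.log ((∑ x, Real.exp (g x)) * Real.exp K) := Real.log_le_log h2 h1
    _ = _ := by rw [Real.log_mul h3.ne' (Real.exp_pos _).ne', Real.log_exp]

lemma abs_log_sum_exp_sub_le {f g : X → ℝ} {K : ℝ} (h : ∀ x, |f x - g x| ≤ K) :
    |Real.log (∑ x, Real.exp (f x)) - Real.log (∑ x, Real.exp (g x))| ≤ K := by
  rw [abs_le]
  constructor
  · have := log_sum_exp_le (f := g) (g := f) (K := K) fun x => by
      have := (abs_le.1 (h x)).1; linarith
    linarith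
  · have := log_sum_exp_le (f := f) (g := g) (K := K) fun x => by
      have := (abs_le.1 (h x)).2; linarith
    linarith

end lsum

/-! ### Gibbs averages of one replica -/

section gav1

variable {n : ℕ}

lemma gav1_eq_lav (a b : Cf n → ℝ) (t : ℝ) (g : Cf n → ℝ) :
    gav1 (fun σ => a σ + t * b σ) g = lav a b t g := by
  unfold gav1 lav gibbs
  rw [Finset.sum_div]
  exact Finset.sum_congr rfl fun σ _ => by ring

lemma gav1_mono (H : Cf n → ℝ) {f g : Cf n → ℝ} (h : ∀ σ, f σ ≤ g σ) : gav1 H f ≤ gav1 H g :=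
  Finset.sum_le_sum fun σ _ => mul_le_mul_of_nonneg_left (h σ) (gibbs_nonneg' H σ)

lemma gav1_add (H : Cf n → ℝ) (f g : Cf n → ℝ) :
    gav1 H (fun σ => f σ + g σ) = gav1 H f + gav1 H g := by
  unfold gav1
  rw [← Finset.sum_add_distrib]
  exact Finset.sum_congr rfl fun σ _ => by ring

lemma gav1_sub (H : Cf n → ℝ) (f g : Cf n → ℝ) :
    gav1 H (fun σ => f σ - g σ) = gav1 H f - gav1 H g := by
  unfold gav1
  rw [← Finset.sum_sub_distrib]
  exact Finset.sum_congr rfl fun σ _ => by ring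

lemma gav1_smul (H : Cf n → ℝ) (c : ℝ) (f : Cf n → ℝ) :
    gav1 H (fun σ => c * f σ) = c * gav1 H f := by
  unfold gav1
  rw [Finset.mul_sum]
  exact Finset.sum_congr rfl fun σ _ => by ring

lemma gav1_const (H : Cf n → ℝ) (c : ℝ) : gav1 H (fun _ => c) = c := by
  unfold gav1
  rw [← Finset.sum_mul, sum_gibbs' H, one_mul]

lemma abs_gav1_le (H : Cf n → ℝ) (f : Cf n → ℝ) : |gav1 H f| ≤ gav1 H (fun σ => |f σ|) := by
  unfold gav1
  refine (Finset.abs_sum_le_sum_abs _ _).trans (Finset.sum_le_sum fun σ _ => ?_)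
  rw [abs_mul, abs_of_nonneg (gibbs_nonneg' H σ)]

lemma gav1_nonneg (H : Cf n → ℝ) {f : Cf n → ℝ} (h : ∀ σ, 0 ≤ f σ) : 0 ≤ gav1 H f :=
  Finset.sum_nonneg fun σ _ => mul_nonneg (gibbs_nonneg' H σ) (h σ)

end gav1

/-! ### The frequency of one configuration -/

section cnt

variable {J : Finset Species} {n : ℕ}

lemma toUf_apply (w : UIdx J → ℝ) (a : {s // s ∈ J}) (c : a.1.Cfg) : toUf J w a.1 c = w ⟨a, c⟩ := by
  unfold toUf
  rw [dif_pos a.2]

open Classical in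
/-- number of factors with configuration `i₀` -/
noncomputable def cnt (i₀ : UIdx J) (N : FIdx J n → ℕ) (σ : Cf n) : ℝ :=
  ∑ a, (N a : ℝ) * (if (⟨a.1, fun i => σ (a.2 i)⟩ : UIdx J) = i₀ then 1 else 0)

open Classical in
lemma Ham_update (G0 : Cf n → ℝ) (δ : ℝ) (v : UIdx J → ℝ) (i₀ : UIdx J) (t : ℝ) (N : FIdx J n → ℕ)
    (σ : Cf n) : Ham G0 δ (toUf J (Function.update v i₀ t)) N σ =
      Ham G0 δ (toUf J (Function.update v i₀ 0)) N σ + t * (δ * cnt i₀ N σ) := by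
  unfold Ham fac cnt
  rw [add_assoc, Finset.mul_sum, Finset.mul_sum, ← Finset.sum_add_distrib]
  congr 1
  refine Finset.sum_congr rfl fun a _ => ?_
  rw [toUf_apply, toUf_apply, Function.update_apply, Function.update_apply]
  split_ifs <;> ring

open Classical in
lemma cnt_eq (s : Species) (hs : s ∈ J) (c : s.Cfg) (N : FIdx J n → ℕ) (σ : Cf n) :
    cnt ⟨⟨s, hs⟩, c⟩ N σ = ∑ e : Fin s.k → Fin n, (N ⟨⟨s, hs⟩, e⟩ : ℝ) *
      (if (fun i => σ (e i)) = c then 1 else 0) := by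
  unfold cnt
  rw [Fintype.sum_sigma, Finset.sum_eq_single (⟨s, hs⟩ : {s // s ∈ J})]
  · refine Finset.sum_congr rfl fun e _ => ?_
    congr 1
    simp only [Sigma.mk.injEq, heq_eq_eq, true_and]
  · intro b _ hb
    refine Finset.sum_eq_zero fun e _ => ?_
    rw [if_neg, mul_zero]
    intro h
    exact hb (congrArg Sigma.fst h)
  · intro h
    exact absurd (Finset.mem_univ _) h

/-- number of factors of species `s`, as a real number -/
noncomputable def Tn (s : Species) (hs : s ∈ J) (N : FIdx J n → ℕ) : ℝ :=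
  ∑ e : Fin s.k → Fin n, (N ⟨⟨s, hs⟩, e⟩ : ℝ)

lemma Tn_nonneg (s : Species) (hs : s ∈ J) (N : FIdx J n → ℕ) : 0 ≤ Tn s hs N :=
  Finset.sum_nonneg fun _ _ => Nat.cast_nonneg _

lemma tot_eq (s : Species) (hs : s ∈ J) (N : FIdx J n → ℕ) : (tot s N : ℝ) = Tn s hs N := by
  have h2 : tot s N = ∑ e : Fin s.k → Fin n, N ⟨⟨s, hs⟩, e⟩ := dif_pos hs
  have h3 := congrArg (fun k : ℕ => (k : ℝ)) h2
  simpa [Tn] using h3

lemma cnt_nonneg (s : Species) (hs : s ∈ J) (c : s.Cfg) (N : FIdx J n → ℕ) (σ : Cf n) :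
    0 ≤ cnt ⟨⟨s, hs⟩, c⟩ N σ := by
  rw [cnt_eq]
  exact Finset.sum_nonneg fun e _ => mul_nonneg (Nat.cast_nonneg _) (by split_ifs <;> norm_num)

lemma cnt_le (s : Species) (hs : s ∈ J) (c : s.Cfg) (N : FIdx J n → ℕ) (σ : Cf n) :
    cnt ⟨⟨s, hs⟩, c⟩ N σ ≤ Tn s hs N := by
  rw [cnt_eq]
  refine Finset.sum_le_sum fun e _ => ?_
  have : (0 : ℝ) ≤ (N ⟨⟨s, hs⟩, e⟩ : ℝ) := Nat.cast_nonneg _
  split_ifs
  · simp
  · simp

lemma emp_close (s : Species) (hs : s ∈ J) (c : s.Cfg) (N : FIdx J n → ℕ) (σ : Cf n) {Λ : ℝ}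
    (hΛ : 0 < Λ) : |emp N (fun _ => σ) s (rg 1) (fun _ => c) - cnt ⟨⟨s, hs⟩, c⟩ N σ / Λ| ≤
      |1 - Tn s hs N / Λ| := by
  classical
  have hmem := emp_mem N (fun _ => σ) s (rg 1) (fun _ => c)
  by_cases h : 0 < tot s N
  · have hT : 0 < Tn s hs N := by rw [← tot_eq]; exact_mod_cast h
    have he : emp N (fun _ => σ) s (rg 1) (fun _ => c) = cnt ⟨⟨s, hs⟩, c⟩ N σ / Tn s hs N := by
      unfold emp
      rw [dif_pos ⟨hs, h⟩, cnt_eq, tot_eq s hs]
      congr 1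
      refine Finset.sum_congr rfl fun e _ => ?_
      congr 1
      simp only [forall_const]
    have h2 : cnt ⟨⟨s, hs⟩, c⟩ N σ = emp N (fun _ => σ) s (rg 1) (fun _ => c) * Tn s hs N := by
      rw [he]; field_simp
    rw [h2]
    have h3 : emp N (fun _ => σ) s (rg 1) (fun _ => c) -
        emp N (fun _ => σ) s (rg 1) (fun _ => c) * Tn s hs N / Λ =
        emp N (fun _ => σ) s (rg 1) (fun _ => c) * (1 - Tn s hs N / Λ) := by ring
    rw [h3, abs_mul, abs_of_nonneg hmem.1]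
    exact mul_le_of_le_one_left (abs_nonneg _) hmem.2
  · have hT : Tn s hs N = 0 := by
      rw [← tot_eq]
      have : tot s N = 0 := by omega
      rw [this]; simp
    have h0 : cnt ⟨⟨s, hs⟩, c⟩ N σ = 0 :=
      le_antisymm (hT ▸ cnt_le s hs c N σ) (cnt_nonneg s hs c N σ)
    rw [h0, hT]
    simp only [zero_div, sub_zero, abs_one]
    rw [abs_of_nonneg hmem.1]
    exact hmem.2

/-- the index set of the factors of species `s` -/
def Sset (s : Species) (hs : s ∈ J) : Finset (FIdx J n) :=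
  (Finset.univ : Finset (Fin s.k → Fin n)).map ⟨Sigma.mk ⟨s, hs⟩, sigma_mk_injective⟩

lemma sum_Sset (s : Species) (hs : s ∈ J) (f : FIdx J n → ℝ) :
    ∑ a ∈ Sset s hs, f a = ∑ e : Fin s.k → Fin n, f ⟨⟨s, hs⟩, e⟩ := by
  unfold Sset
  rw [Finset.sum_map]
  rfl

lemma rate_sum (ε : ℝ≥0) (hn : 1 ≤ n) (s : Species) (hs : s ∈ J) :
    ∑ e : Fin s.k → Fin n, (frate J n ε ⟨⟨s, hs⟩, e⟩ : ℝ) = (ε : ℝ) * n := by
  unfold frate
  have hn' : (n : ℝ) ≠ 0 := by positivity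
  simp only [NNReal.coe_div, NNReal.coe_mul, NNReal.coe_natCast, NNReal.coe_pow,
    Finset.sum_const, Finset.card_univ, Fintype.card_fun, Fintype.card_fin, nsmul_eq_mul,
    Nat.cast_pow]
  field_simp

lemma rate_total (ε : ℝ≥0) (hn : 1 ≤ n) :
    ∑ a : FIdx J n, (frate J n ε a : ℝ) = (J.card : ℝ) * ((ε : ℝ) * n) := by
  rw [Fintype.sum_sigma]
  have : ∀ x : {s // s ∈ J}, ∑ e : Fin x.1.k → Fin n, (frate J n ε ⟨x, e⟩ : ℝ) = (ε : ℝ) * n :=
    fun x => rate_sum ε hn x.1 x.2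
  simp only [this]
  simp

lemma linG_Tn (s : Species) (hs : s ∈ J) : LinG (fun N : FIdx J n → ℕ => Tn s hs N) := by
  have h := linG_psum (I := FIdx J n) (Sset s hs)
  have e : (fun N : FIdx J n → ℕ => ∑ i ∈ Sset s hs, (N i : ℝ)) = fun N => Tn s hs N := by
    funext N; rw [sum_Sset]; rfl
  rwa [e] at h

lemma integral_Tn (ε : ℝ≥0) (hn : 1 ≤ n) (s : Species) (hs : s ∈ J) :
    ∫ N : FIdx J n → ℕ, Tn s hs N ∂(Po (frate J n ε)) = (ε : ℝ) * n := by
  have h := mean_sum (frate J n ε) (Sset s hs)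
  simp only [sum_Sset] at h
  rw [rate_sum ε hn s hs] at h
  exact h

lemma integral_dev (ε : ℝ≥0) (hn : 1 ≤ n) (hΛ : 0 < (ε : ℝ) * n) (s : Species) (hs : s ∈ J) :
    ∫ N : FIdx J n → ℕ, |1 - Tn s hs N / ((ε : ℝ) * n)| ∂(Po (frate J n ε)) ≤
      1 / Real.sqrt ((ε : ℝ) * n) := by
  have h := dev_sum (frate J n ε) (Sset s hs)
  simp only [sum_Sset] at h
  rw [rate_sum ε hn s hs] at h
  generalize (ε : ℝ) * n = Λ at *
  have e : (fun N : FIdx J n → ℕ => |1 - Tn s hs N / Λ|) =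
      fun N => Λ⁻¹ * |(∑ e : Fin s.k → Fin n, (N ⟨⟨s, hs⟩, e⟩ : ℝ)) - Λ| := by
    funext N
    have e1 : 1 - Tn s hs N / Λ = Λ⁻¹ * (Λ - Tn s hs N) := by
      rw [mul_sub, inv_mul_cancel₀ hΛ.ne', div_eq_inv_mul]
    rw [e1, abs_mul, abs_of_pos (inv_pos.2 hΛ), abs_sub_comm]
    rfl
  rw [e, integral_const_mul]
  have h2 := mul_le_mul_of_nonneg_left h (inv_pos.2 hΛ).le
  refine h2.trans (le_of_eq ?_)
  have h3 : 0 < Real.sqrt Λ := Real.sqrt_pos.2 hΛ
  have h4 := Real.mul_self_sqrt hΛ.le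
  rw [inv_mul_eq_div, div_eq_div_iff hΛ.ne' h3.ne', h4, one_mul]

/-! ### Linear growth, integrability -/

lemma linG_of_le_Tn (s : Species) (hs : s ∈ J) {G : (FIdx J n → ℕ) → ℝ} {A B : ℝ} (hB : 0 ≤ B)
    (h : ∀ N, |G N| ≤ A + B * Tn s hs N) : LinG G := by
  obtain ⟨A', B', h'⟩ := linG_Tn (n := n) s hs
  refine ⟨A + B * A', B * B', fun N => (h N).trans ?_⟩
  have := mul_le_mul_of_nonneg_left ((le_abs_self _).trans (h' N)) hB
  nlinarith

lemma integrable_of_le_Tn (ε : ℝ≥0) (s : Species) (hs : s ∈ J) {G : (FIdx J n → ℕ) → ℝ} {A B : ℝ}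
    (hB : 0 ≤ B) (h : ∀ N, |G N| ≤ A + B * Tn s hs N) : Integrable G (Po (frate J n ε)) :=
  integrable_linG _ (linG_of_le_Tn s hs hB h)

lemma cdef_le (ε : ℝ≥0) (hn : 1 ≤ n) (hΛ : 0 < (ε : ℝ) * n) (δ : ℝ) (u : UPar) (G0 : Cf n → ℝ)
    (s : Species) (hs : s ∈ J) (c : s.Cfg) :
    cdef J n ε δ u G0 s c ≤ 2 / Real.sqrt ((ε : ℝ) * n) +
      ∫ N, gav1 (Ham G0 δ u N) (fun σ => |cnt ⟨⟨s, hs⟩, c⟩ N σ / ((ε : ℝ) * n) -
        ∫ N' : FIdx J n → ℕ, gav1 (Ham G0 δ u N') (fun σ' => cnt ⟨⟨s, hs⟩, c⟩ N' σ' / ((ε : ℝ) * n))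
          ∂(Po (frate J n ε))|) ∂(Po (frate J n ε)) := by
  have hdev := integral_dev ε hn hΛ s hs
  set Λ : ℝ := (ε : ℝ) * n with hΛdef
  set P : Measure (FIdx J n → ℕ) := Po (frate J n ε) with hP
  set X : (FIdx J n → ℕ) → Cf n → ℝ := fun N σ => emp N (fun _ => σ) s (rg 1) (fun _ => c) with hX
  set Y : (FIdx J n → ℕ) → Cf n → ℝ := fun N σ => cnt ⟨⟨s, hs⟩, c⟩ N σ / Λ with hY
  set kX : ℝ := ∫ N', gav1 (Ham G0 δ u N') (X N') ∂P with hkX
  set kY : ℝ := ∫ N', gav1 (Ham G0 δ u N') (Y N') ∂P with hkY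
  have hXY : ∀ N σ, |X N σ - Y N σ| ≤ |1 - Tn s hs N / Λ| := fun N σ => emp_close s hs c N σ hΛ
  have hX1 : ∀ N σ, |X N σ| ≤ 1 := by
    intro N σ
    have := emp_mem N (fun _ => σ) s (rg 1) (fun _ => c)
    rw [abs_le]
    exact ⟨by linarith [this.1], this.2⟩
  have hY1 : ∀ N σ, |Y N σ| ≤ Λ⁻¹ * Tn s hs N := by
    intro N σ
    have h0 := cnt_nonneg s hs c N σ
    have h1 := cnt_le s hs c N σ
    simp only [hY]
    rw [abs_of_nonneg (by positivity), div_eq_inv_mul]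
    exact mul_le_mul_of_nonneg_left h1 (by positivity)
  have hdevint : Integrable (fun N => |1 - Tn s hs N / Λ|) P := by
    refine integrable_of_le_Tn (A := 1) (B := Λ⁻¹) ε s hs (by positivity) fun N => ?_
    rw [abs_abs]
    refine (abs_sub _ _).trans ?_
    have h0 := Tn_nonneg s hs N
    rw [abs_one, abs_of_nonneg (div_nonneg h0 hΛ.le), div_eq_inv_mul]
  have hiX : Integrable (fun N => gav1 (Ham G0 δ u N) (X N)) P := by
    refine integrable_of_le_Tn (A := 1) (B := 0) ε s hs le_rfl fun N => ?_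
    refine (abs_gav1_le _ _).trans ((gav1_mono _ (hX1 N)).trans ?_)
    rw [gav1_const]; simp
  have hiY : Integrable (fun N => gav1 (Ham G0 δ u N) (Y N)) P := by
    refine integrable_of_le_Tn (A := 0) (B := Λ⁻¹) ε s hs (by positivity) fun N => ?_
    refine (abs_gav1_le _ _).trans ((gav1_mono _ (hY1 N)).trans ?_)
    rw [gav1_const]; simp
  have hiYk : Integrable (fun N => gav1 (Ham G0 δ u N) (fun σ => |Y N σ - kY|)) P := by
    refine integrable_of_le_Tn (A := |kY|) (B := Λ⁻¹) ε s hs (by positivity) fun N => ?_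
    refine (abs_gav1_le _ _).trans ((gav1_mono _ (g := fun _ => |kY| + Λ⁻¹ * Tn s hs N)
      fun σ => ?_).trans ?_)
    · rw [abs_abs]
      refine (abs_sub _ _).trans ?_
      linarith [hY1 N σ]
    · rw [gav1_const]
  have hiXk : Integrable (fun N => gav1 (Ham G0 δ u N) (fun σ => |X N σ - kX|)) P := by
    refine integrable_of_le_Tn (A := 1 + |kX|) (B := 0) ε s hs le_rfl fun N => ?_
    refine (abs_gav1_le _ _).trans ((gav1_mono _ (g := fun _ => 1 + |kX| + 0 * Tn s hs N)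
      fun σ => ?_).trans ?_)
    · rw [abs_abs]
      refine (abs_sub _ _).trans ?_
      linarith [hX1 N σ]
    · rw [gav1_const]
  have hkk : |kY - kX| ≤ 1 / Real.sqrt Λ := by
    rw [hkX, hkY, ← integral_sub hiY hiX]
    refine (abs_integral_le_integral_abs).trans (le_trans ?_ hdev)
    refine integral_mono (hiY.sub hiX).abs hdevint fun N => ?_
    simp only []
    rw [← gav1_sub]
    refine (abs_gav1_le _ _).trans ((gav1_mono _ (g := fun _ => |1 - Tn s hs N / Λ|)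
      fun σ => ?_).trans ?_)
    · rw [abs_sub_comm]; exact hXY N σ
    · rw [gav1_const]
  have hpt : ∀ N, gav1 (Ham G0 δ u N) (fun σ => |X N σ - kX|) ≤
      |1 - Tn s hs N / Λ| + gav1 (Ham G0 δ u N) (fun σ => |Y N σ - kY|) + 1 / Real.sqrt Λ := by
    intro N
    have h1 : gav1 (Ham G0 δ u N) (fun σ => |X N σ - kX|) ≤ gav1 (Ham G0 δ u N)
        (fun σ => |Y N σ - kY| + (|1 - Tn s hs N / Λ| + 1 / Real.sqrt Λ)) := by
      refine gav1_mono _ fun σ => ?_
      have : X N σ - kX = (X N σ - Y N σ) + (Y N σ - kY) + (kY - kX) := by ring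
      rw [this]
      have h2 := abs_add_le ((X N σ - Y N σ) + (Y N σ - kY)) (kY - kX)
      have h3 := abs_add_le (X N σ - Y N σ) (Y N σ - kY)
      linarith [hXY N σ, hkk]
    rw [gav1_add, gav1_const] at h1
    linarith
  have hcd : cdef J n ε δ u G0 s c = ∫ N, gav1 (Ham G0 δ u N) (fun σ => |X N σ - kX|) ∂P := rfl
  rw [hcd]
  calc ∫ N, gav1 (Ham G0 δ u N) (fun σ => |X N σ - kX|) ∂P
      ≤ ∫ N, (|1 - Tn s hs N / Λ| + gav1 (Ham G0 δ u N) (fun σ => |Y N σ - kY|) +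
        1 / Real.sqrt Λ) ∂P :=
        integral_mono hiXk ((hdevint.add hiYk).add (integrable_const _)) hpt
    _ = ∫ N, |1 - Tn s hs N / Λ| ∂P + ∫ N, gav1 (Ham G0 δ u N) (fun σ => |Y N σ - kY|) ∂P +
        1 / Real.sqrt Λ := by
        have hs1 : Integrable (fun N => |1 - Tn s hs N / Λ| +
            gav1 (Ham G0 δ u N) (fun σ => |Y N σ - kY|)) P := hdevint.add hiYk
        rw [integral_add hs1 (integrable_const _), integral_add hdevint hiYk]
        simp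
    _ ≤ 1 / Real.sqrt Λ + ∫ N, gav1 (Ham G0 δ u N) (fun σ => |Y N σ - kY|) ∂P +
        1 / Real.sqrt Λ := by linarith
    _ = _ := by ring

/-! ### The Lipschitz bound of the free energy -/

/-- the sum of all `|log W|` plus one -/
noncomputable def KJ (J : Finset Species) : ℝ := 1 + ∑ i : UIdx J, |Real.log (i.1.1.W i.2 : ℝ)|

lemma one_le_KJ (J : Finset Species) : 1 ≤ KJ J := by
  unfold KJ
  have : 0 ≤ ∑ i : UIdx J, |Real.log (i.1.1.W i.2 : ℝ)| := Finset.sum_nonneg fun _ _ => abs_nonneg _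
  linarith

lemma abs_fac_le (δ : ℝ) (hδ : 0 < δ) (hδ' : δ ≤ 1 / 2) (w : UIdx J → ℝ) (hw : ∀ i, |w i| ≤ 2)
    (a : FIdx J n) (σ : Cf n) : |fac δ (toUf J w) a σ| ≤ KJ J := by
  unfold fac KJ
  rw [toUf_apply]
  have h1 : |Real.log (a.1.1.W (fun i => σ (a.2 i)) : ℝ)| ≤
      ∑ i : UIdx J, |Real.log (i.1.1.W i.2 : ℝ)| :=
    Finset.single_le_sum (f := fun i : UIdx J => |Real.log (i.1.1.W i.2 : ℝ)|)
      (fun _ _ => abs_nonneg _) (Finset.mem_univ (⟨a.1, fun i => σ (a.2 i)⟩ : UIdx J))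
  have h2 : |δ * w ⟨a.1, fun i => σ (a.2 i)⟩| ≤ 1 := by
    rw [abs_mul, abs_of_pos hδ]
    nlinarith [hw ⟨a.1, fun i => σ (a.2 i)⟩, abs_nonneg (w ⟨a.1, fun i => σ (a.2 i)⟩)]
  refine (abs_add_le _ _).trans ?_
  linarith

/-- free energy -/
noncomputable def fe (G0 : Cf n → ℝ) (δ : ℝ) (u : UPar) (N : FIdx J n → ℕ) : ℝ :=
  Real.log (∑ σ, Real.exp (Ham G0 δ u N σ))

lemma fe_lip (G0 : Cf n → ℝ) (δ : ℝ) (hδ : 0 < δ) (hδ' : δ ≤ 1 / 2) (w : UIdx J → ℝ)
    (hw : ∀ i, |w i| ≤ 2) (N : FIdx J n → ℕ) (a : FIdx J n) :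
    |fe G0 δ (toUf J w) (bump N a) - fe G0 δ (toUf J w) N| ≤ KJ J := by
  refine abs_log_sum_exp_sub_le fun σ => ?_
  rw [Ham_bump, add_sub_cancel_left]
  exact abs_fac_le δ hδ hδ' w hw a σ

lemma fe_integrable (G0 : Cf n → ℝ) (δ : ℝ) (hδ : 0 < δ) (hδ' : δ ≤ 1 / 2) (w : UIdx J → ℝ)
    (hw : ∀ i, |w i| ≤ 2) (ε : ℝ≥0) : Integrable (fe G0 δ (toUf J w)) (Po (frate J n ε)) :=
  integrable_linG _ (linG_of_lip (L := fun _ => KJ J) fun N a => fe_lip G0 δ hδ hδ' w hw N a)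

lemma sq_integrable {G : (FIdx J n → ℕ) → ℝ} (hG : LinG G) (m : ℝ) (ε : ℝ≥0) :
    Integrable (fun N => (G N - m) ^ 2) (Po (frate J n ε)) := by
  obtain ⟨A, B, h⟩ := hG
  have hI := integrable_psum_sq (frate J n ε) (Finset.univ : Finset (FIdx J n))
  refine Integrable.mono' ((integrable_const (2 * (|A| + |m|) ^ 2)).add (hI.const_mul (2 * B ^ 2)))
    Measurable.of_discrete.aestronglyMeasurable (Eventually.of_forall fun N => ?_)
  rw [Real.norm_of_nonneg (sq_nonneg _)]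
  simp only [Pi.add_apply]
  set S : ℝ := ∑ i, (N i : ℝ) with hS
  have hS0 : 0 ≤ S := Finset.sum_nonneg fun _ _ => Nat.cast_nonneg _
  have h1 : |G N - m| ≤ (|A| + |m|) + |B| * S := by
    refine (abs_sub _ _).trans ?_
    have := h N
    have h2 := le_abs_self A
    have h3 := mul_le_mul_of_nonneg_right (le_abs_self B) hS0
    linarith
  have h2 : (G N - m) ^ 2 ≤ ((|A| + |m|) + |B| * S) ^ 2 := by
    rw [← sq_abs (G N - m)]
    exact pow_le_pow_left₀ (abs_nonneg _) h1 2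
  have h3 : |B| ^ 2 = B ^ 2 := sq_abs B
  nlinarith [sq_nonneg ((|A| + |m|) - |B| * S)]

lemma fe_var (G0 : Cf n → ℝ) (δ : ℝ) (hδ : 0 < δ) (hδ' : δ ≤ 1 / 2) (w : UIdx J → ℝ)
    (hw : ∀ i, |w i| ≤ 2) (ε : ℝ≥0) (hn : 1 ≤ n) :
    ∫ N, (fe G0 δ (toUf J w) N - ∫ N', fe G0 δ (toUf J w) N' ∂(Po (frate J n ε))) ^ 2
      ∂(Po (frate J n ε)) ≤ (J.card : ℝ) * ((ε : ℝ) * n) * KJ J ^ 2 := by
  have h := var_le (frate J n ε) (G := fe G0 δ (toUf J w)) (L := fun _ => KJ J)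
    fun N a => fe_lip G0 δ hδ hδ' w hw N a
  rw [← Finset.sum_mul, rate_total ε hn] at h
  exact h

open Classical in
/-- The average over one parameter -/
lemma avg_one (G0 : Cf n → ℝ) (δ : ℝ) (hδ : 0 < δ) (hδ' : δ ≤ 1 / 2) (v : UIdx J → ℝ)
    (hv : ∀ i, v i ∈ Set.Icc (0:ℝ) 1) (ε : ℝ≥0) (hn : 1 ≤ n) (s : Species) (hs : s ∈ J) (c : s.Cfg)
    (y : ℝ) (hy : 0 < y) (hy1 : y ≤ 1) :
    ∫ t in (0:ℝ)..1, ∫ N, lav (Ham G0 δ (toUf J (Function.update v ⟨⟨s, hs⟩, c⟩ 0)) N)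
        (fun σ => δ * cnt ⟨⟨s, hs⟩, c⟩ N σ) t (fun σ => |δ * cnt ⟨⟨s, hs⟩, c⟩ N σ -
          ∫ N' : FIdx J n → ℕ, lav (Ham G0 δ (toUf J (Function.update v ⟨⟨s, hs⟩, c⟩ 0)) N')
            (fun σ => δ * cnt ⟨⟨s, hs⟩, c⟩ N' σ) t (fun σ => δ * cnt ⟨⟨s, hs⟩, c⟩ N' σ)
              ∂(Po (frate J n ε))|) ∂(Po (frate J n ε)) ≤
      Real.sqrt (δ * ((ε : ℝ) * n)) +
        4 * Real.sqrt ((J.card : ℝ) * ((ε : ℝ) * n) * KJ J ^ 2) / y + 4 * y * (δ * ((ε : ℝ) * n)) := by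
  set i₀ : UIdx J := ⟨⟨s, hs⟩, c⟩ with hi₀
  have hlse : ∀ (t : ℝ) (N : FIdx J n → ℕ), lse (Ham G0 δ (toUf J (Function.update v i₀ 0)) N)
      (fun σ => δ * cnt i₀ N σ) t = fe G0 δ (toUf J (Function.update v i₀ t)) N := by
    intro t N
    unfold lse fe
    congr 1
    refine Finset.sum_congr rfl fun σ _ => ?_
    rw [← Ham_update]
  have hw : ∀ t ∈ Set.Icc (-1:ℝ) 2, ∀ i, |Function.update v i₀ t i| ≤ 2 := by
    intro t ht i
    rw [Function.update_apply]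
    split_ifs
    · rw [abs_le]; exact ⟨by linarith [ht.1], ht.2⟩
    · rw [abs_le]; exact ⟨by linarith [(hv i).1], by linarith [(hv i).2]⟩
  refine random_lse (Po (frate J n ε)) (fun N => Ham G0 δ (toUf J (Function.update v i₀ 0)) N)
    (fun N σ => δ * cnt i₀ N σ) (fun N => δ * Tn s hs N) ?_ ?_ (δ * ((ε : ℝ) * n))
    ((J.card : ℝ) * ((ε : ℝ) * n) * KJ J ^ 2) ?_ (by positivity) ?_ ?_ ?_ y hy hy1
  · intro N σ
    exact ⟨mul_nonneg hδ.le (cnt_nonneg s hs c N σ),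
      mul_le_mul_of_nonneg_left (cnt_le s hs c N σ) hδ.le⟩
  · exact (integrable_linG _ (linG_Tn s hs)).const_mul δ
  · rw [integral_const_mul, integral_Tn ε hn s hs]
  · intro t ht
    simp only [hlse]
    exact fe_integrable G0 δ hδ hδ' _ (hw t ht) ε
  · intro t ht
    simp only [hlse]
    exact sq_integrable (linG_of_lip (L := fun _ => KJ J)
      fun N a => fe_lip G0 δ hδ hδ' _ (hw t ht) N a) _ ε
  · intro t ht
    simp only [hlse]
    exact fe_var G0 δ hδ hδ' _ (hw t ht) ε hn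

lemma measurable_avg (ε : ℝ≥0) (F : (FIdx J n → ℕ) → ℝ → ℝ) (hF : ∀ N, Measurable (F N)) :
    Measurable (fun t => ∫ N, F N t ∂(Po (frate J n ε))) := by
  have h : Measurable (fun p : ℝ × (FIdx J n → ℕ) => F p.2 p.1) :=
    measurable_from_prod_countable_left hF
  exact (h.stronglyMeasurable.integral_prod_right').measurable

lemma measurable_lav (a b : Cf n → ℝ) (f : Cf n → ℝ → ℝ) (hf : ∀ x, Measurable (f x)) :
    Measurable (fun t => lav a b t (fun x => f x t)) := by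
  unfold lav
  refine Measurable.div (Finset.measurable_sum _ fun x _ => Measurable.mul ?_ (hf x))
    (Finset.measurable_sum _ fun x _ => ?_) <;> fun_prop

open Classical in
/-- The defect, averaged over one parameter -/
lemma cdef_avg_one (G0 : Cf n → ℝ) (δ : ℝ) (hδ : 0 < δ) (hδ' : δ ≤ 1 / 2) (v : UIdx J → ℝ)
    (hv : ∀ i, v i ∈ Set.Icc (0:ℝ) 1) (ε : ℝ≥0) (hn : 1 ≤ n) (hΛ : 0 < (ε : ℝ) * n)
    (s : Species) (hs : s ∈ J) (c : s.Cfg) (y : ℝ) (hy : 0 < y) (hy1 : y ≤ 1) :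
    ∫ t in Set.Icc (0:ℝ) 1, cdef J n ε δ (toUf J (Function.update v ⟨⟨s, hs⟩, c⟩ t)) G0 s c ≤
      2 / Real.sqrt ((ε : ℝ) * n) + (δ * ((ε : ℝ) * n))⁻¹ * (Real.sqrt (δ * ((ε : ℝ) * n)) +
        4 * Real.sqrt ((J.card : ℝ) * ((ε : ℝ) * n) * KJ J ^ 2) / y + 4 * y * (δ * ((ε : ℝ) * n))) := by
  have havg := avg_one G0 δ hδ hδ' v hv ε hn s hs c y hy hy1
  have hmean := integral_Tn ε hn s hs
  have hcd := fun t => cdef_le ε hn hΛ δ (toUf J (Function.update v ⟨⟨s, hs⟩, c⟩ t)) G0 s hs c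
  set i₀ : UIdx J := ⟨⟨s, hs⟩, c⟩ with hi₀
  set Λ : ℝ := (ε : ℝ) * n with hΛdef
  set P : Measure (FIdx J n → ℕ) := Po (frate J n ε) with hP
  set a : (FIdx J n → ℕ) → Cf n → ℝ := fun N => Ham G0 δ (toUf J (Function.update v i₀ 0)) N with ha
  set b : (FIdx J n → ℕ) → Cf n → ℝ := fun N σ => δ * cnt i₀ N σ with hb
  have hδΛ : 0 < δ * Λ := mul_pos hδ hΛ
  have hlav : ∀ (t : ℝ) (N : FIdx J n → ℕ) (g : Cf n → ℝ), lav (a N) (b N) t g =
      gav1 (Ham G0 δ (toUf J (Function.update v i₀ t)) N) g := by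
    intro t N g
    rw [← gav1_eq_lav]
    congr 1
    funext σ
    rw [Ham_update G0 δ v i₀ t N σ]
  set h : ℝ → ℝ := fun t => ∫ N', lav (a N') (b N') t (b N') ∂P with hh
  set R : ℝ → ℝ := fun t => ∫ N, lav (a N) (b N) t (fun σ => |b N σ - h t|) ∂P with hR
  have hb1 : ∀ N σ, |b N σ| ≤ δ * Tn s hs N := by
    intro N σ
    simp only [hb]
    rw [abs_of_nonneg (mul_nonneg hδ.le (cnt_nonneg s hs c N σ))]
    exact mul_le_mul_of_nonneg_left (cnt_le s hs c N σ) hδ.le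
  have hhm : Measurable h := by
    refine measurable_avg ε (fun N t => lav (a N) (b N) t (b N)) fun N => ?_
    exact measurable_lav (a N) (b N) (fun x _ => b N x) fun x => measurable_const
  have hRm : Measurable R := by
    refine measurable_avg ε (fun N t => lav (a N) (b N) t (fun σ => |b N σ - h t|)) fun N => ?_
    exact measurable_lav (a N) (b N) (fun x t => |b N x - h t|) fun x =>
      (measurable_const.sub hhm).abs
  have hTint : Integrable (fun N => δ * Tn s hs N) P :=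
    (integrable_linG _ (linG_Tn s hs)).const_mul δ
  have hTval : ∫ N, δ * Tn s hs N ∂P = δ * Λ := by rw [integral_const_mul, hmean]
  have hhb : ∀ t, |h t| ≤ δ * Λ := by
    intro t
    rw [hh, ← hTval]
    refine (abs_integral_le_integral_abs).trans (integral_mono_of_nonneg
      (Eventually.of_forall fun N => abs_nonneg _) hTint (Eventually.of_forall fun N => ?_))
    simp only []
    rw [hlav]
    refine (abs_gav1_le _ _).trans ((gav1_mono _ (hb1 N)).trans ?_)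
    rw [gav1_const]
  have hRb : ∀ t, |R t| ≤ 2 * (δ * Λ) := by
    intro t
    have h2 : ∫ N, (δ * Tn s hs N + δ * Λ) ∂P = 2 * (δ * Λ) := by
      rw [integral_add hTint (integrable_const _), hTval]
      simp
      ring
    rw [hR, ← h2]
    refine (abs_integral_le_integral_abs).trans (integral_mono_of_nonneg
      (Eventually.of_forall fun N => abs_nonneg _) (hTint.add (integrable_const _))
      (Eventually.of_forall fun N => ?_))
    simp only []
    rw [hlav]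
    refine (abs_gav1_le _ _).trans ((gav1_mono _ (g := fun _ => δ * Tn s hs N + δ * Λ)
      fun σ => ?_).trans ?_)
    · rw [abs_abs]
      refine (abs_sub _ _).trans ?_
      linarith [hb1 N σ, hhb t]
    · rw [gav1_const]
  have hRint : ∀ μ : Measure ℝ, IsFiniteMeasure μ → Integrable R μ := fun μ _ =>
    Integrable.of_bound hRm.aestronglyMeasurable (2 * (δ * Λ))
      (Eventually.of_forall fun t => by rw [Real.norm_eq_abs]; exact hRb t)
  have hD : ∀ t, cdef J n ε δ (toUf J (Function.update v i₀ t)) G0 s c ≤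
      2 / Real.sqrt Λ + (δ * Λ)⁻¹ * R t := by
    intro t
    refine (hcd t).trans (le_of_eq ?_)
    congr 1
    have e1 : ∫ N' : FIdx J n → ℕ, gav1 (Ham G0 δ (toUf J (Function.update v i₀ t)) N')
        (fun σ' => cnt i₀ N' σ' / Λ) ∂P = (δ * Λ)⁻¹ * h t := by
      rw [hh, ← integral_const_mul]
      refine integral_congr_ae (Eventually.of_forall fun N => ?_)
      simp only []
      rw [hlav, ← gav1_smul]
      congr 1
      funext σ
      simp only [hb]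
      field_simp
    rw [e1]
    refine Eq.trans ?_ (integral_const_mul (δ * Λ)⁻¹
      (fun N => lav (a N) (b N) t (fun σ => |b N σ - h t|)))
    refine integral_congr_ae (Eventually.of_forall fun N => ?_)
    simp only []
    rw [hlav, ← gav1_smul]
    congr 1
    funext σ
    have e2 : cnt i₀ N σ / Λ - (δ * Λ)⁻¹ * h t = (δ * Λ)⁻¹ * (b N σ - h t) := by
      simp only [hb]
      rw [mul_sub]
      congr 1
      field_simp
    rw [e2, abs_mul, abs_of_pos (inv_pos.2 hδΛ)]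
  have hfin : IsFiniteMeasure ((volume : Measure ℝ).restrict (Set.Icc (0:ℝ) 1)) := inferInstance
  calc ∫ t in Set.Icc (0:ℝ) 1, cdef J n ε δ (toUf J (Function.update v i₀ t)) G0 s c
      ≤ ∫ t in Set.Icc (0:ℝ) 1, (2 / Real.sqrt Λ + (δ * Λ)⁻¹ * R t) := by
        refine integral_mono_of_nonneg (Eventually.of_forall fun t => (cdef_nonneg_le J n ε δ _ G0 s c).1)
          ((integrable_const _).add ((hRint _ hfin).const_mul _)) (Eventually.of_forall hD)
    _ = 2 / Real.sqrt Λ + (δ * Λ)⁻¹ * ∫ t in (0:ℝ)..1, R t := by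
        rw [intervalIntegral.integral_of_le zero_le_one, ← integral_Icc_eq_integral_Ioc,
          integral_add (integrable_const _) ((hRint _ hfin).const_mul _), integral_const_mul]
        simp
    _ ≤ _ := by
        have := mul_le_mul_of_nonneg_left havg (inv_pos.2 hδΛ).le
        linarith

/-- The final estimate on real numbers. -/
lemma final_bound {δ Λ K c : ℝ} (hδ : 0 < δ) (hδ' : δ ≤ 1 / 2) (hΛ : 1 ≤ Λ) (hK : 1 ≤ K) (hc : 0 ≤ c) :
    2 / Real.sqrt Λ + (δ * Λ)⁻¹ * (Real.sqrt (δ * Λ) +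
        4 * Real.sqrt (c * Λ * K ^ 2) / Λ ^ (-(1 / 4) : ℝ) + 4 * Λ ^ (-(1 / 4) : ℝ) * (δ * Λ)) ≤
      (7 + 4 * Real.sqrt c * K) * (1 + 1 / δ) * Λ ^ (-(1 / 4) : ℝ) := by
  obtain ⟨x, hx1, hx4⟩ : ∃ x : ℝ, 1 ≤ x ∧ x ^ 4 = Λ := by
    refine ⟨Λ ^ (1 / 4 : ℝ), Real.one_le_rpow hΛ (by norm_num), ?_⟩
    rw [← Real.rpow_natCast, ← Real.rpow_mul (by linarith)]
    norm_num
  have hx0 : 0 < x := by linarith
  subst hx4
  have e1 : (x ^ 4) ^ (-(1 / 4) : ℝ) = x⁻¹ := by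
    rw [← Real.rpow_natCast, ← Real.rpow_mul hx0.le, ← Real.rpow_neg_one]
    norm_num
  have e2 : Real.sqrt (x ^ 4) = x ^ 2 := by
    rw [show x ^ 4 = (x ^ 2) ^ 2 by ring, Real.sqrt_sq (by positivity)]
  have e3 : Real.sqrt (c * x ^ 4 * K ^ 2) = Real.sqrt c * (x ^ 2 * K) := by
    rw [show c * x ^ 4 * K ^ 2 = c * (x ^ 2 * K) ^ 2 by ring, Real.sqrt_mul hc,
      Real.sqrt_sq (by positivity)]
  have e4 : Real.sqrt (δ * x ^ 4) = Real.sqrt δ * x ^ 2 := by
    rw [Real.sqrt_mul hδ.le, e2]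
  rw [e1, e2, e3, e4]
  have hs : Real.sqrt δ ≤ 1 := by
    rw [Real.sqrt_le_one]; linarith
  have hs0 := Real.sqrt_nonneg δ
  have hc0 := Real.sqrt_nonneg c
  have h1 : 2 / x ^ 2 ≤ 2 * x⁻¹ := by
    rw [div_le_iff₀ (by positivity)]
    have : 2 * x⁻¹ * x ^ 2 = 2 * x := by field_simp
    rw [this]; linarith
  have h2 : (δ * x ^ 4)⁻¹ * (Real.sqrt δ * x ^ 2) ≤ (1 / δ) * x⁻¹ := by
    have : (δ * x ^ 4)⁻¹ * (Real.sqrt δ * x ^ 2) = (1 / δ) * (Real.sqrt δ / x ^ 2) := by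
      field_simp
    rw [this]
    refine mul_le_mul_of_nonneg_left ?_ (by positivity)
    rw [div_le_iff₀ (by positivity)]
    have : x⁻¹ * x ^ 2 = x := by field_simp
    rw [this]; linarith
  have h3 : (δ * x ^ 4)⁻¹ * (4 * (Real.sqrt c * (x ^ 2 * K)) / x⁻¹) = (1 / δ) * (4 * Real.sqrt c * K) * x⁻¹ := by
    field_simp
  have h4 : (δ * x ^ 4)⁻¹ * (4 * x⁻¹ * (δ * x ^ 4)) = 4 * x⁻¹ := by
    field_simp
  rw [mul_add, mul_add, h3, h4]
  have h5 : 0 ≤ (1 / δ) * x⁻¹ := by positivity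
  have h6 : 0 ≤ 4 * Real.sqrt c * K * x⁻¹ := by positivity
  have h7 : 0 ≤ x⁻¹ := by positivity
  nlinarith

open Classical in
lemma conc_avg' (J : Finset Species) (n : ℕ) (G0 : Cf n → ℝ) (ε : ℝ≥0) (δ : ℝ)
    (hn : 1 ≤ n) (hδ : 0 < δ) (hδ' : δ ≤ 1 / 2) (hΛ : 1 ≤ (ε : ℝ) * n) (s : Species) (hs : s ∈ J)
    (c : s.Cfg) : ∫ v, cdef J n ε δ (toUf J v) G0 s c ∂(unifU J) ≤
      (7 + 4 * Real.sqrt (J.card : ℝ) * KJ J) * (1 + 1 / δ) * ((ε : ℝ) * n) ^ (-(1 / 4) : ℝ) := by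
  have hΛ0 : 0 < (ε : ℝ) * n := by linarith
  have hprob : IsProbabilityMeasure ((volume : Measure ℝ).restrict (Set.Icc (0:ℝ) 1)) :=
    ⟨by simp⟩
  refine integral_le_of_update (fun _ : UIdx J => (volume : Measure ℝ).restrict (Set.Icc (0:ℝ) 1))
    ⟨⟨s, hs⟩, c⟩ (fun v => cdef J n ε δ (toUf J v) G0 s c) (cdef_measurable J n ε δ G0 s c)
    ⟨1, fun v => ?_⟩ _ ?_
  · have := cdef_nonneg_le J n ε δ (toUf J v) G0 s c
    rw [abs_of_nonneg this.1]
    exact this.2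
  · have hae : ∀ᵐ v ∂(Measure.pi (fun _ : UIdx J => (volume : Measure ℝ).restrict (Set.Icc (0:ℝ) 1))),
        ∀ i, v i ∈ Set.Icc (0:ℝ) 1 := by
      rw [ae_all_iff]
      intro i
      exact (measurePreserving_eval (fun _ : UIdx J => (volume : Measure ℝ).restrict
        (Set.Icc (0:ℝ) 1)) i).quasiMeasurePreserving.ae (ae_restrict_mem measurableSet_Icc)
    filter_upwards [hae] with v hv
    have hy : 0 < ((ε : ℝ) * n) ^ (-(1 / 4) : ℝ) := Real.rpow_pos_of_pos hΛ0 _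
    have hy1 : ((ε : ℝ) * n) ^ (-(1 / 4) : ℝ) ≤ 1 := Real.rpow_le_one_of_one_le_of_nonpos hΛ (by norm_num)
    have h1 := (cdef_avg_one G0 δ hδ hδ' v hv ε hn hΛ0 s hs c _ hy hy1).trans
      (final_bound hδ hδ' hΛ (one_le_KJ J) (Nat.cast_nonneg _))
    convert! h1

end cnt

end ConcC

/-- CONCENTRATION. For every `J` there is `C` such that for all `n, G0, ε, δ ∈ (0, 1/2]` with `Λ = ε n ≥ 1`:
`∫ cdef du ≤ C (1 + 1/δ) Λ^{-1/4}`.
PROOF. Fix `(s,c)`, freeze all the parameters except `v = u_s(c)` (Fubini: the law `unifU` is a product; the other ones are in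
`[0,1]` a.e.). With `A_σ = Σ_e N_{s,e} 1(σ_e = c)`, `T = tot s N`: `Ham = a_N(σ) + v b_N(σ)`, `b_N = δ A ∈ [0, δ T]`, `E T = Λ`.
`Var log Z ≤ Σ_a rate_a ‖fac_a‖² ≤ #J Λ K²`, `K = 2 max_{s ∈ J} max |log W_s| + 2` for `v ∈ [-1,2]` (`var_le`;
`|log Z(bump N a) - log Z(N)| ≤ ‖fac_a‖_∞`). `random_lse` with `Λ' = δ Λ`, `V = #J Λ K²`, `y = Λ^{-1/4}`; divide by `δ Λ`:
`∫_0^1 E<|A/Λ - E<A/Λ>|> dv ≤ (δ Λ)^{-1/2} + 4 √(#J) K /(δ Λ^{1/4}) + 4 Λ^{-1/4}`. Finally `|emp - A/Λ| ≤ |1 - T/Λ|`, expectation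
`≤ Λ^{-1/2}` (`dev_sum`), and replace the centering constant (`E|X - EX| ≤ 2 E|X - k|`). -/
theorem conc_avg (J : Finset Species) : ∃ C : ℝ, 0 ≤ C ∧ ∀ (n : ℕ) (G0 : Cf n → ℝ) (ε : ℝ≥0) (δ : ℝ),
    1 ≤ n → 0 < δ → δ ≤ 1 / 2 → 1 ≤ (ε : ℝ) * n → ∀ s ∈ J, ∀ c : s.Cfg,
    ∫ v, cdef J n ε δ (toUf J v) G0 s c ∂(unifU J) ≤ C * (1 + 1 / δ) * ((ε : ℝ) * n) ^ (-(1 / 4) : ℝ) := by
  refine ⟨7 + 4 * Real.sqrt (J.card : ℝ) * ConcC.KJ J, ?_, ?_⟩
  · have h1 := Real.sqrt_nonneg (J.card : ℝ)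
    have h2 := ConcC.one_le_KJ J
    positivity
  · intro n G0 ε δ hn hδ hδ' hΛ s hs c
    exact ConcC.conc_avg' J n G0 ε δ hn hδ hδ' hΛ s hs c

end Crest.Agent.MP
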