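import Crest.Agent.MP.FSys

/-!
# Module F, concentration: definitions
-/

set_option autoImplicit false

namespace Crest.Agent.MP

open MeasureTheory ProbabilityTheory Filter Topology
open scoped NNReal

/-- The finitely many parameters `u_s(c)`, `s ∈ J`. -/
abbrev UIdx (J : Finset Species) : Type := Σ s : {s // s ∈ J}, s.1.Cfg

open Classical in
/-- Extend by `0`. -/
noncomputable def toUf (J : Finset Species) (v : UIdx J → ℝ) : UPar :=
  fun s c => if h : s ∈ J then v ⟨⟨s, h⟩, c⟩ else 0

/-- The uniform law of the parameters. -/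
noncomputable def unifU (J : Finset Species) : Measure (UIdx J → ℝ) :=
  Measure.pi (fun _ => (volume : Measure ℝ).restrict (Set.Icc 0 1))

/-- Concentration defect of the one-replica empirical frequency of `c` over species `s`. -/
noncomputable def cdef (J : Finset Species) (n : ℕ) (ε : ℝ≥0) (δ : ℝ) (u : UPar) (G0 : Cf n → ℝ)
    (s : Species) (c : s.Cfg) : ℝ :=
  ∫ N, gav1 (Ham G0 δ u N) (fun σ =>
    |emp N (fun _ => σ) s (rg 1) (fun _ => c)
      - ∫ N' : FIdx J n → ℕ, gav1 (Ham G0 δ u N') (fun σ' => emp N' (fun _ => σ') s (rg 1) (fun _ => c))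
          ∂(Po (frate J n ε))|) ∂(Po (frate J n ε))

end Crest.Agent.MP
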