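import Crest.Agent.MP.FBump

/-!
# Module F: exchangeability of the finite system
-/

set_option autoImplicit false

namespace Crest.Agent.MP

open MeasureTheory ProbabilityTheory Filter Topology
open scoped NNReal

lemma measurable_swapRep' (a b : ℕ) : Measurable (swapRep a b) :=
  measurable_pi_lambda _ (fun _ => measurable_pi_apply _)

lemma extR_swap {n L : ℕ} (σ : Fin L → Cf n) (a b : ℕ) (ha : a < L) (hb : b < L) :
    (fun l => extR σ (Equiv.swap a b l)) =
      extR (fun l : Fin L => σ (Equiv.swap ⟨a, ha⟩ ⟨b, hb⟩ l)) := by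
  funext l
  by_cases h1 : l = a
  · subst h1
    rw [Equiv.swap_apply_left]
    unfold extR
    rw [dif_pos hb, dif_pos ha]
    beta_reduce
    rw [Equiv.swap_apply_left]
  · by_cases h2 : l = b
    · subst h2
      rw [Equiv.swap_apply_right]
      unfold extR
      rw [dif_pos ha, dif_pos hb]
      beta_reduce
      rw [Equiv.swap_apply_right]
    · rw [Equiv.swap_apply_of_ne_of_ne h1 h2]
      unfold extR
      by_cases h3 : l < L
      · rw [dif_pos h3, dif_pos h3]
        beta_reduce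
        rw [Equiv.swap_apply_of_ne_of_ne]
        · intro h; exact h1 (congrArg Fin.val h)
        · intro h; exact h2 (congrArg Fin.val h)
      · rw [dif_neg h3, dif_neg h3]

lemma ker_swap (S : Sys) (a b : ℕ) (ha : a < S.L) (hb : b < S.L) (N : FIdx S.J S.n → ℕ)
    (s : Set Obs) (hs : MeasurableSet s) :
    S.ker N (swapRep a b ⁻¹' s) = S.ker N s := by
  have hs' : MeasurableSet (swapRep a b ⁻¹' s) := measurable_swapRep' a b hs
  unfold Sys.ker
  rw [Measure.finsetSum_apply, Measure.finsetSum_apply]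
  refine Fintype.sum_equiv (Equiv.arrowCongr (Equiv.swap (⟨a, ha⟩ : Fin S.L) ⟨b, hb⟩)
    (Equiv.refl (Cf S.n))) _ _ ?_
  intro σ
  have e1 : (Equiv.arrowCongr (Equiv.swap (⟨a, ha⟩ : Fin S.L) ⟨b, hb⟩)
      (Equiv.refl (Cf S.n))) σ = fun l => σ (Equiv.swap ⟨a, ha⟩ ⟨b, hb⟩ l) := by
    funext l
    simp [Equiv.arrowCongr_apply]
  rw [e1]
  rw [Measure.smul_apply, Measure.smul_apply, Measure.dirac_apply' _ hs', Measure.dirac_apply' _ hs]
  have e2 : ∏ l, gibbs (Ham S.G0 S.δ S.u N) (σ (Equiv.swap ⟨a, ha⟩ ⟨b, hb⟩ l)) =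
      ∏ l, gibbs (Ham S.G0 S.δ S.u N) (σ l) :=
    Equiv.prod_comp (Equiv.swap (⟨a, ha⟩ : Fin S.L) ⟨b, hb⟩)
      (fun l => gibbs (Ham S.G0 S.δ S.u N) (σ l))
  rw [e2]
  have e3 : swapRep a b (arr N (extR σ)) =
      arr N (extR (fun l : Fin S.L => σ (Equiv.swap ⟨a, ha⟩ ⟨b, hb⟩ l))) := by
    rw [swapRep_arr, extR_swap σ a b ha hb]
  have e4 : (swapRep a b ⁻¹' s).indicator (1 : Obs → ENNReal) (arr N (extR σ)) =
      s.indicator (1 : Obs → ENNReal)
        (arr N (extR (fun l : Fin S.L => σ (Equiv.swap ⟨a, ha⟩ ⟨b, hb⟩ l)))) := by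
    rw [← e3]
    rfl
  rw [e4]

/-- Exchangeability is exact for labels `< L`. -/
theorem exch_fin (S : Sys) (a b : ℕ) (ha : a < S.L) (hb : b < S.L) :
    MeasurePreserving (swapRep a b) S.law S.law := by
  refine ⟨measurable_swapRep' a b, ?_⟩
  have hk : AEMeasurable S.ker S.Pc := (Measurable.of_discrete (f := S.ker)).aemeasurable
  have hlaw : S.law = S.Pc.bind S.ker := rfl
  ext s hs
  rw [Measure.map_apply (measurable_swapRep' a b) hs, hlaw,
    Measure.bind_apply (measurable_swapRep' a b hs) hk, Measure.bind_apply hs hk]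
  exact lintegral_congr (fun N => ker_swap S a b ha hb N s hs)

end Crest.Agent.MP
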