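import Crest.Agent.MP.FBump2

/-!
# Module F: extension of inequalities from Lipschitz cylinder functions to measurable functions
-/

set_option autoImplicit false

namespace Crest.Agent.MP

open MeasureTheory ProbabilityTheory Filter Topology
open scoped NNReal

namespace Ext

variable {ι : Type*}

/-- Lipschitz cylinder functions on a cube -/
def LC (f : (ι → unitInterval) → ℝ) : Prop :=
  ∃ (F : Finset ι) (K : ℝ), 0 ≤ K ∧ ∀ x y, |f x - f y| ≤ K * ∑ i ∈ F, |(x i : ℝ) - (y i : ℝ)|

lemma sum_le_card (F : Finset ι) (x y : ι → unitInterval) :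
    ∑ i ∈ F, |(x i : ℝ) - (y i : ℝ)| ≤ F.card := by
  calc ∑ i ∈ F, |(x i : ℝ) - (y i : ℝ)| ≤ ∑ _i ∈ F, (1 : ℝ) := by
        refine Finset.sum_le_sum fun i _ => ?_
        rw [abs_le]
        have h1 := (x i).2
        have h2 := (y i).2
        rw [Set.mem_Icc] at h1 h2
        constructor <;> linarith
    _ = F.card := by simp

lemma LC.bdd {f : (ι → unitInterval) → ℝ} (hf : LC f) : ∃ C, 0 ≤ C ∧ ∀ x, |f x| ≤ C := by
  obtain ⟨F, K, hK, h⟩ := hf
  refine ⟨|f 0| + K * F.card, by positivity, fun x => ?_⟩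
  have h1 := h x 0
  have h2 : K * ∑ i ∈ F, |(x i : ℝ) - ((0 : ι → unitInterval) i : ℝ)| ≤ K * F.card :=
    mul_le_mul_of_nonneg_left (sum_le_card F x 0) hK
  have h3 : |f x| ≤ |f 0| + |f x - f 0| := by
    calc |f x| = |f 0 + (f x - f 0)| := by ring_nf
      _ ≤ _ := abs_add_le _ _
  linarith

lemma sum_mono_union [DecidableEq ι] (F G : Finset ι) (x y : ι → unitInterval) :
    ∑ i ∈ F, |(x i : ℝ) - (y i : ℝ)| ≤ ∑ i ∈ F ∪ G, |(x i : ℝ) - (y i : ℝ)| :=
  Finset.sum_le_sum_of_subset_of_nonneg Finset.subset_union_left fun _ _ _ => abs_nonneg _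

lemma sum_mono_union' [DecidableEq ι] (F G : Finset ι) (x y : ι → unitInterval) :
    ∑ i ∈ G, |(x i : ℝ) - (y i : ℝ)| ≤ ∑ i ∈ F ∪ G, |(x i : ℝ) - (y i : ℝ)| :=
  Finset.sum_le_sum_of_subset_of_nonneg Finset.subset_union_right fun _ _ _ => abs_nonneg _

lemma LC.add {f g : (ι → unitInterval) → ℝ} (hf : LC f) (hg : LC g) : LC (fun x => f x + g x) := by
  classical
  obtain ⟨F, K, hK, h⟩ := hf
  obtain ⟨G, L, hL, h'⟩ := hg
  refine ⟨F ∪ G, K + L, by positivity, fun x y => ?_⟩
  have h1 := h x y
  have h2 := h' x y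
  have h3 := mul_le_mul_of_nonneg_left (sum_mono_union F G x y) hK
  have h4 := mul_le_mul_of_nonneg_left (sum_mono_union' F G x y) hL
  have h5 : |f x + g x - (f y + g y)| ≤ |f x - f y| + |g x - g y| := by
    have : f x + g x - (f y + g y) = (f x - f y) + (g x - g y) := by ring
    rw [this]; exact abs_add_le _ _
  rw [add_mul]
  linarith

lemma LC.mul {f g : (ι → unitInterval) → ℝ} (hf : LC f) (hg : LC g) : LC (fun x => f x * g x) := by
  classical
  obtain ⟨C, hC, hfC⟩ := hf.bdd
  obtain ⟨D, hD, hgD⟩ := hg.bdd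
  obtain ⟨F, K, hK, h⟩ := hf
  obtain ⟨G, L, hL, h'⟩ := hg
  refine ⟨F ∪ G, K * D + C * L, by positivity, fun x y => ?_⟩
  set s := ∑ i ∈ F ∪ G, |(x i : ℝ) - (y i : ℝ)| with hs
  have hs0 : 0 ≤ s := Finset.sum_nonneg fun _ _ => abs_nonneg _
  have h1 : |f x - f y| ≤ K * s := (h x y).trans (mul_le_mul_of_nonneg_left (sum_mono_union F G x y) hK)
  have h2 : |g x - g y| ≤ L * s := (h' x y).trans (mul_le_mul_of_nonneg_left (sum_mono_union' F G x y) hL)
  have e : f x * g x - f y * g y = (f x - f y) * g x + f y * (g x - g y) := by ring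
  rw [e]
  calc |(f x - f y) * g x + f y * (g x - g y)| ≤ |(f x - f y) * g x| + |f y * (g x - g y)| := abs_add_le _ _
    _ = |f x - f y| * |g x| + |f y| * |g x - g y| := by rw [abs_mul, abs_mul]
    _ ≤ (K * s) * D + C * (L * s) := by
        refine add_le_add ?_ ?_
        · exact mul_le_mul h1 (hgD x) (abs_nonneg _) (by positivity)
        · exact mul_le_mul (hfC y) h2 (abs_nonneg _) hC
    _ = (K * D + C * L) * s := by ring

lemma LC.const (c : ℝ) : LC (fun _ : ι → unitInterval => c) :=
  ⟨∅, 0, le_refl _, fun x y => by simp⟩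

lemma LC.coord (i : ι) : LC (fun x : ι → unitInterval => (x i : ℝ)) :=
  ⟨{i}, 1, zero_le_one, fun x y => by simp⟩

/-- the subalgebra of Lipschitz cylinder functions -/
def alg (ι : Type*) : Subalgebra ℝ C(ι → unitInterval, ℝ) where
  carrier := {f | LC (fun x => f x)}
  mul_mem' := fun hf hg => hf.mul hg
  add_mem' := fun hf hg => hf.add hg
  algebraMap_mem' := fun r => LC.const r

lemma alg_sep (ι : Type*) : (alg ι).SeparatesPoints := by
  intro x y hxy
  obtain ⟨i, hi⟩ := Function.ne_iff.1 hxy
  refine ⟨fun x => (x i : ℝ), ⟨⟨fun x => (x i : ℝ), by fun_prop⟩, LC.coord i, rfl⟩, ?_⟩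
  intro h
  exact hi (Subtype.ext h)

/-- Stone–Weierstrass -/
theorem approx (f : (ι → unitInterval) → ℝ) (hf : Continuous f) (ε : ℝ) (hε : 0 < ε) :
    ∃ g : (ι → unitInterval) → ℝ, LC g ∧ Continuous g ∧ ∀ x, |g x - f x| < ε := by
  obtain ⟨g, hg⟩ := ContinuousMap.exists_mem_subalgebra_near_continuous_of_separatesPoints
    (alg ι) (alg_sep ι) f hf ε hε
  exact ⟨fun x => (g : C(ι → unitInterval, ℝ)) x, g.2, (g : C(ι → unitInterval, ℝ)).continuous, hg⟩

/-- clipping to `[-1,1]` -/
def clip (t : ℝ) : ℝ := max (-1) (min 1 t)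

lemma clip_abs (t : ℝ) : |clip t| ≤ 1 := by
  unfold clip
  rw [abs_le]
  exact ⟨le_max_left _ _, max_le (by norm_num) (min_le_left _ _)⟩

lemma clip_eq {t : ℝ} (h : |t| ≤ 1) : clip t = t := by
  unfold clip
  rw [abs_le] at h
  rw [min_eq_right h.2, max_eq_right h.1]

lemma clip_lip (s t : ℝ) : |clip s - clip t| ≤ |s - t| := by
  unfold clip
  calc |max (-1) (min 1 s) - max (-1) (min 1 t)| ≤ |min 1 s - min 1 t| := by
        have := abs_max_sub_max_le_max (-1) (min 1 s) (-1) (min 1 t)
        simpa using this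
    _ ≤ |s - t| := by
        have := abs_min_sub_min_le_max 1 s 1 t
        simpa using this

end Ext

/-- DENSITY. A bounded `Gσ m`-measurable function is an `L¹(P)` limit of Lipschitz cylinder functions of the replicas `< m`,
with the same bound.
PROOF. Let `X = {i : OIdx // labels < m} → [0,1]`, `π : Obs → X` the restriction; `Gσ m = comap π`, so `Φ = g ∘ π` with `g` measurable,
`|g| ≤ 1` (truncate). `X` is compact metrizable, so `g` is an `L¹(P.map π)` limit of continuous functions with values in `[-1,1]`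
(`Integrable.exists_boundedContinuous_integral_sub_le` + clipping); a continuous function on `X` is a uniform limit of polynomials in the
coordinates (Stone-Weierstrass), which are Lipschitz cylinder functions; rescale to keep the bound `1`. -/
theorem exists_lipCyl_approx (P : Measure Obs) [IsProbabilityMeasure P] (m : ℕ) (Φ : Obs → ℝ)
    (hΦ : Measurable[Gσ m] Φ) (hb : ∀ x, |Φ x| ≤ 1) (η : ℝ) (hη : 0 < η) :
    ∃ (F : Finset OIdx) (K : ℝ) (Ψ : Obs → ℝ), LipCyl m F K Ψ ∧ (∀ x, |Ψ x| ≤ 1) ∧ ∫ x, |Φ x - Ψ x| ∂P ≤ η := by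
  classical
  let I := {i : OIdx // ∀ j, i.2.2.1 j < m}
  let π : Obs → (I → unitInterval) := fun x i => x i.1
  have hπ : Measurable π := measurable_pi_lambda _ fun i => measurable_pi_apply _
  have hG : Gσ m = MeasurableSpace.comap π inferInstance := by
    unfold Gσ
    simp only [MeasurableSpace.pi, MeasurableSpace.comap_iSup, MeasurableSpace.comap_comp]
    rfl
  rw [hG] at hΦ
  obtain ⟨g, hg, hgΦ⟩ := hΦ.exists_eq_measurable_comp
  have hΦm : Measurable Φ := by rw [hgΦ]; exact hg.comp hπ
  have hint : Integrable Φ P := Integrable.of_bound hΦm.aestronglyMeasurable 1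
    (Filter.Eventually.of_forall fun x => by rw [Real.norm_eq_abs]; exact hb x)
  have hgint : Integrable g (P.map π) := by
    rw [integrable_map_measure hg.aestronglyMeasurable hπ.aemeasurable, ← hgΦ]
    exact hint
  have hprob : IsProbabilityMeasure (P.map π) := Measure.isProbabilityMeasure_map hπ.aemeasurable
  obtain ⟨h, hh1, hh2⟩ := hgint.exists_boundedContinuous_integral_sub_le (half_pos hη)
  obtain ⟨f, hf, hfc, hf2⟩ := Ext.approx (fun x => h x) h.continuous (η / 2) (half_pos hη)
  obtain ⟨F, K, hK, hF⟩ := hf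
  refine ⟨F.map (Function.Embedding.subtype _), K, fun x => Ext.clip (f (π x)), ⟨?_, hK, ?_⟩,
    fun x => Ext.clip_abs _, ?_⟩
  · intro i hi
    simp only [Finset.mem_map, Function.Embedding.subtype_apply] at hi
    obtain ⟨a, _, rfl⟩ := hi
    exact a.2
  · intro x y
    refine (Ext.clip_lip _ _).trans ((hF _ _).trans (le_of_eq ?_))
    rw [Finset.sum_map]
    rfl
  · have h1 : ∀ x, |Φ x - Ext.clip (f (π x))| ≤ ‖g (π x) - h (π x)‖ + η / 2 := by
      intro x
      have e1 : Φ x = Ext.clip (g (π x)) := by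
        have : Φ x = g (π x) := congrFun hgΦ x
        rw [← this, Ext.clip_eq (hb x)]
      rw [e1]
      refine (Ext.clip_lip _ _).trans ?_
      have e2 : g (π x) - f (π x) = (g (π x) - h (π x)) - (f (π x) - h (π x)) := by ring
      rw [e2, Real.norm_eq_abs]
      have := hf2 (π x)
      exact (abs_sub _ _).trans (by linarith)
    have hgi : Integrable (fun x => g x - h x) (P.map π) := hgint.sub hh2
    have h2 : Integrable (fun x => ‖g (π x) - h (π x)‖) P := by
      have := (integrable_map_measure hgi.aestronglyMeasurable hπ.aemeasurable).1 hgi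
      exact this.norm
    calc ∫ x, |Φ x - Ext.clip (f (π x))| ∂P ≤ ∫ x, (‖g (π x) - h (π x)‖ + η / 2) ∂P := by
          refine integral_mono_of_nonneg (Filter.Eventually.of_forall fun x => abs_nonneg _)
            (h2.add (integrable_const _)) (Filter.Eventually.of_forall h1)
      _ = ∫ x, ‖g (π x) - h (π x)‖ ∂P + η / 2 := by
          rw [integral_add h2 (integrable_const _)]; simp
      _ = ∫ y, ‖g y - h y‖ ∂(P.map π) + η / 2 := by
          rw [integral_map hπ.aemeasurable hgi.norm.aestronglyMeasurable]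
      _ ≤ η := by linarith

/-- If two bounded continuous functions have the same integral against all Lipschitz cylinder functions they are a.e. equal. -/
theorem ae_eq_of_lipCyl (P : Measure Obs) [IsProbabilityMeasure P] (f g : Obs → ℝ) (hf : Continuous f) (hg : Continuous g)
    (h : ∀ (m : ℕ) (F : Finset OIdx) (K : ℝ) (Φ : Obs → ℝ), LipCyl m F K Φ → (∀ x, |Φ x| ≤ 1) →
      ∫ x, Φ x * f x ∂P = ∫ x, Φ x * g x ∂P) : f =ᵐ[P] g := by
  classical
  let d : Obs → ℝ := fun x => f x - g x
  have hd : Continuous d := hf.sub hg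
  -- bounded
  have bdd : ∀ u : Obs → ℝ, Continuous u → ∃ C, 0 < C ∧ ∀ x, |u x| ≤ C := by
    intro u hu
    obtain ⟨C, hC⟩ := isCompact_univ.exists_bound_of_continuousOn (f := u) hu.continuousOn
    refine ⟨max C 1, by positivity, fun x => ?_⟩
    have := hC x (Set.mem_univ x)
    rw [Real.norm_eq_abs] at this
    exact this.trans (le_max_left _ _)
  have hint : ∀ u : Obs → ℝ, Continuous u → Integrable u P := by
    intro u hu
    obtain ⟨C, _, hC⟩ := bdd u hu
    exact Integrable.of_bound hu.aestronglyMeasurable C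
      (Filter.Eventually.of_forall fun x => by rw [Real.norm_eq_abs]; exact hC x)
  obtain ⟨D, hD, hdD⟩ := bdd d hd
  -- orthogonality to all Lipschitz cylinder functions
  have orth : ∀ u : Obs → ℝ, Ext.LC u → Continuous u → ∫ x, u x * d x ∂P = 0 := by
    intro u hu huc
    obtain ⟨C, hC, huC⟩ := bdd u huc
    obtain ⟨F, K, hK, hF⟩ := hu
    -- label bound
    obtain ⟨m, hm⟩ : ∃ m : ℕ, ∀ i ∈ F, ∀ j, i.2.2.1 j < m := by
      let b : OIdx → ℕ := fun i => (Finset.univ.sup i.2.2.1) + 1
      refine ⟨F.sup b, fun i hi j => ?_⟩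
      have h1 : i.2.2.1 j ≤ Finset.univ.sup i.2.2.1 := Finset.le_sup (Finset.mem_univ j)
      have h2 : b i ≤ F.sup b := Finset.le_sup hi
      have h3 : b i = (Finset.univ.sup i.2.2.1) + 1 := rfl
      omega
    have hL : LipCyl m F (K / C) (fun x => u x / C) := by
      refine ⟨hm, by positivity, fun x y => ?_⟩
      have : u x / C - u y / C = (u x - u y) / C := by ring
      rw [this, abs_div, abs_of_pos hC, div_mul_eq_mul_div]
      exact div_le_div_of_nonneg_right (hF x y) hC.le
    have h1 := h m F (K / C) (fun x => u x / C) hL (fun x => by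
      rw [abs_div, abs_of_pos hC, div_le_one hC]; exact huC x)
    have h2 : ∫ x, u x / C * d x ∂P = 0 := by
      have e : (fun x => u x / C * d x) = fun x => u x / C * f x - u x / C * g x := by
        funext x; simp only [d]; ring
      have i1 : Integrable (fun x => u x / C * f x) P := hint _ ((huc.div_const C).mul hf)
      have i2 : Integrable (fun x => u x / C * g x) P := hint _ ((huc.div_const C).mul hg)
      rw [e, integral_sub i1 i2, h1, sub_self]
    have h3 : (fun x => u x * d x) = fun x => C * (u x / C * d x) := by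
      funext x; field_simp
    rw [h3, integral_const_mul, h2, mul_zero]
  have hsq : ∫ x, d x * d x ∂P = 0 := by
    have h0 : 0 ≤ ∫ x, d x * d x ∂P := integral_nonneg fun x => mul_self_nonneg _
    refine le_antisymm (le_of_forall_pos_le_add fun ε hε => ?_) h0
    obtain ⟨u, hu, huc, hu2⟩ := Ext.approx d hd (ε / D) (div_pos hε hD)
    have e : ∫ x, d x * d x ∂P = ∫ x, (d x - u x) * d x ∂P := by
      have e1 : (fun x => (d x - u x) * d x) = fun x => d x * d x - u x * d x := by
        funext x; ring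
      have i1 : Integrable (fun x => d x * d x) P := hint _ (hd.mul hd)
      have i2 : Integrable (fun x => u x * d x) P := hint _ (huc.mul hd)
      rw [e1, integral_sub i1 i2, orth u hu huc, sub_zero]
    rw [e, zero_add]
    calc ∫ x, (d x - u x) * d x ∂P ≤ ∫ _x, ε ∂P := by
          refine integral_mono (hint _ ((hd.sub huc).mul hd)) (integrable_const _) fun x => ?_
          have h1 := (hu2 x).le
          rw [abs_sub_comm] at h1
          calc (d x - u x) * d x ≤ |(d x - u x) * d x| := le_abs_self _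
            _ = |d x - u x| * |d x| := abs_mul _ _
            _ ≤ (ε / D) * D := mul_le_mul h1 (hdD x) (abs_nonneg _) (by positivity)
            _ = ε := by field_simp
      _ = ε := by simp
  have hz : (fun x => d x * d x) =ᵐ[P] 0 :=
    (integral_eq_zero_iff_of_nonneg (fun x => mul_self_nonneg _) (hint _ (hd.mul hd))).1 hsq
  filter_upwards [hz] with x hx
  have : d x = 0 := by simpa using hx
  exact sub_eq_zero.1 this

end Crest.Agent.MP
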