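import Crest.Agent.MP.FBump
import Crest.Agent.MP.FConcDef

/-!
# Module F: the functional of the finite systems
-/

set_option autoImplicit false

namespace Crest.Agent.MP

open MeasureTheory ProbabilityTheory Filter Topology
open scoped NNReal
open Crest.ProbabilityR.Diluted

/-- `E log <ψ>` with `ψ` evaluated at uniformly random sites. -/
noncomputable def LEf (J : Finset Species) (n : ℕ) (ε : ℝ≥0) (δ : ℝ) (u : UPar) (G0 : Cf n → ℝ)
    (Lab : Type) [Fintype Lab] [DecidableEq Lab] (ψ : (Lab → Bool) → ℝ) : ℝ :=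
  (∑ e : Lab → Fin n, ∫ N : FIdx J n → ℕ, Real.log (gav1 (Ham G0 δ u N) (fun σ => ψ (fun ℓ => σ (e ℓ))))
    ∂(Po (frate J n ε))) / (n : ℝ) ^ (Fintype.card Lab)

/-- The functional `𝔸` of the finite system. -/
noncomputable def AA (p : ℕ) (α : ℝ) (μ : FinLaw (Inter p)) (ν : FinLaw ℝ)
    (J : Finset Species) (n : ℕ) (ε : ℝ≥0) (δ : ℝ) (u : UPar) (G0 : Cf n → ℝ) : ℝ :=
  Real.log 2 +
    (∑' k : ℕ, poissonWeight (α * p) k *
      μ.Epow k (fun θs => ν.E (fun h =>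
        siteC h θs + LEf J n ε δ u G0 (Fin k × Fin (p - 1)) (siteψ h θs)))) -
    α * (p - 1 : ℝ) * μ.E (fun θ => supNorm θ + LEf J n ε δ u G0 (Fin p) (edgeψ θ))

namespace FFunA

lemma abs_le_supNorm {p : ℕ} (θ : Inter p) (s : Fin p → Bool) : |θ s| ≤ supNorm θ :=
  le_ciSup (f := fun s : Fin p → Bool => |θ s|) (Set.finite_range _).bddAbove s

lemma abs_spinVal (b : Bool) : |spinVal b| = 1 := by
  unfold spinVal
  split_ifs <;> simp

lemma gav1_mono {n : ℕ} (H : Cf n → ℝ) {f g : Cf n → ℝ} (h : ∀ σ, f σ ≤ g σ) :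
    gav1 H f ≤ gav1 H g := by
  unfold gav1
  exact Finset.sum_le_sum fun σ _ => mul_le_mul_of_nonneg_left (h σ) (gibbs_nonneg H σ)

lemma gav1_const {n : ℕ} (H : Cf n → ℝ) (c : ℝ) : gav1 H (fun _ => c) = c := by
  unfold gav1
  rw [← Finset.sum_mul, sum_gibbs, one_mul]

lemma gav1_one_sub {n : ℕ} (H : Cf n → ℝ) (f : Cf n → ℝ) :
    gav1 H (fun σ => 1 - f σ) = 1 - gav1 H f := by
  unfold gav1
  have h1 : ∀ σ ∈ Finset.univ, gibbs H σ * (1 - f σ) = gibbs H σ - gibbs H σ * f σ :=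
    fun σ _ => by ring
  rw [Finset.sum_congr rfl h1, Finset.sum_sub_distrib, sum_gibbs]

lemma log_gav1_mem {n : ℕ} (H : Cf n → ℝ) {f : Cf n → ℝ} {κ : ℝ} (hκ : 0 < κ)
    (hf : ∀ σ, κ ≤ f σ ∧ f σ ≤ 1) :
    Real.log κ ≤ Real.log (gav1 H f) ∧ Real.log (gav1 H f) ≤ 0 := by
  have h1 : κ ≤ gav1 H f := by
    have := gav1_mono H (fun σ => (hf σ).1)
    rwa [gav1_const] at this
  have h2 : gav1 H f ≤ 1 := by
    have := gav1_mono H (fun σ => (hf σ).2)
    rwa [gav1_const] at this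
  exact ⟨Real.log_le_log hκ h1, Real.log_nonpos (hκ.le.trans h1) h2⟩

end FFunA

open FFunA

/-- `0 < siteψ ≤ 1` with an explicit lower bound. -/
theorem siteψ_mem {p k : ℕ} (h : ℝ) (θs : Fin k → Inter p) (c : Fin k × Fin (p - 1) → Bool) :
    Real.exp (-2 * siteC h θs) ≤ siteψ h θs c ∧ siteψ h θs c ≤ 1 := by
  have key : ∀ ε : Bool, |h * spinVal ε +
      (∑ j : Fin k, θs j (fun ℓ => if hℓ : ℓ.val < p - 1 then c (j, ⟨ℓ.val, hℓ⟩) else ε))| ≤
      siteC h θs := by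
    intro ε
    unfold siteC
    refine (abs_add_le _ _).trans (add_le_add ?_ ?_)
    · rw [abs_mul, abs_spinVal, mul_one]
    · exact (Finset.abs_sum_le_sum_abs _ _).trans
        (Finset.sum_le_sum fun j _ => abs_le_supNorm (θs j) _)
  have k1 := fun ε => (abs_le.1 (key ε))
  unfold siteψ
  constructor
  · have hle : ∀ ε ∈ (Finset.univ : Finset Bool), Real.exp (-2 * siteC h θs) ≤
        Real.exp (h * spinVal ε +
          (∑ j : Fin k, θs j (fun ℓ => if hℓ : ℓ.val < p - 1 then c (j, ⟨ℓ.val, hℓ⟩) else ε)) -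
          siteC h θs) := by
      intro ε _
      refine Real.exp_le_exp.2 ?_
      linarith [(k1 ε).1]
    have := Finset.sum_le_sum hle
    rw [Finset.sum_const, Finset.card_univ, Fintype.card_bool, nsmul_eq_mul] at this
    push_cast at this
    linarith
  · have hle : ∀ ε ∈ (Finset.univ : Finset Bool), Real.exp (h * spinVal ε +
          (∑ j : Fin k, θs j (fun ℓ => if hℓ : ℓ.val < p - 1 then c (j, ⟨ℓ.val, hℓ⟩) else ε)) -
          siteC h θs) ≤ 1 := by
      intro ε _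
      rw [Real.exp_le_one_iff]
      linarith [(k1 ε).2]
    have := Finset.sum_le_sum hle
    rw [Finset.sum_const, Finset.card_univ, Fintype.card_bool, nsmul_eq_mul] at this
    push_cast at this
    linarith

theorem edgeψ_mem {p : ℕ} (θ : Inter p) (c : Fin p → Bool) :
    Real.exp (-2 * supNorm θ) ≤ edgeψ θ c ∧ edgeψ θ c ≤ 1 := by
  have h1 := abs_le.1 (abs_le_supNorm θ c)
  unfold edgeψ
  refine ⟨Real.exp_le_exp.2 (by linarith [h1.1]), Real.exp_le_one_iff.2 (by linarith [h1.2])⟩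

/-- `-log(1/κ) ≤ LEf ≤ 0` for `κ ≤ ψ ≤ 1`. -/
theorem LE_mem {J : Finset Species} {n : ℕ} (hn : 1 ≤ n) {ε : ℝ≥0} {δ : ℝ} {u : UPar} {G0 : Cf n → ℝ}
    {Lab : Type} [Fintype Lab] [DecidableEq Lab] {ψ : (Lab → Bool) → ℝ} {κ : ℝ} (hκ : 0 < κ)
    (hψ : ∀ c, κ ≤ ψ c ∧ ψ c ≤ 1) :
    Real.log κ ≤ LEf J n ε δ u G0 Lab ψ ∧ LEf J n ε δ u G0 Lab ψ ≤ 0 := by
  have key : ∀ e : Lab → Fin n, Real.log κ ≤ ∫ N : FIdx J n → ℕ,
      Real.log (gav1 (Ham G0 δ u N) (fun σ => ψ (fun ℓ => σ (e ℓ)))) ∂(Po (frate J n ε)) ∧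
      ∫ N : FIdx J n → ℕ,
      Real.log (gav1 (Ham G0 δ u N) (fun σ => ψ (fun ℓ => σ (e ℓ)))) ∂(Po (frate J n ε)) ≤ 0 := by
    intro e
    have hb : ∀ N : FIdx J n → ℕ, Real.log κ ≤
        Real.log (gav1 (Ham G0 δ u N) (fun σ => ψ (fun ℓ => σ (e ℓ)))) ∧
        Real.log (gav1 (Ham G0 δ u N) (fun σ => ψ (fun ℓ => σ (e ℓ)))) ≤ 0 := fun N =>
      log_gav1_mem _ hκ fun σ => hψ _
    have hint : Integrable (fun N : FIdx J n → ℕ =>
        Real.log (gav1 (Ham G0 δ u N) (fun σ => ψ (fun ℓ => σ (e ℓ))))) (Po (frate J n ε)) := by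
      refine Integrable.of_bound (C := -Real.log κ)
        (measurable_of_countable _).aestronglyMeasurable (Filter.Eventually.of_forall fun N => ?_)
      rw [Real.norm_eq_abs, abs_le]
      exact ⟨by linarith [(hb N).1], by linarith [(hb N).1, (hb N).2]⟩
    constructor
    · have := integral_mono (μ := Po (frate J n ε)) (integrable_const (Real.log κ)) hint
        (fun N => (hb N).1)
      simpa using this
    · exact integral_nonpos fun N => (hb N).2
  have hn0 : (0 : ℝ) < (n : ℝ) ^ Fintype.card Lab := by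
    have : (0 : ℝ) < n := by exact_mod_cast hn
    positivity
  have hcard : ((Finset.univ : Finset (Lab → Fin n)).card : ℝ) = (n : ℝ) ^ Fintype.card Lab := by
    rw [Finset.card_univ, Fintype.card_fun, Fintype.card_fin]
    push_cast
    rfl
  unfold LEf
  constructor
  · rw [le_div_iff₀ hn0]
    have := Finset.sum_le_sum (fun (e : Lab → Fin n) (_ : e ∈ Finset.univ) => (key e).1)
    rw [Finset.sum_const, nsmul_eq_mul, hcard] at this
    linarith
  · exact div_nonpos_of_nonpos_of_nonneg (Finset.sum_nonpos fun e _ => (key e).2) hn0.le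

/-- `log <ψ> = - Σ_{m ≥ 1} (1/m) <(1-ψ)>^m` and `<(1-ψ)>^m = < Π_{l<m} (1-ψ)(σ_l) >` (`gav_prod_lt`). -/
theorem log_gav1 {n : ℕ} (H : Cf n → ℝ) (f : Cf n → ℝ) {κ : ℝ} (hκ : 0 < κ) (hf : ∀ σ, κ ≤ f σ ∧ f σ ≤ 1) :
    HasSum (fun m : ℕ => -(1 / ((m : ℝ) + 1)) * gav1 H (fun σ => 1 - f σ) ^ (m + 1))
      (Real.log (gav1 H f)) := by
  have h1 : κ ≤ gav1 H f := by
    have := gav1_mono H (fun σ => (hf σ).1)
    rwa [gav1_const] at this
  have h2 : gav1 H f ≤ 1 := by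
    have := gav1_mono H (fun σ => (hf σ).2)
    rwa [gav1_const] at this
  have h3 : |1 - gav1 H f| < 1 := by
    rw [abs_lt]; constructor <;> linarith
  have h4 := (Real.hasSum_pow_div_log_of_abs_lt_one h3).neg
  rw [gav1_one_sub]
  have h5 : - -Real.log (1 - (1 - gav1 H f)) = Real.log (gav1 H f) := by
    rw [neg_neg]; congr 1; ring
  rw [h5] at h4
  refine h4.congr_fun ?_
  intro m
  rw [neg_mul, one_div, inv_mul_eq_div]

end Crest.Agent.MP
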