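import Crest.Agent.MP.FInsert
import Crest.Agent.MP.FConcDef

/-!
# Module F, limit A: good sequences, compactness
-/

set_option autoImplicit false

namespace Crest.Agent.MP

open MeasureTheory ProbabilityTheory Filter Topology
open scoped NNReal

/-- A good sequence of finite systems. -/
structure GoodSeq (S : ℕ → Sys) : Prop where
  Λ : Tendsto (fun j => (S j).Λ) atTop atTop
  L : Tendsto (fun j => (S j).L) atTop atTop
  δ : Tendsto (fun j => ((S j).L : ℝ) * (S j).δ) atTop (𝓝 0)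
  J : ∀ s : Species, ∀ᶠ j in atTop, s ∈ (S j).J
  conc : ∀ (s : Species) (c : s.Cfg),
    Tendsto (fun j => cdef (S j).J (S j).n (S j).ε (S j).δ (S j).u (S j).G0 s c) atTop (𝓝 0)

/-- the errors tend to `0` -/
lemma GoodSeq.err {S : ℕ → Sys} (hS : GoodSeq S) (ℓ : ℝ) : Tendsto (fun j => (S j).err ℓ) atTop (𝓝 0) := by
  have h1 : Tendsto (fun j => (Real.sqrt (S j).Λ)⁻¹) atTop (𝓝 0) :=
    (Real.tendsto_sqrt_atTop.comp hS.Λ).inv_tendsto_atTop
  have h2 : Tendsto (fun j => ℓ / (S j).Λ) atTop (𝓝 0) :=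
    tendsto_const_nhds.div_atTop hS.Λ
  have h3 : Tendsto (fun j => 4 * (((S j).L : ℝ) * (S j).δ)) atTop (𝓝 (4 * 0)) :=
    hS.δ.const_mul 4
  have h4 := (h1.add h2).add h3
  simp only [mul_zero, add_zero] at h4
  refine h4.congr fun j => ?_
  unfold Sys.err
  ring

/-- An ultrafilter limit of the laws exists (compactness of `ProbabilityMeasure Obs`). -/
theorem exists_limit_law (S : ℕ → Sys) : ∃ (U : Ultrafilter ℕ) (P : Measure Obs), (U : Filter ℕ) ≤ atTop ∧
    IsProbabilityMeasure P ∧ ∀ Φ : Obs → ℝ, Continuous Φ →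
      Tendsto (fun j => ∫ x, Φ x ∂(S j).law) U (𝓝 (∫ x, Φ x ∂P)) := by
  let f : ℕ → ProbabilityMeasure Obs := fun j => ⟨(S j).law, (S j).law_prob⟩
  let U : Ultrafilter ℕ := Ultrafilter.of atTop
  obtain ⟨P, -, hP⟩ := (isCompact_univ (X := ProbabilityMeasure Obs)).ultrafilter_le_nhds
    (U.map f) (by simp)
  refine ⟨U, (P : Measure Obs), Ultrafilter.of_le _, inferInstance, fun Φ hΦ => ?_⟩
  have ht : Tendsto f U (𝓝 P) := hP
  rw [ProbabilityMeasure.tendsto_iff_forall_integral_tendsto] at ht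
  exact ht (BoundedContinuousFunction.mkOfCompact ⟨Φ, hΦ⟩)

end Crest.Agent.MP
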