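import Crest.Agent.MP.FInsert

/-!
# Module F: products of plain-site laws
-/

set_option autoImplicit false

namespace Crest.Agent.MP

open MeasureTheory ProbabilityTheory Filter Topology
open scoped NNReal

/-! ### auxiliary -/

/-- telescoping for products of numbers in `[0,1]`, summed over all configurations. -/
lemma plain_sum_prod {V : Type} [Fintype V] {q : ℕ} (D : V → ℝ) (h1 : ∑ v, D v = 1) :
    ∑ c : Fin q → V, ∏ ℓ, D (c ℓ) = 1 := by
  classical
  have h := Finset.prod_univ_sum (fun _ : Fin q => (Finset.univ : Finset V)) (fun _ v => D v)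
  rw [Fintype.piFinset_univ] at h
  rw [← h]
  simp [h1]

lemma plain_sum_cons {V : Type} [Fintype V] {q : ℕ} (F : (Fin (q + 1) → V) → ℝ) :
    ∑ c : Fin (q + 1) → V, F c = ∑ v : V, ∑ c : Fin q → V, F (Fin.cons v c) := by
  rw [← (Fin.consEquiv (fun _ : Fin (q + 1) => V)).sum_comp F, Fintype.sum_prod_type]
  rfl

lemma plain_tv {V : Type} [Fintype V] (D D' : V → ℝ) (h0 : ∀ v, 0 ≤ D v) (h1 : ∑ v, D v = 1)
    (h0' : ∀ v, 0 ≤ D' v) (h1' : ∑ v, D' v = 1) (q : ℕ) :
    ∑ c : Fin q → V, |(∏ ℓ, D' (c ℓ)) - ∏ ℓ, D (c ℓ)| ≤ q * ∑ v, |D' v - D v| := by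
  induction q with
  | zero => simp
  | succ q ih =>
    rw [plain_sum_cons]
    calc ∑ v : V, ∑ c : Fin q → V,
          |(∏ ℓ, D' ((Fin.cons v c : Fin (q + 1) → V) ℓ)) - ∏ ℓ, D ((Fin.cons v c : Fin (q + 1) → V) ℓ)|
        ≤ ∑ v : V, ∑ c : Fin q → V, (|D' v - D v| * (∏ ℓ, D' (c ℓ)) +
            D v * |(∏ ℓ, D' (c ℓ)) - ∏ ℓ, D (c ℓ)|) := by
          refine Finset.sum_le_sum fun v _ => Finset.sum_le_sum fun c _ => ?_
          rw [Fin.prod_univ_succ, Fin.prod_univ_succ]
          simp only [Fin.cons_zero, Fin.cons_succ]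
          have e : D' v * (∏ ℓ, D' (c ℓ)) - D v * ∏ ℓ, D (c ℓ) =
              (D' v - D v) * (∏ ℓ, D' (c ℓ)) + D v * ((∏ ℓ, D' (c ℓ)) - ∏ ℓ, D (c ℓ)) := by ring
          rw [e]
          refine (abs_add_le _ _).trans ?_
          rw [abs_mul, abs_mul, abs_of_nonneg (Finset.prod_nonneg fun ℓ _ => h0' (c ℓ)),
            abs_of_nonneg (h0 v)]
      _ = (∑ v, |D' v - D v|) * 1 + 1 * ∑ c : Fin q → V, |(∏ ℓ, D' (c ℓ)) - ∏ ℓ, D (c ℓ)| := by
          simp only [Finset.sum_add_distrib, ← Finset.mul_sum, ← Finset.sum_mul]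
          rw [plain_sum_prod D' h1', h1]
      _ ≤ ((q + 1 : ℕ) : ℝ) * ∑ v, |D' v - D v| := by
          push_cast
          linarith

/-- The plain-site configurations are `Fin m → Bool`. -/
def plainEquiv (m : ℕ) : (Fin m → Bool) ≃ (Fin m → Species.plain.Cfg) :=
  Equiv.piCongrRight (fun _ => (Equiv.funUnique (Fin 1) Bool).symm)

lemma plainEquiv_apply (m : ℕ) (c : Fin m → Bool) :
    plainEquiv m c = fun j _ => c j := rfl

lemma plainEquiv_symm_apply (m : ℕ) (c : Fin m → Species.plain.Cfg) :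
    (plainEquiv m).symm c = fun j => c j (0 : Fin 1) := rfl

lemma Sys.err_mono (S : Sys) {a b : ℝ} (h : a ≤ b) : S.err a ≤ S.err b := by
  unfold Sys.err
  have := S.Λ_pos
  gcongr

lemma Sys.err_nonneg (S : Sys) {a : ℝ} (h : 0 ≤ a) : 0 ≤ S.err a := by
  unfold Sys.err
  have h1 := S.Λ_pos
  have h2 := S.hδ
  positivity

lemma Sys.addG_plain (S : Sys) (e : Fin Species.plain.k → Fin S.n) :
    S.addG (lw Species.plain e) = S := by
  have h : lw Species.plain e = fun _ : Cf S.n => 0 := by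
    funext σ
    unfold lw
    simp [Species.plain]
  rw [h]
  cases S
  simp [Sys.addG]

lemma Dn_arr {J : Finset Species} {n : ℕ} (N : FIdx J n → ℕ) (σ : ℕ → Cf n) (m : ℕ) (c : Fin m → Bool) :
    Dn m (arr N σ) c = emp N σ Species.plain (rg m) (plainEquiv m c) := rfl

lemma Dn_arr_nonneg {J : Finset Species} {n : ℕ} (N : FIdx J n → ℕ) (σ : ℕ → Cf n) (m : ℕ) (c : Fin m → Bool) :
    0 ≤ Dn m (arr N σ) c := (emp_mem N σ Species.plain (rg m) (plainEquiv m c)).1

lemma Dn_arr_sum {J : Finset Species} {n : ℕ} (N : FIdx J n → ℕ) (σ : ℕ → Cf n) (m : ℕ) :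
    ∑ c : Fin m → Bool, Dn m (arr N σ) c = 1 := by
  rw [← emp_sum N σ Species.plain (rg m), ← (plainEquiv m).sum_comp]
  rfl

lemma Dn_arr_bump {J : Finset Species} {n : ℕ} (hp : Species.plain ∈ J) (N : FIdx J n → ℕ)
    (e : Fin Species.plain.k → Fin n) (σ : ℕ → Cf n) (m : ℕ) :
    ∑ c : Fin m → Bool, |Dn m (arr (bump N ⟨⟨Species.plain, hp⟩, e⟩) σ) c - Dn m (arr N σ) c| ≤
      2 / ((tot Species.plain N : ℝ) + 1) := by
  refine le_trans (le_of_eq ?_) (emp_bump_tv Species.plain hp N e σ Species.plain (rg m))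
  rw [← (plainEquiv m).sum_comp]
  rfl

/-- The general statement for `Lab = Fin q`. -/
lemma plain_fin_aux (S : Sys) (hp : Species.plain ∈ S.J) (m : ℕ) (ℓ : ℝ) (hℓ : 0 ≤ ℓ) (q : ℕ) :
    ∀ (f : (FIdx S.J S.n → ℕ) → (Fin S.L → Cf S.n) → (Fin q → Fin m → Bool) → ℝ),
    (∀ N σ c, |f N σ c| ≤ 1) →
    (∀ N e σ c, |f (bump N ⟨⟨Species.plain, hp⟩, e⟩) σ c - f N σ c| ≤
      ℓ / ((tot Species.plain N : ℝ) + 1)) →
    |S.Ex (fun N σ => ∑ c : Fin q → Fin m → Bool, (∏ i, Dn m (arr N (extR σ)) (c i)) * f N σ c)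
      - (∑ e : Fin q → Fin S.n, S.Ex (fun N σ => f N σ (fun i l => extR σ l (e i)))) / (S.n : ℝ) ^ q|
      ≤ q * S.err (ℓ + 2 * q) := by
  induction q with
  | zero =>
    intro f hf hb
    have e1 : (fun (N : FIdx S.J S.n → ℕ) (σ : Fin S.L → Cf S.n) =>
        ∑ c : Fin 0 → Fin m → Bool, (∏ i, Dn m (arr N (extR σ)) (c i)) * f N σ c) =
        fun N σ => f N σ (fun i l => extR σ l (Fin.elim0 i)) := by
      funext N σ
      rw [Fintype.sum_unique]
      simp only [Finset.univ_eq_empty, Finset.prod_empty, one_mul]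
      congr 1
      funext i
      exact i.elim0
    rw [e1, Fintype.sum_unique]
    simp only [pow_zero, div_one, Nat.cast_zero, zero_mul]
    have e2 : (fun (N : FIdx S.J S.n → ℕ) (σ : Fin S.L → Cf S.n) =>
        f N σ (fun (i : Fin 0) (l : Fin m) => extR σ l (Fin.elim0 i))) =
        fun N σ => f N σ (fun (i : Fin 0) (l : Fin m) => extR σ l ((default : Fin 0 → Fin S.n) i)) := by
      funext N σ
      congr 1
    rw [e2]
    simp
  | succ q ih =>
    intro f hf hb
    -- the function of the first label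
    set Ψ : (FIdx S.J S.n → ℕ) → (Fin S.L → Cf S.n) → (Fin m → Species.plain.Cfg) → ℝ :=
      fun N σ v => ∑ c : Fin q → Fin m → Bool, (∏ i, Dn m (arr N (extR σ)) (c i)) *
        f N σ (Fin.cons ((plainEquiv m).symm v) c) with hΨ
    have hΨ1 : ∀ N σ v, |Ψ N σ v| ≤ 1 := by
      intro N σ v
      calc |Ψ N σ v| ≤ ∑ c : Fin q → Fin m → Bool, |(∏ i, Dn m (arr N (extR σ)) (c i)) *
            f N σ (Fin.cons ((plainEquiv m).symm v) c)| := Finset.abs_sum_le_sum_abs _ _
        _ ≤ ∑ c : Fin q → Fin m → Bool, (∏ i, Dn m (arr N (extR σ)) (c i)) := by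
            refine Finset.sum_le_sum fun c _ => ?_
            rw [abs_mul, abs_of_nonneg (Finset.prod_nonneg fun i _ => Dn_arr_nonneg N _ m (c i))]
            exact mul_le_of_le_one_right (Finset.prod_nonneg fun i _ => Dn_arr_nonneg N _ m (c i))
              (hf _ _ _)
        _ = 1 := plain_sum_prod _ (Dn_arr_sum N _ m)
    have hΨb : ∀ N e σ v, |Ψ (bump N ⟨⟨Species.plain, hp⟩, e⟩) σ v - Ψ N σ v| ≤
        (ℓ + 2 * q) / ((tot Species.plain N : ℝ) + 1) := by
      intro N e σ v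
      have hT : (0 : ℝ) < (tot Species.plain N : ℝ) + 1 := by positivity
      simp only [hΨ]
      rw [← Finset.sum_sub_distrib]
      calc |∑ c : Fin q → Fin m → Bool,
            ((∏ i, Dn m (arr (bump N ⟨⟨Species.plain, hp⟩, e⟩) (extR σ)) (c i)) *
              f (bump N ⟨⟨Species.plain, hp⟩, e⟩) σ (Fin.cons ((plainEquiv m).symm v) c) -
            (∏ i, Dn m (arr N (extR σ)) (c i)) * f N σ (Fin.cons ((plainEquiv m).symm v) c))|
          ≤ ∑ c : Fin q → Fin m → Bool,
            |(∏ i, Dn m (arr (bump N ⟨⟨Species.plain, hp⟩, e⟩) (extR σ)) (c i)) *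
              f (bump N ⟨⟨Species.plain, hp⟩, e⟩) σ (Fin.cons ((plainEquiv m).symm v) c) -
            (∏ i, Dn m (arr N (extR σ)) (c i)) * f N σ (Fin.cons ((plainEquiv m).symm v) c)| :=
            Finset.abs_sum_le_sum_abs _ _
        _ ≤ ∑ c : Fin q → Fin m → Bool,
            (|(∏ i, Dn m (arr (bump N ⟨⟨Species.plain, hp⟩, e⟩) (extR σ)) (c i)) -
                ∏ i, Dn m (arr N (extR σ)) (c i)| +
             (∏ i, Dn m (arr N (extR σ)) (c i)) * (ℓ / ((tot Species.plain N : ℝ) + 1))) := by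
            refine Finset.sum_le_sum fun c _ => ?_
            set A := ∏ i, Dn m (arr (bump N ⟨⟨Species.plain, hp⟩, e⟩) (extR σ)) (c i)
            set B := ∏ i, Dn m (arr N (extR σ)) (c i)
            have hB : 0 ≤ B := Finset.prod_nonneg fun i _ => Dn_arr_nonneg N _ m (c i)
            set x := f (bump N ⟨⟨Species.plain, hp⟩, e⟩) σ (Fin.cons ((plainEquiv m).symm v) c)
              with hx
            set y := f N σ (Fin.cons ((plainEquiv m).symm v) c) with hy
            have e1 : A * x - B * y = (A - B) * x + B * (x - y) := by ring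
            rw [e1]
            refine (abs_add_le _ _).trans ?_
            rw [abs_mul, abs_mul, abs_of_nonneg hB]
            refine add_le_add ?_ ?_
            · exact mul_le_of_le_one_right (abs_nonneg _) (hf _ _ _)
            · exact mul_le_mul_of_nonneg_left (hb _ _ _ _) hB
        _ = (∑ c : Fin q → Fin m → Bool,
            |(∏ i, Dn m (arr (bump N ⟨⟨Species.plain, hp⟩, e⟩) (extR σ)) (c i)) -
                ∏ i, Dn m (arr N (extR σ)) (c i)|) + ℓ / ((tot Species.plain N : ℝ) + 1) := by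
            rw [Finset.sum_add_distrib, ← Finset.sum_mul, plain_sum_prod _ (Dn_arr_sum N _ m),
              one_mul]
        _ ≤ q * (2 / ((tot Species.plain N : ℝ) + 1)) + ℓ / ((tot Species.plain N : ℝ) + 1) := by
            gcongr
            refine (plain_tv _ _ (Dn_arr_nonneg N _ m) (Dn_arr_sum N _ m)
              (Dn_arr_nonneg _ _ m) (Dn_arr_sum _ _ m) q).trans ?_
            gcongr
            exact Dn_arr_bump hp N e _ m
        _ = (ℓ + 2 * q) / ((tot Species.plain N : ℝ) + 1) := by ring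
    have hins := insertion S Species.plain hp (rg m) Ψ hΨ1 (ℓ + 2 * q) (by positivity) hΨb
    -- rewrite the left-hand side
    have eL : (fun (N : FIdx S.J S.n → ℕ) (σ : Fin S.L → Cf S.n) =>
        ∑ c : Fin m → Species.plain.Cfg, Dl Species.plain (rg m) (arr N (extR σ)) c * Ψ N σ c) =
        fun N σ => ∑ c : Fin (q + 1) → Fin m → Bool,
          (∏ i, Dn m (arr N (extR σ)) (c i)) * f N σ c := by
      funext N σ
      rw [plain_sum_cons, ← (plainEquiv m).sum_comp]
      refine Finset.sum_congr rfl fun v _ => ?_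
      simp only [hΨ, Equiv.symm_apply_apply]
      rw [Finset.mul_sum]
      refine Finset.sum_congr rfl fun c _ => ?_
      rw [Fin.prod_univ_succ]
      simp only [Fin.cons_zero, Fin.cons_succ]
      rw [← mul_assoc]
      rfl
    rw [eL] at hins
    -- the right-hand side of the insertion lemma
    have eR : (∑ e : Fin Species.plain.k → Fin S.n, (S.addG (lw Species.plain e)).Ex
          (fun N σ => Ψ N σ (fun j i => extR σ (rg m j) (e i)))) / (S.n : ℝ) ^ Species.plain.k =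
        (∑ a : Fin S.n, S.Ex (fun N σ => ∑ c : Fin q → Fin m → Bool,
          (∏ i, Dn m (arr N (extR σ)) (c i)) *
            f N σ (Fin.cons (fun l : Fin m => extR σ l a) c))) / (S.n : ℝ) := by
      have hk : (S.n : ℝ) ^ Species.plain.k = S.n := pow_one _
      rw [hk]
      congr 1
      refine Fintype.sum_equiv (Equiv.funUnique (Fin 1) (Fin S.n)) _ _ fun e => ?_
      have h2 : ∀ (S' : Sys) (hS : S' = S)
          (G : (FIdx S'.J S'.n → ℕ) → (Fin S'.L → Cf S'.n) → ℝ)
          (G' : (FIdx S.J S.n → ℕ) → (Fin S.L → Cf S.n) → ℝ), HEq G G' → S'.Ex G = S.Ex G' := by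
        intro S' hS G G' hG
        subst hS
        rw [eq_of_heq hG]
      exact h2 _ (S.addG_plain e) _ _ HEq.rfl
    rw [eR] at hins
    -- the induction hypothesis
    have hrest : ∀ a : Fin S.n,
        |S.Ex (fun N σ => ∑ c : Fin q → Fin m → Bool, (∏ i, Dn m (arr N (extR σ)) (c i)) *
            f N σ (Fin.cons (fun l : Fin m => extR σ l a) c))
          - (∑ e : Fin q → Fin S.n, S.Ex (fun N σ =>
              f N σ (Fin.cons (fun l : Fin m => extR σ l a) (fun i l => extR σ l (e i))))) /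
              (S.n : ℝ) ^ q| ≤ q * S.err (ℓ + 2 * q) := fun a =>
      ih (fun N σ c => f N σ (Fin.cons (fun l : Fin m => extR σ l a) c))
        (fun N σ c => hf _ _ _) (fun N e σ c => hb _ _ _ _)
    have hn : (0 : ℝ) < S.n := by
      have := S.hn
      exact_mod_cast this
    have eT : (∑ e : Fin (q + 1) → Fin S.n, S.Ex (fun N σ => f N σ (fun i l => extR σ l (e i)))) /
          (S.n : ℝ) ^ (q + 1) =
        (∑ a : Fin S.n, (∑ e : Fin q → Fin S.n, S.Ex (fun N σ =>
              f N σ (Fin.cons (fun l : Fin m => extR σ l a) (fun i l => extR σ l (e i))))) /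
              (S.n : ℝ) ^ q) / (S.n : ℝ) := by
      rw [plain_sum_cons, ← Finset.sum_div, div_div, pow_succ]
      congr 1
      refine Finset.sum_congr rfl fun a _ => Finset.sum_congr rfl fun e _ => ?_
      congr 1
      funext N σ
      congr 1
      funext i l
      refine Fin.cases ?_ (fun j => ?_) i
      · simp
      · simp
    rw [eT]
    have hsum : |(∑ a : Fin S.n, S.Ex (fun N σ => ∑ c : Fin q → Fin m → Bool,
          (∏ i, Dn m (arr N (extR σ)) (c i)) *
            f N σ (Fin.cons (fun l : Fin m => extR σ l a) c))) / (S.n : ℝ) -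
        (∑ a : Fin S.n, (∑ e : Fin q → Fin S.n, S.Ex (fun N σ =>
              f N σ (Fin.cons (fun l : Fin m => extR σ l a) (fun i l => extR σ l (e i))))) /
              (S.n : ℝ) ^ q) / (S.n : ℝ)| ≤ q * S.err (ℓ + 2 * q) := by
      rw [← sub_div, ← Finset.sum_sub_distrib, abs_div, abs_of_pos hn, div_le_iff₀ hn]
      refine (Finset.abs_sum_le_sum_abs _ _).trans ?_
      refine (Finset.sum_le_sum fun a _ => hrest a).trans ?_
      rw [Finset.sum_const, Finset.card_univ, Fintype.card_fin, nsmul_eq_mul]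
      exact le_of_eq (by ring)
    have hfin : S.err (ℓ + 2 * q) ≤ S.err (ℓ + 2 * ((q + 1 : ℕ) : ℝ)) := by
      apply S.err_mono
      push_cast
      linarith
    calc _ ≤ _ := abs_sub_le _ _ _
      _ ≤ S.err (ℓ + 2 * q) + q * S.err (ℓ + 2 * q) := add_le_add hins hsum
      _ = ((q + 1 : ℕ) : ℝ) * S.err (ℓ + 2 * q) := by push_cast; ring
      _ ≤ ((q + 1 : ℕ) : ℝ) * S.err (ℓ + 2 * ((q + 1 : ℕ) : ℝ)) := by gcongr

/-- Products of plain-site laws: `E Σ_c Π_ℓ D_m(c_ℓ) f(c) = avg_{sites} E< f(spins) > + error`.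
PROOF. Induction on the number `q` of labels (transport `Lab ≃ Fin q`), with a more general statement: `f` may depend on `(N, σ)` with
increments `ℓ/(T+1)`; at each step one application of `insertion` with `s = plain` (`lw plain e = log 1 = 0`) to
`Ψ(N,σ,v) = Σ_{c'} Π_{ℓ<q} D(c'_ℓ) f(N,σ,(c',v))`, bounded by `1`, with increments `≤ (ℓ + 2 q)/(T+1)` (`emp_bump_tv`, `emp_sum`). -/
theorem plain_fin (S : Sys) (hp : Species.plain ∈ S.J) (m : ℕ) (Lab : Type) [Fintype Lab] [DecidableEq Lab]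
    (f : (Lab → Fin m → Bool) → ℝ) (hf : ∀ c, |f c| ≤ 1) :
    |(∫ x, (∑ c : Lab → Fin m → Bool, (∏ ℓ, Dn m x (c ℓ)) * f c) ∂S.law)
      - (∑ e : Lab → Fin S.n, S.Ex (fun _ σ => f (fun ℓ l => extR σ l (e ℓ)))) / (S.n : ℝ) ^ (Fintype.card Lab)|
      ≤ Fintype.card Lab * S.err (2 * Fintype.card Lab) := by
  classical
  set q := Fintype.card Lab with hq
  let E : Lab ≃ Fin q := Fintype.equivFin Lab
  have hDn : ∀ x : Obs, ∀ c : Fin m → Bool, 0 ≤ Dn m x c ∧ Dn m x c ≤ 1 := fun x c =>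
    ⟨(x _).2.1, (x _).2.2⟩
  have hDm : ∀ c : Fin m → Bool, Measurable (fun x : Obs => Dn m x c) := by
    intro c
    unfold Dn Dplain Dl
    exact measurable_subtype_coe.comp (measurable_pi_apply _)
  have hmeas : Measurable (fun x : Obs => ∑ c : Lab → Fin m → Bool, (∏ ℓ, Dn m x (c ℓ)) * f c) := by
    refine Finset.measurable_fun_sum _ fun c _ => ?_
    exact (Finset.measurable_fun_prod _ fun ℓ _ => hDm (c ℓ)).mul_const _
  have hbd : ∃ C, ∀ x : Obs, |∑ c : Lab → Fin m → Bool, (∏ ℓ, Dn m x (c ℓ)) * f c| ≤ C := by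
    refine ⟨∑ c : Lab → Fin m → Bool, 1, fun x => ?_⟩
    refine (Finset.abs_sum_le_sum_abs _ _).trans (Finset.sum_le_sum fun c _ => ?_)
    rw [abs_mul, abs_of_nonneg (Finset.prod_nonneg fun ℓ _ => (hDn x (c ℓ)).1)]
    have h1 : ∏ ℓ, Dn m x (c ℓ) ≤ 1 :=
      Finset.prod_le_one (fun ℓ _ => (hDn x (c ℓ)).1) (fun ℓ _ => (hDn x (c ℓ)).2)
    have h2 : 0 ≤ ∏ ℓ, Dn m x (c ℓ) := Finset.prod_nonneg fun ℓ _ => (hDn x (c ℓ)).1
    calc (∏ ℓ, Dn m x (c ℓ)) * |f c| ≤ 1 * 1 := mul_le_mul h1 (hf c) (abs_nonneg _) zero_le_one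
      _ = 1 := one_mul 1
  rw [S.integral_law _ hmeas hbd]
  have key := plain_fin_aux S hp m 0 le_rfl q (fun _ _ c => f (fun ℓ => c (E ℓ)))
    (fun _ _ c => hf _) (fun N e σ c => by simp)
  have e1 : (fun (N : FIdx S.J S.n → ℕ) (σ : Fin S.L → Cf S.n) =>
      ∑ c : Fin q → Fin m → Bool, (∏ i, Dn m (arr N (extR σ)) (c i)) * f (fun ℓ => c (E ℓ))) =
      fun N σ => ∑ c : Lab → Fin m → Bool, (∏ ℓ, Dn m (arr N (extR σ)) (c ℓ)) * f c := by
    funext N σ
    rw [← (Equiv.arrowCongr E (Equiv.refl (Fin m → Bool))).sum_comp]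
    refine Finset.sum_congr rfl fun c _ => ?_
    congr 1
    · rw [← E.prod_comp]
      refine Finset.prod_congr rfl fun ℓ _ => ?_
      simp [Equiv.arrowCongr]
    · congr 1
      funext ℓ
      simp [Equiv.arrowCongr]
  have e2 : ∑ e : Fin q → Fin S.n, S.Ex (fun _ σ => f (fun ℓ l => extR σ l (e (E ℓ)))) =
      ∑ e : Lab → Fin S.n, S.Ex (fun _ σ => f (fun ℓ l => extR σ l (e ℓ))) := by
    rw [← (Equiv.arrowCongr E (Equiv.refl (Fin S.n))).sum_comp]
    refine Finset.sum_congr rfl fun c _ => ?_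
    congr 1
    funext N σ
    congr 1
    funext ℓ l
    simp [Equiv.arrowCongr]
  rw [e1] at key
  simp only [] at key
  rw [e2, zero_add] at key
  exact key

end Crest.Agent.MP
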