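import Crest.Agent.MP.FFunA
import Crest.Agent.MP.FLimA
import Crest.Agent.MP.FPlainFin

/-!
# Module F: limit of `LEf`
-/

set_option autoImplicit false

namespace Crest.Agent.MP

open MeasureTheory ProbabilityTheory Filter Topology
open scoped NNReal
open Crest.ProbabilityR.Diluted

/-- the coefficients of the expansion of `LEf` -/
noncomputable def aLE (S : Sys) (Lab : Type) [Fintype Lab] [DecidableEq Lab]
    (ψ : (Lab → Bool) → ℝ) (m : ℕ) : ℝ :=
  (∑ e : Lab → Fin S.n, ∫ N : FIdx S.J S.n → ℕ,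
    gav1 (Ham S.G0 S.δ S.u N) (fun σ => 1 - ψ (fun ℓ => σ (e ℓ))) ^ (m + 1) ∂S.Pc) /
      (S.n : ℝ) ^ (Fintype.card Lab)

theorem gav1_mem {n : ℕ} (H : Cf n → ℝ) (f : Cf n → ℝ) {a : ℝ} (h : ∀ σ, 0 ≤ f σ ∧ f σ ≤ a) :
    0 ≤ gav1 H f ∧ gav1 H f ≤ a := by
  unfold gav1
  constructor
  · exact Finset.sum_nonneg fun σ _ => mul_nonneg (gibbs_nonneg' H σ) (h σ).1
  · calc ∑ σ, gibbs H σ * f σ ≤ ∑ σ, gibbs H σ * a :=
        Finset.sum_le_sum fun σ _ => mul_le_mul_of_nonneg_left (h σ).2 (gibbs_nonneg' H σ)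
      _ = a := by rw [← Finset.sum_mul, sum_gibbs', one_mul]

theorem aLE_mem (S : Sys) (Lab : Type) [Fintype Lab] [DecidableEq Lab]
    {ψ : (Lab → Bool) → ℝ} {κ : ℝ} (hκ : 0 < κ)
    (hψ : ∀ c, κ ≤ ψ c ∧ ψ c ≤ 1) (m : ℕ) : 0 ≤ aLE S Lab ψ m ∧ aLE S Lab ψ m ≤ (1 - κ) ^ (m + 1) := by
  have : IsProbabilityMeasure S.Pc := by unfold Sys.Pc; infer_instance
  have hn : (0 : ℝ) < (S.n : ℝ) ^ (Fintype.card Lab) := by
    have := S.hn
    positivity
  have hb : ∀ (N : FIdx S.J S.n → ℕ) (e : Lab → Fin S.n),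
      0 ≤ gav1 (Ham S.G0 S.δ S.u N) (fun σ => 1 - ψ (fun ℓ => σ (e ℓ))) ∧
      gav1 (Ham S.G0 S.δ S.u N) (fun σ => 1 - ψ (fun ℓ => σ (e ℓ))) ≤ 1 - κ := by
    intro N e
    refine gav1_mem _ _ fun σ => ?_
    have := hψ (fun ℓ => σ (e ℓ))
    constructor <;> linarith
  unfold aLE
  constructor
  · refine div_nonneg (Finset.sum_nonneg fun e _ => integral_nonneg fun N => ?_) hn.le
    exact pow_nonneg (hb N e).1 _
  · rw [div_le_iff₀ hn]
    calc _ ≤ ∑ _e : Lab → Fin S.n, (1 - κ) ^ (m + 1) := by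
          refine Finset.sum_le_sum fun e _ => ?_
          refine (integral_mono_of_nonneg (Eventually.of_forall fun N => pow_nonneg (hb N e).1 _)
            (integrable_const ((1 - κ) ^ (m + 1))) (Eventually.of_forall fun N => ?_)).trans ?_
          · exact pow_le_pow_left₀ (hb N e).1 (hb N e).2 _
          · simp
      _ = _ := by
          rw [Finset.sum_const, Finset.card_univ, nsmul_eq_mul, Fintype.card_fun, Fintype.card_fin,
            Nat.cast_pow, mul_comm]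

theorem LE_eq_tsum (S : Sys) (Lab : Type) [Fintype Lab] [DecidableEq Lab]
    {ψ : (Lab → Bool) → ℝ} {κ : ℝ} (hκ : 0 < κ)
    (hψ : ∀ c, κ ≤ ψ c ∧ ψ c ≤ 1) :
    LEf S.J S.n S.ε S.δ S.u S.G0 Lab ψ = ∑' m : ℕ, -(1 / ((m : ℝ) + 1)) * aLE S Lab ψ m := by
  have : IsProbabilityMeasure S.Pc := by unfold Sys.Pc; infer_instance
  have hκ1 : κ ≤ 1 := (hψ (fun _ => true)).1.trans (hψ (fun _ => true)).2
  have hgeo : Summable fun m : ℕ => (1 - κ) ^ (m + 1) := by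
    have h := summable_geometric_of_lt_one (r := 1 - κ) (by linarith) (by linarith)
    exact (summable_nat_add_iff 1).2 h
  have hb : ∀ (N : FIdx S.J S.n → ℕ) (e : Lab → Fin S.n),
      0 ≤ gav1 (Ham S.G0 S.δ S.u N) (fun σ => 1 - ψ (fun ℓ => σ (e ℓ))) ∧
      gav1 (Ham S.G0 S.δ S.u N) (fun σ => 1 - ψ (fun ℓ => σ (e ℓ))) ≤ 1 - κ := by
    intro N e
    refine gav1_mem _ _ fun σ => ?_
    have := hψ (fun ℓ => σ (e ℓ))
    constructor <;> linarith
  have h1 : ∀ e : Lab → Fin S.n, HasSum (fun m : ℕ => ∫ N : FIdx S.J S.n → ℕ,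
      -(1 / ((m : ℝ) + 1)) *
        gav1 (Ham S.G0 S.δ S.u N) (fun σ => 1 - ψ (fun ℓ => σ (e ℓ))) ^ (m + 1) ∂S.Pc)
      (∫ N : FIdx S.J S.n → ℕ, Real.log (gav1 (Ham S.G0 S.δ S.u N)
        (fun σ => ψ (fun ℓ => σ (e ℓ)))) ∂S.Pc) := by
    intro e
    refine hasSum_integral_of_dominated_convergence (fun (m : ℕ) _ => (1 - κ) ^ (m + 1)) ?_ ?_ ?_ ?_ ?_
    · intro m
      exact Measurable.of_discrete.aestronglyMeasurable
    · intro m
      refine Eventually.of_forall fun N => ?_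
      rw [norm_mul, norm_neg, Real.norm_of_nonneg (by positivity), norm_pow,
        Real.norm_of_nonneg (hb N e).1]
      have h2 : (1 : ℝ) / ((m : ℝ) + 1) ≤ 1 := by
        rw [div_le_one (by positivity)]
        have : (0 : ℝ) ≤ m := Nat.cast_nonneg m
        linarith
      calc _ ≤ 1 * gav1 (Ham S.G0 S.δ S.u N) (fun σ => 1 - ψ (fun ℓ => σ (e ℓ))) ^ (m + 1) :=
            mul_le_mul_of_nonneg_right h2 (pow_nonneg (hb N e).1 _)
        _ ≤ _ := by
            rw [one_mul]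
            exact pow_le_pow_left₀ (hb N e).1 (hb N e).2 _
    · exact Eventually.of_forall fun N => hgeo
    · exact integrable_const _
    · refine Eventually.of_forall fun N => ?_
      exact log_gav1 (Ham S.G0 S.δ S.u N) (fun σ => ψ (fun ℓ => σ (e ℓ))) hκ
        (fun σ => hψ (fun ℓ => σ (e ℓ)))
  have h2 := (hasSum_sum (s := (Finset.univ : Finset (Lab → Fin S.n)))
    (fun e _ => h1 e)).div_const ((S.n : ℝ) ^ (Fintype.card Lab))
  unfold LEf
  refine Eq.trans ?_ (h2.tsum_eq.symm.trans ?_)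
  · rfl
  · refine tsum_congr fun m => ?_
    unfold aLE
    simp only [integral_const_mul]
    rw [← Finset.mul_sum, mul_div_assoc]

theorem aLE_lim {S : ℕ → Sys} (hS : GoodSeq S) {U : Ultrafilter ℕ} (hU : (U : Filter ℕ) ≤ atTop)
    {P : Measure Obs} [IsProbabilityMeasure P]
    (hP : ∀ Φ : Obs → ℝ, Continuous Φ → Tendsto (fun j => ∫ x, Φ x ∂(S j).law) U (𝓝 (∫ x, Φ x ∂P)))
    {Lab : Type} [Fintype Lab] [DecidableEq Lab] {ψ : (Lab → Bool) → ℝ} {κ : ℝ} (hκ : 0 < κ)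
    (hψ : ∀ c, κ ≤ ψ c ∧ ψ c ≤ 1) (m : ℕ) :
    Tendsto (fun j => aLE (S j) Lab ψ m) U (𝓝 (mom (fun _ f => ∫ x, f x ∂P) Dn (m + 1) Lab
      (fun c => ∏ l : Fin (m + 1), (1 - ψ (fun ℓ => c ℓ l))))) := by
  set F : (Lab → Fin (m + 1) → Bool) → ℝ :=
    fun c => ∏ l : Fin (m + 1), (1 - ψ (fun ℓ => c ℓ l)) with hF
  have hF1 : ∀ c, |F c| ≤ 1 := by
    intro c
    rw [hF, Finset.abs_prod]
    refine Finset.prod_le_one (fun l _ => abs_nonneg _) fun l _ => ?_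
    have := hψ (fun ℓ => c ℓ l)
    rw [abs_le]
    constructor <;> linarith
  set Φ : Obs → ℝ := fun x => ∑ c : Lab → Fin (m + 1) → Bool, (∏ ℓ, Dn (m + 1) x (c ℓ)) * F c with hΦ
  have hc : Continuous Φ := by
    rw [hΦ]
    refine continuous_finsetSum _ fun c _ => Continuous.mul ?_ continuous_const
    refine continuous_finsetProd _ fun ℓ _ => ?_
    unfold Dn Dplain Dl
    exact continuous_subtype_val.comp (continuous_apply _)
  have h1 : Tendsto (fun j => ∫ x, Φ x ∂(S j).law) U (𝓝 (∫ x, Φ x ∂P)) := hP Φ hc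
  have h2 : Tendsto (fun j => (Fintype.card Lab : ℝ) * (S j).err (2 * Fintype.card Lab)) U (𝓝 0) := by
    have := ((hS.err (2 * Fintype.card Lab)).mono_left hU).const_mul (Fintype.card Lab : ℝ)
    simpa using this
  have h3 : ∀ᶠ j in (U : Filter ℕ), |(∫ x, Φ x ∂(S j).law) - aLE (S j) Lab ψ m| ≤
      (Fintype.card Lab : ℝ) * (S j).err (2 * Fintype.card Lab) := by
    have hJ := hU (hS.J Species.plain)
    have hL := hU (hS.L.eventually_ge_atTop (m + 1))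
    filter_upwards [hJ, hL] with j hj hl
    have h := plain_fin (S j) hj (m + 1) Lab F hF1
    have e1 : aLE (S j) Lab ψ m = (∑ e : Lab → Fin (S j).n,
        (S j).Ex (fun _ σ => F (fun ℓ l => extR σ l (e ℓ)))) / ((S j).n : ℝ) ^ (Fintype.card Lab) := by
      unfold aLE Sys.Ex
      congr 1
      refine Finset.sum_congr rfl fun e _ => ?_
      refine integral_congr_ae (Eventually.of_forall fun N => ?_)
      simp only
      rw [← gav_prod_lt (L := (S j).L) _ hl]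
      congr 1
      funext σ
      rw [hF]
      refine Finset.prod_congr rfl fun l _ => ?_
      have hlt : (l : ℕ) < (S j).L := lt_of_lt_of_le l.2 hl
      simp only [extR, hlt, dif_pos]
      rfl
    rw [e1]
    exact h
  have h4 : Tendsto (fun j => (∫ x, Φ x ∂(S j).law) - aLE (S j) Lab ψ m) U (𝓝 0) :=
    squeeze_zero_norm' (by simpa only [Real.norm_eq_abs] using h3) h2
  have h5 := h1.sub h4
  simp only [sub_sub_cancel, sub_zero] at h5
  exact h5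

/-- LIMIT OF `LEf`. PROOF. `LEf(S_j) = - Σ_m (1/(m+1)) a_{m,j}`, `a_{m,j} = avg_e E (gav1 (1-ψ))^{m+1} ∈ [0,(1-κ)^{m+1}]` (`log_gav1`).
For fixed `m` and `j` with `m + 1 ≤ L_j`, `a_{m,j} = avg_e E< Π_{l ≤ m} (1-ψ)(spins of σ_l at e) >` (`gav_prod_lt`), so by `plain_fin`
`|a_{m,j} - mom_j| ≤ #Lab err_j → 0` with `mom_j = ∫ Σ_c Π_ℓ Dn(c_ℓ) Π_l (1-ψ(c_·,l)) dlaw_j → mom_P` (continuous function). The tails are
`≤ Σ_{m≥M} (1-κ)^{m+1}`: Tannery (`tendsto_tsum_of_dominated_convergence`). -/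
theorem lim_LE {S : ℕ → Sys} (hS : GoodSeq S) {U : Ultrafilter ℕ} (hU : (U : Filter ℕ) ≤ atTop)
    {P : Measure Obs} [IsProbabilityMeasure P]
    (hP : ∀ Φ : Obs → ℝ, Continuous Φ → Tendsto (fun j => ∫ x, Φ x ∂(S j).law) U (𝓝 (∫ x, Φ x ∂P)))
    {Lab : Type} [Fintype Lab] [DecidableEq Lab] {ψ : (Lab → Bool) → ℝ} {κ : ℝ} (hκ : 0 < κ)
    (hψ : ∀ c, κ ≤ ψ c ∧ ψ c ≤ 1) :
    Tendsto (fun j => LEf (S j).J (S j).n (S j).ε (S j).δ (S j).u (S j).G0 Lab ψ) U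
      (𝓝 (Lfun (fun _ f => ∫ x, f x ∂P) Dn Lab ψ)) := by
  have hκ1 : κ ≤ 1 := (hψ (fun _ => true)).1.trans (hψ (fun _ => true)).2
  have e1 : (fun j => LEf (S j).J (S j).n (S j).ε (S j).δ (S j).u (S j).G0 Lab ψ) =
      fun j => ∑' m : ℕ, -(1 / ((m : ℝ) + 1)) * aLE (S j) Lab ψ m := by
    funext j
    exact LE_eq_tsum (S j) Lab hκ hψ
  have e2 : Lfun (fun _ f => ∫ x, f x ∂P) Dn Lab ψ = ∑' m : ℕ, -(1 / ((m : ℝ) + 1)) *
      mom (fun _ f => ∫ x, f x ∂P) Dn (m + 1) Lab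
      (fun c => ∏ l : Fin (m + 1), (1 - ψ (fun ℓ => c ℓ l))) := by
    unfold Lfun
    rw [← tsum_neg]
    simp only [neg_mul]
  rw [e1, e2]
  refine tendsto_tsum_of_dominated_convergence (bound := fun m : ℕ => (1 - κ) ^ (m + 1)) ?_ ?_ ?_
  · have h := summable_geometric_of_lt_one (r := 1 - κ) (by linarith) (by linarith)
    exact (summable_nat_add_iff 1).2 h
  · intro m
    exact (aLE_lim hS hU hP hκ hψ m).const_mul _
  · refine Eventually.of_forall fun j m => ?_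
    obtain ⟨h0, h1⟩ := aLE_mem (S j) Lab hκ hψ m
    rw [norm_mul, Real.norm_of_nonneg h0, norm_neg, Real.norm_of_nonneg (by positivity)]
    have h2 : (1 : ℝ) / ((m : ℝ) + 1) ≤ 1 := by
      rw [div_le_one (by positivity)]
      have : (0 : ℝ) ≤ m := Nat.cast_nonneg m
      linarith
    calc _ ≤ 1 * aLE (S j) Lab ψ m := mul_le_mul_of_nonneg_right h2 h0
      _ ≤ _ := by rw [one_mul]; exact h1

end Crest.Agent.MP
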