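import Crest.Agent.MP.FFunB

/-!
# Module F: limit of `AA`
-/

set_option autoImplicit false

namespace Crest.Agent.MP

open MeasureTheory ProbabilityTheory Filter Topology
open scoped NNReal
open Crest.ProbabilityR.Diluted

namespace FFC

theorem supNorm_nonneg {p : ℕ} (θ : Inter p) : 0 ≤ supNorm θ :=
  (abs_nonneg _).trans (le_ciSup (f := fun c => |θ c|) (Set.finite_range _).bddAbove
    (fun _ => true))

theorem siteC_nonneg {p k : ℕ} (h : ℝ) (θs : Fin k → Inter p) : 0 ≤ siteC h θs :=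
  add_nonneg (abs_nonneg _) (Finset.sum_nonneg fun _ _ => supNorm_nonneg _)

theorem poissonWeight_nonneg {lam : ℝ} (h : 0 ≤ lam) (k : ℕ) : 0 ≤ poissonWeight lam k := by
  unfold poissonWeight
  positivity

theorem summable_poisson_lin (lam a b : ℝ) :
    Summable (fun k : ℕ => poissonWeight lam k * (a + b * k)) := by
  have h0 : Summable (fun k : ℕ => lam ^ k / (k.factorial : ℝ)) := Real.summable_pow_div_factorial lam
  have h1 : Summable (fun k : ℕ => lam ^ k / (k.factorial : ℝ) * k) := by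
    rw [← summable_nat_add_iff 1]
    refine (h0.mul_left lam).congr fun k => ?_
    rw [Nat.factorial_succ]
    have : ((k : ℝ) + 1) ≠ 0 := by positivity
    have : (k.factorial : ℝ) ≠ 0 := by positivity
    push_cast
    field_simp
    ring
  refine ((h0.mul_left (Real.exp (-lam) * a)).add (h1.mul_left (Real.exp (-lam) * b))).congr
    fun k => ?_
  unfold poissonWeight
  ring

theorem sum_pow {E : Type} (μ : FinLaw E) (k : ℕ) :
    ∑ j : Fin k → μ.ι, ∏ a, μ.w (j a) = 1 := by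
  classical
  rw [← Fintype.piFinset_univ, ← Finset.prod_univ_sum]
  simp [μ.w_sum]

theorem abs_E_le {E : Type} (μ : FinLaw E) (f : E → ℝ) (B : ℝ)
    (h : ∀ i, |f (μ.x i)| ≤ B) : |μ.E f| ≤ B := by
  unfold FinLaw.E
  calc |∑ i, μ.w i * f (μ.x i)| ≤ ∑ i, μ.w i * B := by
        refine (Finset.abs_sum_le_sum_abs _ _).trans (Finset.sum_le_sum fun i _ => ?_)
        rw [abs_mul, abs_of_nonneg (μ.w_nonneg i)]
        exact mul_le_mul_of_nonneg_left (h i) (μ.w_nonneg i)
    _ = B := by rw [← Finset.sum_mul, μ.w_sum, one_mul]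

theorem abs_Epow_le {E : Type} (μ : FinLaw E) (k : ℕ) (f : (Fin k → E) → ℝ) (B : ℝ)
    (h : ∀ j : Fin k → μ.ι, |f (fun a => μ.x (j a))| ≤ B) : |μ.Epow k f| ≤ B := by
  unfold FinLaw.Epow
  have hw : ∀ j : Fin k → μ.ι, 0 ≤ ∏ a, μ.w (j a) := fun j =>
    Finset.prod_nonneg fun a _ => μ.w_nonneg _
  calc |∑ j : Fin k → μ.ι, (∏ a, μ.w (j a)) * f (fun a => μ.x (j a))|
      ≤ ∑ j : Fin k → μ.ι, (∏ a, μ.w (j a)) * B := by
        refine (Finset.abs_sum_le_sum_abs _ _).trans (Finset.sum_le_sum fun j _ => ?_)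
        rw [abs_mul, abs_of_nonneg (hw j)]
        exact mul_le_mul_of_nonneg_left (h j) (hw j)
    _ = B := by rw [← Finset.sum_mul, sum_pow, one_mul]

theorem tendsto_E {E : Type} (μ : FinLaw E) {F : Filter ℕ} (f : ℕ → E → ℝ) (g : E → ℝ)
    (h : ∀ i, Tendsto (fun j => f j (μ.x i)) F (𝓝 (g (μ.x i)))) :
    Tendsto (fun j => μ.E (f j)) F (𝓝 (μ.E g)) := by
  unfold FinLaw.E
  exact tendsto_finsetSum _ fun i _ => (h i).const_mul _

theorem tendsto_Epow {E : Type} (μ : FinLaw E) {F : Filter ℕ} (k : ℕ)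
    (f : ℕ → (Fin k → E) → ℝ) (g : (Fin k → E) → ℝ)
    (h : ∀ i : Fin k → μ.ι, Tendsto (fun j => f j (fun a => μ.x (i a))) F
      (𝓝 (g (fun a => μ.x (i a))))) :
    Tendsto (fun j => μ.Epow k (f j)) F (𝓝 (μ.Epow k g)) := by
  unfold FinLaw.Epow
  exact tendsto_finsetSum _ fun i _ => (h i).const_mul _

end FFC

/-- LIMIT OF `AA` (Tannery in `k`: `|siteC + LEf| ≤ 3 siteC ≤ 3 (max|h| + k max‖θ‖)`). -/
theorem lim_AA {S : ℕ → Sys} (hS : GoodSeq S) {U : Ultrafilter ℕ} (hU : (U : Filter ℕ) ≤ atTop)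
    {P : Measure Obs} [IsProbabilityMeasure P]
    (hP : ∀ Φ : Obs → ℝ, Continuous Φ → Tendsto (fun j => ∫ x, Φ x ∂(S j).law) U (𝓝 (∫ x, Φ x ∂P)))
    (p : ℕ) (α : ℝ) (hα : 0 < α) (μ : FinLaw (Inter p)) (ν : FinLaw ℝ) :
    Tendsto (fun j => AA p α μ ν (S j).J (S j).n (S j).ε (S j).δ (S j).u (S j).G0) U
      (𝓝 (AP p α μ ν P)) := by
  classical
  set H : ℝ := ∑ i, |ν.x i| with hH
  set Θ : ℝ := ∑ i, supNorm (μ.x i) with hΘ
  have hHi : ∀ i, |ν.x i| ≤ H := fun i =>
    Finset.single_le_sum (f := fun i => |ν.x i|) (fun _ _ => abs_nonneg _) (Finset.mem_univ i)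
  have hΘi : ∀ i, supNorm (μ.x i) ≤ Θ := fun i =>
    Finset.single_le_sum (f := fun i => supNorm (μ.x i)) (fun _ _ => FFC.supNorm_nonneg _)
      (Finset.mem_univ i)
  have hsite : ∀ (k : ℕ) (j : Fin k → μ.ι) (i : ν.ι),
      siteC (ν.x i) (fun a => μ.x (j a)) ≤ H + Θ * k := by
    intro k j i
    unfold siteC
    refine add_le_add (hHi i) ?_
    calc ∑ a : Fin k, supNorm (μ.x (j a)) ≤ ∑ _a : Fin k, Θ := Finset.sum_le_sum fun a _ => hΘi _
      _ = Θ * k := by simp [mul_comm]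
  set lam := α * p with hlam
  have hlam0 : 0 ≤ lam := by positivity
  unfold AA AP Afun
  refine Tendsto.sub (Tendsto.add tendsto_const_nhds ?_) (Tendsto.const_mul _ ?_)
  · refine tendsto_tsum_of_dominated_convergence
      (bound := fun k : ℕ => poissonWeight lam k * (H + Θ * k))
      (FFC.summable_poisson_lin lam H Θ) (fun k => ?_) (Eventually.of_forall fun j k => ?_)
    · refine Tendsto.const_mul _ (FFC.tendsto_Epow μ k _ _ fun i => FFC.tendsto_E ν _ _ fun l => ?_)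
      refine Tendsto.const_add _ ?_
      exact lim_LE hS hU hP (Real.exp_pos _) (fun c => siteψ_mem (ν.x l) (fun a => μ.x (i a)) c)
    · rw [Real.norm_eq_abs, abs_mul, abs_of_nonneg (FFC.poissonWeight_nonneg hlam0 k)]
      refine mul_le_mul_of_nonneg_left ?_ (FFC.poissonWeight_nonneg hlam0 k)
      refine FFC.abs_Epow_le μ k _ _ fun i => FFC.abs_E_le ν _ _ fun l => ?_
      have h1 := LE_mem (J := (S j).J) (S j).hn (ε := (S j).ε) (δ := (S j).δ) (u := (S j).u)
        (G0 := (S j).G0) (Real.exp_pos _)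
        (fun c => siteψ_mem (ν.x l) (fun a => μ.x (i a)) c)
      rw [Real.log_exp] at h1
      have h2 := hsite k i l
      have h3 := FFC.siteC_nonneg (ν.x l) (fun a => μ.x (i a))
      rw [abs_le]
      constructor <;> linarith [h1.1, h1.2]
  · refine FFC.tendsto_E μ _ _ fun i => Tendsto.const_add _ ?_
    exact lim_LE hS hU hP (Real.exp_pos _) (fun c => edgeψ_mem (μ.x i) c)

end Crest.Agent.MP
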