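import Crest.Agent.MP.FSys

/-!
# Module F, part 2: Gibbs averages (deterministic)
-/

set_option autoImplicit false

namespace Crest.Agent.MP

open MeasureTheory ProbabilityTheory
open scoped NNReal

variable {n L : ℕ}

lemma gibbs_nonneg (H : Cf n → ℝ) (σ : Cf n) : 0 ≤ gibbs H σ := gibbs_nonneg' H σ

lemma sum_gibbs (H : Cf n → ℝ) : ∑ σ, gibbs H σ = 1 := sum_gibbs' H

lemma sum_prod_gibbs (H : Cf n → ℝ) : ∑ σ : Fin L → Cf n, ∏ l, gibbs H (σ l) = 1 :=
  sum_prod_gibbs' H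

lemma abs_gav_le (H : Cf n → ℝ) {F : (Fin L → Cf n) → ℝ} {C : ℝ} (hF : ∀ σ, |F σ| ≤ C) :
    |gav H F| ≤ C := by
  unfold gav
  calc |∑ σ : Fin L → Cf n, (∏ l, gibbs H (σ l)) * F σ|
      ≤ ∑ σ : Fin L → Cf n, |(∏ l, gibbs H (σ l)) * F σ| := Finset.abs_sum_le_sum_abs _ _
    _ ≤ ∑ σ : Fin L → Cf n, (∏ l, gibbs H (σ l)) * C := by
        refine Finset.sum_le_sum fun σ _ => ?_
        have h0 : 0 ≤ ∏ l, gibbs H (σ l) := Finset.prod_nonneg fun l _ => gibbs_nonneg H _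
        rw [abs_mul, abs_of_nonneg h0]
        exact mul_le_mul_of_nonneg_left (hF σ) h0
    _ = C := by rw [← Finset.sum_mul, sum_prod_gibbs, one_mul]

lemma gav_mono (H : Cf n → ℝ) {F G : (Fin L → Cf n) → ℝ} (h : ∀ σ, F σ ≤ G σ) :
    gav H F ≤ gav H G := by
  unfold gav
  refine Finset.sum_le_sum fun σ _ => ?_
  exact mul_le_mul_of_nonneg_left (h σ) (Finset.prod_nonneg fun l _ => gibbs_nonneg H _)

lemma gav_sub (H : Cf n → ℝ) (F G : (Fin L → Cf n) → ℝ) :
    gav H (fun σ => F σ - G σ) = gav H F - gav H G := by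
  unfold gav
  simp only [mul_sub, Finset.sum_sub_distrib]

lemma gav_add (H : Cf n → ℝ) (F G : (Fin L → Cf n) → ℝ) :
    gav H (fun σ => F σ + G σ) = gav H F + gav H G := by
  unfold gav
  simp only [mul_add, Finset.sum_add_distrib]

lemma gav_smul (H : Cf n → ℝ) (c : ℝ) (F : (Fin L → Cf n) → ℝ) :
    gav H (fun σ => c * F σ) = c * gav H F := by
  unfold gav
  rw [Finset.mul_sum]
  refine Finset.sum_congr rfl fun σ _ => ?_
  ring

/-- general product over the replicas -/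
lemma gav_prod_gen (H : Cf n → ℝ) (h : Fin L → Cf n → ℝ) :
    gav H (fun σ : Fin L → Cf n => ∏ l, h l (σ l)) = ∏ l, gav1 H (h l) := by
  classical
  unfold gav gav1
  simp_rw [← Finset.prod_mul_distrib]
  rw [Finset.prod_univ_sum, Fintype.piFinset_univ]

lemma gav1_one (H : Cf n → ℝ) : gav1 H (fun _ => 1) = 1 := by
  unfold gav1
  simp [sum_gibbs H]

/-- a function of one replica -/
lemma gav_one (H : Cf n → ℝ) (l : Fin L) (f : Cf n → ℝ) :
    gav H (fun σ : Fin L → Cf n => f (σ l)) = gav1 H f := by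
  classical
  have h := gav_prod_gen H (fun (l' : Fin L) => if l' = l then f else fun _ => 1)
  have h1 : (fun σ : Fin L → Cf n => ∏ l', (if l' = l then f else fun _ => 1) (σ l')) =
      fun σ => f (σ l) := by
    funext σ
    rw [Finset.prod_eq_single l]
    · simp
    · intro b _ hb
      simp [hb]
    · simp
  rw [h1] at h
  rw [h, Finset.prod_eq_single l]
  · simp
  · intro b _ hb
    simp only [hb, if_false]
    exact gav1_one H
  · simp

/-- product over the replicas -/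
lemma gav_prod (H : Cf n → ℝ) (f : Cf n → ℝ) :
    gav H (fun σ : Fin L → Cf n => ∏ l, f (σ l)) = gav1 H f ^ L := by
  have h := gav_prod_gen H (fun (_ : Fin L) => f)
  rw [h]
  simp

/-- product over the first `m` replicas (`m ≤ L`) -/
lemma gav_prod_lt (H : Cf n → ℝ) {m : ℕ} (hm : m ≤ L) (f : Cf n → ℝ) :
    gav H (fun σ : Fin L → Cf n => ∏ l : Fin m, f (σ (Fin.castLE hm l))) = gav1 H f ^ m := by
  classical
  obtain ⟨k, rfl⟩ := Nat.exists_eq_add_of_le hm
  have h := gav_prod_gen H (fun (l : Fin (m + k)) => if (l : ℕ) < m then f else fun _ => 1)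
  have h1 : (fun σ : Fin (m + k) → Cf n =>
      ∏ l : Fin (m + k), (if (l : ℕ) < m then f else fun _ => 1) (σ l)) =
      fun σ => ∏ l : Fin m, f (σ (Fin.castLE hm l)) := by
    funext σ
    rw [Fin.prod_univ_add]
    have e2 : ∏ i : Fin k, (if ((Fin.natAdd m i : Fin (m + k)) : ℕ) < m then f else fun _ => 1)
        (σ (Fin.natAdd m i)) = 1 := by
      apply Finset.prod_eq_one
      intro i _
      simp
    rw [e2, mul_one]
    refine Finset.prod_congr rfl fun i _ => ?_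
    simp only [Fin.val_castAdd, i.2, if_true]
    rfl
  rw [h1] at h
  rw [h, Fin.prod_univ_add]
  have e2 : ∏ i : Fin k, gav1 H
      (if ((Fin.natAdd m i : Fin (m + k)) : ℕ) < m then f else fun _ => 1) = 1 := by
    apply Finset.prod_eq_one
    intro i _
    simp only [Fin.val_natAdd, not_lt.mpr (Nat.le_add_right m i), if_false]
    exact gav1_one H
  rw [e2, mul_one]
  simp

/-- Telescoping: the product laws differ in `ℓ¹` by at most `L` times the one-replica laws. -/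
lemma sum_prod_diff_le {α : Type} [Fintype α] (g g' : α → ℝ) (hg : ∀ a, 0 ≤ g a)
    (hg' : ∀ a, 0 ≤ g' a) (h1 : ∑ a, g a = 1) (h1' : ∑ a, g' a = 1) (L : ℕ) :
    ∑ σ : Fin L → α, |∏ l, g (σ l) - ∏ l, g' (σ l)| ≤ L * ∑ a, |g a - g' a| := by
  classical
  have hprod : ∀ (f : α → ℝ) (_ : ∑ a, f a = 1) (L : ℕ), ∑ σ : Fin L → α, ∏ l, f (σ l) = 1 := by
    intro f hf L
    have h := Finset.prod_univ_sum (fun _ : Fin L => (Finset.univ : Finset α)) (fun _ σ => f σ)
    rw [Fintype.piFinset_univ] at h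
    rw [← h]
    simp [hf]
  induction L with
  | zero => simp
  | succ L ih =>
    have e : ∑ σ : Fin (L + 1) → α, |∏ l, g (σ l) - ∏ l, g' (σ l)| =
        ∑ a : α, ∑ σ : Fin L → α, |g a * ∏ l, g (σ l) - g' a * ∏ l, g' (σ l)| := by
      rw [← (Fin.consEquiv (fun _ : Fin (L + 1) => α)).sum_comp, Fintype.sum_prod_type]
      refine Finset.sum_congr rfl fun a _ => Finset.sum_congr rfl fun σ _ => ?_
      simp [Fin.consEquiv, Fin.prod_univ_succ]
    rw [e]
    have hle : ∀ (a : α) (σ : Fin L → α), |g a * ∏ l, g (σ l) - g' a * ∏ l, g' (σ l)| ≤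
        g a * |∏ l, g (σ l) - ∏ l, g' (σ l)| + |g a - g' a| * ∏ l, g' (σ l) := by
      intro a σ
      have h2 : g a * ∏ l, g (σ l) - g' a * ∏ l, g' (σ l) =
          g a * (∏ l, g (σ l) - ∏ l, g' (σ l)) + (g a - g' a) * ∏ l, g' (σ l) := by ring
      rw [h2]
      refine (abs_add_le _ _).trans (le_of_eq ?_)
      rw [abs_mul, abs_mul, abs_of_nonneg (hg a),
        abs_of_nonneg (Finset.prod_nonneg fun l _ => hg' (σ l))]
    calc ∑ a : α, ∑ σ : Fin L → α, |g a * ∏ l, g (σ l) - g' a * ∏ l, g' (σ l)|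
        ≤ ∑ a : α, ∑ σ : Fin L → α, (g a * |∏ l, g (σ l) - ∏ l, g' (σ l)| +
            |g a - g' a| * ∏ l, g' (σ l)) :=
          Finset.sum_le_sum fun a _ => Finset.sum_le_sum fun σ _ => hle a σ
      _ = (∑ a, g a) * (∑ σ : Fin L → α, |∏ l, g (σ l) - ∏ l, g' (σ l)|) +
            (∑ a, |g a - g' a|) * ∑ σ : Fin L → α, ∏ l, g' (σ l) := by
          simp only [Finset.sum_add_distrib, ← Finset.mul_sum, ← Finset.sum_mul]
      _ ≤ 1 * (L * ∑ a, |g a - g' a|) + (∑ a, |g a - g' a|) * 1 := by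
          rw [h1, hprod g' h1']
          gcongr
      _ = ((L + 1 : ℕ) : ℝ) * ∑ a, |g a - g' a| := by push_cast; ring

lemma gibbs_le_exp_mul (H H' : Cf n → ℝ) (η : ℝ) (h : ∀ σ, |H σ - H' σ| ≤ η) (σ : Cf n) :
    gibbs H σ ≤ Real.exp (2 * η) * gibbs H' σ := by
  unfold gibbs
  have hZ : 0 < ∑ τ : Cf n, Real.exp (H τ) :=
    Finset.sum_pos (fun _ _ => Real.exp_pos _) Finset.univ_nonempty
  have hZ' : 0 < ∑ τ : Cf n, Real.exp (H' τ) :=
    Finset.sum_pos (fun _ _ => Real.exp_pos _) Finset.univ_nonempty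
  have h1 : Real.exp (H σ) ≤ Real.exp η * Real.exp (H' σ) := by
    rw [← Real.exp_add]
    apply Real.exp_le_exp.mpr
    have := (abs_le.mp (h σ)).2
    linarith
  have h2 : ∑ τ : Cf n, Real.exp (H' τ) ≤ Real.exp η * ∑ τ : Cf n, Real.exp (H τ) := by
    rw [Finset.mul_sum]
    refine Finset.sum_le_sum fun τ _ => ?_
    rw [← Real.exp_add]
    apply Real.exp_le_exp.mpr
    have := (abs_le.mp (h τ)).1
    linarith
  rw [← mul_div_assoc, div_le_div_iff₀ hZ hZ', two_mul, Real.exp_add]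
  calc Real.exp (H σ) * ∑ τ : Cf n, Real.exp (H' τ)
      ≤ (Real.exp η * Real.exp (H' σ)) * (Real.exp η * ∑ τ : Cf n, Real.exp (H τ)) := by
        gcongr
    _ = Real.exp η * Real.exp η * Real.exp (H' σ) * ∑ τ : Cf n, Real.exp (H τ) := by ring

lemma sum_gibbs_diff_le (H H' : Cf n → ℝ) (η : ℝ) (h0 : 0 ≤ η) (h1 : η ≤ 1 / 2)
    (h : ∀ σ, |H σ - H' σ| ≤ η) : ∑ σ, |gibbs H σ - gibbs H' σ| ≤ 4 * η := by
  have hexp : Real.exp (2 * η) - 1 ≤ 4 * η := by
    have h2 : |2 * η| ≤ 1 := by rw [abs_of_nonneg (by linarith)]; linarith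
    have h3 := Real.abs_exp_sub_one_le h2
    rw [abs_of_nonneg (show (0 : ℝ) ≤ 2 * η by linarith)] at h3
    linarith [le_abs_self (Real.exp (2 * η) - 1)]
  have hexp0 : 0 ≤ Real.exp (2 * η) - 1 := by
    have := Real.add_one_le_exp (2 * η)
    linarith
  have hpt : ∀ σ, |gibbs H σ - gibbs H' σ| ≤ (Real.exp (2 * η) - 1) * gibbs H' σ := by
    intro σ
    have e1 := gibbs_le_exp_mul H H' η h σ
    have e2 := gibbs_le_exp_mul H' H η (fun τ => by rw [abs_sub_comm]; exact h τ) σ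
    have n1 := gibbs_nonneg H σ
    have n2 := gibbs_nonneg H' σ
    rcases le_total (gibbs H' σ) (gibbs H σ) with hle | hle
    · rw [abs_of_nonneg (sub_nonneg.mpr hle)]
      linarith
    · rw [abs_of_nonpos (sub_nonpos.mpr hle)]
      have : (Real.exp (2 * η) - 1) * gibbs H σ ≤ (Real.exp (2 * η) - 1) * gibbs H' σ :=
        mul_le_mul_of_nonneg_left hle hexp0
      linarith
  calc ∑ σ, |gibbs H σ - gibbs H' σ| ≤ ∑ σ, (Real.exp (2 * η) - 1) * gibbs H' σ :=
        Finset.sum_le_sum fun σ _ => hpt σ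
    _ = Real.exp (2 * η) - 1 := by rw [← Finset.mul_sum, sum_gibbs, mul_one]
    _ ≤ 4 * η := hexp

/-- Change of Hamiltonian: `|H - H'| ≤ η ≤ 1/2` changes averages of `|F| ≤ C` over `L` replicas by at most `4 L η C`.
PROOF. `g'/g ∈ [e^{-2η}, e^{2η}]`, so `Σ|g - g'| ≤ e^{2η} - 1 ≤ 4η`; and `Σ |∏ g(σ_l) - ∏ g'(σ_l)| ≤ L Σ |g - g'|` (telescoping). -/
theorem gav_perturb (H H' : Cf n → ℝ) (η : ℝ) (h0 : 0 ≤ η) (h1 : η ≤ 1 / 2) (h : ∀ σ, |H σ - H' σ| ≤ η)
    {F : (Fin L → Cf n) → ℝ} {C : ℝ} (hF : ∀ σ, |F σ| ≤ C) :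
    |gav H F - gav H' F| ≤ 4 * L * η * C := by
  have hC : 0 ≤ C := (abs_nonneg _).trans (hF (fun _ _ => true))
  have e : gav H F - gav H' F =
      ∑ σ : Fin L → Cf n, (∏ l, gibbs H (σ l) - ∏ l, gibbs H' (σ l)) * F σ := by
    unfold gav
    rw [← Finset.sum_sub_distrib]
    exact Finset.sum_congr rfl fun σ _ => by ring
  rw [e]
  calc |∑ σ : Fin L → Cf n, (∏ l, gibbs H (σ l) - ∏ l, gibbs H' (σ l)) * F σ|
      ≤ ∑ σ : Fin L → Cf n, |(∏ l, gibbs H (σ l) - ∏ l, gibbs H' (σ l)) * F σ| :=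
        Finset.abs_sum_le_sum_abs _ _
    _ ≤ ∑ σ : Fin L → Cf n, |∏ l, gibbs H (σ l) - ∏ l, gibbs H' (σ l)| * C := by
        refine Finset.sum_le_sum fun σ _ => ?_
        rw [abs_mul]
        exact mul_le_mul_of_nonneg_left (hF σ) (abs_nonneg _)
    _ = (∑ σ : Fin L → Cf n, |∏ l, gibbs H (σ l) - ∏ l, gibbs H' (σ l)|) * C := by
        rw [Finset.sum_mul]
    _ ≤ (L * ∑ σ, |gibbs H σ - gibbs H' σ|) * C := by
        apply mul_le_mul_of_nonneg_right _ hC
        exact sum_prod_diff_le _ _ (gibbs_nonneg H) (gibbs_nonneg H') (sum_gibbs H) (sum_gibbs H') L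
    _ ≤ (L * (4 * η)) * C := by
        apply mul_le_mul_of_nonneg_right _ hC
        exact mul_le_mul_of_nonneg_left (sum_gibbs_diff_le H H' η h0 h1 h) (Nat.cast_nonneg _)
    _ = 4 * L * η * C := by ring

end Crest.Agent.MP
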