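import Crest.Agent.MP.FGibbs

/-!
# Module F: second order expansion of a Gibbs average under the tilt `1 + ρ X`
-/

set_option autoImplicit false

namespace Crest.Agent.MP

open MeasureTheory ProbabilityTheory
open scoped NNReal

/-- one replica, not seen by `G`, integrates out -/
lemma gav_mul_one {n L : ℕ} (H : Cf n → ℝ) (a : Fin L) (f : Cf n → ℝ) (G : (Fin L → Cf n) → ℝ)
    (hG : ∀ σ σ' : Fin L → Cf n, (∀ l, l ≠ a → σ l = σ' l) → G σ = G σ') :
    gav H (fun σ => G σ * f (σ a)) = gav H G * gav1 H f := by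
  classical
  let e := Equiv.funSplitAt a (Cf n)
  let d : Cf n := fun _ => true
  have hval : ∀ (x : Cf n) (q : {j // j ≠ a} → Cf n), e.symm (x, q) a = x := by
    intro x q
    show (Equiv.funSplitAt a (Cf n)).symm (x, q) a = x
    rw [Equiv.funSplitAt_symm_apply, dif_pos rfl]
  have hval2 : ∀ (x : Cf n) (q : {j // j ≠ a} → Cf n) (j : {j // j ≠ a}),
      e.symm (x, q) j.1 = q j := by
    intro x q j
    show (Equiv.funSplitAt a (Cf n)).symm (x, q) j.1 = q j
    rw [Equiv.funSplitAt_symm_apply, dif_neg j.2]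
  have hGe : ∀ (x : Cf n) (q : {j // j ≠ a} → Cf n), G (e.symm (x, q)) = G (e.symm (d, q)) := by
    intro x q
    refine hG _ _ fun l hl => ?_
    rw [hval2 x q ⟨l, hl⟩, hval2 d q ⟨l, hl⟩]
  have hprod : ∀ (x : Cf n) (q : {j // j ≠ a} → Cf n),
      ∏ l, gibbs H (e.symm (x, q) l) = gibbs H x * ∏ j, gibbs H (q j) := by
    intro x q
    rw [Fintype.prod_eq_mul_prod_subtype_ne _ a, hval]
    congr 1
    exact Finset.prod_congr rfl fun j _ => by rw [hval2]
  have key : ∀ g : Cf n → ℝ, gav H (fun σ => G σ * g (σ a)) =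
      (∑ x, gibbs H x * g x) * ∑ q : {j // j ≠ a} → Cf n, (∏ j, gibbs H (q j)) * G (e.symm (d, q)) := by
    intro g
    unfold gav
    rw [← Equiv.sum_comp e.symm, Fintype.sum_prod_type, Finset.sum_mul_sum]
    refine Finset.sum_congr rfl fun x _ => Finset.sum_congr rfl fun q _ => ?_
    have hx : (fun σ : Fin L → Cf n => G σ * g (σ a)) (e.symm (x, q)) =
        G (e.symm (d, q)) * g x := by
      show G (e.symm (x, q)) * g (e.symm (x, q) a) = G (e.symm (d, q)) * g x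
      rw [hval, hGe]
    rw [hprod, hx]
    ring
  have h1 := key f
  have h2 := key (fun _ => 1)
  have h3 : ∑ x : Cf n, gibbs H x * 1 = 1 := by
    simpa using sum_gibbs H
  rw [h3, one_mul] at h2
  have h4 : gav H (fun σ => G σ * (fun _ : Cf n => (1 : ℝ)) (σ a)) = gav H G := by
    simp
  rw [h4] at h2
  rw [h1, h2]
  unfold gav1
  ring

/-- the replicas of a set `S`, not seen by `G`, integrate out -/
lemma gav_mul_prod {n L : ℕ} (H : Cf n → ℝ) (f : Cf n → ℝ) (S : Finset (Fin L))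
    (G : (Fin L → Cf n) → ℝ)
    (hG : ∀ σ σ' : Fin L → Cf n, (∀ l, l ∉ S → σ l = σ' l) → G σ = G σ') :
    gav H (fun σ => G σ * ∏ l ∈ S, f (σ l)) = gav H G * gav1 H f ^ S.card := by
  classical
  induction S using Finset.induction_on with
  | empty => simp
  | insert a T ha ih =>
    have h1 : gav H (fun σ => G σ * ∏ l ∈ insert a T, f (σ l)) =
        gav H (fun σ => (fun σ : Fin L → Cf n => G σ * ∏ l ∈ T, f (σ l)) σ * f (σ a)) := by
      congr 1
      funext σ
      rw [Finset.prod_insert ha]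
      ring
    rw [h1, gav_mul_one H a f, ih, Finset.card_insert_of_notMem ha, pow_succ]
    · ring
    · intro σ σ' h
      refine hG σ σ' fun l hl => h l fun h2 => hl (Finset.mem_insert_of_mem h2)
    · intro σ σ' h
      have h2 : G σ = G σ' := hG σ σ' fun l hl => h l fun h3 => hl (by
        rw [h3]; exact Finset.mem_insert_self _ _)
      have h3 : ∏ l ∈ T, f (σ l) = ∏ l ∈ T, f (σ' l) := by
        refine Finset.prod_congr rfl fun l hl => ?_
        rw [h l fun h4 => ha (h4 ▸ hl)]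
      simp only [h2, h3]

/-- the tilted weight -/
lemma gibbs_tilt {n : ℕ} (H X : Cf n → ℝ) (ρ : ℝ) (hpos : ∀ σ, 0 < 1 + ρ * X σ) (σ : Cf n) :
    gibbs (fun σ => H σ + Real.log (1 + ρ * X σ)) σ =
      gibbs H σ * (1 + ρ * X σ) / (1 + ρ * gav1 H X) := by
  have hZ : 0 < ∑ τ : Cf n, Real.exp (H τ) :=
    Finset.sum_pos (fun _ _ => Real.exp_pos _) Finset.univ_nonempty
  have h1 : ∑ τ : Cf n, Real.exp (H τ + Real.log (1 + ρ * X τ)) =
      (∑ τ : Cf n, Real.exp (H τ)) * (1 + ρ * gav1 H X) := by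
    unfold gav1 gibbs
    rw [mul_add, mul_one]
    have h2 : (∑ τ : Cf n, Real.exp (H τ)) * (ρ * ∑ σ : Cf n,
        Real.exp (H σ) / (∑ τ : Cf n, Real.exp (H τ)) * X σ) =
        ∑ σ : Cf n, Real.exp (H σ) * (ρ * X σ) := by
      rw [Finset.mul_sum, Finset.mul_sum]
      refine Finset.sum_congr rfl fun τ _ => ?_
      field_simp
    rw [h2, ← Finset.sum_add_distrib]
    refine Finset.sum_congr rfl fun τ _ => ?_
    rw [Real.exp_add, Real.exp_log (hpos τ)]
    ring
  unfold gibbs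
  simp only
  rw [h1, Real.exp_add, Real.exp_log (hpos σ)]
  field_simp

/-- `∏ (1 + ρ x_l) = 1 + ρ Σ x_l + O(ρ²)` -/
lemma prod_one_add_expand (m : ℕ) (ρ : ℝ) (h0 : 0 < ρ) (h1 : ρ ≤ 1 / 2) (x : Fin m → ℝ)
    (hx : ∀ l, |x l| ≤ 1) :
    |∏ l, (1 + ρ * x l) - 1 - ρ * ∑ l, x l| ≤ 4 ^ m * ρ ^ 2 := by
  induction m with
  | zero => simp; positivity
  | succ m ih =>
    rw [Fin.prod_univ_castSucc, Fin.sum_univ_castSucc]
    have h2 := ih (fun l => x l.castSucc) (fun l => hx _)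
    set Q := ∏ l : Fin m, (1 + ρ * x l.castSucc) with hQ
    set s := ∑ l : Fin m, x l.castSucc with hs
    have hs1 : |s| ≤ m := by
      rw [hs]
      refine (Finset.abs_sum_le_sum_abs _ _).trans ?_
      refine (Finset.sum_le_sum fun l _ => hx l.castSucc).trans ?_
      simp
    have h3 : Q * (1 + ρ * x (Fin.last m)) - 1 - ρ * (s + x (Fin.last m)) =
        (Q - 1 - ρ * s) + ρ * x (Fin.last m) * (Q - 1 - ρ * s) + ρ ^ 2 * (x (Fin.last m) * s) := by
      ring
    rw [h3]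
    have hxl := hx (Fin.last m)
    have h4 : |ρ * x (Fin.last m) * (Q - 1 - ρ * s)| ≤ 1 / 2 * (4 ^ m * ρ ^ 2) := by
      rw [abs_mul, abs_mul, abs_of_pos h0]
      have h5 : ρ * |x (Fin.last m)| ≤ 1 / 2 := by
        nlinarith [abs_nonneg (x (Fin.last m))]
      exact mul_le_mul h5 h2 (abs_nonneg _) (by norm_num)
    have h6 : |ρ ^ 2 * (x (Fin.last m) * s)| ≤ ρ ^ 2 * m := by
      rw [abs_mul, abs_of_nonneg (sq_nonneg ρ)]
      refine mul_le_mul_of_nonneg_left ?_ (sq_nonneg ρ)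
      rw [abs_mul]
      calc |x (Fin.last m)| * |s| ≤ 1 * m := mul_le_mul hxl hs1 (abs_nonneg _) (by norm_num)
        _ = m := one_mul _
    have h7 : (m : ℝ) ≤ 4 ^ m := by
      have : m < 4 ^ m := Nat.lt_pow_self (by norm_num)
      exact_mod_cast this.le
    have h8 : (0 : ℝ) ≤ ρ ^ 2 := sq_nonneg ρ
    calc |Q - 1 - ρ * s + ρ * x (Fin.last m) * (Q - 1 - ρ * s) + ρ ^ 2 * (x (Fin.last m) * s)|
        ≤ |Q - 1 - ρ * s| + |ρ * x (Fin.last m) * (Q - 1 - ρ * s)| +
          |ρ ^ 2 * (x (Fin.last m) * s)| := abs_add_three _ _ _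
      _ ≤ 4 ^ m * ρ ^ 2 + 1 / 2 * (4 ^ m * ρ ^ 2) + ρ ^ 2 * m := by
        gcongr
      _ ≤ 4 ^ (m + 1) * ρ ^ 2 := by
        rw [pow_succ (4 : ℝ) m]
        nlinarith [mul_le_mul_of_nonneg_left h7 h8]

/-- the Gibbs average under the tilt -/
lemma gav_tilt_eq {n L m : ℕ} (hL : m ≤ L) (H X : Cf n → ℝ) (ρ : ℝ)
    (hpos : ∀ σ, 0 < 1 + ρ * X σ) (ha : 0 < 1 + ρ * gav1 H X) (F : (Fin L → Cf n) → ℝ)
    (hF : ∀ σ σ' : Fin L → Cf n, (∀ l : Fin L, l.val < m → σ l = σ' l) → F σ = F σ') :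
    gav (fun σ => H σ + Real.log (1 + ρ * X σ)) F * (1 + ρ * gav1 H X) ^ m =
      gav H (fun σ => F σ * ∏ l : Fin m, (1 + ρ * X (σ (Fin.castLE hL l)))) := by
  classical
  set a := gav1 H X with hadef
  -- the full product
  have h1 : gav (fun σ => H σ + Real.log (1 + ρ * X σ)) F * (1 + ρ * a) ^ L =
      gav H (fun σ => F σ * ∏ l : Fin L, (1 + ρ * X (σ l))) := by
    unfold gav
    rw [Finset.sum_mul]
    refine Finset.sum_congr rfl fun σ _ => ?_
    have h2 : ∏ l : Fin L, gibbs (fun σ => H σ + Real.log (1 + ρ * X σ)) (σ l) =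
        (∏ l : Fin L, gibbs H (σ l)) * (∏ l : Fin L, (1 + ρ * X (σ l))) / (1 + ρ * a) ^ L := by
      rw [Finset.prod_congr rfl fun l _ => gibbs_tilt H X ρ hpos (σ l), Finset.prod_div_distrib,
        Finset.prod_mul_distrib, Finset.prod_const, Finset.card_univ, Fintype.card_fin]
    rw [h2]
    field_simp
  -- split the product
  set S : Finset (Fin L) := Finset.univ.filter (fun l : Fin L => ¬ l.val < m) with hS
  have hcard : S.card = L - m := by
    have h3 := Finset.card_filter_add_card_filter_not (s := (Finset.univ : Finset (Fin L)))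
      (fun l : Fin L => l.val < m)
    rw [Fin.card_filter_val_lt, Finset.card_univ, Fintype.card_fin] at h3
    rw [hS]
    omega
  have hsplit : ∀ σ : Fin L → Cf n, ∏ l : Fin L, (1 + ρ * X (σ l)) =
      (∏ l : Fin m, (1 + ρ * X (σ (Fin.castLE hL l)))) * ∏ l ∈ S, (1 + ρ * X (σ l)) := by
    intro σ
    rw [← Finset.prod_filter_mul_prod_filter_not (Finset.univ : Finset (Fin L))
      (fun l : Fin L => l.val < m) (fun l => 1 + ρ * X (σ l))]
    congr 1
    symm
    refine Finset.prod_bij (fun (l : Fin m) _ => Fin.castLE hL l) ?_ ?_ ?_ ?_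
    · intro l _
      rw [Finset.mem_filter]
      exact ⟨Finset.mem_univ _, l.2⟩
    · intro l _ l' _ h
      exact Fin.castLE_injective hL h
    · intro l hl
      rw [Finset.mem_filter] at hl
      exact ⟨⟨l.val, hl.2⟩, Finset.mem_univ _, Fin.ext rfl⟩
    · intro l _
      rfl
  have h4 : gav H (fun σ => F σ * ∏ l : Fin L, (1 + ρ * X (σ l))) =
      gav H (fun σ => F σ * ∏ l : Fin m, (1 + ρ * X (σ (Fin.castLE hL l)))) *
        (1 + ρ * a) ^ (L - m) := by
    have h5 := gav_mul_prod H (fun τ => 1 + ρ * X τ) S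
      (fun σ => F σ * ∏ l : Fin m, (1 + ρ * X (σ (Fin.castLE hL l)))) (by
        intro σ σ' h
        have h6 : ∀ l : Fin L, l.val < m → σ l = σ' l := fun l hl => h l (by
          rw [hS, Finset.mem_filter]
          push Not
          exact fun _ => hl)
        have h7 : F σ = F σ' := hF σ σ' h6
        have h8 : ∏ l : Fin m, (1 + ρ * X (σ (Fin.castLE hL l))) =
            ∏ l : Fin m, (1 + ρ * X (σ' (Fin.castLE hL l))) :=
          Finset.prod_congr rfl fun l _ => by rw [h6 (Fin.castLE hL l) l.2]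
        simp only [h7, h8])
    have h9 : gav1 H (fun τ => 1 + ρ * X τ) = 1 + ρ * a := by
      rw [hadef]
      unfold gav1
      rw [Finset.mul_sum]
      have h10 := sum_gibbs H
      calc ∑ σ : Cf n, gibbs H σ * (1 + ρ * X σ)
          = ∑ σ : Cf n, (gibbs H σ + ρ * (gibbs H σ * X σ)) :=
            Finset.sum_congr rfl fun σ _ => by ring
        _ = _ := by rw [Finset.sum_add_distrib, h10]
    rw [hcard, h9] at h5
    rw [← h5]
    congr 1
    funext σ
    rw [hsplit σ]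
    ring
  have h11 : (1 + ρ * a) ^ L = (1 + ρ * a) ^ m * (1 + ρ * a) ^ (L - m) := by
    rw [← pow_add]
    congr 1
    omega
  rw [h4, h11, ← mul_assoc] at h1
  exact mul_right_cancel₀ (pow_pos ha _).ne' h1

/-- TILT EXPANSION, uniformly in the number of replicas `L > m` and in `n, H, X, F`. `F` depends only on the replicas `< m`.
PROOF. `gibbs (H + log(1+ρX)) σ = gibbs H σ (1+ρX σ)/(1+ρ a)`, `a = gav1 H X`. As `F` depends only on the first `m`
replicas, `gav (H + log(1+ρX)) F = gav H (F ∏_{l<m} (1+ρ X(σ_l))) / (1+ρ a)^m` (the other replicas integrate to one), and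
`gav H (F X(σ_m)) = a gav H F`. Elementary expansions for `0 < ρ ≤ 1/2`, `|X| ≤ 1`:
`|∏_{l<m}(1+ρ x_l) - 1 - ρ Σ x_l| ≤ 2^m ρ²·2^m`-like and `|(1+ρ a)^{-m} - 1 + m ρ a| ≤ C_m ρ²`. Any constant depending only on `m`
is fine. -/
theorem gav_tilt (m : ℕ) : ∃ C : ℝ, 0 ≤ C ∧ ∀ (n L : ℕ) (hL : m < L) (H X : Cf n → ℝ) (ρ : ℝ),
    0 < ρ → ρ ≤ 1 / 2 → (∀ σ, |X σ| ≤ 1) → ∀ F : (Fin L → Cf n) → ℝ, (∀ σ, |F σ| ≤ 1) →
    (∀ σ σ' : Fin L → Cf n, (∀ l : Fin L, l.val < m → σ l = σ' l) → F σ = F σ') →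
    |gav (fun σ => H σ + Real.log (1 + ρ * X σ)) F - gav H F
      - ρ * ((∑ l : Fin m, gav H (fun σ => F σ * X (σ ⟨l, l.2.trans hL⟩)))
        - m * gav H (fun σ => F σ * X (σ ⟨m, hL⟩)))| ≤ C * ρ ^ 2 := by
  classical
  refine ⟨2 ^ m * (4 ^ m + 2 * m ^ 2 + 4 ^ m * (1 + m)), by positivity, ?_⟩
  intro n L hL H X ρ h0 h1 hX F hF1 hF
  set a := gav1 H X with hadef
  have ha1 : |a| ≤ 1 := by
    have h2 := gav_one (L := 1) H 0 X
    rw [hadef, ← h2]
    exact abs_gav_le H fun σ => hX _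
  have hpos : ∀ σ, 0 < 1 + ρ * X σ := fun σ => by
    have h3 := abs_le.1 (hX σ)
    nlinarith
  have hapos : 1 / 2 ≤ 1 + ρ * a := by
    have h3 := abs_le.1 ha1
    nlinarith
  have hT := gav_tilt_eq hL.le H X ρ hpos (by rw [← hadef]; linarith) F hF
  rw [← hadef] at hT
  set T := gav (fun σ => H σ + Real.log (1 + ρ * X σ)) F with hTdef
  set D := gav H F with hD
  set s := ∑ l : Fin m, gav H (fun σ => F σ * X (σ ⟨l, l.2.trans hL⟩)) with hs
  have hlast : gav H (fun σ => F σ * X (σ ⟨m, hL⟩)) = D * a := by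
    refine gav_mul_one H ⟨m, hL⟩ X F fun σ σ' h => hF σ σ' fun l hl => h l fun h2 => ?_
    rw [h2] at hl
    exact lt_irrefl _ hl
  rw [hlast]
  have hD1 : |D| ≤ 1 := abs_gav_le H hF1
  have hs1 : |s| ≤ m := by
    rw [hs]
    refine (Finset.abs_sum_le_sum_abs _ _).trans ?_
    have h4 : ∀ l : Fin m, |gav H (fun σ : Fin L → Cf n => F σ * X (σ ⟨l, l.2.trans hL⟩))| ≤ 1 := by
      intro l
      refine abs_gav_le H fun σ => ?_
      rw [abs_mul]
      have := mul_le_mul (hF1 σ) (hX (σ ⟨l, l.2.trans hL⟩)) (abs_nonneg _) zero_le_one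
      simpa using this
    refine (Finset.sum_le_sum fun l _ => h4 l).trans ?_
    simp
  -- expansion of the right side
  set b := gav H (fun σ => F σ * ∏ l : Fin m, (1 + ρ * X (σ (Fin.castLE hL.le l)))) with hb
  have hb1 : |b - D - ρ * s| ≤ 4 ^ m * ρ ^ 2 := by
    have h5 : b - D - ρ * s = gav H (fun σ => F σ *
        (∏ l : Fin m, (1 + ρ * X (σ (Fin.castLE hL.le l))) - 1
          - ρ * ∑ l : Fin m, X (σ (Fin.castLE hL.le l)))) := by
      have h6 : ρ * s = gav H (fun σ => ρ * (F σ * ∑ l : Fin m, X (σ (Fin.castLE hL.le l)))) := by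
        rw [gav_smul, hs]
        congr 1
        unfold gav
        rw [Finset.sum_comm]
        refine Finset.sum_congr rfl fun σ _ => ?_
        simp only
        rw [Finset.mul_sum, Finset.mul_sum]
        rfl
      rw [h6, hb, hD, ← gav_sub, ← gav_sub]
      congr 1
      funext σ
      ring
    rw [h5]
    refine abs_gav_le H fun σ => ?_
    rw [abs_mul]
    have h7 := prod_one_add_expand m ρ h0 h1 (fun l => X (σ (Fin.castLE hL.le l))) (fun l => hX _)
    have h8 := mul_le_mul (hF1 σ) h7 (abs_nonneg _) zero_le_one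
    simpa using h8
  -- expansion of the power
  have hR := prod_one_add_expand m ρ h0 h1 (fun _ => a) (fun _ => ha1)
  rw [Finset.prod_const, Finset.card_univ, Fintype.card_fin, Finset.sum_const, Finset.card_univ,
    Fintype.card_fin, nsmul_eq_mul] at hR
  set R := (1 + ρ * a) ^ m - 1 - ρ * (m * a) with hRdef
  have hpow : (1 + ρ * a) ^ m = 1 + ρ * (m * a) + R := by rw [hRdef]; ring
  have hpow_pos : (1 / 2 : ℝ) ^ m ≤ (1 + ρ * a) ^ m := pow_le_pow_left₀ (by norm_num) hapos m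
  have hm0 : (0 : ℝ) ≤ m := Nat.cast_nonneg m
  have hE : |s - m * (D * a)| ≤ 2 * m := by
    have h9 : |(m : ℝ) * (D * a)| ≤ m := by
      rw [abs_mul, abs_mul, abs_of_nonneg hm0]
      have := mul_le_mul hD1 ha1 (abs_nonneg _) zero_le_one
      nlinarith [abs_nonneg D, abs_nonneg a]
    have h10 := abs_sub s ((m : ℝ) * (D * a))
    linarith
  set E := s - m * (D * a) with hEdef
  have hmain : (T - D - ρ * E) * (1 + ρ * a) ^ m =
      (b - D - ρ * s) - ρ ^ 2 * (m * a * E) - R * (D + ρ * E) := by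
    have h11 : (T - D - ρ * E) * (1 + ρ * a) ^ m = b - (1 + ρ * a) ^ m * (D + ρ * E) := by
      rw [← hT]
      ring
    rw [h11, hpow]
    have h12 : ρ * s = ρ * E + ρ * (m * (D * a)) := by rw [hEdef]; ring
    rw [h12]
    ring
  have hρ2 : (0 : ℝ) ≤ ρ ^ 2 := sq_nonneg ρ
  have hbd : |(b - D - ρ * s) - ρ ^ 2 * (m * a * E) - R * (D + ρ * E)| ≤
      (4 ^ m + 2 * m ^ 2 + 4 ^ m * (1 + m)) * ρ ^ 2 := by
    have h13 : |ρ ^ 2 * (m * a * E)| ≤ ρ ^ 2 * (2 * m ^ 2) := by
      rw [abs_mul, abs_of_nonneg hρ2]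
      refine mul_le_mul_of_nonneg_left ?_ hρ2
      rw [abs_mul, abs_mul, abs_of_nonneg hm0]
      have h14 : (m : ℝ) * |a| ≤ m := by nlinarith
      have h15 := mul_le_mul h14 hE (abs_nonneg _) hm0
      nlinarith
    have h16 : |R * (D + ρ * E)| ≤ 4 ^ m * ρ ^ 2 * (1 + m) := by
      rw [abs_mul]
      refine mul_le_mul hR ?_ (abs_nonneg _) (by positivity)
      have h17 : |ρ * E| ≤ m := by
        rw [abs_mul, abs_of_pos h0]
        nlinarith [abs_nonneg E]
      exact (abs_add_le _ _).trans (add_le_add hD1 h17)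
    have h18 := abs_sub ((b - D - ρ * s) - ρ ^ 2 * (m * a * E)) (R * (D + ρ * E))
    have h19 := abs_sub (b - D - ρ * s) (ρ ^ 2 * (m * a * E))
    nlinarith
  have hfin : |T - D - ρ * E| * (1 / 2) ^ m ≤
      (4 ^ m + 2 * m ^ 2 + 4 ^ m * (1 + m)) * ρ ^ 2 := by
    refine le_trans ?_ hbd
    rw [← hmain, abs_mul, abs_of_pos (lt_of_lt_of_le (by positivity) hpow_pos)]
    exact mul_le_mul_of_nonneg_left hpow_pos (abs_nonneg _)
  have h20 : |T - D - ρ * E| = 2 ^ m * (|T - D - ρ * E| * (1 / 2) ^ m) := by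
    rw [one_div, inv_pow]
    field_simp
  rw [h20]
  calc 2 ^ m * (|T - D - ρ * E| * (1 / 2) ^ m)
      ≤ 2 ^ m * ((4 ^ m + 2 * m ^ 2 + 4 ^ m * (1 + m)) * ρ ^ 2) :=
        mul_le_mul_of_nonneg_left hfin (by positivity)
    _ = _ := by ring

end Crest.Agent.MP
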