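import Crest.Agent.MP.FInsert
import Crest.Agent.MP.FTiltG

/-!
# Module F: approximate (R3) for the finite system
-/

set_option autoImplicit false

namespace Crest.Agent.MP

open MeasureTheory ProbabilityTheory Filter Topology
open scoped NNReal

lemma tf_measurable_Dl (s : Species) {r : ℕ} (ls : Fin r → ℕ) (c : Fin r → s.Cfg) :
    Measurable fun x : Obs => Dl s ls x c := by
  unfold Dl
  exact measurable_subtype_coe.comp (measurable_pi_apply _)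

lemma tf_measurable_Dθ (s : Species) {r : ℕ} (ls : Fin r → ℕ) (θ : (Fin r → s.Cfg) → ℝ) :
    Measurable fun x : Obs => Dθ s ls θ x := by
  unfold Dθ
  exact Finset.measurable_sum _ fun c _ => (tf_measurable_Dl s ls c).mul_const _

lemma tf_abs_Dθ_le (s : Species) {r : ℕ} (ls : Fin r → ℕ) (θ : (Fin r → s.Cfg) → ℝ)
    (hθ : ∀ c, |θ c| ≤ 1) (x : Obs) : |Dθ s ls θ x| ≤ (Fintype.card (Fin r → s.Cfg) : ℝ) := by
  unfold Dθ
  refine (Finset.abs_sum_le_sum_abs _ _).trans ?_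
  calc ∑ c : Fin r → s.Cfg, |Dl s ls x c * θ c| ≤ ∑ _c : Fin r → s.Cfg, (1 : ℝ) := by
        refine Finset.sum_le_sum fun c _ => ?_
        rw [abs_mul]
        have h1 : |Dl s ls x c| ≤ 1 := by
          unfold Dl
          rw [abs_of_nonneg (x _).2.1]
          exact (x _).2.2
        calc |Dl s ls x c| * |θ c| ≤ 1 * 1 :=
              mul_le_mul h1 (hθ c) (abs_nonneg _) zero_le_one
          _ = 1 := one_mul 1
    _ = (Fintype.card (Fin r → s.Cfg) : ℝ) := by simp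

/-- `(S.addG V).Ex Ψ`, unfolded. -/
noncomputable def tf_Ig (S : Sys) (V : Cf S.n → ℝ)
    (Ψ : (FIdx S.J S.n → ℕ) → (Fin S.L → Cf S.n) → ℝ) : ℝ :=
  ∫ N, gav (Ham (fun σ => S.G0 σ + V σ) S.δ S.u N) (Ψ N) ∂S.Pc

/-- the insertion lemma for `Φ D_t(ls)(θ)`, `Φ` a Lipschitz cylinder function. -/
lemma tf_ins_lip (S : Sys) (t : Species) (ht : t ∈ S.J) {r : ℕ} (ls : Fin r → ℕ)
    (θ : (Fin r → t.Cfg) → ℝ) (hθ : ∀ c, |θ c| ≤ 1) {m : ℕ} {F : Finset OIdx} {K : ℝ} {Φ : Obs → ℝ}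
    (hL : LipCyl m F K Φ) (hΦ : ∀ x, |Φ x| ≤ 1) :
    |(∫ x, Φ x * Dθ t ls θ x ∂S.law) - (∑ e : Fin t.k → Fin S.n, tf_Ig S (lw t e)
        (fun N σ => Φ (arr N (extR σ)) * θ (fun j i => extR σ (ls j) (e i)))) / (S.n : ℝ) ^ t.k|
      ≤ S.err (K * F.card) := by
  have hmeas : Measurable Φ := (lipCyl_continuous hL).measurable
  have h1 : ∫ x, Φ x * Dθ t ls θ x ∂S.law =
      S.Ex (fun N σ => ∑ c : Fin r → t.Cfg, Dl t ls (arr N (extR σ)) c *
        (Φ (arr N (extR σ)) * θ c)) := by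
    rw [S.integral_law (fun x => Φ x * Dθ t ls θ x) (hmeas.mul (tf_measurable_Dθ t ls θ))
      ⟨(Fintype.card (Fin r → t.Cfg) : ℝ), fun x => by
        rw [abs_mul]
        calc |Φ x| * |Dθ t ls θ x| ≤ 1 * (Fintype.card (Fin r → t.Cfg) : ℝ) :=
              mul_le_mul (hΦ x) (tf_abs_Dθ_le t ls θ hθ x) (abs_nonneg _) zero_le_one
          _ = _ := one_mul _⟩]
    congr 1
    funext N σ
    unfold Dθ
    rw [Finset.mul_sum]
    refine Finset.sum_congr rfl fun c _ => ?_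
    ring
  rw [h1]
  have hK : 0 ≤ K := hL.2.1
  refine insertion S t ht ls (fun N σ c => Φ (arr N (extR σ)) * θ c) ?_ (K * F.card)
    (by positivity) ?_
  · intro N σ c
    rw [abs_mul]
    calc |Φ (arr N (extR σ))| * |θ c| ≤ 1 * 1 :=
          mul_le_mul (hΦ _) (hθ c) (abs_nonneg _) zero_le_one
      _ = 1 := one_mul 1
  · intro N e σ c
    rw [← sub_mul, abs_mul]
    have h2 := lipCyl_bump hL t ht N e (extR σ)
    calc |Φ (arr (bump N ⟨⟨t, ht⟩, e⟩) (extR σ)) - Φ (arr N (extR σ))| * |θ c|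
        ≤ (K * F.card / ((tot t N : ℝ) + 1)) * 1 :=
          mul_le_mul h2 (hθ c) (abs_nonneg _) (by positivity)
      _ = _ := mul_one _

lemma tf_Ham_add {J : Finset Species} {n : ℕ} (G0 V : Cf n → ℝ) (δ : ℝ) (u : UPar)
    (N : FIdx J n → ℕ) : Ham (fun σ => G0 σ + V σ) δ u N = fun σ => Ham G0 δ u N σ + V σ := by
  funext σ
  unfold Ham
  ring

lemma tf_integral_comb {α : Type*} [MeasurableSpace α] (μ : Measure α) [IsProbabilityMeasure μ]
    {m : ℕ} (f1 f2 f4 : α → ℝ) (f3 : Fin m → α → ℝ) (i1 : Integrable f1 μ) (i2 : Integrable f2 μ)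
    (i4 : Integrable f4 μ) (i3 : ∀ l, Integrable (f3 l) μ) (ρ B : ℝ)
    (hb : ∀ x, |f1 x - f2 x - ρ * ((∑ l, f3 l x) - m * f4 x)| ≤ B) :
    |(∫ x, f1 x ∂μ) - (∫ x, f2 x ∂μ) - ρ * ((∑ l, ∫ x, f3 l x ∂μ) - m * ∫ x, f4 x ∂μ)| ≤ B := by
  have j3 : Integrable (fun x => ∑ l, f3 l x) μ := integrable_finsetSum _ fun l _ => i3 l
  have j4 : Integrable (fun x => (m : ℝ) * f4 x) μ := i4.const_mul _
  have j34 : Integrable (fun x => (∑ l, f3 l x) - m * f4 x) μ := j3.sub j4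
  have j34' : Integrable (fun x => ρ * ((∑ l, f3 l x) - m * f4 x)) μ := j34.const_mul _
  have j12 : Integrable (fun x => f1 x - f2 x) μ := i1.sub i2
  have e : (∫ x, f1 x ∂μ) - (∫ x, f2 x ∂μ) - ρ * ((∑ l, ∫ x, f3 l x ∂μ) - m * ∫ x, f4 x ∂μ) =
      ∫ x, (f1 x - f2 x - ρ * ((∑ l, f3 l x) - m * f4 x)) ∂μ := by
    rw [integral_sub j12 j34', integral_sub i1 i2, integral_const_mul, integral_sub j3 j4,
      integral_finsetSum _ (fun l _ => i3 l), integral_const_mul]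
  rw [e]
  have := norm_integral_le_of_norm_le_const (μ := μ) (C := B)
    (f := fun x => f1 x - f2 x - ρ * ((∑ l, f3 l x) - m * f4 x))
    (Eventually.of_forall fun x => by rw [Real.norm_eq_abs]; exact hb x)
  simpa using this

/-- the tilt expansion for the expectation of a Gibbs average. -/
lemma tf_Ex_tilt (m : ℕ) {C : ℝ}
    (hC : ∀ (n L : ℕ) (hL : m < L) (H X : Cf n → ℝ) (ρ : ℝ),
    0 < ρ → ρ ≤ 1 / 2 → (∀ σ, |X σ| ≤ 1) → ∀ F : (Fin L → Cf n) → ℝ, (∀ σ, |F σ| ≤ 1) →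
    (∀ σ σ' : Fin L → Cf n, (∀ l : Fin L, l.val < m → σ l = σ' l) → F σ = F σ') →
    |gav (fun σ => H σ + Real.log (1 + ρ * X σ)) F - gav H F
      - ρ * ((∑ l : Fin m, gav H (fun σ => F σ * X (σ ⟨l, l.2.trans hL⟩)))
        - m * gav H (fun σ => F σ * X (σ ⟨m, hL⟩)))| ≤ C * ρ ^ 2)
    (S : Sys) (hL : m < S.L) (V X : Cf S.n → ℝ) (ρ : ℝ) (h0 : 0 < ρ) (h1 : ρ ≤ 1 / 2)
    (hX : ∀ σ, |X σ| ≤ 1) (Ψ : (FIdx S.J S.n → ℕ) → (Fin S.L → Cf S.n) → ℝ)
    (hΨ : ∀ N σ, |Ψ N σ| ≤ 1)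
    (hΨ' : ∀ N, ∀ σ σ' : Fin S.L → Cf S.n, (∀ l : Fin S.L, l.val < m → σ l = σ' l) →
      Ψ N σ = Ψ N σ') :
    |tf_Ig S (fun σ => V σ + Real.log (1 + ρ * X σ)) Ψ - tf_Ig S V Ψ
      - ρ * ((∑ l : Fin m, tf_Ig S V (fun N σ => Ψ N σ * X (σ ⟨l, l.2.trans hL⟩)))
        - m * tf_Ig S V (fun N σ => Ψ N σ * X (σ ⟨m, hL⟩)))| ≤ C * ρ ^ 2 := by
  have hprob : IsProbabilityMeasure S.Pc := by unfold Sys.Pc; infer_instance
  have hΨX : ∀ (l : Fin S.L) N (σ : Fin S.L → Cf S.n), |Ψ N σ * X (σ l)| ≤ 1 := by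
    intro l N σ
    rw [abs_mul]
    calc |Ψ N σ| * |X (σ l)| ≤ 1 * 1 := mul_le_mul (hΨ _ _) (hX _) (abs_nonneg _) zero_le_one
      _ = 1 := one_mul 1
  have i1 : Integrable (fun N => gav (Ham (fun σ => S.G0 σ + (V σ + Real.log (1 + ρ * X σ)))
      S.δ S.u N) (Ψ N)) S.Pc :=
    (S.addG (fun σ => V σ + Real.log (1 + ρ * X σ))).integrable_gav hΨ
  have i2 : Integrable (fun N => gav (Ham (fun σ => S.G0 σ + V σ) S.δ S.u N) (Ψ N)) S.Pc :=
    (S.addG V).integrable_gav hΨ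
  have i3 : ∀ l : Fin S.L, Integrable (fun N => gav (Ham (fun σ => S.G0 σ + V σ) S.δ S.u N)
      (fun σ => Ψ N σ * X (σ l))) S.Pc := fun l =>
    (S.addG V).integrable_gav (Ψ := fun N σ => Ψ N σ * X (σ l)) (hΨX l)
  unfold tf_Ig
  refine tf_integral_comb S.Pc _ _ _ _ i1 i2 (i3 _) (fun l => i3 _) ρ _ ?_
  intro N
  have hH : Ham (fun σ => S.G0 σ + (V σ + Real.log (1 + ρ * X σ))) S.δ S.u N =
      fun σ => Ham (fun σ => S.G0 σ + V σ) S.δ S.u N σ + Real.log (1 + ρ * X σ) := by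
    rw [← tf_Ham_add]
    congr 1
    funext σ
    ring
  rw [hH]
  exact hC S.n S.L hL _ X ρ h0 h1 hX (Ψ N) (hΨ N) (hΨ' N)

lemma tf_extR_of_lt {n L : ℕ} (σ : Fin L → Cf n) {l : ℕ} (h : l < L) : extR σ l = σ ⟨l, h⟩ := by
  unfold extR
  rw [dif_pos h]

/-- Approximate tilt identity of the finite system. `C_m` depends only on `m`.
PROOF. Apply `insertion` to the `2 + (r + (m - r) + 1)` expectations (with `Ψ N σ c = Φ(arr N (extR σ)) θ(c)` etc.,
`ℓ = K #F` by `lipCyl_bump`); the main terms are averages over `e` (the SAME tuples `e`, since `(s.tilt χ ρ h).k = s.k`) and over `N`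
of Gibbs averages with Hamiltonian `Ham N + log W_s(e) + log(1 + ρ χ(e))` resp. `Ham N + log W_s(e)`; `gav_tilt` applied to
`F σ = Φ(arr N (extR σ)) θ(σ_e)`, `X σ = χ(σ_e)` bounds their combination by `C ρ²` (`F` depends only on the replicas `< m` by
`lipCyl_congr`, `r ≤ m`). The sum over the labels `l < r` uses the same replica twice; `rgl r l`, `tens`: for `l ≥ r`. -/
theorem tilt_fin (m : ℕ) : ∃ C : ℝ, 0 ≤ C ∧ ∀ (S : Sys), m < S.L → ∀ (s : Species) (χ : s.Cfg → ℚ) (ρ : ℚ)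
    (h : ∀ c, 0 < 1 + ρ * χ c), s ∈ S.J → s.tilt χ ρ h ∈ S.J → 0 < ρ → ρ ≤ 1 / 2 → (∀ c, |χ c| ≤ 1) →
    ∀ (r : ℕ), r ≤ m → ∀ (θ : (Fin r → s.Cfg) → ℝ), (∀ c, |θ c| ≤ 1) →
    ∀ (F : Finset OIdx) (K : ℝ) (Φ : Obs → ℝ), LipCyl m F K Φ → (∀ x, |Φ x| ≤ 1) →
      |(∫ x, Φ x * Dθ (s.tilt χ ρ h) (rg r) θ x ∂S.law) - (∫ x, Φ x * Dθ s (rg r) θ x ∂S.law)
        - ρ * ((∑ l : Fin r, ∫ x, Φ x * Dθ s (rg r) (fun c => θ c * (χ (c l) : ℝ)) x ∂S.law)
            + (∑ l ∈ Finset.Ico r m, ∫ x, Φ x * Dθ s (rgl r l) (tens θ (fun c => (χ c : ℝ))) x ∂S.law)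
            - m * ∫ x, Φ x * Dθ s (rgl r m) (tens θ (fun c => (χ c : ℝ))) x ∂S.law)|
        ≤ C * ρ ^ 2 + (2 * m + 2) * S.err (K * F.card) := by
  obtain ⟨C, hC0, hC⟩ := gav_tilt m
  refine ⟨C, hC0, ?_⟩
  intro S hm s χ ρ h hs hs' hρ0 hρ1 hχ r hr θ hθ F K Φ hLip hΦ
  have hχ' : ∀ c, |((χ c : ℚ) : ℝ)| ≤ 1 := fun c => by exact_mod_cast hχ c
  have hρ0' : (0 : ℝ) < (ρ : ℝ) := by exact_mod_cast hρ0
  have hρ1' : (ρ : ℝ) ≤ 1 / 2 := by
    have : ((ρ : ℚ) : ℝ) ≤ ((1 / 2 : ℚ) : ℝ) := by exact_mod_cast hρ1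
    simpa using this
  set E := S.err (K * F.card) with hE
  -- the two kinds of test functions are bounded by one
  have hb1 : ∀ l : Fin r, ∀ c : Fin r → s.Cfg, |θ c * (χ (c l) : ℝ)| ≤ 1 := by
    intro l c
    rw [abs_mul]
    calc |θ c| * |((χ (c l) : ℚ) : ℝ)| ≤ 1 * 1 :=
          mul_le_mul (hθ _) (hχ' _) (abs_nonneg _) zero_le_one
      _ = 1 := one_mul 1
  have hb2 : ∀ c : Fin (r + 1) → s.Cfg, |tens θ (fun c => (χ c : ℝ)) c| ≤ 1 := by
    intro c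
    unfold tens
    rw [abs_mul]
    calc |θ (fun j => c j.castSucc)| * |((χ (c (Fin.last r)) : ℚ) : ℝ)| ≤ 1 * 1 :=
          mul_le_mul (hθ _) (hχ' _) (abs_nonneg _) zero_le_one
      _ = 1 := one_mul 1
  -- insertion for all terms
  have I1 := tf_ins_lip S (s.tilt χ ρ h) hs' (rg r) θ hθ hLip hΦ
  have I0 := tf_ins_lip S s hs (rg r) θ hθ hLip hΦ
  have IB := fun l : Fin r => tf_ins_lip S s hs (rg r) (fun c => θ c * (χ (c l) : ℝ)) (hb1 l) hLip hΦ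
  have IC := fun l : ℕ => tf_ins_lip S s hs (rgl r l) (tens θ (fun c => (χ c : ℝ))) hb2 hLip hΦ
  -- the main terms
  set k := s.k with hk
  let X : (Fin s.k → Fin S.n) → Cf S.n → ℝ := fun e σ => ((χ (fun i => σ (e i)) : ℚ) : ℝ)
  let Ψ : (Fin s.k → Fin S.n) → (FIdx S.J S.n → ℕ) → (Fin S.L → Cf S.n) → ℝ :=
    fun e N σ => Φ (arr N (extR σ)) * θ (fun j i => extR σ (rg r j) (e i))
  have hn0 : (0 : ℝ) < (S.n : ℝ) ^ s.k := by
    have : (0 : ℝ) < S.n := by exact_mod_cast S.hn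
    positivity
  have hcard : (Fintype.card (Fin s.k → Fin S.n) : ℝ) = (S.n : ℝ) ^ s.k := by
    simp
  have hmain : ∀ e : Fin s.k → Fin S.n,
      |tf_Ig S (lw (s.tilt χ ρ h) e) (Ψ e) - tf_Ig S (lw s e) (Ψ e)
        - ρ * ((∑ l : Fin m, tf_Ig S (lw s e)
            (fun N σ => Ψ e N σ * X e (σ ⟨l, l.2.trans hm⟩)))
          - m * tf_Ig S (lw s e) (fun N σ => Ψ e N σ * X e (σ ⟨m, hm⟩)))| ≤ C * ρ ^ 2 := by
    intro e
    have hlw : lw (s.tilt χ ρ h) e = fun σ => lw s e σ + Real.log (1 + (ρ : ℝ) * X e σ) := by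
      funext σ
      unfold lw
      have hW : ((s.tilt χ ρ h).W (fun i => σ (e i)) : ℚ) =
          s.W (fun i => σ (e i)) * (1 + ρ * χ (fun i => σ (e i))) := rfl
      rw [hW]
      push_cast
      rw [Real.log_mul]
      · exact_mod_cast (s.pos _).ne'
      · exact_mod_cast (h _).ne'
    rw [hlw]
    refine tf_Ex_tilt m hC S hm (lw s e) (X e) ρ hρ0' hρ1' (fun σ => hχ' _) (Ψ e) ?_ ?_
    · intro N σ
      simp only [Ψ]
      rw [abs_mul]
      calc |Φ (arr N (extR σ))| * |θ _| ≤ 1 * 1 :=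
            mul_le_mul (hΦ _) (hθ _) (abs_nonneg _) zero_le_one
        _ = 1 := one_mul 1
    · intro N σ σ' hσ
      have hext : ∀ l < m, extR σ l = extR σ' l := by
        intro l hl
        rw [tf_extR_of_lt σ (hl.trans hm), tf_extR_of_lt σ' (hl.trans hm)]
        exact hσ _ hl
      simp only [Ψ]
      rw [lipCyl_congr hLip N (extR σ) (extR σ') hext]
      congr 2
      funext j i
      rw [hext (rg r j) (lt_of_lt_of_le j.2 hr)]
  -- identify the terms of the sum over `l`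
  have hB : ∀ (e : Fin s.k → Fin S.n) (l : Fin r),
      (fun (N : FIdx S.J S.n → ℕ) (σ : Fin S.L → Cf S.n) => Φ (arr N (extR σ)) *
        ((fun c : Fin r → s.Cfg => θ c * (χ (c l) : ℝ)) (fun j i => extR σ (rg r j) (e i)))) =
      fun N σ => Ψ e N σ * X e (σ ⟨l, (l.2.trans_le hr).trans hm⟩) := by
    intro e l
    funext N σ
    simp only [Ψ, X]
    rw [mul_assoc]
    congr 3
    have h1 : rg r l = (l : ℕ) := rfl
    rw [h1, tf_extR_of_lt σ ((l.2.trans_le hr).trans hm)]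
  have hCC : ∀ (e : Fin s.k → Fin S.n) (l : ℕ) (_ : r ≤ l) (hlL : l < S.L),
      (fun (N : FIdx S.J S.n → ℕ) (σ : Fin S.L → Cf S.n) => Φ (arr N (extR σ)) *
        tens θ (fun c => (χ c : ℝ)) (fun j i => extR σ (rgl r l j) (e i))) =
      fun N σ => Ψ e N σ * X e (σ ⟨l, hlL⟩) := by
    intro e l hl hlL
    funext N σ
    simp only [Ψ, X, tens]
    rw [mul_assoc]
    have h1 : ∀ j : Fin r, rgl r l j.castSucc = rg r j := by
      intro j
      simp [rgl, rg]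
    have h2 : rgl r l (Fin.last r) = l := by simp [rgl]
    simp only [h1, h2]
    rw [tf_extR_of_lt σ hlL]
  -- averages over `e`
  let av : ((Fin s.k → Fin S.n) → ℝ) → ℝ := fun f => (∑ e, f e) / (S.n : ℝ) ^ s.k
  have hav_abs : ∀ (f : (Fin s.k → Fin S.n) → ℝ) (B : ℝ), (∀ e, |f e| ≤ B) → |av f| ≤ B := by
    intro f B hf
    simp only [av]
    rw [abs_div, abs_of_pos hn0, div_le_iff₀ hn0]
    refine (Finset.abs_sum_le_sum_abs _ _).trans ((Finset.sum_le_sum fun e _ => hf e).trans ?_)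
    rw [Finset.sum_const, nsmul_eq_mul, Finset.card_univ, hcard, mul_comm]
  let M1 : (Fin s.k → Fin S.n) → ℝ := fun e => tf_Ig S (lw (s.tilt χ ρ h) e) (Ψ e)
  let M0 : (Fin s.k → Fin S.n) → ℝ := fun e => tf_Ig S (lw s e) (Ψ e)
  let MX : (Fin s.k → Fin S.n) → Fin S.L → ℝ := fun e l =>
    tf_Ig S (lw s e) (fun N σ => Ψ e N σ * X e (σ l))
  have J1 : |(∫ x, Φ x * Dθ (s.tilt χ ρ h) (rg r) θ x ∂S.law) - av M1| ≤ E := I1
  have J0 : |(∫ x, Φ x * Dθ s (rg r) θ x ∂S.law) - av M0| ≤ E := I0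
  have JB : ∀ l : Fin r, |(∫ x, Φ x * Dθ s (rg r) (fun c => θ c * (χ (c l) : ℝ)) x ∂S.law) -
      av (fun e => MX e ⟨l, (l.2.trans_le hr).trans hm⟩)| ≤ E := by
    intro l
    have := IB l
    simp only [hB] at this
    exact this
  have JC : ∀ (l : ℕ) (_ : r ≤ l) (hlL : l < S.L),
      |(∫ x, Φ x * Dθ s (rgl r l) (tens θ (fun c => (χ c : ℝ))) x ∂S.law) -
      av (fun e => MX e ⟨l, hlL⟩)| ≤ E := by
    intro l hl hlL
    have := IC l
    simp only [hCC _ l hl hlL] at this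
    exact this
  -- total functions of the label
  let G : ℕ → ℝ := fun l => if hl : l < S.L then av (fun e => MX e ⟨l, hl⟩) else 0
  have hG : ∀ (l : ℕ) (hl : l < S.L), G l = av (fun e => MX e ⟨l, hl⟩) := by
    intro l hl
    simp only [G]
    rw [dif_pos hl]
  have hlin : av (fun e => M1 e - M0 e - ρ * ((∑ l : Fin m, MX e ⟨l, l.2.trans hm⟩)
      - m * MX e ⟨m, hm⟩)) = av M1 - av M0 - ρ * ((∑ l : Fin m, G l) - m * G m) := by
    have e3 : ∑ l : Fin m, G l = (∑ e, ∑ l : Fin m, MX e ⟨l, l.2.trans hm⟩) / (S.n : ℝ) ^ s.k := by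
      rw [Finset.sum_comm, Finset.sum_div]
      exact Finset.sum_congr rfl fun l _ => hG _ (l.2.trans hm)
    rw [e3, hG m hm]
    simp only [av]
    rw [Finset.sum_sub_distrib, Finset.sum_sub_distrib, ← Finset.mul_sum, Finset.sum_sub_distrib,
      ← Finset.mul_sum]
    field_simp
  have hfin : |av M1 - av M0 - ρ * ((∑ l : Fin m, G l) - m * G m)| ≤ C * ρ ^ 2 := by
    rw [← hlin]
    exact hav_abs _ _ fun e => hmain e
  have hsplit : ∑ l : Fin m, G l = (∑ l : Fin r, G l) + ∑ l ∈ Finset.Ico r m, G l := by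
    rw [Fin.sum_univ_eq_sum_range G m, Fin.sum_univ_eq_sum_range G r,
      Finset.range_eq_Ico, Finset.range_eq_Ico, Finset.sum_Ico_consecutive G (Nat.zero_le r) hr]
  -- name the integrals
  set a1 := ∫ x, Φ x * Dθ (s.tilt χ ρ h) (rg r) θ x ∂S.law with ha1
  set a0 := ∫ x, Φ x * Dθ s (rg r) θ x ∂S.law with ha0
  set b : Fin r → ℝ := fun l =>
    ∫ x, Φ x * Dθ s (rg r) (fun c => θ c * (χ (c l) : ℝ)) x ∂S.law with hb
  set c : ℕ → ℝ := fun l =>
    ∫ x, Φ x * Dθ s (rgl r l) (tens θ (fun c => (χ c : ℝ))) x ∂S.law with hc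
  have hE0 : 0 ≤ E := (abs_nonneg _).trans J0
  have KB : |(∑ l : Fin r, b l) - ∑ l : Fin r, G l| ≤ r * E := by
    rw [← Finset.sum_sub_distrib]
    refine (Finset.abs_sum_le_sum_abs _ _).trans ?_
    calc ∑ l : Fin r, |b l - G l| ≤ ∑ _l : Fin r, E := Finset.sum_le_sum fun l _ => by
          rw [hG _ ((l.2.trans_le hr).trans hm)]
          exact JB l
      _ = r * E := by simp
  have KC : |(∑ l ∈ Finset.Ico r m, c l) - ∑ l ∈ Finset.Ico r m, G l| ≤ (m - r) * E := by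
    rw [← Finset.sum_sub_distrib]
    refine (Finset.abs_sum_le_sum_abs _ _).trans ?_
    calc ∑ l ∈ Finset.Ico r m, |c l - G l| ≤ ∑ _l ∈ Finset.Ico r m, E :=
          Finset.sum_le_sum fun l hl => by
            rw [Finset.mem_Ico] at hl
            rw [hG _ (hl.2.trans hm)]
            exact JC l hl.1 (hl.2.trans hm)
      _ = (m - r) * E := by
          rw [Finset.sum_const, Nat.card_Ico, nsmul_eq_mul, Nat.cast_sub hr]
  have Kc : |c m - G m| ≤ E := by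
    rw [hG m hm]
    exact JC m hr hm
  have hgoal : |a1 - a0 - ρ * ((∑ l : Fin r, b l) + (∑ l ∈ Finset.Ico r m, c l) - m * c m)| ≤
      C * ρ ^ 2 + (2 * m + 2) * E := by
    rw [hsplit] at hfin
    rw [abs_le] at hfin J1 J0 KB KC Kc ⊢
    have hm0 : (0 : ℝ) ≤ m := Nat.cast_nonneg m
    -- the combination of the errors
    have T : |(∑ l : Fin r, b l) + (∑ l ∈ Finset.Ico r m, c l) - m * c m
        - ((∑ l : Fin r, G l) + (∑ l ∈ Finset.Ico r m, G l) - m * G m)| ≤ 2 * m * E := by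
      have t1 : |(m : ℝ) * c m - m * G m| ≤ m * E := by
        rw [← mul_sub, abs_mul, abs_of_nonneg hm0]
        exact mul_le_mul_of_nonneg_left (abs_le.2 Kc) hm0
      rw [abs_le] at t1 ⊢
      constructor <;> nlinarith [t1.1, t1.2, KB.1, KB.2, KC.1, KC.2]
    have T2 : |(ρ : ℝ) * ((∑ l : Fin r, b l) + (∑ l ∈ Finset.Ico r m, c l) - m * c m)
        - ρ * ((∑ l : Fin r, G l) + (∑ l ∈ Finset.Ico r m, G l) - m * G m)| ≤ 2 * m * E := by
      rw [← mul_sub, abs_mul, abs_of_pos hρ0']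
      calc (ρ : ℝ) * |_| ≤ 1 * (2 * m * E) :=
            mul_le_mul (by linarith) T (abs_nonneg _) zero_le_one
        _ = 2 * m * E := one_mul _
    rw [abs_le] at T2
    constructor <;> linarith [T2.1, T2.2, J1.1, J1.2, J0.1, J0.2, hfin.1, hfin.2]
  exact hgoal

end Crest.Agent.MP
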