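import Crest.Agent.MP.FLimA
import Crest.Agent.MP.FTiltFin
import Crest.Agent.MP.FExt

/-!
# Module F, limit C: tilt
-/

set_option autoImplicit false

namespace Crest.Agent.MP

open MeasureTheory ProbabilityTheory Filter Topology
open scoped NNReal

variable {S : ℕ → Sys} {U : Ultrafilter ℕ} {P : Measure Obs}

private theorem Gσ_le_C (m : ℕ) : Gσ m ≤ (inferInstance : MeasurableSpace Obs) :=
  iSup_le fun i => (measurable_pi_apply i.1).comap_le

private theorem continuous_Dθ_C (s : Species) {n : ℕ} (ls : Fin n → ℕ) (θ : (Fin n → s.Cfg) → ℝ) :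
    Continuous (Dθ s ls θ) := by
  unfold Dθ Dl
  exact continuous_finsetSum _ fun c _ =>
    (continuous_subtype_val.comp (continuous_apply _)).mul continuous_const

private theorem integrable_C (μ : Measure Obs) [IsProbabilityMeasure μ] {Φ W : Obs → ℝ}
    (hΦ : Measurable Φ) (hb : ∀ x, |Φ x| ≤ 1) (hW : Continuous W) :
    Integrable (fun x => Φ x * W x) μ := by
  obtain ⟨B, hB⟩ := isCompact_univ.exists_bound_of_continuousOn (hW.continuousOn (s := Set.univ))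
  refine Integrable.of_bound (hΦ.mul hW.measurable).aestronglyMeasurable B
    (Eventually.of_forall fun x => ?_)
  rw [norm_mul]
  have h1 := hB x (Set.mem_univ x)
  have h2 : ‖Φ x‖ ≤ 1 := by rw [Real.norm_eq_abs]; exact hb x
  calc ‖Φ x‖ * ‖W x‖ ≤ 1 * ‖W x‖ := by gcongr
    _ = ‖W x‖ := one_mul _
    _ ≤ B := h1

private theorem comb_C (μ : Measure Obs) [IsProbabilityMeasure μ] {Ψ : Obs → ℝ}
    (hΨ : Measurable Ψ) (hb : ∀ x, |Ψ x| ≤ 1) {A B H : Obs → ℝ} {r m : ℕ} {E : Fin r → Obs → ℝ}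
    {G : ℕ → Obs → ℝ} (ρ M : ℝ) (hA : Continuous A) (hB : Continuous B)
    (hH : Continuous H) (hE : ∀ l, Continuous (E l)) (hG : ∀ l, Continuous (G l)) :
    (∫ x, Ψ x * A x ∂μ) - (∫ x, Ψ x * B x ∂μ)
        - ρ * ((∑ l : Fin r, ∫ x, Ψ x * E l x ∂μ)
            + (∑ l ∈ Finset.Ico r m, ∫ x, Ψ x * G l x ∂μ)
            - M * ∫ x, Ψ x * H x ∂μ) =
      ∫ x, Ψ x * (A x - B x - ρ * ((∑ l : Fin r, E l x) + (∑ l ∈ Finset.Ico r m, G l x)
        - M * H x)) ∂μ := by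
  have iA := integrable_C μ hΨ hb hA
  have iB := integrable_C μ hΨ hb hB
  have iH := integrable_C μ hΨ hb hH
  have iE := fun l => integrable_C μ hΨ hb (hE l)
  have iG := fun l => integrable_C μ hΨ hb (hG l)
  have jE : Integrable (fun x => ∑ l : Fin r, Ψ x * E l x) μ :=
    integrable_finsetSum _ fun l _ => iE l
  have jG : Integrable (fun x => ∑ l ∈ Finset.Ico r m, Ψ x * G l x) μ :=
    integrable_finsetSum _ fun l _ => iG l
  have jH : Integrable (fun x => M * (Ψ x * H x)) μ := iH.const_mul _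
  have jEG : Integrable (fun x => (∑ l : Fin r, Ψ x * E l x) +
      ∑ l ∈ Finset.Ico r m, Ψ x * G l x) μ := jE.add jG
  have jEGH : Integrable (fun x => (∑ l : Fin r, Ψ x * E l x) +
      (∑ l ∈ Finset.Ico r m, Ψ x * G l x) - M * (Ψ x * H x)) μ := jEG.sub jH
  have jR : Integrable (fun x => ρ * ((∑ l : Fin r, Ψ x * E l x) +
      (∑ l ∈ Finset.Ico r m, Ψ x * G l x) - M * (Ψ x * H x))) μ := jEGH.const_mul _
  have jAB : Integrable (fun x => Ψ x * A x - Ψ x * B x) μ := iA.sub iB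
  have e : (fun x => Ψ x * (A x - B x - ρ * ((∑ l : Fin r, E l x) +
      (∑ l ∈ Finset.Ico r m, G l x) - M * H x))) = fun x => (Ψ x * A x - Ψ x * B x) -
      ρ * ((∑ l : Fin r, Ψ x * E l x) + (∑ l ∈ Finset.Ico r m, Ψ x * G l x)
        - M * (Ψ x * H x)) := by
    funext x
    rw [← Finset.mul_sum, ← Finset.mul_sum]
    ring
  rw [e, integral_sub jAB jR, integral_sub iA iB, integral_const_mul, integral_sub jEG jH,
    integral_const_mul, integral_add jE jG, integral_finsetSum _ (fun l _ => iE l),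
    integral_finsetSum _ (fun l _ => iG l)]

/-- first for Lipschitz cylinder functions (`tilt_fin`, `GoodSeq.err`), then `exists_lipCyl_approx`. -/
theorem lim_tilt (hS : GoodSeq S) (hU : (U : Filter ℕ) ≤ atTop) [IsProbabilityMeasure P]
    (hP : ∀ Φ : Obs → ℝ, Continuous Φ → Tendsto (fun j => ∫ x, Φ x ∂(S j).law) U (𝓝 (∫ x, Φ x ∂P)))
    (m : ℕ) : ∃ C : ℝ, ∀ (s : Species) (χ : s.Cfg → ℚ) (ρ : ℚ) (h : ∀ c, 0 < 1 + ρ * χ c),
    0 < ρ → ρ ≤ 1 / 2 → (∀ c, |χ c| ≤ 1) →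
    ∀ (r : ℕ), r ≤ m → ∀ (θ : (Fin r → s.Cfg) → ℝ), (∀ c, |θ c| ≤ 1) →
    ∀ Φ : Obs → ℝ, Measurable[Gσ m] Φ → (∀ x, |Φ x| ≤ 1) →
      |(∫ x, Φ x * Dθ (s.tilt χ ρ h) (rg r) θ x ∂P) - (∫ x, Φ x * Dθ s (rg r) θ x ∂P)
        - ρ * ((∑ l : Fin r, ∫ x, Φ x * Dθ s (rg r) (fun c => θ c * (χ (c l) : ℝ)) x ∂P)
            + (∑ l ∈ Finset.Ico r m, ∫ x, Φ x * Dθ s (rgl r l) (tens θ (fun c => (χ c : ℝ))) x ∂P)
            - m * ∫ x, Φ x * Dθ s (rgl r m) (tens θ (fun c => (χ c : ℝ))) x ∂P)| ≤ C * ρ ^ 2 := by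
  obtain ⟨C, hC0, hfin⟩ := tilt_fin m
  refine ⟨C, fun s χ ρ h hρ hρ2 hχ r hr θ hθ Φ hΦ hb => ?_⟩
  set W : Obs → ℝ := fun x => Dθ (s.tilt χ ρ h) (rg r) θ x - Dθ s (rg r) θ x -
    ρ * ((∑ l : Fin r, Dθ s (rg r) (fun c => θ c * (χ (c l) : ℝ)) x)
            + (∑ l ∈ Finset.Ico r m, Dθ s (rgl r l) (tens θ (fun c => (χ c : ℝ))) x)
            - m * Dθ s (rgl r m) (tens θ (fun c => (χ c : ℝ))) x) with hW
  have hWc : Continuous W := by
    refine ((continuous_Dθ_C _ _ _).sub (continuous_Dθ_C _ _ _)).sub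
      (continuous_const.mul ((Continuous.add ?_ ?_).sub
        (continuous_const.mul (continuous_Dθ_C _ _ _))))
    · exact continuous_finsetSum _ fun l _ => continuous_Dθ_C _ _ _
    · exact continuous_finsetSum _ fun l _ => continuous_Dθ_C _ _ _
  have key : ∀ (μ : Measure Obs) [IsProbabilityMeasure μ] (Ψ : Obs → ℝ), Measurable Ψ →
      (∀ x, |Ψ x| ≤ 1) →
      (∫ x, Ψ x * Dθ (s.tilt χ ρ h) (rg r) θ x ∂μ) - (∫ x, Ψ x * Dθ s (rg r) θ x ∂μ)
        - ρ * ((∑ l : Fin r, ∫ x, Ψ x * Dθ s (rg r) (fun c => θ c * (χ (c l) : ℝ)) x ∂μ)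
            + (∑ l ∈ Finset.Ico r m, ∫ x, Ψ x * Dθ s (rgl r l) (tens θ (fun c => (χ c : ℝ))) x ∂μ)
            - m * ∫ x, Ψ x * Dθ s (rgl r m) (tens θ (fun c => (χ c : ℝ))) x ∂μ) =
      ∫ x, Ψ x * W x ∂μ := by
    intro μ _ Ψ hΨ hΨb
    exact comb_C (A := Dθ (s.tilt χ ρ h) (rg r) θ) (B := Dθ s (rg r) θ)
      (H := Dθ s (rgl r m) (tens θ (fun c => (χ c : ℝ))))
      (E := fun l => Dθ s (rg r) (fun c => θ c * (χ (c l) : ℝ)))
      (G := fun l => Dθ s (rgl r l) (tens θ (fun c => (χ c : ℝ)))) μ hΨ hΨb ρ m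
      (continuous_Dθ_C _ _ _) (continuous_Dθ_C _ _ _) (continuous_Dθ_C _ _ _)
      (fun l => continuous_Dθ_C _ _ _) (fun l => continuous_Dθ_C _ _ _)
  -- Lipschitz cylinder functions
  have hLip : ∀ (F : Finset OIdx) (K : ℝ) (Ψ : Obs → ℝ), LipCyl m F K Ψ → (∀ x, |Ψ x| ≤ 1) →
      |∫ x, Ψ x * W x ∂P| ≤ C * (ρ : ℝ) ^ 2 := by
    intro F K Ψ hΨ hΨb
    have hΨc : Continuous Ψ := lipCyl_continuous hΨ
    have t1 : Tendsto (fun j => |∫ x, Ψ x * W x ∂(S j).law|) U (𝓝 (|∫ x, Ψ x * W x ∂P|)) :=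
      (hP _ (hΨc.mul hWc)).abs
    have t2 : Tendsto (fun j => C * (ρ : ℝ) ^ 2 + (2 * (m : ℝ) + 2) * (S j).err (K * F.card)) U
        (𝓝 (C * (ρ : ℝ) ^ 2 + (2 * (m : ℝ) + 2) * 0)) :=
      (tendsto_const_nhds.add ((hS.err _).const_mul _)).mono_left hU
    have hev : ∀ᶠ j in (U : Filter ℕ), |∫ x, Ψ x * W x ∂(S j).law| ≤
        C * (ρ : ℝ) ^ 2 + (2 * (m : ℝ) + 2) * (S j).err (K * F.card) := by
      filter_upwards [hU (hS.L.eventually_gt_atTop m), hU (hS.J s), hU (hS.J (s.tilt χ ρ h))]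
        with j h1 h2 h3
      have hpr := (S j).law_prob
      have h4 := hfin (S j) h1 s χ ρ h h2 h3 hρ hρ2 hχ r hr θ hθ F K Ψ hΨ hΨb
      rwa [key (S j).law Ψ hΨc.measurable hΨb] at h4
    have h5 := le_of_tendsto_of_tendsto t1 t2 hev
    simpa using h5
  -- density
  have hΦm : Measurable Φ := hΦ.mono (Gσ_le_C m) le_rfl
  rw [key P Φ hΦm hb]
  obtain ⟨B, hB⟩ := isCompact_univ.exists_bound_of_continuousOn (hWc.continuousOn (s := Set.univ))
  have hB0 : 0 ≤ B := (norm_nonneg _).trans (hB (fun _ => 0) (Set.mem_univ _))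
  refine le_of_forall_pos_le_add fun η hη => ?_
  obtain ⟨F, K, Ψ, hΨ, hΨb, hΨi⟩ := exists_lipCyl_approx P m Φ hΦ hb (η / (B + 1)) (by positivity)
  have hΨc : Continuous Ψ := lipCyl_continuous hΨ
  have i1 := integrable_C P hΦm hb hWc
  have i2 := integrable_C P hΨc.measurable hΨb hWc
  have h1 : |∫ x, Φ x * W x ∂P| ≤ |∫ x, Ψ x * W x ∂P| + |∫ x, (Φ x - Ψ x) * W x ∂P| := by
    have e : ∫ x, Φ x * W x ∂P = ∫ x, Ψ x * W x ∂P + ∫ x, (Φ x - Ψ x) * W x ∂P := by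
      have : ∫ x, (Φ x - Ψ x) * W x ∂P = ∫ x, Φ x * W x ∂P - ∫ x, Ψ x * W x ∂P := by
        rw [← integral_sub i1 i2]
        exact integral_congr_ae (Eventually.of_forall fun x => by ring)
      rw [this]; ring
    rw [e]
    exact abs_add_le _ _
  have iΦ : Integrable Φ P := Integrable.of_bound hΦm.aestronglyMeasurable 1
    (Eventually.of_forall fun x => by rw [Real.norm_eq_abs]; exact hb x)
  have iΨ : Integrable Ψ P := Integrable.of_bound hΨc.measurable.aestronglyMeasurable 1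
    (Eventually.of_forall fun x => by rw [Real.norm_eq_abs]; exact hΨb x)
  have h2 : |∫ x, (Φ x - Ψ x) * W x ∂P| ≤ η := by
    calc |∫ x, (Φ x - Ψ x) * W x ∂P| ≤ ∫ x, |Φ x - Ψ x| * B ∂P := by
          rw [← Real.norm_eq_abs]
          refine norm_integral_le_of_norm_le ((iΦ.sub iΨ).abs.mul_const B)
            (Eventually.of_forall fun x => ?_)
          rw [norm_mul, Real.norm_eq_abs]
          exact mul_le_mul_of_nonneg_left (hB x (Set.mem_univ x)) (abs_nonneg _)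
      _ = (∫ x, |Φ x - Ψ x| ∂P) * B := integral_mul_const _ _
      _ ≤ η / (B + 1) * B := by gcongr
      _ ≤ η := by
          rw [div_mul_eq_mul_div, div_le_iff₀ (by positivity)]
          nlinarith
  linarith [hLip F K Ψ hΨ hΨb]

end Crest.Agent.MP
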