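import Crest.Agent.MP.FInsert

/-!
# Module F: approximate (R5) for the finite system
-/

set_option autoImplicit false

namespace Crest.Agent.MP

open MeasureTheory ProbabilityTheory Filter Topology
open scoped NNReal

private lemma abs_Dl_le (s : Species) {n : ℕ} (ls : Fin n → ℕ) (x : Obs) (c : Fin n → s.Cfg) :
    |Dl s ls x c| ≤ 1 := by
  unfold Dl
  rw [abs_of_nonneg (x _).2.1]
  exact (x _).2.2

private lemma measurable_Dl (s : Species) {n : ℕ} (ls : Fin n → ℕ) (c : Fin n → s.Cfg) :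
    Measurable (fun x : Obs => Dl s ls x c) := by
  unfold Dl
  exact measurable_subtype_coe.comp (measurable_pi_apply _)

private lemma ind_abs_le (p : Prop) [Decidable p] : |(if p then (1:ℝ) else 0)| ≤ 1 := by
  split_ifs <;> simp

private lemma ind_eq_mul {p q t : Prop} [Decidable p] [Decidable q] [Decidable t]
    (h : p ↔ q ∧ t) :
    (if p then (1:ℝ) else 0) = (if q then (1:ℝ) else 0) * (if t then (1:ℝ) else 0) := by
  by_cases hq : q <;> by_cases ht : t <;> simp [h, hq, ht]

private lemma tri3 {A B M N E : ℝ} (h1 : |A - M| ≤ E) (h2 : |B - N| ≤ E) (h3 : |N - M| ≤ E) :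
    |A - B| ≤ 3 * E := by
  rw [abs_le] at h1 h2 h3 ⊢
  constructor <;> linarith [h1.1, h1.2, h2.1, h2.2, h3.1, h3.2]

private lemma abs_mul_le_one' {a b : ℝ} (ha : |a| ≤ 1) (hb : |b| ≤ 1) : |a * b| ≤ 1 := by
  rw [abs_mul]
  nlinarith [abs_nonneg a, abs_nonneg b]

private lemma abs_mul_sub_le {a a' b : ℝ} (hb : |b| ≤ 1) : |a' * b - a * b| ≤ |a' - a| := by
  rw [← sub_mul, abs_mul]
  nlinarith [abs_nonneg (a' - a), abs_nonneg b]

private lemma abs_mul_sub_le' {a a' b b' : ℝ} (ha : |a| ≤ 1) (hb : |b'| ≤ 1) :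
    |a' * b' - a * b| ≤ |a' - a| + |b' - b| := by
  have e : a' * b' - a * b = (a' - a) * b' + a * (b' - b) := by ring
  rw [e]
  refine (abs_add_le _ _).trans ?_
  rw [abs_mul, abs_mul]
  nlinarith [abs_nonneg (a' - a), abs_nonneg (b' - b), abs_nonneg a, abs_nonneg b']

private lemma Sys.ext_addG (S : Sys) {V V' : Cf S.n → ℝ} (h : ∀ σ, V σ = V' σ) :
    S.addG V = S.addG V' := by
  have : V = V' := funext h
  rw [this]

private lemma Sys.Ex_addG_congr (S : Sys) (V V' V'' : Cf S.n → ℝ) (h : ∀ σ, V σ = V' σ + V'' σ)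
    (Ψ Ψ' : (FIdx S.J S.n → ℕ) → (Fin S.L → Cf S.n) → ℝ) (hΨ : ∀ N σ, Ψ N σ = Ψ' N σ) :
    (S.addG V).Ex Ψ = ((S.addG V').addG V'').Ex Ψ' := by
  have h1 : V = fun σ => V' σ + V'' σ := funext h
  have h2 : Ψ = Ψ' := funext fun N => funext fun σ => hΨ N σ
  subst h1 h2
  unfold Sys.Ex Sys.addG
  simp only [Sys.Pc, add_assoc]

/-- Approximate product property.
PROOF. `insertion` for `s.mul s'` gives the average over `(e,e')` of `E< Φ 1(σ_e=c_1) 1(σ_e'=c_2) >` with base
`G0 + log W_s(e) + log W_s'(e')` (`log` of the product; `Fin (k+k') → Fin n` ≃ pairs by `Fin.append`); `insertion` for `s` with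
`Ψ = Φ 1(c=c_1) D_{s'}(ls)(c_2)` (increments `≤ (K #F + 1)/(T+1)`) and then, for every fixed `e`, `insertion` for `s'` in the system
`S.addG (lw s e)` with `Ψ = Φ 1(σ_e=c_1) 1(c' = c_2)`. -/
theorem mul_fin (S : Sys) (s s' : Species) (hs : s ∈ S.J) (hs' : s' ∈ S.J) (hm : s.mul s' ∈ S.J)
    {r : ℕ} (ls : Fin r → ℕ) (c : Fin r → (s.mul s').Cfg)
    (m : ℕ) (F : Finset OIdx) (K : ℝ) (Φ : Obs → ℝ) (hΦ : LipCyl m F K Φ) (hΦ1 : ∀ x, |Φ x| ≤ 1) :
    |(∫ x, Φ x * Dl (s.mul s') ls x c ∂S.law)
      - ∫ x, Φ x * (Dl s ls x (fun j i => c j (Fin.castAdd _ i)) * Dl s' ls x (fun j i => c j (Fin.natAdd _ i))) ∂S.law|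
      ≤ 3 * S.err (K * F.card + 1) := by
  classical
  set c1 : Fin r → s.Cfg := fun j i => c j (Fin.castAdd _ i) with hc1
  set c2 : Fin r → s'.Cfg := fun j i => c j (Fin.natAdd _ i) with hc2
  have hK : 0 ≤ K * F.card := mul_nonneg hΦ.2.1 (Nat.cast_nonneg _)
  have hΛ := S.Λ_pos
  have hΦm : Measurable Φ := (lipCyl_continuous hΦ).measurable
  have hnpos : (0:ℝ) < S.n := by exact_mod_cast S.hn
  -- increments
  have hinc : ∀ (t : Species) (ht : t ∈ S.J) (N : FIdx S.J S.n → ℕ) (e : Fin t.k → Fin S.n)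
      (σ : Fin S.L → Cf S.n),
      |Φ (arr (bump N ⟨⟨t, ht⟩, e⟩) (extR σ)) - Φ (arr N (extR σ))|
        ≤ (K * F.card) / ((tot t N : ℝ) + 1) :=
    fun t ht N e σ => lipCyl_bump hΦ t ht N e (extR σ)
  have hmono : ∀ (t : Species) (N : FIdx S.J S.n → ℕ),
      (K * F.card) / ((tot t N : ℝ) + 1) ≤ (K * F.card + 1) / ((tot t N : ℝ) + 1) := by
    intro t N
    apply div_le_div_of_nonneg_right _ (by positivity)
    linarith
  -- the three insertions
  have hA := insertion S (s.mul s') hm ls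
    (fun N σ c' => Φ (arr N (extR σ)) * (if c' = c then (1:ℝ) else 0))
    (fun N σ c' => abs_mul_le_one' (hΦ1 _) (ind_abs_le _)) (K * F.card + 1) (by linarith)
    (fun N e σ c' => (abs_mul_sub_le (ind_abs_le _)).trans
      ((hinc _ hm N e σ).trans (hmono _ N)))
  have hB := insertion S s hs ls
    (fun N σ c' => Φ (arr N (extR σ)) * (if c' = c1 then (1:ℝ) else 0) *
      Dl s' ls (arr N (extR σ)) c2)
    (fun N σ c' => abs_mul_le_one' (abs_mul_le_one' (hΦ1 _) (ind_abs_le _)) (abs_Dl_le _ _ _ _))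
    (K * F.card + 1) (by linarith)
    (fun N e σ c' => by
      refine (abs_mul_sub_le' (abs_mul_le_one' (hΦ1 _) (ind_abs_le _)) (abs_Dl_le _ _ _ _)).trans ?_
      rw [add_div]
      refine add_le_add ((abs_mul_sub_le (ind_abs_le _)).trans (hinc _ hs N e σ)) ?_
      exact emp_bump s hs N e (extR σ) s' ls c2)
  have hC : ∀ e : Fin s.k → Fin S.n,
      |(S.addG (lw s e)).Ex (fun N σ => Φ (arr N (extR σ)) *
          (if (fun j i => extR σ (ls j) (e i)) = c1 then (1:ℝ) else 0) *
          Dl s' ls (arr N (extR σ)) c2)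
        - (∑ e' : Fin s'.k → Fin S.n, ((S.addG (lw s e)).addG (lw s' e')).Ex
          (fun N σ => Φ (arr N (extR σ)) *
            (if (fun j i => extR σ (ls j) (e i)) = c1 then (1:ℝ) else 0) *
            (if (fun j i => extR σ (ls j) (e' i)) = c2 then (1:ℝ) else 0))) / (S.n : ℝ) ^ s'.k|
        ≤ S.err (K * F.card + 1) := by
    intro e
    have h := insertion (S.addG (lw s e)) s' hs' ls
      (fun N σ c' => Φ (arr N (extR σ)) *
          (if (fun j i => extR σ (ls j) (e i)) = c1 then (1:ℝ) else 0) *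
          (if c' = c2 then (1:ℝ) else 0))
      (fun N σ c' => abs_mul_le_one' (abs_mul_le_one' (hΦ1 _) (ind_abs_le _)) (ind_abs_le _))
      (K * F.card + 1) (by linarith)
      (fun N e' σ c' => (abs_mul_sub_le (ind_abs_le _)).trans ((abs_mul_sub_le (ind_abs_le _)).trans
        ((hinc _ hs' N e' σ).trans (hmono _ N))))
    have he : (S.addG (lw s e)).err (K * F.card + 1) = S.err (K * F.card + 1) := rfl
    rw [he] at h
    refine le_trans (le_of_eq ?_) h
    congr 3
    funext N σ
    rw [Finset.sum_eq_single c2]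
    · simp
      ring_nf
    · intro b _ hb
      simp [hb]
    · intro hb
      exact absurd (Finset.mem_univ _) hb
  -- the integrals
  have hI1 : ∫ x, Φ x * Dl (s.mul s') ls x c ∂S.law
      = S.Ex (fun N σ => ∑ c' : Fin r → (s.mul s').Cfg, Dl (s.mul s') ls (arr N (extR σ)) c' *
          (Φ (arr N (extR σ)) * (if c' = c then (1:ℝ) else 0))) := by
    refine (S.integral_law (fun x => Φ x * Dl (s.mul s') ls x c) (hΦm.mul (measurable_Dl _ _ _))
      ⟨1, fun x => abs_mul_le_one' (hΦ1 _) (abs_Dl_le _ _ _ _)⟩).trans ?_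
    congr 1
    funext N σ
    rw [Finset.sum_eq_single c]
    · simp
      ring_nf
    · intro b _ hb
      simp [hb]
    · intro hb
      exact absurd (Finset.mem_univ _) hb
  have hI2 : ∫ x, Φ x * (Dl s ls x c1 * Dl s' ls x c2) ∂S.law
      = S.Ex (fun N σ => ∑ c' : Fin r → s.Cfg, Dl s ls (arr N (extR σ)) c' *
          (Φ (arr N (extR σ)) * (if c' = c1 then (1:ℝ) else 0) *
      Dl s' ls (arr N (extR σ)) c2)) := by
    refine (S.integral_law (fun x => Φ x * (Dl s ls x c1 * Dl s' ls x c2))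
      (hΦm.mul ((measurable_Dl _ _ _).mul (measurable_Dl _ _ _)))
      ⟨1, fun x => abs_mul_le_one' (hΦ1 _)
        (abs_mul_le_one' (abs_Dl_le _ _ _ _) (abs_Dl_le _ _ _ _))⟩).trans ?_
    congr 1
    funext N σ
    rw [Finset.sum_eq_single c1]
    · simp
      ring_nf
    · intro b _ hb
      simp [hb]
    · intro hb
      exact absurd (Finset.mem_univ _) hb
  rw [hI1, hI2]
  -- the main terms agree
  have hM : (∑ e : Fin (s.mul s').k → Fin S.n, (S.addG (lw (s.mul s') e)).Ex
          (fun N σ => Φ (arr N (extR σ)) *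
            (if (fun j i => extR σ (ls j) (e i)) = c then (1:ℝ) else 0))) / (S.n : ℝ) ^ (s.mul s').k
      = (∑ e : Fin s.k → Fin S.n, (∑ e' : Fin s'.k → Fin S.n,
          ((S.addG (lw s e)).addG (lw s' e')).Ex
          (fun N σ => Φ (arr N (extR σ)) *
            (if (fun j i => extR σ (ls j) (e i)) = c1 then (1:ℝ) else 0) *
            (if (fun j i => extR σ (ls j) (e' i)) = c2 then (1:ℝ) else 0))) / (S.n : ℝ) ^ s'.k)
          / (S.n : ℝ) ^ s.k := by
    have hpow : (S.n : ℝ) ^ (s.mul s').k = (S.n : ℝ) ^ s'.k * (S.n : ℝ) ^ s.k := by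
      have hk : (s.mul s').k = s'.k + s.k := Nat.add_comm _ _
      rw [hk, pow_add]
    rw [← Finset.sum_div, div_div, hpow]
    congr 1
    rw [← Fintype.sum_prod_type' (f := fun (e : Fin s.k → Fin S.n) (e' : Fin s'.k → Fin S.n) =>
          ((S.addG (lw s e)).addG (lw s' e')).Ex
          (fun N σ => Φ (arr N (extR σ)) *
            (if (fun j i => extR σ (ls j) (e i)) = c1 then (1:ℝ) else 0) *
            (if (fun j i => extR σ (ls j) (e' i)) = c2 then (1:ℝ) else 0)))]
    symm
    refine Fintype.sum_equiv (Fin.appendEquiv s.k s'.k) _ _ ?_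
    rintro ⟨e, e'⟩
    symm
    apply Sys.Ex_addG_congr
    · intro σ
      simp only [lw, Species.mul, Fin.appendEquiv_apply]
      rw [Rat.cast_mul, Real.log_mul]
      · simp [Fin.append_left, Fin.append_right]
      · exact_mod_cast (s.pos _).ne'
      · exact_mod_cast (s'.pos _).ne'
    · intro N σ
      rw [mul_assoc]
      congr 1
      have hiff : ((fun j i => extR σ (ls j) ((Fin.appendEquiv s.k s'.k (e, e')) i)) = c) ↔
          ((fun j i => extR σ (ls j) (e i)) = c1 ∧ (fun j i => extR σ (ls j) (e' i)) = c2) := by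
        constructor
        · intro h
          subst h
          constructor
          · funext j i
            simp [hc1, Fin.append_left]
          · funext j i
            simp [hc2, Fin.append_right]
        · rintro ⟨h1, h2⟩
          funext j i
          refine Fin.addCases (fun i => ?_) (fun i => ?_) i
          · have := congrFun (congrFun h1 j) i
            simp only [hc1] at this
            simpa [Fin.append_left] using this
          · have := congrFun (congrFun h2 j) i
            simp only [hc2] at this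
            simpa [Fin.append_right] using this
      exact ind_eq_mul hiff
  have hA2 := (congrArg (fun t => |S.Ex (fun N σ => ∑ c' : Fin r → (s.mul s').Cfg,
      Dl (s.mul s') ls (arr N (extR σ)) c' * (Φ (arr N (extR σ)) * (if c' = c then (1:ℝ) else 0)))
      - t| ≤ S.err (K * F.card + 1)) hM).mp hA
  have hD : |(∑ e : Fin s.k → Fin S.n, (S.addG (lw s e)).Ex
          (fun N σ => Φ (arr N (extR σ)) *
            (if (fun j i => extR σ (ls j) (e i)) = c1 then (1:ℝ) else 0) *
            Dl s' ls (arr N (extR σ)) c2)) / (S.n : ℝ) ^ s.k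
      - (∑ e : Fin s.k → Fin S.n, (∑ e' : Fin s'.k → Fin S.n,
          ((S.addG (lw s e)).addG (lw s' e')).Ex
          (fun N σ => Φ (arr N (extR σ)) *
            (if (fun j i => extR σ (ls j) (e i)) = c1 then (1:ℝ) else 0) *
            (if (fun j i => extR σ (ls j) (e' i)) = c2 then (1:ℝ) else 0))) / (S.n : ℝ) ^ s'.k)
          / (S.n : ℝ) ^ s.k| ≤ S.err (K * F.card + 1) := by
    rw [← sub_div, ← Finset.sum_sub_distrib, abs_div, abs_of_pos (pow_pos hnpos s.k),
      div_le_iff₀ (pow_pos hnpos s.k)]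
    refine (Finset.abs_sum_le_sum_abs _ _).trans ?_
    refine (Finset.sum_le_sum fun e _ => hC e).trans ?_
    rw [Finset.sum_const, Finset.card_univ, Fintype.card_fun, Fintype.card_fin, Fintype.card_fin,
      nsmul_eq_mul]
    push_cast
    rw [mul_comm]
  exact tri3 hA2 hB hD

end Crest.Agent.MP
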