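import Crest.Agent.MP.FLimA
import Crest.Agent.MP.FMulFin
import Crest.Agent.MP.FExt
import Crest.Agent.MP.FConcD

/-!
# Module F, limit D: concentration and products
-/

set_option autoImplicit false

namespace Crest.Agent.MP

open MeasureTheory ProbabilityTheory Filter Topology
open scoped NNReal

variable {S : ℕ → Sys} {U : Ultrafilter ℕ} {P : Measure Obs}

private theorem continuous_Dl (s : Species) {n : ℕ} (ls : Fin n → ℕ) (c : Fin n → s.Cfg) :
    Continuous (fun x : Obs => Dl s ls x c) := by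
  unfold Dl
  exact continuous_subtype_val.comp (continuous_apply _)

private theorem Dl_mem (s : Species) {n : ℕ} (ls : Fin n → ℕ) (c : Fin n → s.Cfg) (x : Obs) :
    0 ≤ Dl s ls x c ∧ Dl s ls x c ≤ 1 := (x ⟨s, n, ls, c⟩).2

private theorem integrable_bdd (Q : Measure Obs) [IsFiniteMeasure Q] {f : Obs → ℝ}
    (hf : Continuous f) {C : ℝ} (hC : ∀ x, |f x| ≤ C) : Integrable f Q :=
  Integrable.of_bound hf.aestronglyMeasurable C
    (Filter.Eventually.of_forall fun x => by rw [Real.norm_eq_abs]; exact hC x)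

/-- (`cdef_law`: the limit `k` of the means along `U` exists by compactness of `[0,1]`; `∫|D - k| dP = lim = 0`) -/
theorem lim_conc (hS : GoodSeq S) (hU : (U : Filter ℕ) ≤ atTop) [IsProbabilityMeasure P]
    (hP : ∀ Φ : Obs → ℝ, Continuous Φ → Tendsto (fun j => ∫ x, Φ x ∂(S j).law) U (𝓝 (∫ x, Φ x ∂P)))
    (s : Species) (c : Fin 1 → s.Cfg) : ∃ k : ℝ, ∀ᵐ x ∂P, Dl s (rg 1) x c = k := by
  have hc : c = fun _ => c 0 := by funext i; rw [Subsingleton.elim i 0]
  set f : Obs → ℝ := fun x => Dl s (rg 1) x c with hf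
  have hfc : Continuous f := continuous_Dl s (rg 1) c
  have hfm : ∀ x, 0 ≤ f x ∧ f x ≤ 1 := fun x => Dl_mem s (rg 1) c x
  set k : ℝ := ∫ x, f x ∂P with hk
  have h1 : Tendsto (fun j => ∫ x, f x ∂(S j).law) U (𝓝 k) := hP f hfc
  have hg : Continuous fun x => |f x - k| := (hfc.sub continuous_const).abs
  have h2 : Tendsto (fun j => ∫ x, |f x - k| ∂(S j).law) U (𝓝 (∫ x, |f x - k| ∂P)) := hP _ hg
  have h3 : Tendsto (fun j => ∫ x, |f x - k| ∂(S j).law) U (𝓝 0) := by
    have hcd : Tendsto (fun j => cdef (S j).J (S j).n (S j).ε (S j).δ (S j).u (S j).G0 s (c 0) +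
        |(∫ x, f x ∂(S j).law) - k|) U (𝓝 0) := by
      have a1 := (hS.conc s (c 0)).mono_left hU
      have a2 : Tendsto (fun j => |(∫ x, f x ∂(S j).law) - k|) U (𝓝 0) := by
        have := (h1.sub_const k).abs
        simpa using this
      simpa using a1.add a2
    refine squeeze_zero' (Eventually.of_forall fun j => integral_nonneg fun x => abs_nonneg _)
      ?_ hcd
    have hL : ∀ᶠ j in (U : Filter ℕ), 1 ≤ (S j).L :=
      (hS.L.eventually_ge_atTop 1).filter_mono hU
    filter_upwards [hL] with j hj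
    have : IsProbabilityMeasure (S j).law := (S j).law_prob
    have h4 := cdef_law (S j) hj s (c 0)
    have e : ∀ x, f x = Dl s (rg 1) x (fun _ => c 0) := fun x => by rw [hf]; simp only; rw [← hc]
    simp only [← e] at h4
    rw [← h4]
    set μ : ℝ := ∫ y, f y ∂(S j).law with hμ
    have hμm : 0 ≤ μ ∧ μ ≤ 1 := by
      constructor
      · exact integral_nonneg fun x => (hfm x).1
      · have := integral_mono (μ := (S j).law) (integrable_bdd _ hfc (C := 1) fun x => by
          rw [abs_of_nonneg (hfm x).1]; exact (hfm x).2) (integrable_const (1 : ℝ))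
          (fun x => (hfm x).2)
        simpa using this
    have hint : Integrable (fun x => |f x - μ|) (S j).law := by
      refine integrable_bdd _ (f := fun x => |f x - μ|) ((hfc.sub continuous_const).abs) (C := 1)
        fun x => ?_
      rw [abs_abs]
      have h5 := hfm x
      rw [abs_le]; constructor <;> linarith
    calc ∫ x, |f x - k| ∂(S j).law ≤ ∫ x, (|f x - μ| + |μ - k|) ∂(S j).law := by
          refine integral_mono ?_ ?_ fun x => ?_
          · refine integrable_bdd _ hg (C := 1 + |k|) fun x => ?_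
            rw [abs_abs]
            have h5 := hfm x
            calc |f x - k| ≤ |f x| + |k| := abs_sub _ _
              _ ≤ 1 + |k| := by rw [abs_of_nonneg h5.1]; linarith
          · exact hint.add (integrable_const _)
          · calc |f x - k| = |(f x - μ) + (μ - k)| := by ring_nf
              _ ≤ _ := abs_add_le _ _
      _ = (∫ x, |f x - μ| ∂(S j).law) + |μ - k| := by
          rw [integral_add _ (integrable_const _)]
          · simp
          · exact hint
  have h4 : ∫ x, |f x - k| ∂P = 0 := tendsto_nhds_unique h2 h3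
  refine ⟨k, ?_⟩
  have h5 := (integral_eq_zero_iff_of_nonneg (fun x => abs_nonneg _)
    (integrable_bdd P hg (C := 1 + |k|) fun x => by
      rw [abs_abs]
      have h5 := hfm x
      calc |f x - k| ≤ |f x| + |k| := abs_sub _ _
        _ ≤ 1 + |k| := by rw [abs_of_nonneg h5.1]; linarith)).1 h4
  filter_upwards [h5] with x hx
  have h6 : |f x - k| = 0 := hx
  have := abs_eq_zero.1 h6
  linarith

/-- (`mul_fin` and `ae_eq_of_lipCyl`) -/
theorem lim_mul (hS : GoodSeq S) (hU : (U : Filter ℕ) ≤ atTop) [IsProbabilityMeasure P]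
    (hP : ∀ Φ : Obs → ℝ, Continuous Φ → Tendsto (fun j => ∫ x, Φ x ∂(S j).law) U (𝓝 (∫ x, Φ x ∂P))) :
    ∀ᵐ x ∂P, ∀ (s s' : Species) (n : ℕ) (ls : Fin n → ℕ) (c : Fin n → (s.mul s').Cfg),
      Dl (s.mul s') ls x c =
        Dl s ls x (fun j i => c j (Fin.castAdd _ i)) * Dl s' ls x (fun j i => c j (Fin.natAdd _ i)) := by
  rw [ae_all_iff]; intro s
  rw [ae_all_iff]; intro s'
  rw [ae_all_iff]; intro n
  rw [ae_all_iff]; intro ls
  rw [ae_all_iff]; intro c
  have hf := continuous_Dl (s.mul s') ls c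
  have hg : Continuous fun x : Obs => Dl s ls x (fun j i => c j (Fin.castAdd _ i)) *
      Dl s' ls x (fun j i => c j (Fin.natAdd _ i)) :=
    (continuous_Dl s ls _).mul (continuous_Dl s' ls _)
  refine ae_eq_of_lipCyl P _ _ hf hg fun m F K Φ hΦ hΦ1 => ?_
  have hΦc := lipCyl_continuous hΦ
  have h1 := hP _ (hΦc.mul hf)
  have h2 := hP _ (hΦc.mul hg)
  have h3 : Tendsto (fun j => (∫ x, Φ x * Dl (s.mul s') ls x c ∂(S j).law)
      - ∫ x, Φ x * (Dl s ls x (fun j i => c j (Fin.castAdd _ i)) *
        Dl s' ls x (fun j i => c j (Fin.natAdd _ i))) ∂(S j).law) U (𝓝 0) := by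
    have herr : Tendsto (fun j => 3 * (S j).err (K * F.card + 1)) U (𝓝 0) := by
      have := ((hS.err (K * F.card + 1)).mono_left hU).const_mul 3
      simpa using this
    refine squeeze_zero_norm' ?_ herr
    filter_upwards [(hS.J s).filter_mono hU, (hS.J s').filter_mono hU,
      (hS.J (s.mul s')).filter_mono hU] with j a1 a2 a3
    rw [Real.norm_eq_abs]
    exact mul_fin (S j) s s' a1 a2 a3 ls c m F K Φ hΦ hΦ1
  have h4 := tendsto_nhds_unique (h1.sub h2) h3
  exact sub_eq_zero.1 h4

end Crest.Agent.MP
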