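import Crest.Agent.MP.FLimB
import Crest.Agent.MP.FLimC
import Crest.Agent.MP.FLimD

/-!
# Module F: the limit of a good sequence is a limit model
-/

set_option autoImplicit false

namespace Crest.Agent.MP

open MeasureTheory ProbabilityTheory Filter Topology
open scoped NNReal

variable {S : ℕ → Sys} {U : Ultrafilter ℕ} {P : Measure Obs}

theorem limitModel_of_goodSeq (hS : GoodSeq S) (hU : (U : Filter ℕ) ≤ atTop) (hPr : IsProbabilityMeasure P)
    (hP : ∀ Φ : Obs → ℝ, Continuous Φ → Tendsto (fun j => ∫ x, Φ x ∂(S j).law) U (𝓝 (∫ x, Φ x ∂P))) :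
    LimitModel P where
  prob := hPr
  exch := lim_exch hS hU hP
  simplex := lim_simplex hU hP
  map := lim_map hU hP
  tilt := lim_tilt hS hU hP
  conc := lim_conc hS hU hP
  mul := lim_mul hS hU hP

end Crest.Agent.MP
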