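import Crest.Agent.MP.FLimA
import Crest.Agent.MP.FExchFin

/-!
# Module F, limit B: exchangeability, simplex, map
-/

set_option autoImplicit false

namespace Crest.Agent.MP

open MeasureTheory ProbabilityTheory Filter Topology
open scoped NNReal

variable {S : ℕ → Sys} {U : Ultrafilter ℕ} {P : Measure Obs}

private theorem continuous_swapRep (a b : ℕ) : Continuous (swapRep a b) := by
  unfold swapRep
  exact continuous_pi fun i => continuous_apply _

private theorem bdd_of_continuous {Φ : Obs → ℝ} (hΦ : Continuous Φ) : ∃ C, ∀ x, |Φ x| ≤ C := by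
  obtain ⟨C, hC⟩ := isCompact_univ.exists_bound_of_continuousOn hΦ.continuousOn
  exact ⟨C, fun x => hC x (Set.mem_univ x)⟩

theorem lim_exch (hS : GoodSeq S) (hU : (U : Filter ℕ) ≤ atTop) [IsProbabilityMeasure P]
    (hP : ∀ Φ : Obs → ℝ, Continuous Φ → Tendsto (fun j => ∫ x, Φ x ∂(S j).law) U (𝓝 (∫ x, Φ x ∂P)))
    (a b : ℕ) : MeasurePreserving (swapRep a b) P P := by
  have hm : Measurable (swapRep a b) := (continuous_swapRep a b).measurable
  refine ⟨hm, ?_⟩
  have hprob : IsProbabilityMeasure (P.map (swapRep a b)) :=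
    Measure.isProbabilityMeasure_map hm.aemeasurable
  refine ext_of_forall_integral_eq_of_IsFiniteMeasure fun f => ?_
  rw [integral_map hm.aemeasurable f.continuous.aestronglyMeasurable]
  have h1 := hP (fun x => f (swapRep a b x)) (f.continuous.comp (continuous_swapRep a b))
  have h2 := hP f f.continuous
  refine tendsto_nhds_unique (h1.congr' ?_) h2
  have h3 : ∀ᶠ j in (U : Filter ℕ), max a b < (S j).L :=
    hU (hS.L.eventually (eventually_gt_atTop (max a b)))
  filter_upwards [h3] with j hj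
  have h4 := exch_fin (S j) a b (lt_of_le_of_lt (le_max_left _ _) hj)
    (lt_of_le_of_lt (le_max_right _ _) hj)
  have h5 := integral_map (μ := (S j).law) hm.aemeasurable
    (f := fun x => f x) f.continuous.aestronglyMeasurable
  rw [h4.map_eq] at h5
  exact h5.symm

private theorem lim_zero (hU : (U : Filter ℕ) ≤ atTop) [IsProbabilityMeasure P]
    (hP : ∀ Φ : Obs → ℝ, Continuous Φ → Tendsto (fun j => ∫ x, Φ x ∂(S j).law) U (𝓝 (∫ x, Φ x ∂P)))
    {Φ : Obs → ℝ} (hΦ : Continuous Φ)
    (h0 : ∀ j (N : FIdx (S j).J (S j).n → ℕ) (σ : ℕ → Cf (S j).n), Φ (arr N σ) = 0) :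
    ∀ᵐ x ∂P, Φ x = 0 := by
  obtain ⟨C, hC⟩ := bdd_of_continuous hΦ
  have h1 : ∀ j, ∫ x, |Φ x| ∂(S j).law = 0 := by
    intro j
    rw [(S j).integral_law (fun x => |Φ x|) hΦ.abs.measurable
      ⟨C, fun x => by rw [abs_abs]; exact hC x⟩]
    unfold Sys.Ex gav
    simp [h0]
  have h2 := hP (fun x => |Φ x|) hΦ.abs
  simp only [h1] at h2
  have h3 : ∫ x, |Φ x| ∂P = 0 := (tendsto_nhds_unique h2 tendsto_const_nhds)
  have h4 : Integrable (fun x => |Φ x|) P :=
    Integrable.of_bound hΦ.abs.aestronglyMeasurable C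
      (ae_of_all _ fun x => by rw [Real.norm_eq_abs, abs_abs]; exact hC x)
  rw [integral_eq_zero_iff_of_nonneg (fun x => abs_nonneg _) h4] at h3
  filter_upwards [h3] with x hx
  simpa using hx

private theorem continuous_Dl (s : Species) {n : ℕ} (ls : Fin n → ℕ) (c : Fin n → s.Cfg) :
    Continuous (fun x : Obs => Dl s ls x c) := by
  unfold Dl
  exact continuous_subtype_val.comp (continuous_apply _)

private theorem continuous_Dθ' (s : Species) {n : ℕ} (ls : Fin n → ℕ)
    (θ : (Fin n → s.Cfg) → ℝ) : Continuous (fun x : Obs => Dθ s ls θ x) := by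
  unfold Dθ
  exact continuous_finsetSum _ fun c _ => (continuous_Dl s ls c).mul continuous_const

theorem lim_simplex (hU : (U : Filter ℕ) ≤ atTop) [IsProbabilityMeasure P]
    (hP : ∀ Φ : Obs → ℝ, Continuous Φ → Tendsto (fun j => ∫ x, Φ x ∂(S j).law) U (𝓝 (∫ x, Φ x ∂P))) :
    ∀ᵐ x ∂P, ∀ (s : Species) (n : ℕ) (ls : Fin n → ℕ), ∑ c : Fin n → s.Cfg, Dl s ls x c = 1 := by
  rw [ae_all_iff]; intro s
  rw [ae_all_iff]; intro n
  rw [ae_all_iff]; intro ls
  have h := lim_zero hU hP (Φ := fun x => (∑ c : Fin n → s.Cfg, Dl s ls x c) - 1)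
    ((continuous_finsetSum _ fun c _ => continuous_Dl s ls c).sub continuous_const) (by
      intro j N σ
      have := emp_sum N σ s ls
      simp only [Dl, arr]
      rw [this, sub_self])
  filter_upwards [h] with x hx
  linarith

/-- (countably many identities: it is enough to take for `θ` the indicators of points, then use linearity) -/
theorem lim_map (hU : (U : Filter ℕ) ≤ atTop) [IsProbabilityMeasure P]
    (hP : ∀ Φ : Obs → ℝ, Continuous Φ → Tendsto (fun j => ∫ x, Φ x ∂(S j).law) U (𝓝 (∫ x, Φ x ∂P))) :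
    ∀ᵐ x ∂P, ∀ (s : Species) (n m : ℕ) (ls : Fin m → ℕ) (g : Fin n → Fin m)
      (θ : (Fin n → s.Cfg) → ℝ), Dθ s (ls ∘ g) θ x = Dθ s ls (fun c => θ (c ∘ g)) x := by
  have key : ∀ᵐ x ∂P, ∀ (s : Species) (n m : ℕ) (ls : Fin m → ℕ) (g : Fin n → Fin m)
      (c0 : Fin n → s.Cfg), Dθ s (ls ∘ g) (fun c => if c = c0 then 1 else 0) x =
        Dθ s ls (fun c => if c ∘ g = c0 then 1 else 0) x := by
    rw [ae_all_iff]; intro s
    rw [ae_all_iff]; intro n
    rw [ae_all_iff]; intro m
    rw [ae_all_iff]; intro ls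
    rw [ae_all_iff]; intro g
    rw [ae_all_iff]; intro c0
    have h := lim_zero hU hP (Φ := fun x => Dθ s (ls ∘ g) (fun c => if c = c0 then 1 else 0) x -
        Dθ s ls (fun c => if c ∘ g = c0 then 1 else 0) x)
      ((continuous_Dθ' _ _ _).sub (continuous_Dθ' _ _ _)) (by
        intro j N σ
        have := emp_map N σ s ls g (fun c => if c = c0 then (1 : ℝ) else 0)
        rw [this, sub_self])
    filter_upwards [h] with x hx
    linarith
  filter_upwards [key] with x hx s n m ls g θ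
  have e1 : Dθ s (ls ∘ g) θ x = ∑ c0 : Fin n → s.Cfg,
      θ c0 * Dθ s (ls ∘ g) (fun c => if c = c0 then 1 else 0) x := by
    unfold Dθ
    refine Finset.sum_congr rfl fun c0 _ => ?_
    simp [mul_comm]
  have e2 : Dθ s ls (fun c => θ (c ∘ g)) x = ∑ c0 : Fin n → s.Cfg,
      θ c0 * Dθ s ls (fun c => if c ∘ g = c0 then 1 else 0) x := by
    unfold Dθ
    simp only [Finset.mul_sum]
    rw [Finset.sum_comm]
    refine Finset.sum_congr rfl fun c _ => ?_
    have : ∀ c0 : Fin n → s.Cfg, θ c0 * (Dl s ls x c * (if c ∘ g = c0 then 1 else 0)) =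
        if c ∘ g = c0 then Dl s ls x c * θ c0 else 0 := by
      intro c0
      split_ifs <;> ring
    simp only [this]
    rw [Finset.sum_ite_eq]
    simp
  rw [e1, e2]
  exact Finset.sum_congr rfl fun c0 _ => by rw [hx s n m ls g c0]

end Crest.Agent.MP
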