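import Crest.Agent.MP.FMain2

/-!
# Module F, main theorem: existence of the limit model (§12)
-/

set_option autoImplicit false

namespace Crest.Agent.MP

open MeasureTheory Filter Topology
open Crest.ProbabilityR.Diluted

theorem exists_limitModel (p : ℕ) (hp : 2 ≤ p) (α : ℝ) (hα : 0 < α) (μ : FinLaw (Inter p))
    (ν : FinLaw ℝ)
    (hsym : ∀ (π : Equiv.Perm (Fin p)) (f : Inter p → ℝ),
      μ.E (fun θ => f (fun c => θ (fun i => c (π i)))) = μ.E f) :
    ∃ P : Measure Obs, LimitModel P ∧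
      ∀ ε : ℝ, 0 < ε → ∀ᶠ N : ℕ in atTop,
        AP p α μ ν P - ε ≤ pressure p α μ.toMeasure ν.toMeasure N :=
  exists_limitModel_sym p hp α hα μ ν hsym

end Crest.Agent.MP
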