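import Crest.Agent.MP.FSelect
import Crest.Agent.MP.FLim
import Crest.Agent.MP.FFunC

/-!
# Module F: assembly
-/

set_option autoImplicit false

namespace Crest.Agent.MP

open MeasureTheory ProbabilityTheory Filter Topology
open Crest.ProbabilityR.Diluted
open scoped NNReal

lemma toU_mem (J : Finset Species) (v : UIdx J → ℝ) (hv : ∀ i, 0 ≤ v i ∧ v i ≤ 1) (s : Species)
    (c : s.Cfg) : 0 ≤ toUf J v s c ∧ toUf J v s c ≤ 1 := by
  classical
  unfold toUf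
  split_ifs with h
  · exact hv _
  · exact ⟨le_refl _, zero_le_one⟩

lemma cdef_nonneg' (J : Finset Species) (n : ℕ) (ε : ℝ≥0) (δ : ℝ) (u : UPar) (G0 : Cf n → ℝ)
    (s : Species) (c : s.Cfg) : 0 ≤ cdef J n ε δ u G0 s c := by
  unfold cdef
  apply integral_nonneg
  intro N
  exact Finset.sum_nonneg fun σ _ => mul_nonneg (gibbs_nonneg' _ _) (abs_nonneg _)

/-- Choice of the parameters: from `select` to a good sequence of systems. -/
theorem exists_goodSeq (p : ℕ) (hp : 2 ≤ p) (α : ℝ) (hα : 0 < α) (μ : FinLaw (Inter p)) (ν : FinLaw ℝ)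
    (hsym : SymLaw μ) :
    ∃ Finf : ℝ, (∀ η : ℝ, 0 < η → ∀ᶠ N : ℕ in atTop, Finf - η ≤ pressure p α μ.toMeasure ν.toMeasure N) ∧
      ∃ S : ℕ → Sys, GoodSeq S ∧ ∀ j : ℕ,
        AA p α μ ν (S j).J (S j).n (S j).ε (S j).δ (S j).u (S j).G0 ≤ Finf + 2 / ((j : ℝ) + 1) := by
  classical
  obtain ⟨Finf, hF, hsel⟩ := select p hp α hα μ ν hsym
  refine ⟨Finf, hF, ?_⟩
  have hfin : ∀ j : ℕ, {s : Species | Encodable.encode s < j}.Finite := fun j =>
    (Set.finite_Iio j).preimage (Encodable.encode_injective.injOn)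
  let J : ℕ → Finset Species := fun j => (hfin j).toFinset
  have hJ : ∀ (j : ℕ) (s : Species), s ∈ J j ↔ Encodable.encode s < j := by
    intro j s
    simp [J]
  have key : ∀ j : ℕ, ∃ S : Sys, S.J = J j ∧ (j : ℝ) ≤ S.Λ ∧ S.L = j ∧
      (S.L : ℝ) * S.δ ≤ 1 / ((j : ℝ) + 1) ∧
      (∀ s ∈ J j, ∀ c : s.Cfg, cdef S.J S.n S.ε S.δ S.u S.G0 s c ≤ 1 / ((j : ℝ) + 1)) ∧
      AA p α μ ν S.J S.n S.ε S.δ S.u S.G0 ≤ Finf + 2 / ((j : ℝ) + 1) := by
    intro j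
    obtain ⟨C, hC, h⟩ := hsel (J j)
    have hj : (0 : ℝ) < (j : ℝ) + 1 := by positivity
    have hj1 : (1 : ℝ) ≤ (j : ℝ) + 1 := by linarith [(Nat.cast_nonneg j : (0 : ℝ) ≤ j)]
    have hε : 0 < 1 / ((C + 1) * ((j : ℝ) + 1)) := by positivity
    set ε : ℝ≥0 := ⟨1 / ((C + 1) * ((j : ℝ) + 1)), hε.le⟩ with hεdef
    have hεc : (ε : ℝ) = 1 / ((C + 1) * ((j : ℝ) + 1)) := rfl
    have hε0 : 0 < ε := hε
    set δ : ℝ := 1 / (2 * ((j : ℝ) + 1) ^ 2) with hδdef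
    have hδ0 : 0 < δ := by positivity
    have hsq1 : (1 : ℝ) ≤ ((j : ℝ) + 1) ^ 2 := one_le_pow₀ hj1
    have hδ2 : δ ≤ 1 / 2 := by
      rw [hδdef]
      apply one_div_le_one_div_of_le (by norm_num)
      linarith
    obtain ⟨n, hn, G0, v, hv, hA, hcd⟩ := h ε δ (1 / ((j : ℝ) + 1)) hε0 hδ0 hδ2 (by positivity)
      (max 1 ⌈(j : ℝ) / ε⌉₊)
    have hn1 : 1 ≤ n := (le_max_left _ _).trans hn
    have hn2 : ⌈(j : ℝ) / ε⌉₊ ≤ n := (le_max_right _ _).trans hn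
    refine ⟨⟨n, j, J j, ε, δ, toUf (J j) v, G0, hn1, hε0, hδ0.le, hδ2, toU_mem (J j) v hv⟩, rfl, ?_,
      rfl, ?_, hcd, ?_⟩
    · show (j : ℝ) ≤ (ε : ℝ) * (n : ℝ)
      have h3 : (j : ℝ) / ε ≤ n := (Nat.le_ceil _).trans (by exact_mod_cast hn2)
      rw [div_le_iff₀ (by exact_mod_cast hε0)] at h3
      linarith
    · show (j : ℝ) * δ ≤ 1 / ((j : ℝ) + 1)
      rw [hδdef, mul_one_div, div_le_div_iff₀ (by positivity) hj]
      nlinarith [(Nat.cast_nonneg j : (0 : ℝ) ≤ j)]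
    · show AA p α μ ν (J j) n ε δ (toUf (J j) v) G0 ≤ _
      refine hA.trans ?_
      have h4 : C * (ε : ℝ) ≤ 1 / ((j : ℝ) + 1) := by
        rw [hεc, mul_one_div, div_le_div_iff₀ (by positivity) hj]
        nlinarith
      have h5 : (2 : ℝ) / ((j : ℝ) + 1) = 1 / ((j : ℝ) + 1) + 1 / ((j : ℝ) + 1) := by ring
      rw [h5]
      linarith
  choose S hSJ hSΛ hSL hSδ hSc hSA using key
  refine ⟨S, ?_, hSA⟩
  have hlim : Tendsto (fun j : ℕ => 1 / ((j : ℝ) + 1)) atTop (𝓝 0) :=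
    tendsto_one_div_add_atTop_nhds_zero_nat
  refine ⟨?_, ?_, ?_, ?_, ?_⟩
  · exact tendsto_atTop_mono hSΛ tendsto_natCast_atTop_atTop
  · have : (fun j => (S j).L) = fun j => j := funext hSL
    rw [this]
    exact tendsto_id
  · exact squeeze_zero (fun j => mul_nonneg (Nat.cast_nonneg _) (S j).hδ) hSδ hlim
  · intro s
    filter_upwards [eventually_gt_atTop (Encodable.encode s)] with j hj
    rw [hSJ, hJ]
    exact hj
  · intro s c
    apply squeeze_zero' (Eventually.of_forall fun j => cdef_nonneg' _ _ _ _ _ _ _ _) _ hlim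
    filter_upwards [eventually_gt_atTop (Encodable.encode s)] with j hj
    exact hSc j s ((hJ j s).2 hj) c

theorem exists_limitModel_sym (p : ℕ) (hp : 2 ≤ p) (α : ℝ) (hα : 0 < α) (μ : FinLaw (Inter p))
    (ν : FinLaw ℝ) (hsym : SymLaw μ) :
    ∃ P : Measure Obs, LimitModel P ∧
      ∀ ε : ℝ, 0 < ε → ∀ᶠ N : ℕ in atTop,
        AP p α μ ν P - ε ≤ pressure p α μ.toMeasure ν.toMeasure N := by
  obtain ⟨Finf, hF, S, hS, hA⟩ := exists_goodSeq p hp α hα μ ν hsym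
  obtain ⟨U, P, hU, hPr, hP⟩ := exists_limit_law S
  refine ⟨P, limitModel_of_goodSeq hS hU hPr hP, fun ε hε => ?_⟩
  have h1 := lim_AA hS hU hP p α hα μ ν
  have h2 : Tendsto (fun j : ℕ => Finf + 2 / ((j : ℝ) + 1)) U (𝓝 (Finf + 0)) := by
    refine Tendsto.mono_left ?_ hU
    refine tendsto_const_nhds.add ?_
    have h3 : Tendsto (fun j : ℕ => (j : ℝ) + 1) atTop atTop :=
      tendsto_atTop_add_const_right _ _ tendsto_natCast_atTop_atTop
    exact h3.const_div_atTop 2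
  have h3 : AP p α μ ν P ≤ Finf + 0 := le_of_tendsto_of_tendsto h1 h2 (Eventually.of_forall hA)
  filter_upwards [hF ε hε] with N hN
  linarith

end Crest.Agent.MP
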