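import Crest.Agent.MP.FPois

/-!
# Poisson calculus A: integrability, Mecke formula
-/

set_option autoImplicit false

namespace Crest.Agent.MP

open MeasureTheory ProbabilityTheory
open scoped NNReal

variable {I : Type} [Fintype I]

/-- A function with bounded increments has linear growth. -/
theorem linG_of_lip {G : (I → ℕ) → ℝ} {L : I → ℝ} (hL : ∀ N i, |G (bump N i) - G N| ≤ L i) : LinG G := by
  classical
  refine ⟨|G 0|, ∑ i, |L i|, ?_⟩
  have key : ∀ (s : ℕ) (N : I → ℕ), ∑ i, N i = s → |G N| ≤ |G 0| + (∑ i, |L i|) * s := by
    intro s
    induction s with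
    | zero =>
      intro N hN
      have : N = 0 := by
        funext i
        have := Finset.sum_eq_zero_iff.1 hN i (Finset.mem_univ i)
        simpa using this
      rw [this]; simp
    | succ s ih =>
      intro N hN
      have h1 : ∃ i, N i ≠ 0 := by
        by_contra hcon
        push Not at hcon
        simp [hcon] at hN
      obtain ⟨i, hi⟩ := h1
      set N' : I → ℕ := Function.update N i (N i - 1) with hN'
      have h2 : bump N' i = N := by
        funext j
        unfold bump
        by_cases hj : j = i
        · subst hj; simp [hN']; omega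
        · simp [hN', hj]
      have h3 : ∑ j, N' j = s := by
        have e1 : ∑ j, N j = ∑ j, N' j + 1 := by
          rw [← h2]
          unfold bump
          rw [Finset.sum_add_distrib]
          simp
        omega
      have h4 := ih N' h3
      have h5 := hL N' i
      rw [h2] at h5
      have h6 : |L i| ≤ ∑ j, |L j| :=
        Finset.single_le_sum (f := fun j => |L j|) (fun j _ => abs_nonneg _) (Finset.mem_univ i)
      have h7 : L i ≤ |L i| := le_abs_self _
      have h8 : |G N| ≤ |G N - G N'| + |G N'| := by
        have := abs_add_le (G N - G N') (G N')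
        simpa using this
      push_cast
      nlinarith
  intro N
  have := key _ N rfl
  push_cast at this
  exact this

theorem integrable_coord (lam : I → ℝ≥0) (i : I) :
    Integrable (fun N : I → ℕ => (N i : ℝ)) (Po lam) := by
  have h1 : Integrable (fun n : ℕ => (n : ℝ)) (poissonMeasure (lam i)) := by
    rw [integrable_poissonMeasure_iff]
    have h2 : Summable fun n : ℕ => Real.exp (-(lam i : ℝ)) * ((lam i : ℝ) *
        ((lam i : ℝ) ^ n / (n.factorial : ℝ))) :=
      ((Real.summable_pow_div_factorial (lam i : ℝ)).mul_left _).mul_left _
    rw [← summable_nat_add_iff 1]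
    refine h2.congr fun n => ?_
    rw [Nat.factorial_succ, Real.norm_natCast]
    push_cast
    have : (n.factorial : ℝ) ≠ 0 := by positivity
    field_simp
    ring
  exact ((measurePreserving_eval (fun i => poissonMeasure (lam i)) i).integrable_comp
    (by fun_prop)).2 h1

/-- Functions of at most linear growth are integrable (also after one `bump`).
PROOF. `|G| ≤ A + B Σ N_i`, each `N_i` is integrable: marginal of `Measure.pi` is `poissonMeasure` and
`Σ_n e^{-r} r^n/n! · n < ∞` (`integrable_poissonMeasure_iff`). Discrete measurable space: every function is measurable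
(`I → ℕ` is countable with measurable singletons). -/
theorem integrable_linG (lam : I → ℝ≥0) {G : (I → ℕ) → ℝ} (hG : LinG G) : Integrable G (Po lam) := by
  obtain ⟨A, B, h⟩ := hG
  have h1 : Integrable (fun N : I → ℕ => A + B * ∑ i, (N i : ℝ)) (Po lam) :=
    (integrable_const A).add ((integrable_finsetSum _ fun i _ => integrable_coord lam i).const_mul B)
  refine h1.mono' ?_ (Filter.Eventually.of_forall fun N => ?_)
  · exact (measurable_of_countable G).aestronglyMeasurable
  · simpa using h N

theorem bump_injective (i : I) : Function.Injective (fun N : I → ℕ => bump N i) := by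
  intro N N' h
  funext j
  have := congrFun h j
  simpa [bump] using this

/-- the measure form of Mecke's formula -/
theorem mecke_measure (lam : I → ℝ≥0) (i : I) :
    (Po lam).withDensity (fun N => (((N i : ℕ) : ℝ≥0) : ENNReal)) =
      (lam i : ENNReal) • (Po lam).map (fun N => bump N i) := by
  classical
  apply Measure.ext_of_singleton
  intro N
  rw [withDensity_apply _ (measurableSet_singleton N), lintegral_singleton, Measure.smul_apply,
    Measure.map_apply (measurable_of_countable _) (measurableSet_singleton N), smul_eq_mul]
  rcases Nat.eq_zero_or_pos (N i) with h0 | hpos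
  · have : (fun N : I → ℕ => bump N i) ⁻¹' {N} = ∅ := by
      ext M
      simp only [Set.mem_preimage, Set.mem_singleton_iff, Set.mem_empty_iff_false, iff_false]
      intro hM
      have := congrFun hM i
      simp [bump] at this
      omega
    rw [this, h0]
    simp
  · obtain ⟨k, hk⟩ : ∃ k, N i = k + 1 := ⟨N i - 1, by omega⟩
    set N' : I → ℕ := Function.update N i k with hN'
    have h2 : bump N' i = N := by
      funext j
      unfold bump
      by_cases hj : j = i
      · subst hj; simp [hN', hk]
      · simp [hN', hj]
    have hpre : (fun N : I → ℕ => bump N i) ⁻¹' {N} = {N'} := by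
      ext M
      simp only [Set.mem_preimage, Set.mem_singleton_iff]
      constructor
      · intro hM
        exact bump_injective i (by simp only [hM, h2])
      · intro hM
        rw [hM, h2]
    rw [hpre]
    unfold Po
    rw [Measure.pi_singleton, Measure.pi_singleton,
      ← Finset.mul_prod_erase Finset.univ _ (Finset.mem_univ i),
      ← Finset.mul_prod_erase Finset.univ (fun j => poissonMeasure (lam j) {N' j})
        (Finset.mem_univ i)]
    have h3 : ∏ j ∈ Finset.univ.erase i, poissonMeasure (lam j) {N' j} =
        ∏ j ∈ Finset.univ.erase i, poissonMeasure (lam j) {N j} := by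
      apply Finset.prod_congr rfl
      intro j hj
      rw [hN', Function.update_of_ne (Finset.ne_of_mem_erase hj)]
    rw [h3, ← mul_assoc, ← mul_assoc]
    congr 1
    rw [poissonMeasure_singleton, poissonMeasure_singleton]
    have h4 : N' i = k := by simp [hN']
    rw [h4, hk]
    have e1 : (((k + 1 : ℕ) : ℝ≥0) : ENNReal) = ENNReal.ofReal ((k + 1 : ℕ) : ℝ) := by
      rw [ENNReal.ofReal_natCast]; simp
    have e2 : (lam i : ENNReal) = ENNReal.ofReal (lam i : ℝ) := by
      rw [ENNReal.ofReal_coe_nnreal]
    rw [e1, e2, ← ENNReal.ofReal_mul (by positivity), ← ENNReal.ofReal_mul (by positivity)]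
    congr 1
    rw [Nat.factorial_succ]
    push_cast
    have : (k.factorial : ℝ) ≠ 0 := by positivity
    field_simp
    try ring

/-- MECKE FORMULA. `E[N_i G(N)] = lam_i E[G(N + 1_i)]` for `G` of linear growth.
PROOF. Reduce to one variable (Fubini: `MeasureTheory.measurePreserving_piEquivPiSubtypeProd` / split the coordinate `i`, or
`lmarginal`), where it is `Σ_n e^{-r} r^n/n! n g(n) = r Σ_n e^{-r} r^n/n! g(n+1)` (shift the sum; `integral_poissonMeasure`).
An alternative: both sides are `tsum`s over the countable set `I → ℕ` of `w(N) N_i G(N)`, `w(N) = Π e^{-lam} lam^N/N!`, and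
`w(N + 1_i) (N_i + 1) = lam_i w(N)`; the map `N ↦ N + 1_i` is injective with range `{N_i ≥ 1}`. -/
theorem mecke (lam : I → ℝ≥0) (i : I) {G : (I → ℕ) → ℝ} (hG : LinG G) :
    ∫ N, (N i : ℝ) * G N ∂(Po lam) = lam i * ∫ N, G (bump N i) ∂(Po lam) := by
  have h1 := integral_withDensity_eq_integral_smul (μ := Po lam)
    (f := fun N : I → ℕ => ((N i : ℕ) : ℝ≥0)) (measurable_of_countable _) G
  rw [mecke_measure, integral_smul_measure, integral_map (measurable_of_countable _).aemeasurable
    (measurable_of_countable _).aestronglyMeasurable] at h1
  simp only [NNReal.smul_def, smul_eq_mul, NNReal.coe_natCast, ENNReal.coe_toReal] at h1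
  exact h1.symm

end Crest.Agent.MP
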