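import Crest.Agent.MP.FFunA
import Crest.Agent.MP.FConcC
import Crest.Agent.MP.FConcD
import Crest.Agent.MP.FAsSel

/-!
# Module F4 (owner: helper45): Aizenman-Sims-Starr scheme and selection
-/

set_option autoImplicit false

namespace Crest.Agent.MP

open MeasureTheory ProbabilityTheory Filter Topology
open Crest.ProbabilityR.Diluted
open scoped NNReal

/-- The law of the interaction is symmetric under permutations of the `p` spins. -/
def SymLaw {p : ℕ} (μ : FinLaw (Inter p)) : Prop :=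
  ∀ (π : Equiv.Perm (Fin p)) (f : Inter p → ℝ), μ.E (fun θ => f (fun c => θ (fun i => c (π i)))) = μ.E f

namespace FSel

theorem mp_coe : MeasurePreserving (Subtype.val : unitInterval → ℝ) volume
    ((volume : Measure ℝ).restrict (Set.Icc 0 1)) := by
  refine ⟨measurable_subtype_coe, ?_⟩
  exact MeasurableSet.map_coe_volume measurableSet_Icc

theorem mp_U (J : Finset Species) : MeasurePreserving
    (fun (v : FA.UIx J → unitInterval) (i : UIdx J) => ((v i : unitInterval) : ℝ)) volume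
    (unifU J) := by
  rw [volume_pi]
  exact measurePreserving_pi _ _ (fun _ => mp_coe)

theorem toU_eq (J : Finset Species) (v : FA.UIx J → unitInterval) :
    FA.toU v = toUf J (fun i => ((v i : unitInterval) : ℝ)) := by
  funext s c
  unfold FA.toU toUf
  rfl

theorem AA_eq (p : ℕ) (α : ℝ) (μ : FinLaw (Inter p)) (ν : FinLaw ℝ)
    (J : Finset Species) (n : ℕ) (ε : ℝ≥0) (δ : ℝ) (u : UPar) (G0 : Cf n → ℝ) :
    AA p α μ ν J n ε δ u G0 = FA.AAf p α μ ν J ε δ u G0 := rfl

theorem trueE_sub_le {p : ℕ} (μ : FinLaw (Inter p)) {n : ℕ} (hn : 1 ≤ n) (Λ : ℝ≥0)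
    {Ψ : (Cf n → ℝ) → ℝ} (hΨ : FA.LipH Ψ) (G : Cf n → ℝ) :
    |FA.trueE μ Λ Ψ G - Ψ G| ≤ FA.cM μ * Λ := by
  have hL : ∀ (N : FA.TIdx μ n → ℕ) (a : FA.TIdx μ n),
      |Ψ (FA.tHam μ G (bump N a)) - Ψ (FA.tHam μ G N)| ≤ FA.cM μ := by
    intro N a
    exact hΨ.bump_le G (fun a => FA.tfac a) (fun a σ => FA.abs_tfac_le a σ) N a
  have h1 := lip_rate (fun a => Λ * FA.tq μ n a) (fun _ => 0)
    (G := fun N => Ψ (FA.tHam μ G N)) (L := fun _ => FA.cM μ) hL
  rw [FA.po_zero] at h1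
  have h2 : FA.tHam μ G (fun _ => 0) = G := by
    funext σ
    simp [FA.tHam]
  rw [h2] at h1
  refine h1.trans (le_of_eq ?_)
  have h3 : ∑ a : FA.TIdx μ n, (FA.tq μ n a : ℝ) = 1 := by
    have hn0 : (n : ℝ) ≠ 0 := by positivity
    unfold FA.tq
    rw [Fintype.sum_prod_type]
    simp only [NNReal.coe_div, NNReal.coe_pow, NNReal.coe_natCast, Finset.sum_const,
      Finset.card_univ, Fintype.card_fun, Fintype.card_fin, nsmul_eq_mul, Nat.cast_pow]
    have : ∀ t : μ.ι, (n : ℝ) ^ p * ((μ.wn t : ℝ) / (n : ℝ) ^ p) = μ.w t := by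
      intro t
      have : (μ.wn t : ℝ) = μ.w t := rfl
      rw [this]
      field_simp
    rw [Finset.sum_congr rfl fun t _ => this t, μ.w_sum]
  calc ∑ i : FA.TIdx μ n, |(((Λ * FA.tq μ n i : ℝ≥0) : ℝ)) - ((0 : ℝ≥0) : ℝ)| * FA.cM μ
      = ∑ i : FA.TIdx μ n, ((Λ : ℝ) * FA.cM μ) * (FA.tq μ n i : ℝ) := by
        refine Finset.sum_congr rfl fun i _ => ?_
        rw [NNReal.coe_zero, sub_zero, NNReal.abs_eq, NNReal.coe_mul]
        ring
    _ = FA.cM μ * Λ := by rw [← Finset.mul_sum, h3]; ring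

theorem pressure_bdd (p : ℕ) (α : ℝ≥0) (μ : FinLaw (Inter p)) (ν : FinLaw ℝ) :
    ∃ B : ℝ, ∀ n : ℕ, 1 ≤ n → |pressure p α μ.toMeasure ν.toMeasure n| ≤ B := by
  refine ⟨Real.log 2 + (∑ i, |ν.x i|) + FA.cM μ * α, ?_⟩
  intro n hn
  have hn0 : (0 : ℝ) < n := by exact_mod_cast hn
  have key : ∀ h : Fin n → ν.ι, |FA.trueE μ (α * n) FA.logZ (FA.fHam ν h)| ≤
      n * (Real.log 2 + (∑ i, |ν.x i|) + FA.cM μ * α) := by
    intro h
    have h1 := trueE_sub_le μ hn (α * n) FA.logZ_lipH (FA.fHam ν h)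
    have h2 : |FA.logZ (fun σ => (fun _ : Cf n => (0 : ℝ)) σ + FA.fHam ν h σ) -
        FA.logZ (fun _ : Cf n => (0 : ℝ))| ≤ n * ∑ i, |ν.x i| := by
      refine FA.logZ_lipH _ _ _ fun σ => ?_
      unfold FA.fHam
      refine (Finset.abs_sum_le_sum_abs _ _).trans ?_
      calc ∑ i, |ν.x (h i) * spinVal (σ i)| ≤ ∑ _i : Fin n, ∑ j, |ν.x j| := by
            refine Finset.sum_le_sum fun i _ => ?_
            rw [abs_mul, FFunA.abs_spinVal, mul_one]
            exact Finset.single_le_sum (f := fun j => |ν.x j|) (fun _ _ => abs_nonneg _)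
              (Finset.mem_univ (h i))
        _ = n * ∑ i, |ν.x i| := by simp
    have h3 : FA.logZ (fun _ : Cf n => (0 : ℝ)) = n * Real.log 2 := by
      unfold FA.logZ
      simp
    have h4 : (fun σ => (fun _ : Cf n => (0 : ℝ)) σ + FA.fHam ν h σ) = FA.fHam ν h := by
      funext σ; simp
    rw [h4, h3] at h2
    have h5 := Real.log_nonneg (by norm_num : (1 : ℝ) ≤ 2)
    have h6 : (((α * n : ℝ≥0)) : ℝ) = α * n := by push_cast; ring
    rw [h6] at h1
    rw [abs_le] at h1 h2 ⊢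
    have h7 : 0 ≤ (n : ℝ) * Real.log 2 := by positivity
    constructor <;> nlinarith [h1.1, h1.2, h2.1, h2.2]
  have h8 := FA.pressure_eq p α μ ν hn
  have h9 : |(n : ℝ) * pressure p α μ.toMeasure ν.toMeasure n| ≤
      n * (Real.log 2 + (∑ i, |ν.x i|) + FA.cM μ * α) := by
    rw [h8, abs_le]
    constructor
    · rw [← FA.Efld_const ν n (-(n * (Real.log 2 + (∑ i, |ν.x i|) + FA.cM μ * α)))]
      exact FA.Efld_mono ν n fun h => (abs_le.1 (key h)).1
    · rw [← FA.Efld_const ν n (n * (Real.log 2 + (∑ i, |ν.x i|) + FA.cM μ * α))]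
      exact FA.Efld_mono ν n fun h => (abs_le.1 (key h)).2
  rw [abs_mul, abs_of_pos hn0] at h9
  exact le_of_mul_le_mul_left h9 hn0

end FSel

open FSel in
/-- ASS + SELECTION. `Finf` is the liminf of the pressure. -/
theorem select (p : ℕ) (hp : 2 ≤ p) (α : ℝ) (hα : 0 < α) (μ : FinLaw (Inter p)) (ν : FinLaw ℝ)
    (hsym : SymLaw μ) :
    ∃ Finf : ℝ, (∀ η : ℝ, 0 < η → ∀ᶠ N : ℕ in atTop, Finf - η ≤ pressure p α μ.toMeasure ν.toMeasure N) ∧
      ∀ J : Finset Species, ∃ C : ℝ, 0 ≤ C ∧ ∀ (ε : ℝ≥0) (δ η : ℝ), 0 < ε → 0 < δ → δ ≤ 1 / 2 → 0 < η →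
        ∀ n₀ : ℕ, ∃ n : ℕ, n₀ ≤ n ∧ ∃ (G0 : Cf n → ℝ) (v : UIdx J → ℝ), (∀ i, 0 ≤ v i ∧ v i ≤ 1) ∧
          AA p α μ ν J n ε δ (toUf J v) G0 ≤ Finf + C * ε + η ∧
          ∀ s ∈ J, ∀ c : s.Cfg, cdef J n ε δ (toUf J v) G0 s c ≤ η := by
  set a : ℝ≥0 := ⟨α, hα.le⟩ with ha
  have haα : (a : ℝ) = α := rfl
  obtain ⟨B, hB⟩ := pressure_bdd p a μ ν
  rw [haα] at hB
  set F : ℕ → ℝ := fun N => pressure p α μ.toMeasure ν.toMeasure N with hF
  have hbd1 : IsBoundedUnder (· ≥ ·) atTop F :=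
    ⟨-B, Filter.eventually_map.2 ((eventually_ge_atTop 1).mono fun n hn => (abs_le.1 (hB n hn)).1)⟩
  have hbd2 : IsBoundedUnder (· ≤ ·) atTop F :=
    ⟨B, Filter.eventually_map.2 ((eventually_ge_atTop 1).mono fun n hn => (abs_le.1 (hB n hn)).2)⟩
  have hcb : IsCoboundedUnder (· ≥ ·) atTop F := hbd2.isCoboundedUnder_ge
  refine ⟨liminf F atTop, ?_, ?_⟩
  · intro η hη
    have := Filter.eventually_lt_of_lt_liminf (show liminf F atTop - η < liminf F atTop by linarith)
      hbd1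
    exact this.mono fun n hn => hn.le
  · intro J
    obtain ⟨C, hC, hsel⟩ := FA.select p (by omega) a (by exact_mod_cast hα) μ hsym ν J
    obtain ⟨Cc, hCc, hconc⟩ := conc_avg J
    refine ⟨C, hC, ?_⟩
    intro ε δ η hε hδ hδ2 hη n₀
    have hfreq : ∃ᶠ n : ℕ in atTop, pressure p α μ.toMeasure ν.toMeasure n ≤
        liminf F atTop + η / 2 := by
      have := Filter.frequently_lt_of_liminf_lt hcb
        (show liminf F atTop < liminf F atTop + η / 2 by linarith)
      exact this.mono fun n hn => hn.le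
    -- the defects
    set d : (n : ℕ) → (Cf n → ℝ) → (FA.UIx J → unitInterval) → ℝ := fun n G v =>
      ∑ i : UIdx J, cdef J n ε δ (toUf J (fun i => ((v i : unitInterval) : ℝ))) G i.1.1 i.2 with hd
    set K : ℝ := (Fintype.card (UIdx J) : ℝ) with hK
    set b : ℕ → ℝ := fun n => if 1 ≤ (ε : ℝ) * n then
      K * (Cc * (1 + 1 / δ) * ((ε : ℝ) * n) ^ (-(1 / 4) : ℝ)) else K with hb
    have hd0 : ∀ n G v, 0 ≤ d n G v := fun n G v =>
      Finset.sum_nonneg fun i _ => (cdef_nonneg_le J n ε δ _ G i.1.1 i.2).1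
    have hmeas : ∀ n G (i : UIdx J), Measurable (fun v : FA.UIx J → unitInterval =>
        cdef J n ε δ (toUf J (fun i => ((v i : unitInterval) : ℝ))) G i.1.1 i.2) := fun n G i =>
      (cdef_measurable J n ε δ G i.1.1 i.2).comp (mp_U J).measurable
    have hint1 : ∀ n G (i : UIdx J), Integrable (fun v : FA.UIx J → unitInterval =>
        cdef J n ε δ (toUf J (fun i => ((v i : unitInterval) : ℝ))) G i.1.1 i.2) volume := by
      intro n G i
      refine Integrable.of_bound (C := 1) (hmeas n G i).aestronglyMeasurable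
        (Filter.Eventually.of_forall fun v => ?_)
      have := cdef_nonneg_le J n ε δ (toUf J (fun i => ((v i : unitInterval) : ℝ))) G i.1.1 i.2
      rw [Real.norm_eq_abs, abs_of_nonneg this.1]
      exact this.2
    have hdi : ∀ n, 1 ≤ n → ∀ G, Integrable (d n G) volume := fun n _ G =>
      integrable_finsetSum _ fun i _ => hint1 n G i
    have hdb : ∀ n, 1 ≤ n → ∀ G, ∫ v, d n G v ≤ b n := by
      intro n hn G
      have e1 : ∫ v, d n G v = ∑ i : UIdx J, ∫ v : FA.UIx J → unitInterval,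
          cdef J n ε δ (toUf J (fun i => ((v i : unitInterval) : ℝ))) G i.1.1 i.2 :=
        integral_finsetSum _ fun i _ => hint1 n G i
      rw [e1, hb]
      beta_reduce
      split_ifs with h
      · have : ∀ i ∈ (Finset.univ : Finset (UIdx J)), ∫ v : FA.UIx J → unitInterval,
            cdef J n ε δ (toUf J (fun i => ((v i : unitInterval) : ℝ))) G i.1.1 i.2 ≤
            Cc * (1 + 1 / δ) * ((ε : ℝ) * n) ^ (-(1 / 4) : ℝ) := by
          intro i _
          have h2 := hconc n G ε δ hn hδ hδ2 h i.1.1 i.1.2 i.2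
          rw [← (mp_U J).map_eq, integral_map (mp_U J).measurable.aemeasurable
            (cdef_measurable J n ε δ G i.1.1 i.2).aestronglyMeasurable] at h2
          exact h2
        refine (Finset.sum_le_sum this).trans ?_
        rw [Finset.sum_const, nsmul_eq_mul, Finset.card_univ]
      · have : ∀ i ∈ (Finset.univ : Finset (UIdx J)), ∫ v : FA.UIx J → unitInterval,
            cdef J n ε δ (toUf J (fun i => ((v i : unitInterval) : ℝ))) G i.1.1 i.2 ≤ 1 := by
          intro i _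
          calc ∫ v : FA.UIx J → unitInterval,
                cdef J n ε δ (toUf J (fun i => ((v i : unitInterval) : ℝ))) G i.1.1 i.2
              ≤ ∫ _v : FA.UIx J → unitInterval, (1 : ℝ) :=
                integral_mono (hint1 n G i) (integrable_const _)
                  (fun v => (cdef_nonneg_le J n ε δ _ G i.1.1 i.2).2)
            _ = 1 := by simp
        refine (Finset.sum_le_sum this).trans ?_
        rw [Finset.sum_const, nsmul_eq_mul, Finset.card_univ, mul_one]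
    have hbt : Tendsto b atTop (𝓝 0) := by
      have hε' : (0 : ℝ) < ε := by exact_mod_cast hε
      have t1 : Tendsto (fun n : ℕ => (ε : ℝ) * n) atTop atTop :=
        tendsto_natCast_atTop_atTop.const_mul_atTop hε'
      have t2 : Tendsto (fun n : ℕ => ((ε : ℝ) * n) ^ (-(1 / 4) : ℝ)) atTop (𝓝 0) :=
        (tendsto_rpow_neg_atTop (by norm_num : (0 : ℝ) < 1 / 4)).comp t1
      have t3 : Tendsto (fun n : ℕ => K * (Cc * (1 + 1 / δ) * ((ε : ℝ) * n) ^ (-(1 / 4) : ℝ)))
          atTop (𝓝 (K * (Cc * (1 + 1 / δ) * 0))) := (t2.const_mul _).const_mul _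
      rw [mul_zero, mul_zero] at t3
      refine t3.congr' ?_
      filter_upwards [t1.eventually_ge_atTop 1] with n hn
      rw [hb]
      beta_reduce
      rw [if_pos hn]
    obtain ⟨n, hn0, hn1, G0, v, hA, hD⟩ := hsel (liminf F atTop + η / 2) hfreq ε δ hδ.le
      (by linarith) d b hd0 hdi hdb hbt (η / 2) (by positivity) n₀
    refine ⟨n, hn0, G0, fun i => ((v i : unitInterval) : ℝ), fun i => ⟨(v i).2.1, (v i).2.2⟩,
      ?_, ?_⟩
    · rw [AA_eq, ← toU_eq, ← haα]
      linarith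
    · intro s hs c
      have h1 : cdef J n ε δ (toUf J (fun i => ((v i : unitInterval) : ℝ))) G0 s c ≤ d n G0 v :=
        Finset.single_le_sum (f := fun i : UIdx J =>
          cdef J n ε δ (toUf J (fun i => ((v i : unitInterval) : ℝ))) G0 i.1.1 i.2)
          (fun i _ => (cdef_nonneg_le J n ε δ _ G0 i.1.1 i.2).1)
          (Finset.mem_univ (⟨⟨s, hs⟩, c⟩ : UIdx J))
      linarith

end Crest.Agent.MP
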