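import Crest.Agent.MP.RAlg

/-!
# R-GG: RULE_1 gives the Ghirlanda-Guerra identities for the scalar overlap

`Y_l = (K_l, R_{0l})`, use `f(K,R) = f(R)`; `Rmat (rg 1) = Rov x 0 0` is a.s. constant
(`= Σ wt s`, `Rov_self`), so `G(Rmat)` is a.s. a constant, equal to `∫ f(Rov x 0 1)`
(take `m = 1`, `Φ = 1`).  For `n ≠ 0` apply the identity for `n = 0` to `Φ ∘ swapRep 0 n`
(`hP.exch`, `Gσ_swapRep`, `Rov_swapRep`, `Rov_symm`).
-/

set_option autoImplicit false

namespace Crest.Agent.MP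

open MeasureTheory Filter Topology

/-- CLAIM_1: (R4) for `Dθ`; `G` = a constant function. -/
theorem claim_one {P : Measure Obs} (hP : LimitModel P) : ClaimR P 1 := by
  intro s θ
  choose k hk using hP.conc s
  refine ⟨fun _ => ∑ c, k c * θ c, measurable_const, ?_⟩
  filter_upwards [ae_all_iff.2 hk] with x hx
  unfold Dθ
  exact Finset.sum_congr rfl fun c _ => by rw [hx c]

private theorem integral_swapRep {P : Measure Obs} (hP : LimitModel P) (a b : ℕ) {h : Obs → ℝ}
    (hh : Measurable h) : ∫ x, h (swapRep a b x) ∂P = ∫ x, h x ∂P := by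
  have h1 := integral_map (hP.exch a b).measurable.aemeasurable
    (hh.aestronglyMeasurable (μ := Measure.map (swapRep a b) P))
  rw [(hP.exch a b).map_eq] at h1
  exact h1.symm

theorem gg_of_ruleB {P : Measure Obs} (hP : LimitModel P) (hB : RuleB P 1) : GG P := by
  have := hP.prob
  intro m n hnm f hf hfB Φ hΦ hΦ1
  obtain ⟨B, hB'⟩ := hfB
  -- the rule for `n = 0`
  obtain ⟨G, hGm, hGb, hrule⟩ := hB Species.plain (fun _ => 0) (fun _ => 0)
    (fun y => f (y.2 0)) (hf.comp ((measurable_pi_apply 0).comp measurable_snd))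
    ⟨B, fun y => hB' _⟩
  set g : ℝ := G (fun _ _ => ∑' s, wt s) with hg
  have hRm : ∀ᵐ x ∂P, G (Rmat (rg 1) x) = g := by
    filter_upwards [Rov_self hP] with x hx
    have : Rmat (rg 1) x = fun _ _ => ∑' s, wt s := by
      funext i j
      have hij : i = j := Subsingleton.elim _ _
      subst hij
      exact hx _
    rw [this]
  have hΦG : ∀ Φ : Obs → ℝ, ∫ x, Φ x * G (Rmat (rg 1) x) ∂P = (∫ x, Φ x ∂P) * g := by
    intro Φ
    rw [← integral_mul_const]
    refine integral_congr_ae ?_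
    filter_upwards [hRm] with x hx
    rw [hx]
  have hg1 : g = ∫ x, f (Rov x 0 1) ∂P := by
    have h1 := hrule 1 le_rfl (fun _ => 1) (@measurable_const _ _ _ (Gσ 1) _) (fun _ => by simp)
    rw [hΦG] at h1
    simpa [Yv] using h1.symm
  have h0 : ∀ Φ : Obs → ℝ, Measurable[Gσ m] Φ → (∀ x, |Φ x| ≤ 1) →
      (m : ℝ) * ∫ x, Φ x * f (Rov x 0 m) ∂P =
        (∑ l ∈ Finset.Ico 1 m, ∫ x, Φ x * f (Rov x 0 l) ∂P) +
          (∫ x, Φ x ∂P) * ∫ x, f (Rov x 0 1) ∂P := by
    intro Φ hΦ hΦ1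
    have h1 := hrule m (by omega) Φ hΦ hΦ1
    rw [hΦG, hg1] at h1
    simpa [Yv] using h1
  have hΦ' : Measurable Φ := hΦ.mono (Gσ_le m) le_rfl
  have key : ∀ l : ℕ, ∫ x, Φ (swapRep 0 n x) * f (Rov x 0 l) ∂P =
      ∫ x, Φ x * f (Rov x n (Equiv.swap 0 n l)) ∂P := by
    intro l
    have h1 := integral_swapRep hP 0 n
      (h := fun x => Φ x * f (Rov x n (Equiv.swap 0 n l)))
      (hΦ'.mul (hf.comp (measurable_Rov _ _)))
    rw [← h1]
    refine integral_congr_ae (Eventually.of_forall fun x => ?_)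
    simp only [Rov_swapRep, Equiv.swap_apply_right, Equiv.swap_apply_self]
  have h1 := h0 (fun x => Φ (swapRep 0 n x)) (Gσ_swapRep le_rfl (by omega) hnm hΦ)
    (fun x => hΦ1 _)
  simp only [key] at h1
  rw [integral_swapRep hP 0 n hΦ', Equiv.swap_apply_of_ne_of_ne (by omega) (by omega)] at h1
  rw [h1]
  congr 1
  refine Finset.sum_equiv (Equiv.swap 0 n) (fun l => ?_) (fun l _ => rfl)
  simp only [Finset.mem_Ico, Finset.mem_erase, Finset.mem_range]
  by_cases hl0 : l = 0
  · subst hl0; simp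
  · by_cases hln : l = n
    · subst hln
      simp only [Equiv.swap_apply_right]
      omega
    · rw [Equiv.swap_apply_of_ne_of_ne hl0 hln]
      omega

end Crest.Agent.MP
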