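import Crest.Agent.MP.RAlg

/-!
# R-RULEB: RULE_r for bounded Borel functions of `Y` (§2)

Monomials: `K^a Π R_{i l}^{b_i}`: `K_l = Dθ s (rgl r l) (tens θ χ)`,
`R_{i l} = Σ_{s'} wt s' Σ_c Dθ s' (rgl r l) (1[c_i = c] ⊗ 1_c)` a.s. (uniformly convergent sum;
`i < r ≤ l`, `agrL_eq_Dθ`; for `l < r` see below), and products of `Dθ`'s of species `s₁, s₂` are `Dθ`'s of `s₁.mul s₂` with
`tens θ₁ χ₁ · tens θ₂ χ₂ = tens (θ₁θ₂) (χ₁χ₂)` (`hP.mul`).  So RULE_r holds for monomials (by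
induction), polynomials, continuous functions on the compact box containing `Y` (Stone-Weierstrass;
the bound of the `G`'s: `|∫ΦG(R)| ≤ sup|f|` for all `Φ` gives `|G(R)| ≤ sup|f|` a.s., truncate), and
bounded Borel functions (two finite measures `f ↦ m∫Φf(Y_m)` and the right-hand side; for the
existence of `G_f`: `G_f(Rmat)` = conditional expectation of `f(Y_r)` given `σ(Rmat (rg r))`, then
both sides are finite (signed) measures in `f` that agree on continuous functions).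
-/

set_option autoImplicit false

namespace Crest.Agent.MP

open MeasureTheory Filter Topology

/-! ### Finite combinations of linear observables -/

/-- data of a finite combination -/
private abbrev LD (r : ℕ) : Type := List (Σ s : Species, ((Fin r → s.Cfg) → ℝ) × (s.Cfg → ℝ))

private noncomputable def linF {r : ℕ} (L : LD r) (l : ℕ) (x : Obs) : ℝ :=
  (L.map fun t => Dθ t.1 (rgl r l) (tens t.2.1 t.2.2) x).sum

private theorem linF_nil {r : ℕ} (l : ℕ) (x : Obs) : linF ([] : LD r) l x = 0 := rfl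

private theorem linF_cons {r : ℕ} (t) (L : LD r) (l : ℕ) (x : Obs) :
    linF (t :: L) l x = Dθ t.1 (rgl r l) (tens t.2.1 t.2.2) x + linF L l x := by
  simp [linF]

private theorem linF_append {r : ℕ} (L L' : LD r) (l : ℕ) (x : Obs) :
    linF (L ++ L') l x = linF L l x + linF L' l x := by
  simp [linF]

private theorem linF_meas {r : ℕ} (L : LD r) (l : ℕ) : Measurable (linF L l) := by
  induction L with
  | nil => exact measurable_const
  | cons t L ih =>
    have : linF (t :: L) l = fun x => Dθ t.1 (rgl r l) (tens t.2.1 t.2.2) x + linF L l x :=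
      funext fun x => linF_cons t L l x
    rw [this]
    exact (measurable_Dθ _ _ _).add ih

private theorem linF_bdd {r : ℕ} (L : LD r) : ∃ B, ∀ l x, |linF L l x| ≤ B := by
  induction L with
  | nil => exact ⟨0, fun l x => by simp [linF_nil]⟩
  | cons t L ih =>
    obtain ⟨B, hB⟩ := ih
    refine ⟨(∑ c, |tens t.2.1 t.2.2 c|) + B, fun l x => ?_⟩
    rw [linF_cons]
    exact (abs_add_le _ _).trans (add_le_add (abs_Dθ_le _ _ _ _) (hB l x))

/-- product of two linear observables -/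
private theorem Dθ_mul {P : Measure Obs} (hP : LimitModel P) :
    ∀ᵐ x ∂P, ∀ (s s' : Species) (n : ℕ) (ls : Fin n → ℕ) (θ : (Fin n → s.Cfg) → ℝ)
      (θ' : (Fin n → s'.Cfg) → ℝ),
      Dθ (s.mul s') ls (fun c => θ (fun j i => c j (Fin.castAdd _ i)) *
        θ' (fun j i => c j (Fin.natAdd _ i))) x = Dθ s ls θ x * Dθ s' ls θ' x := by
  filter_upwards [hP.mul] with x hx s s' n ls θ θ'
  let e : (Fin n → s.Cfg) × (Fin n → s'.Cfg) ≃ (Fin n → (s.mul s').Cfg) :=
    { toFun := fun c j => Fin.append (c.1 j) (c.2 j)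
      invFun := fun c => (fun j i => c j (Fin.castAdd _ i), fun j i => c j (Fin.natAdd _ i))
      left_inv := by
        rintro ⟨c, c'⟩
        refine Prod.ext ?_ ?_
        · funext j i; simp
        · funext j i; simp
      right_inv := by
        intro c
        funext j
        exact Fin.append_castAdd_natAdd }
  unfold Dθ
  rw [← Equiv.sum_comp e, Fintype.sum_prod_type, Finset.sum_mul_sum]
  refine Finset.sum_congr rfl fun c _ => Finset.sum_congr rfl fun c' _ => ?_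
  rw [hx s s' n ls (e (c, c'))]
  have h1 : (fun j i => e (c, c') j (Fin.castAdd _ i)) = c := by
    funext j i
    exact Fin.append_left (c j) (c' j) i
  have h2 : (fun j i => e (c, c') j (Fin.natAdd _ i)) = c' := by
    funext j i
    exact Fin.append_right (c j) (c' j) i
  have h3 : θ (fun j i => e (c, c') j (Fin.castAdd _ i)) = θ c := congrArg θ h1
  have h4 : θ' (fun j i => e (c, c') j (Fin.natAdd _ i)) = θ' c' := congrArg θ' h2
  have h5 : Dl s ls x (fun j i => e (c, c') j (Fin.castAdd _ i)) = Dl s ls x c :=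
    congrArg (Dl s ls x) h1
  have h6 : Dl s' ls x (fun j i => e (c, c') j (Fin.natAdd _ i)) = Dl s' ls x c' :=
    congrArg (Dl s' ls x) h2
  refine (congrArg₂ (· * ·) (congrArg₂ (· * ·) h5 h6) (congrArg₂ (· * ·) h3 h4)).trans ?_
  show Dl s ls x c * Dl s' ls x c' * (θ c * θ' c') = Dl s ls x c * θ c * (Dl s' ls x c' * θ' c')
  ring

private theorem linF_mul_single {P : Measure Obs} (hP : LimitModel P) {r : ℕ}
    (t : Σ s : Species, ((Fin r → s.Cfg) → ℝ) × (s.Cfg → ℝ)) (L : LD r) :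
    ∃ L' : LD r, ∀ᵐ x ∂P, ∀ l, linF L' l x =
      Dθ t.1 (rgl r l) (tens t.2.1 t.2.2) x * linF L l x := by
  refine ⟨L.map (fun t' => ⟨t.1.mul t'.1,
    (fun c => t.2.1 (fun j i => c j (Fin.castAdd _ i)) * t'.2.1 (fun j i => c j (Fin.natAdd _ i))),
    fun c => t.2.2 (fun i => c (Fin.castAdd _ i)) * t'.2.2 (fun i => c (Fin.natAdd _ i))⟩), ?_⟩
  filter_upwards [Dθ_mul hP] with x hx l
  induction L with
  | nil => simp [linF_nil]
  | cons t' L ih =>
    rw [List.map_cons, linF_cons, linF_cons, ih, mul_add, ← hx t.1 t'.1 _ (rgl r l)]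
    congr 2
    funext c
    simp only [tens]
    ring

private theorem linF_mul {P : Measure Obs} (hP : LimitModel P) {r : ℕ} (L L' : LD r) :
    ∃ L'' : LD r, ∀ᵐ x ∂P, ∀ l, linF L'' l x = linF L l x * linF L' l x := by
  induction L with
  | nil => exact ⟨[], Eventually.of_forall fun x l => by simp [linF_nil]⟩
  | cons t L ih =>
    obtain ⟨L1, h1⟩ := ih
    obtain ⟨L2, h2⟩ := linF_mul_single hP t L'
    refine ⟨L2 ++ L1, ?_⟩
    filter_upwards [h1, h2] with x h1 h2 l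
    rw [linF_append, linF_cons, h1, h2, add_mul]

private theorem linF_const {P : Measure Obs} (hP : LimitModel P) {r : ℕ} (c : ℝ) :
    ∃ L : LD r, ∀ᵐ x ∂P, ∀ l, linF L l x = c := by
  refine ⟨[⟨Species.plain, (fun _ => c), fun _ => 1⟩], ?_⟩
  filter_upwards [hP.simplex] with x hx l
  rw [linF_cons, linF_nil, add_zero]
  simp only [Dθ, tens, mul_one]
  rw [← Finset.sum_mul, hx, one_mul]

/-! ### Uniform limits of finite combinations -/

private def LB (P : Measure Obs) (r : ℕ) (h : ℕ → Obs → ℝ) : Prop :=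
  ∀ ε : ℝ, 0 < ε → ∃ L : LD r, ∀ᵐ x ∂P, ∀ l, r ≤ l → |h l x - linF L l x| ≤ ε

private theorem LB.bdd {P : Measure Obs} {r : ℕ} {h : ℕ → Obs → ℝ} (hh : LB P r h) :
    ∃ B : ℝ, 0 ≤ B ∧ ∀ᵐ x ∂P, ∀ l, r ≤ l → |h l x| ≤ B := by
  obtain ⟨L, hL⟩ := hh 1 one_pos
  obtain ⟨B, hB⟩ := linF_bdd L
  refine ⟨max (B + 1) 0, le_max_right _ _, ?_⟩
  filter_upwards [hL] with x hx l hl
  refine le_trans ?_ (le_max_left _ _)
  have h1 := hx l hl
  have h2 := hB l x
  have h3 : h l x = (h l x - linF L l x) + linF L l x := by ring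
  rw [h3]
  refine (abs_add_le _ _).trans ?_
  linarith

private theorem LB.congr {P : Measure Obs} {r : ℕ} {h h' : ℕ → Obs → ℝ} (hh : LB P r h)
    (H : ∀ᵐ x ∂P, ∀ l, r ≤ l → h' l x = h l x) : LB P r h' := by
  intro ε hε
  obtain ⟨L, hL⟩ := hh ε hε
  refine ⟨L, ?_⟩
  filter_upwards [hL, H] with x h1 h2 l hl
  rw [h2 l hl]
  exact h1 l hl

private theorem LB.lim {P : Measure Obs} {r : ℕ} {h : ℕ → Obs → ℝ}
    (H : ∀ ε : ℝ, 0 < ε → ∃ h', LB P r h' ∧ ∀ᵐ x ∂P, ∀ l, r ≤ l → |h l x - h' l x| ≤ ε) :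
    LB P r h := by
  intro ε hε
  obtain ⟨h', h1, h2⟩ := H (ε / 2) (by positivity)
  obtain ⟨L, hL⟩ := h1 (ε / 2) (by positivity)
  refine ⟨L, ?_⟩
  filter_upwards [h2, hL] with x h3 h4 l hl
  have e : h l x - linF L l x = (h l x - h' l x) + (h' l x - linF L l x) := by ring
  rw [e]
  refine (abs_add_le _ _).trans ?_
  have := h3 l hl
  have := h4 l hl
  linarith

private theorem LB.add {P : Measure Obs} {r : ℕ} {h h' : ℕ → Obs → ℝ} (hh : LB P r h)
    (hh' : LB P r h') : LB P r (fun l x => h l x + h' l x) := by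
  intro ε hε
  obtain ⟨L, hL⟩ := hh (ε / 2) (by positivity)
  obtain ⟨L', hL'⟩ := hh' (ε / 2) (by positivity)
  refine ⟨L ++ L', ?_⟩
  filter_upwards [hL, hL'] with x h1 h2 l hl
  rw [linF_append]
  have e : h l x + h' l x - (linF L l x + linF L' l x) =
      (h l x - linF L l x) + (h' l x - linF L' l x) := by ring
  rw [e]
  refine (abs_add_le _ _).trans ?_
  have := h1 l hl
  have := h2 l hl
  linarith

private theorem LB.mul {P : Measure Obs} (hP : LimitModel P) {r : ℕ} {h h' : ℕ → Obs → ℝ}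
    (hh : LB P r h) (hh' : LB P r h') : LB P r (fun l x => h l x * h' l x) := by
  intro ε hε
  obtain ⟨B, hB0, hB⟩ := hh.bdd
  obtain ⟨B', hB0', hB'⟩ := hh'.bdd
  have hd : 0 < B + B' + 1 := by positivity
  obtain ⟨L, hL⟩ := hh (min 1 (ε / (B + B' + 1))) (by positivity)
  obtain ⟨L', hL'⟩ := hh' (min 1 (ε / (B + B' + 1))) (by positivity)
  obtain ⟨L'', hL''⟩ := linF_mul hP L L'
  refine ⟨L'', ?_⟩
  filter_upwards [hB, hB', hL, hL', hL''] with x h1 h2 h3 h4 h5 l hl
  rw [h5]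
  set δ := min 1 (ε / (B + B' + 1)) with hδ
  have hδ0 : 0 < δ := by positivity
  have hδ1 : δ ≤ 1 := min_le_left _ _
  have hδ2 : δ * (B + B' + 1) ≤ ε := by
    have : δ ≤ ε / (B + B' + 1) := min_le_right _ _
    calc δ * (B + B' + 1) ≤ ε / (B + B' + 1) * (B + B' + 1) := by gcongr
      _ = ε := by field_simp
  have e : h l x * h' l x - linF L l x * linF L' l x =
      h l x * (h' l x - linF L' l x) + (h l x - linF L l x) * h' l x
        - (h l x - linF L l x) * (h' l x - linF L' l x) := by ring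
  rw [e]
  have a1 : |h l x * (h' l x - linF L' l x)| ≤ B * δ := by
    rw [abs_mul]; exact mul_le_mul (h1 l hl) (h4 l hl) (abs_nonneg _) hB0
  have a2 : |(h l x - linF L l x) * h' l x| ≤ δ * B' := by
    rw [abs_mul]; exact mul_le_mul (h3 l hl) (h2 l hl) (abs_nonneg _) hδ0.le
  have a3 : |(h l x - linF L l x) * (h' l x - linF L' l x)| ≤ δ * 1 := by
    rw [abs_mul]
    exact mul_le_mul (h3 l hl) ((h4 l hl).trans hδ1) (abs_nonneg _) hδ0.le
  calc _ ≤ |h l x * (h' l x - linF L' l x) + (h l x - linF L l x) * h' l x| +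
        |(h l x - linF L l x) * (h' l x - linF L' l x)| := abs_sub _ _
    _ ≤ |h l x * (h' l x - linF L' l x)| + |(h l x - linF L l x) * h' l x| +
        |(h l x - linF L l x) * (h' l x - linF L' l x)| := by gcongr; exact abs_add_le _ _
    _ ≤ B * δ + δ * B' + δ * 1 := by gcongr
    _ = δ * (B + B' + 1) := by ring
    _ ≤ ε := hδ2

private theorem LB.const {P : Measure Obs} (hP : LimitModel P) {r : ℕ} (c : ℝ) :
    LB P r (fun _ _ => c) := by
  intro ε hε
  obtain ⟨L, hL⟩ := linF_const hP (r := r) c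
  refine ⟨L, ?_⟩
  filter_upwards [hL] with x hx l _
  rw [hx, sub_self, abs_zero]
  exact hε.le

private theorem LB.single {P : Measure Obs} {r : ℕ} (s : Species)
    (θ : (Fin r → s.Cfg) → ℝ) (χ : s.Cfg → ℝ) :
    LB P r (fun l x => Dθ s (rgl r l) (tens θ χ) x) := by
  intro ε hε
  refine ⟨[⟨s, θ, χ⟩], Eventually.of_forall fun x l _ => ?_⟩
  rw [linF_cons, linF_nil, add_zero, sub_self, abs_zero]
  exact hε.le

private theorem LB.sum {P : Measure Obs} (hP : LimitModel P) {r : ℕ} {ι : Type*} (S : Finset ι)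
    {h : ι → ℕ → Obs → ℝ} (hh : ∀ i ∈ S, LB P r (h i)) :
    LB P r (fun l x => ∑ i ∈ S, h i l x) := by
  classical
  induction S using Finset.induction_on with
  | empty => simpa using LB.const hP (0 : ℝ)
  | insert i S hi ih =>
    have h1 := (hh i (Finset.mem_insert_self _ _)).add
      (ih fun j hj => hh j (Finset.mem_insert_of_mem hj))
    refine h1.congr (Eventually.of_forall fun x l _ => ?_)
    rw [Finset.sum_insert hi]

private theorem LB.agr {P : Measure Obs} (hP : LimitModel P) {r : ℕ} (s : Species) (i : Fin r) :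
    LB P r (fun l x => agrL s i l x) := by
  classical
  have h1 := LB.sum hP (r := r) (Finset.univ : Finset s.Cfg)
    (h := fun c0 l x => Dθ s (rgl r l) (tens (fun c => if c i = c0 then 1 else 0)
      (fun c => if c = c0 then 1 else 0)) x) (fun c0 _ => LB.single s _ _)
  refine h1.congr ?_
  filter_upwards [agrL_eq_Dθ hP] with x hx l hl
  have h2 := hx s (r + 1) (rgl r l) i.castSucc (Fin.last r)
  have e1 : rgl r l i.castSucc = i := by simp [rgl]
  have e2 : rgl r l (Fin.last r) = l := by simp [rgl]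
  rw [e1, e2] at h2
  rw [h2]
  simp only [Dθ]
  rw [Finset.sum_comm]
  refine Finset.sum_congr rfl fun c _ => ?_
  rw [← Finset.mul_sum]
  congr 1
  simp only [tens]
  by_cases hcc : c i.castSucc = c (Fin.last r)
  · rw [if_pos hcc, Finset.sum_eq_single (c (Fin.last r))]
    · simp [hcc]
    · intro b _ hb
      simp [Ne.symm hb]
    · simp
  · rw [if_neg hcc]
    symm
    refine Finset.sum_eq_zero fun b _ => ?_
    by_cases hb : c i.castSucc = b
    · have : c (Fin.last r) ≠ b := fun h => hcc (hb.trans h.symm)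
      simp [this]
    · simp [hb]

private theorem LB.R {P : Measure Obs} (hP : LimitModel P) {r : ℕ} (i : Fin r) :
    LB P r (fun l x => Rov x i l) := by
  classical
  refine LB.lim fun ε hε => ?_
  have hs := summable_wt.hasSum
  obtain ⟨F, hF⟩ := (Metric.tendsto_atTop.mp hs ε hε)
  have hF' := hF F le_rfl
  refine ⟨fun l x => ∑ s ∈ F, wt s * agrL s i l x,
    LB.sum hP F fun s _ => (LB.const hP (wt s)).mul hP (LB.agr hP s i),
    Eventually.of_forall fun x l _ => ?_⟩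
  have hsum : Summable (fun s => wt s * agrL s i l x) :=
    Summable.of_nonneg_of_le (fun s => mul_nonneg (wt_pos s).le (agrL_nonneg _ _ _ _))
      (fun s => mul_le_of_le_one_right (wt_pos s).le (agrL_le_one _ _ _ _)) summable_wt
  have h1 : ∑ s ∈ F, wt s * agrL s i l x ≤ Rov x i l :=
    hsum.sum_le_tsum F (fun s _ => mul_nonneg (wt_pos s).le (agrL_nonneg _ _ _ _))
  have h2 : ∑ s ∈ F, (wt s - wt s * agrL s i l x) ≤ ∑' s, (wt s - wt s * agrL s i l x) :=
    (summable_wt.sub hsum).sum_le_tsum F (fun s _ => sub_nonneg.mpr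
      (mul_le_of_le_one_right (wt_pos s).le (agrL_le_one _ _ _ _)))
  rw [Summable.tsum_sub summable_wt hsum, Finset.sum_sub_distrib] at h2
  rw [Real.dist_eq] at hF'
  have h3 := abs_lt.mp hF'
  have h4 : Rov x i l = ∑' s, wt s * agrL s i l x := rfl
  rw [abs_of_nonneg (by linarith), h4]
  linarith

/-! ### The rule for finite combinations and their limits -/

private theorem int_bdd {P : Measure Obs} [IsProbabilityMeasure P] {f : Obs → ℝ}
    (hf : Measurable f) {B : ℝ} (hB : ∀ x, |f x| ≤ B) : Integrable f P :=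
  Integrable.of_bound hf.aestronglyMeasurable B (Eventually.of_forall fun x => by
    rw [Real.norm_eq_abs]; exact hB x)

private theorem int_bdd_mul {P : Measure Obs} [IsProbabilityMeasure P] {f g : Obs → ℝ}
    (hf : Measurable f) (hf1 : ∀ x, |f x| ≤ 1) (hg : Measurable g) {B : ℝ} (hB : ∀ x, |g x| ≤ B) :
    Integrable (fun x => f x * g x) P := by
  refine int_bdd (hf.mul hg) (B := B) fun x => ?_
  rw [abs_mul]
  have h0 : 0 ≤ B := (abs_nonneg _).trans (hB x)
  calc |f x| * |g x| ≤ 1 * B := mul_le_mul (hf1 x) (hB x) (abs_nonneg _) zero_le_one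
    _ = B := one_mul B

private theorem rmat_meas {r : ℕ} : Measurable[Gσ r] (Rmat (rg r)) :=
  Gσ_Rmat (rg r) (fun j => j.2)

private theorem rule_linF {P : Measure Obs} (hP : LimitModel P) {r : ℕ} (hc : RuleR P r)
    (L : LD r) :
    ∃ G : (Fin r → Fin r → ℝ) → ℝ, Measurable G ∧ (∃ B, ∀ M, |G M| ≤ B) ∧
    ∀ (m : ℕ), r ≤ m → ∀ Φ : Obs → ℝ, Measurable[Gσ m] Φ → (∀ x, |Φ x| ≤ 1) →
      (m : ℝ) * ∫ x, Φ x * linF L m x ∂P =
        (∑ l ∈ Finset.Ico r m, ∫ x, Φ x * linF L l x ∂P) +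
          r * ∫ x, Φ x * G (Rmat (rg r) x) ∂P := by
  have := hP.prob
  induction L with
  | nil =>
    refine ⟨fun _ => 0, measurable_const, ⟨0, fun _ => by simp⟩, fun m _ Φ _ _ => ?_⟩
    simp [linF_nil]
  | cons t L ih =>
    obtain ⟨G, hG, ⟨B, hB⟩, hrule⟩ := ih
    obtain ⟨G', hG', ⟨B', hB'⟩, hrule'⟩ := hc t.1 t.2.1 t.2.2
    refine ⟨fun M => G' M + G M, hG'.add hG, ⟨B' + B, fun M => (abs_add_le _ _).trans
      (add_le_add (hB' M) (hB M))⟩, fun m hm Φ hΦ hΦ1 => ?_⟩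
    have hΦm : Measurable Φ := hΦ.mono (Gσ_le m) le_rfl
    have h1 := hrule m hm Φ hΦ hΦ1
    have h2 := hrule' m hm Φ hΦ hΦ1
    have hR : Measurable (Rmat (rg r)) := rmat_meas.mono (Gσ_le r) le_rfl
    obtain ⟨BL, hBL⟩ := linF_bdd L
    have e1 : ∀ l, ∫ x, Φ x * linF (t :: L) l x ∂P =
        ∫ x, Φ x * Dθ t.1 (rgl r l) (tens t.2.1 t.2.2) x ∂P + ∫ x, Φ x * linF L l x ∂P := by
      intro l
      rw [← integral_add]
      · refine integral_congr_ae (Eventually.of_forall fun x => ?_)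
        simp only [linF_cons]
        ring
      · exact int_bdd_mul hΦm hΦ1 (measurable_Dθ _ _ _) (fun x => abs_Dθ_le _ _ _ _)
      · exact int_bdd_mul hΦm hΦ1 (linF_meas L l) (hBL l)
    have e2 : ∫ x, Φ x * (G' (Rmat (rg r) x) + G (Rmat (rg r) x)) ∂P =
        ∫ x, Φ x * G' (Rmat (rg r) x) ∂P + ∫ x, Φ x * G (Rmat (rg r) x) ∂P := by
      rw [← integral_add]
      · refine integral_congr_ae (Eventually.of_forall fun x => ?_)
        simp only [mul_add]
      · exact int_bdd_mul hΦm hΦ1 (hG'.comp hR) (fun x => hB' _)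
      · exact int_bdd_mul hΦm hΦ1 (hG.comp hR) (fun x => hB _)
    simp only [e1, e2, Finset.sum_add_distrib]
    linarith

/-- the conditional expectation of `Φ` given the overlap matrix -/
private theorem exists_psi {P : Measure Obs} (hP : LimitModel P) {r : ℕ} {Φ : Obs → ℝ}
    (hΦ : Measurable Φ) (h0 : ∀ x, 0 ≤ Φ x) (h1 : ∀ x, Φ x ≤ 1) :
    ∃ Ψ : Obs → ℝ, Measurable[MeasurableSpace.comap (Rmat (rg r)) inferInstance] Ψ ∧
      (∀ x, 0 ≤ Ψ x) ∧ (∀ x, Ψ x ≤ 1) ∧
      ∀ G : (Fin r → Fin r → ℝ) → ℝ, Measurable G → (∃ B, ∀ M, |G M| ≤ B) →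
        ∫ x, Φ x * G (Rmat (rg r) x) ∂P = ∫ x, Ψ x * G (Rmat (rg r) x) ∂P := by
  have := hP.prob
  have hR : Measurable (Rmat (rg r)) := rmat_meas.mono (Gσ_le r) le_rfl
  have hm : MeasurableSpace.comap (Rmat (rg r)) inferInstance ≤
    (inferInstance : MeasurableSpace Obs) := hR.comap_le
  set m' : MeasurableSpace Obs := MeasurableSpace.comap (Rmat (rg r)) inferInstance with hm'
  have hΦi : Integrable Φ P := int_bdd hΦ (B := 1) fun x => abs_le.mpr ⟨by linarith [h0 x], h1 x⟩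
  have hsm : StronglyMeasurable[m'] (P[Φ | m']) := stronglyMeasurable_condExp
  refine ⟨fun x => max 0 (min 1 ((P[Φ | m']) x)), ?_, fun x => le_max_left _ _,
    fun x => max_le zero_le_one (min_le_left _ _), fun G hG hGB => ?_⟩
  · exact (measurable_const.max (measurable_const.min hsm.measurable))
  · obtain ⟨B, hB⟩ := hGB
    have e0 : ∀ᵐ x ∂P, 0 ≤ (P[Φ | m']) x := by
      exact condExp_nonneg (Eventually.of_forall h0)
    have e1 : ∀ᵐ x ∂P, (P[Φ | m']) x ≤ 1 := by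
      have := condExp_mono (m := m') hΦi (integrable_const (μ := P) (1 : ℝ))
        (Eventually.of_forall h1)
      rw [condExp_const hm] at this
      exact this
    have hGm : StronglyMeasurable[m'] (fun x => G (Rmat (rg r) x)) := by
      refine Measurable.stronglyMeasurable ?_
      exact hG.comp (comap_measurable (Rmat (rg r)))
    have hGi : Integrable (Φ * fun x => G (Rmat (rg r) x)) P :=
      int_bdd_mul hΦ (fun x => abs_le.mpr ⟨by linarith [h0 x], h1 x⟩) (hG.comp hR) (fun x => hB _)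
    have e2 := condExp_mul_of_stronglyMeasurable_right (μ := P) hGm hGi hΦi
    have e3 : ∫ x, (P[Φ * (fun x => G (Rmat (rg r) x)) | m']) x ∂P =
        ∫ x, Φ x * G (Rmat (rg r) x) ∂P := integral_condExp hm
    rw [← e3]
    refine integral_congr_ae ?_
    filter_upwards [e0, e1, e2] with x h0 h1 h2
    rw [h2, Pi.mul_apply, min_eq_right h1, max_eq_right h0]

/-- the rule for limits of finite combinations -/
private theorem rule_LB {P : Measure Obs} (hP : LimitModel P) {r : ℕ} (hc : RuleR P r)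
    {m : ℕ} (hm : r ≤ m) {Φ Ψ : Obs → ℝ} (hΦ : Measurable[Gσ m] Φ) (hΦ1 : ∀ x, |Φ x| ≤ 1)
    (hΨ : Measurable[MeasurableSpace.comap (Rmat (rg r)) inferInstance] Ψ) (hΨ1 : ∀ x, |Ψ x| ≤ 1)
    (hΦΨ : ∀ G : (Fin r → Fin r → ℝ) → ℝ, Measurable G → (∃ B, ∀ M, |G M| ≤ B) →
        ∫ x, Φ x * G (Rmat (rg r) x) ∂P = ∫ x, Ψ x * G (Rmat (rg r) x) ∂P)
    {h : ℕ → Obs → ℝ} (hh : LB P r h) (hmeas : ∀ l, Measurable (h l)) :
    (m : ℝ) * ∫ x, Φ x * h m x ∂P =
      (∑ l ∈ Finset.Ico r m, ∫ x, Φ x * h l x ∂P) + r * ∫ x, Ψ x * h r x ∂P := by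
  have := hP.prob
  have hR : Measurable (Rmat (rg r)) := rmat_meas.mono (Gσ_le r) le_rfl
  have hΦm : Measurable Φ := hΦ.mono (Gσ_le m) le_rfl
  have hΨr : Measurable[Gσ r] Ψ := hΨ.mono rmat_meas.comap_le le_rfl
  have hΨm : Measurable Ψ := hΨr.mono (Gσ_le r) le_rfl
  -- approximation
  have happ : ∀ (F : Obs → ℝ), Measurable F → (∀ x, |F x| ≤ 1) → ∀ (L : LD r) (ε : ℝ) (l : ℕ),
      (∀ᵐ x ∂P, |h l x - linF L l x| ≤ ε) →
      |∫ x, F x * h l x ∂P - ∫ x, F x * linF L l x ∂P| ≤ ε := by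
    intro F hF hF1 L ε l hε
    obtain ⟨BL, hBL⟩ := linF_bdd L
    have i1 : Integrable (fun x => F x * linF L l x) P := int_bdd_mul hF hF1 (linF_meas L l) (hBL l)
    have i2 : Integrable (fun x => F x * (h l x - linF L l x)) P := by
      refine Integrable.of_bound (hF.mul ((hmeas l).sub (linF_meas L l))).aestronglyMeasurable ε ?_
      filter_upwards [hε] with x hx
      rw [Real.norm_eq_abs, abs_mul]
      calc |F x| * |h l x - linF L l x| ≤ 1 * ε :=
            mul_le_mul (hF1 x) hx (abs_nonneg _) zero_le_one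
        _ = ε := one_mul ε
    have i3 : Integrable (fun x => F x * h l x) P := by
      refine (i2.add i1).congr (Eventually.of_forall fun x => ?_)
      simp only [Pi.add_apply]
      ring
    rw [← integral_sub i3 i1]
    have e : (fun x => F x * h l x - F x * linF L l x) =
        fun x => F x * (h l x - linF L l x) := by funext x; ring
    rw [e]
    refine (abs_integral_le_integral_abs).trans ?_
    calc ∫ x, |F x * (h l x - linF L l x)| ∂P ≤ ∫ _x, ε ∂P := by
          refine integral_mono_ae i2.abs (integrable_const _) ?_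
          filter_upwards [hε] with x hx
          rw [abs_mul]
          calc |F x| * |h l x - linF L l x| ≤ 1 * ε :=
                mul_le_mul (hF1 x) hx (abs_nonneg _) zero_le_one
            _ = ε := one_mul ε
      _ = ε := by simp
  have hkey : ∀ ε : ℝ, 0 < ε → |(m : ℝ) * ∫ x, Φ x * h m x ∂P -
      ((∑ l ∈ Finset.Ico r m, ∫ x, Φ x * h l x ∂P) + r * ∫ x, Ψ x * h r x ∂P)| ≤
        (m + (m - r : ℕ) + r) * ε := by
    intro ε hε
    obtain ⟨L, hL⟩ := hh ε hε
    have hL' : ∀ l, r ≤ l → ∀ᵐ x ∂P, |h l x - linF L l x| ≤ ε := by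
      intro l hl
      filter_upwards [hL] with x hx
      exact hx l hl
    obtain ⟨G, hG, hGB, hrule⟩ := rule_linF hP hc L
    have r1 := hrule m hm Φ hΦ hΦ1
    have r2 := hrule r le_rfl Ψ hΨr hΨ1
    rw [Finset.Ico_self, Finset.sum_empty, zero_add] at r2
    rw [hΦΨ G hG hGB, ← r2] at r1
    have a1 := happ Φ hΦm hΦ1 L ε m (hL' m hm)
    have a2 : |∑ l ∈ Finset.Ico r m, (∫ x, Φ x * h l x ∂P - ∫ x, Φ x * linF L l x ∂P)| ≤
        (m - r : ℕ) * ε := by
      refine (Finset.abs_sum_le_sum_abs _ _).trans ?_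
      have : ∑ l ∈ Finset.Ico r m, |∫ x, Φ x * h l x ∂P - ∫ x, Φ x * linF L l x ∂P| ≤
          ∑ _l ∈ Finset.Ico r m, ε :=
        Finset.sum_le_sum fun l hl => happ Φ hΦm hΦ1 L ε l (hL' l (Finset.mem_Ico.mp hl).1)
      refine this.trans ?_
      rw [Finset.sum_const, Nat.card_Ico, nsmul_eq_mul]
    have a3 := happ Ψ hΨm hΨ1 L ε r (hL' r le_rfl)
    rw [Finset.sum_sub_distrib] at a2
    have e : (m : ℝ) * ∫ x, Φ x * h m x ∂P -
        ((∑ l ∈ Finset.Ico r m, ∫ x, Φ x * h l x ∂P) + r * ∫ x, Ψ x * h r x ∂P) =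
        (m : ℝ) * (∫ x, Φ x * h m x ∂P - ∫ x, Φ x * linF L m x ∂P) -
        (∑ l ∈ Finset.Ico r m, ∫ x, Φ x * h l x ∂P - ∑ l ∈ Finset.Ico r m,
          ∫ x, Φ x * linF L l x ∂P) -
        r * (∫ x, Ψ x * h r x ∂P - ∫ x, Ψ x * linF L r x ∂P) := by
      linarith
    rw [e]
    have b1 : |(m : ℝ) * (∫ x, Φ x * h m x ∂P - ∫ x, Φ x * linF L m x ∂P)| ≤ m * ε := by
      rw [abs_mul, abs_of_nonneg (Nat.cast_nonneg m)]
      exact mul_le_mul_of_nonneg_left a1 (Nat.cast_nonneg m)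
    have b3 : |(r : ℝ) * (∫ x, Ψ x * h r x ∂P - ∫ x, Ψ x * linF L r x ∂P)| ≤ r * ε := by
      rw [abs_mul, abs_of_nonneg (Nat.cast_nonneg r)]
      exact mul_le_mul_of_nonneg_left a3 (Nat.cast_nonneg r)
    refine (abs_sub _ _).trans ?_
    refine (add_le_add (abs_sub _ _) le_rfl).trans ?_
    calc _ ≤ m * ε + (m - r : ℕ) * ε + r * ε := by gcongr
      _ = _ := by ring
  have hz : |(m : ℝ) * ∫ x, Φ x * h m x ∂P -
      ((∑ l ∈ Finset.Ico r m, ∫ x, Φ x * h l x ∂P) + r * ∫ x, Ψ x * h r x ∂P)| ≤ 0 := by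
    refine le_of_forall_pos_le_add fun ε hε => ?_
    rw [zero_add]
    have hc0 : (0 : ℝ) ≤ m + (m - r : ℕ) + r := by positivity
    refine (hkey (ε / ((m + (m - r : ℕ) + r) + 1)) (by positivity)).trans ?_
    rw [mul_div_assoc', div_le_iff₀ (by positivity)]
    nlinarith
  exact sub_eq_zero.mp (abs_nonpos_iff.mp hz)

/-! ### The box containing `Y`, Stone-Weierstrass -/

private def box (r : ℕ) (B : ℝ) : Set (ℝ × (Fin r → ℝ)) := Set.Icc (-B, fun _ => 0) (B, fun _ => 1)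

private theorem Yv_mem {r : ℕ} (s : Species) (θ : (Fin r → s.Cfg) → ℝ) (χ : s.Cfg → ℝ) (l : ℕ)
    (x : Obs) : Yv s θ χ l x ∈ box r (∑ c, |tens θ χ c|) := by
  have h := abs_le.mp (abs_Dθ_le s (rgl r l) (tens θ χ) x)
  exact ⟨⟨h.1, fun i => Rov_nonneg x i l⟩, ⟨h.2, fun i => Rov_le_one x i l⟩⟩

private theorem Yv_meas {r : ℕ} (s : Species) (θ : (Fin r → s.Cfg) → ℝ) (χ : s.Cfg → ℝ) (l : ℕ) :
    Measurable (Yv s θ χ l) :=
  (measurable_Dθ _ _ _).prodMk (measurable_pi_lambda _ fun i => measurable_Rov i l)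

private noncomputable def Yb {r : ℕ} (s : Species) (θ : (Fin r → s.Cfg) → ℝ) (χ : s.Cfg → ℝ)
    (l : ℕ) (x : Obs) : box r (∑ c, |tens θ χ c|) := ⟨Yv s θ χ l x, Yv_mem s θ χ l x⟩

private theorem Yb_meas {r : ℕ} (s : Species) (θ : (Fin r → s.Cfg) → ℝ) (χ : s.Cfg → ℝ) (l : ℕ) :
    Measurable (Yb s θ χ l) := (Yv_meas s θ χ l).subtype_mk

private instance box_compact (r : ℕ) (B : ℝ) : CompactSpace (box r B) :=
  isCompact_iff_compactSpace.mp isCompact_Icc

private theorem LB_cont {P : Measure Obs} (hP : LimitModel P) {r : ℕ} (s : Species)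
    (θ : (Fin r → s.Cfg) → ℝ) (χ : s.Cfg → ℝ) (g : C(box r (∑ c, |tens θ χ c|), ℝ)) :
    LB P r (fun l x => g (Yb s θ χ l x)) := by
  let A : Subalgebra ℝ C(box r (∑ c, |tens θ χ c|), ℝ) :=
    { carrier := {g | LB P r (fun l x => g (Yb s θ χ l x))}
      mul_mem' := fun {a b} ha hb => LB.mul hP ha hb
      add_mem' := fun {a b} ha hb => LB.add ha hb
      algebraMap_mem' := fun c => LB.const hP c }
  have hA : A.SeparatesPoints := by
    intro y y' hne
    by_cases h1 : y.1.1 = y'.1.1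
    · have h2 : y.1.2 ≠ y'.1.2 := fun h => hne (Subtype.ext (Prod.ext h1 h))
      obtain ⟨i, hi⟩ := Function.ne_iff.mp h2
      refine ⟨fun y => y.1.2 i, ⟨⟨fun y => y.1.2 i, by fun_prop⟩, ?_, rfl⟩, hi⟩
      exact LB.R hP i
    · refine ⟨fun y => y.1.1, ⟨⟨fun y => y.1.1, by fun_prop⟩, ?_, rfl⟩, h1⟩
      exact LB.single s θ χ
  have htop := ContinuousMap.subalgebra_topologicalClosure_eq_top_of_separatesPoints A hA
  have hg : g ∈ A.topologicalClosure := by rw [htop]; exact Algebra.mem_top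
  refine LB.lim fun ε hε => ?_
  have hg' : g ∈ closure (A : Set C(box r (∑ c, |tens θ χ c|), ℝ)) := hg
  obtain ⟨g', hg'A, hdist⟩ := Metric.mem_closure_iff.mp hg' ε hε
  refine ⟨fun l x => g' (Yb s θ χ l x), hg'A, Eventually.of_forall fun x l _ => ?_⟩
  have := (ContinuousMap.dist_apply_le_dist (f := g) (g := g') (Yb s θ χ l x)).trans hdist.le
  rwa [Real.dist_eq] at this

private theorem int_wd {P : Measure Obs} {K : Type*} [MeasurableSpace K] {Φ : Obs → ℝ}
    (hΦ : Measurable Φ) (h0 : ∀ x, 0 ≤ Φ x) {Y : Obs → K} (hY : Measurable Y) {g : K → ℝ}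
    (hg : Measurable g) :
    ∫ y, g y ∂((P.withDensity (fun x => ENNReal.ofReal (Φ x))).map Y) =
      ∫ x, Φ x * g (Y x) ∂P := by
  rw [integral_map hY.aemeasurable hg.aestronglyMeasurable,
    integral_withDensity_eq_integral_toReal_smul (by fun_prop)
      (Eventually.of_forall fun x => ENNReal.ofReal_lt_top)]
  refine integral_congr_ae (Eventually.of_forall fun x => ?_)
  simp only [ENNReal.toReal_ofReal (h0 x), smul_eq_mul]

private theorem rule_meas {P : Measure Obs} (hP : LimitModel P) {r : ℕ} (hc : RuleR P r)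
    (s : Species) (θ : (Fin r → s.Cfg) → ℝ) (χ : s.Cfg → ℝ)
    {m : ℕ} (hm : r ≤ m) {Φ Ψ : Obs → ℝ} (hΦ : Measurable[Gσ m] Φ) (hΦ0 : ∀ x, 0 ≤ Φ x)
    (hΦ1 : ∀ x, Φ x ≤ 1)
    (hΨ : Measurable[MeasurableSpace.comap (Rmat (rg r)) inferInstance] Ψ) (hΨ0 : ∀ x, 0 ≤ Ψ x)
    (hΨ1 : ∀ x, Ψ x ≤ 1)
    (hΦΨ : ∀ G : (Fin r → Fin r → ℝ) → ℝ, Measurable G → (∃ B, ∀ M, |G M| ≤ B) →
        ∫ x, Φ x * G (Rmat (rg r) x) ∂P = ∫ x, Ψ x * G (Rmat (rg r) x) ∂P)
    {f : ℝ × (Fin r → ℝ) → ℝ} (hf : Measurable f) (hfb : ∃ B, ∀ y, |f y| ≤ B) :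
    (m : ℝ) * ∫ x, Φ x * f (Yv s θ χ m x) ∂P =
      (∑ l ∈ Finset.Ico r m, ∫ x, Φ x * f (Yv s θ χ l x) ∂P) +
        r * ∫ x, Ψ x * f (Yv s θ χ r x) ∂P := by
  have := hP.prob
  have hR : Measurable (Rmat (rg r)) := rmat_meas.mono (Gσ_le r) le_rfl
  have hΦm : Measurable Φ := hΦ.mono (Gσ_le m) le_rfl
  have hΨm : Measurable Ψ := (hΨ.mono rmat_meas.comap_le le_rfl).mono (Gσ_le r) le_rfl
  have hfin : ∀ {F : Obs → ℝ}, Measurable F → (∀ x, 0 ≤ F x) → (∀ x, F x ≤ 1) →
      IsFiniteMeasure (P.withDensity (fun x => ENNReal.ofReal (F x))) := by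
    intro F hF h0 h1
    refine isFiniteMeasure_withDensity_ofReal ?_
    exact (int_bdd hF (B := 1) fun x => abs_le.mpr ⟨by linarith [h0 x], h1 x⟩).2
  have i1 := hfin hΦm hΦ0 hΦ1
  have i2 := hfin hΨm hΨ0 hΨ1
  set νΦ := P.withDensity (fun x => ENNReal.ofReal (Φ x)) with hνΦ
  set νΨ := P.withDensity (fun x => ENNReal.ofReal (Ψ x)) with hνΨ
  have i3 : ∀ l, IsFiniteMeasure (νΦ.map (Yb s θ χ l)) := fun l =>
    Measure.isFiniteMeasure_map νΦ _
  have i4 : ∀ l, IsFiniteMeasure (νΨ.map (Yb s θ χ l)) := fun l =>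
    Measure.isFiniteMeasure_map νΨ _
  have i5 : IsFiniteMeasure (∑ l ∈ Finset.Ico r m, νΦ.map (Yb s θ χ l)) :=
    Finset.sum_induction _ (fun μ => IsFiniteMeasure μ) (fun a b ha hb => inferInstance)
      inferInstance (fun l _ => i3 l)
  let μ1 : Measure (box r (∑ c, |tens θ χ c|)) := (m : NNReal) • νΦ.map (Yb s θ χ m)
  let μ2 : Measure (box r (∑ c, |tens θ χ c|)) :=
    (∑ l ∈ Finset.Ico r m, νΦ.map (Yb s θ χ l)) + (r : NNReal) • νΨ.map (Yb s θ χ r)
  have hint : ∀ (g : box r (∑ c, |tens θ χ c|) → ℝ), Measurable g → (∃ B, ∀ y, |g y| ≤ B) →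
      (∫ y, g y ∂μ1 = (m : ℝ) * ∫ x, Φ x * g (Yb s θ χ m x) ∂P) ∧
      (∫ y, g y ∂μ2 = (∑ l ∈ Finset.Ico r m, ∫ x, Φ x * g (Yb s θ χ l x) ∂P) +
        r * ∫ x, Ψ x * g (Yb s θ χ r x) ∂P) := by
    rintro g hg ⟨B, hB⟩
    have hgi : ∀ (μ : Measure (box r (∑ c, |tens θ χ c|))) [IsFiniteMeasure μ], Integrable g μ :=
      fun μ _ => Integrable.of_bound hg.aestronglyMeasurable B
        (Eventually.of_forall fun y => by rw [Real.norm_eq_abs]; exact hB y)
    constructor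
    · rw [integral_smul_nnreal_measure, int_wd hΦm hΦ0 (Yb_meas s θ χ m) hg]
      simp [NNReal.smul_def]
    · rw [integral_add_measure (hgi _) (hgi _), integral_finsetSum_measure (fun l _ => hgi _),
        integral_smul_nnreal_measure, int_wd hΨm hΨ0 (Yb_meas s θ χ r) hg]
      refine congrArg₂ (· + ·)
        (Finset.sum_congr rfl fun l _ => int_wd hΦm hΦ0 (Yb_meas s θ χ l) hg) ?_
      simp [NNReal.smul_def]
  have hμ : μ1 = μ2 := by
    refine ext_of_forall_integral_eq_of_IsFiniteMeasure fun g => ?_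
    have hgB : ∃ B, ∀ y, |g y| ≤ B := ⟨‖g‖, fun y => g.norm_coe_le_norm y⟩
    obtain ⟨e1, e2⟩ := hint g g.continuous.measurable hgB
    rw [e1, e2]
    refine rule_LB hP hc hm hΦ (fun x => abs_le.mpr ⟨by linarith [hΦ0 x], hΦ1 x⟩) hΨ
      (fun x => abs_le.mpr ⟨by linarith [hΨ0 x], hΨ1 x⟩) hΦΨ
      (h := fun l x => g (Yb s θ χ l x)) (LB_cont hP s θ χ g.toContinuousMap)
      (fun l => g.continuous.measurable.comp (Yb_meas s θ χ l))
  obtain ⟨B, hB⟩ := hfb
  obtain ⟨e1, e2⟩ := hint (fun y => f y.1) (hf.comp measurable_subtype_coe) ⟨B, fun y => hB _⟩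
  rw [hμ] at e1
  exact e1.symm.trans e2

/-- conditional expectation of a bounded function given the overlap matrix -/
private theorem exists_G {P : Measure Obs} (hP : LimitModel P) {r : ℕ} {h : Obs → ℝ}
    (hh : Measurable h) {B : ℝ} (hB : ∀ x, |h x| ≤ B) :
    ∃ G : (Fin r → Fin r → ℝ) → ℝ, Measurable G ∧ (∀ M, |G M| ≤ B) ∧
      ∀ Ψ : Obs → ℝ, Measurable[MeasurableSpace.comap (Rmat (rg r)) inferInstance] Ψ →
        (∀ x, 0 ≤ Ψ x) → (∀ x, Ψ x ≤ 1) →
        ∫ x, Ψ x * h x ∂P = ∫ x, Ψ x * G (Rmat (rg r) x) ∂P := by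
  have := hP.prob
  have hR : Measurable (Rmat (rg r)) := rmat_meas.mono (Gσ_le r) le_rfl
  have hB0 : 0 ≤ B := (abs_nonneg _).trans (hB (fun _ => 0))
  have hfi : Integrable h P := int_bdd hh hB
  have hm' : MeasurableSpace.comap (Rmat (rg r)) inferInstance ≤
    (inferInstance : MeasurableSpace Obs) := hR.comap_le
  set m' : MeasurableSpace Obs := MeasurableSpace.comap (Rmat (rg r)) inferInstance with hm'def
  have hsm : StronglyMeasurable[m'] (P[h | m']) := stronglyMeasurable_condExp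
  obtain ⟨G0, hG0, hG0'⟩ := hsm.measurable.exists_eq_measurable_comp
  have hle : ∀ᵐ x ∂P, (P[h | m']) x ≤ B := by
    have := condExp_mono (m := m') hfi (integrable_const (μ := P) B)
      (Eventually.of_forall fun x => (abs_le.mp (hB _)).2)
    rw [condExp_const hm'] at this
    exact this
  have hge : ∀ᵐ x ∂P, -B ≤ (P[h | m']) x := by
    have := condExp_mono (m := m') (integrable_const (μ := P) (-B)) hfi
      (Eventually.of_forall fun x => (abs_le.mp (hB _)).1)
    rw [condExp_const hm'] at this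
    exact this
  refine ⟨fun M => max (-B) (min B (G0 M)), measurable_const.max (measurable_const.min hG0),
    fun M => abs_le.mpr ⟨le_max_left _ _, max_le (by linarith) (min_le_left _ _)⟩,
    fun Ψ hΨ hΨ0 hΨ1 => ?_⟩
  have e1 := condExp_stronglyMeasurable_mul_of_bound (μ := P) hm' hΨ.stronglyMeasurable hfi 1
    (Eventually.of_forall fun x => by
      rw [Real.norm_eq_abs]; exact abs_le.mpr ⟨by linarith [hΨ0 x], hΨ1 x⟩)
  have e2 : ∫ x, (P[Ψ * h | m']) x ∂P = ∫ x, Ψ x * h x ∂P := integral_condExp hm'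
  rw [← e2]
  refine integral_congr_ae ?_
  filter_upwards [e1, hle, hge] with x h1 h2 h3
  rw [h1, Pi.mul_apply]
  have h4 : G0 (Rmat (rg r) x) = (P[h | m']) x := by
    rw [hG0']
    rfl
  simp only [h4]
  rw [min_eq_right h2, max_eq_right h3]

theorem ruleB_of_rule {P : Measure Obs} (hP : LimitModel P) {r : ℕ} (hr : 1 ≤ r)
    (hc : RuleR P r) : RuleB P r := by
  intro s θ χ f hf hfb
  have := hP.prob
  obtain ⟨B, hB⟩ := hfb
  have hR : Measurable (Rmat (rg r)) := rmat_meas.mono (Gσ_le r) le_rfl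
  have hfm : Measurable (fun x => f (Yv s θ χ r x)) := hf.comp (Yv_meas s θ χ r)
  obtain ⟨G, hGm, hGB, hG⟩ := exists_G hP (r := r) hfm (fun x => hB _)
  -- the identity for nonnegative `Φ`
  have hpos : ∀ (m : ℕ), r ≤ m → ∀ Φ : Obs → ℝ, Measurable[Gσ m] Φ → (∀ x, 0 ≤ Φ x) →
      (∀ x, Φ x ≤ 1) →
      (m : ℝ) * ∫ x, Φ x * f (Yv s θ χ m x) ∂P =
        (∑ l ∈ Finset.Ico r m, ∫ x, Φ x * f (Yv s θ χ l x) ∂P) +
          r * ∫ x, Φ x * G (Rmat (rg r) x) ∂P := by
    intro m hm Φ hΦ h0 h1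
    obtain ⟨Ψ, hΨ, hΨ0, hΨ1, hΦΨ⟩ := exists_psi hP (r := r) (hΦ.mono (Gσ_le m) le_rfl) h0 h1
    rw [rule_meas hP hc s θ χ hm hΦ h0 h1 hΨ hΨ0 hΨ1 hΦΨ hf ⟨B, hB⟩, hΦΨ _ hGm ⟨B, hGB⟩,
      hG Ψ hΨ hΨ0 hΨ1]
  refine ⟨G, hGm, ⟨B, hGB⟩, fun m hm Φ hΦ hΦ1 => ?_⟩
  have hΦm : Measurable Φ := hΦ.mono (Gσ_le m) le_rfl
  have p1 := hpos m hm (fun x => max (Φ x) 0) (hΦ.max measurable_const) (fun x => le_max_right _ _)
    (fun x => max_le (abs_le.mp (hΦ1 x)).2 zero_le_one)
  have p2 := hpos m hm (fun x => max (-Φ x) 0) (hΦ.neg.max measurable_const)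
    (fun x => le_max_right _ _)
    (fun x => max_le (by linarith [(abs_le.mp (hΦ1 x)).1]) zero_le_one)
  have hsplit : ∀ (g : Obs → ℝ), Measurable g → (∀ x, |g x| ≤ B) →
      ∫ x, Φ x * g x ∂P = ∫ x, max (Φ x) 0 * g x ∂P - ∫ x, max (-Φ x) 0 * g x ∂P := by
    intro g hg hgB
    rw [← integral_sub]
    · refine integral_congr_ae (Eventually.of_forall fun x => ?_)
      simp only
      rw [← sub_mul]
      congr 1
      rcases le_total 0 (Φ x) with h | h
      · rw [max_eq_left h, max_eq_right (by linarith), sub_zero]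
      · rw [max_eq_right h, max_eq_left (by linarith)]; ring
    · refine int_bdd_mul (hΦm.max measurable_const) (fun x => ?_) hg hgB
      rw [abs_of_nonneg (le_max_right _ _)]
      exact max_le (abs_le.mp (hΦ1 x)).2 zero_le_one
    · refine int_bdd_mul (hΦm.neg.max measurable_const) (fun x => ?_) hg hgB
      rw [abs_of_nonneg (le_max_right _ _)]
      exact max_le (by linarith [(abs_le.mp (hΦ1 x)).1]) zero_le_one
  have q2 : ∀ l, ∫ x, Φ x * f (Yv s θ χ l x) ∂P = ∫ x, max (Φ x) 0 * f (Yv s θ χ l x) ∂P -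
      ∫ x, max (-Φ x) 0 * f (Yv s θ χ l x) ∂P := fun l =>
    hsplit (fun x => f (Yv s θ χ l x)) (hf.comp (Yv_meas s θ χ l)) (fun x => hB _)
  have q3 := hsplit (fun x => G (Rmat (rg r) x)) (hGm.comp hR) (fun x => hGB _)
  simp only [q2, Finset.sum_sub_distrib]
  rw [q3]
  linarith

end Crest.Agent.MP
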