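import Crest.Agent.MP.RUltra

/-!
# R-STEP2 (§5, second half)

Duplicate replica `r+1` (base `0..r`, event: `Y_r ∈ U`, label `Y_{r+1} ∈ U'`, `R_{r,r+1} ≤ t`)
`K` times, then (after moving replica `r` to the last position by exchangeability) duplicate it `K`
times (base `0..r-1` and the `K+1` copies of `r+1`).  `t = q_{i0} + d` for the maximal `q_{i0}`.
By ultrametricity `R_{τ_a,τ'_b} ≥ min(R_{i0,τ_a}, R_{i0,τ'_b}) ≥ q_{i0}`; so
`Qf ≤ 2(t + 1/(K+1)) - 2 q_{i0} = 2d + 2/(K+1)`, and `cs_D` bounds the difference of the averages of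
`K_{τ_a} ∈ J` and `K_{τ'_b} ∈ J'`.
-/

set_option autoImplicit false

namespace Crest.Agent.MP

open MeasureTheory Filter Topology

private theorem Yv_swap {s : Species} {r : ℕ} (θ : (Fin r → s.Cfg) → ℝ) (χ : s.Cfg → ℝ) {a b : ℕ}
    (ha : r ≤ a) (hb : r ≤ b) (l : ℕ) (x : Obs) :
    Yv s θ χ l (swapRep a b x) = Yv s θ χ (Equiv.swap a b l) x := by
  unfold Yv
  rw [Dθ_swapRep]
  have h1 : ∀ i < r, Equiv.swap a b i = i := fun i hi =>
    Equiv.swap_apply_of_ne_of_ne (by omega) (by omega)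
  have h2 : (fun j => Equiv.swap a b (rgl r l j)) = rgl r (Equiv.swap a b l) := by
    funext j
    unfold rgl
    split_ifs with h
    · exact h1 _ h
    · rfl
  rw [h2]
  congr 1
  funext i
  rw [Rov_swapRep, h1 i i.2]

private theorem measurable_Yv {s : Species} {r m l : ℕ} (θ : (Fin r → s.Cfg) → ℝ)
    (χ : s.Cfg → ℝ) (hr : r ≤ m) (hl : l < m) : Measurable[Gσ m] (Yv s θ χ l) := by
  have h1 : Measurable[Gσ m] (fun x => Dθ s (rgl r l) (tens θ χ) x) := by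
    refine Gσ_Dθ s (rgl r l) (fun j => ?_) (tens θ χ)
    unfold rgl
    split_ifs with h
    · omega
    · exact hl
  have h2 : Measurable[Gσ m] (fun x => fun i : Fin r => Rov x i l) := by
    refine @measurable_pi_lambda _ _ _ (Gσ m) _ _ fun i => ?_
    exact Gσ_Rov (lt_of_lt_of_le i.2 hr) hl
  exact @Measurable.prodMk _ (Gσ m) _ _ _ _ _ _ h1 h2

private theorem ms_and {m : ℕ} {p q : Obs → Prop} (hp : MeasurableSet[Gσ m] {x | p x})
    (hq : MeasurableSet[Gσ m] {x | q x}) : MeasurableSet[Gσ m] {x | p x ∧ q x} :=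
  @MeasurableSet.inter _ (Gσ m) _ _ hp hq

private theorem ms_all {m : ℕ} {ι : Type} [Countable ι] {p : ι → Obs → Prop}
    (hp : ∀ i, MeasurableSet[Gσ m] {x | p i x}) : MeasurableSet[Gσ m] {x | ∀ i, p i x} := by
  rw [Set.setOf_forall]
  exact @MeasurableSet.iInter _ _ (Gσ m) _ _ hp

private theorem ms_imp {m : ℕ} {c : Prop} {p : Obs → Prop}
    (hp : c → MeasurableSet[Gσ m] {x | p x}) : MeasurableSet[Gσ m] {x | c → p x} := by
  by_cases h : c
  · simpa [h] using hp h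
  · simp [h]

private theorem ms_Rov {m l l' : ℕ} (hl : l < m) (hl' : l' < m) (t : ℝ) :
    MeasurableSet[Gσ m] {x | Rov x l l' ≤ t} := by
  have h := Gσ_Rov hl hl'
  exact h measurableSet_Iic

private theorem ms_box {r : ℕ} (q : Fin r → ℝ) (d : ℝ) :
    MeasurableSet {y : Fin r → ℝ | ∀ i, q i ≤ y i ∧ y i < q i + d} := by
  have : {y : Fin r → ℝ | ∀ i, q i ≤ y i ∧ y i < q i + d} =
      Set.univ.pi (fun i => Set.Ico (q i) (q i + d)) := by
    ext y
    simp [Set.mem_pi]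
  rw [this]
  exact MeasurableSet.univ_pi fun i => measurableSet_Ico

private theorem sum_le_diag {K : ℕ} (f : Fin (K + 1) → Fin (K + 1) → ℝ) {t : ℝ} (ht : 0 ≤ t)
    (h1 : ∀ a b, f a b ≤ 1) (h2 : ∀ a b, a ≠ b → f a b ≤ t) :
    ∑ a, ∑ b, f a b ≤ (K + 1 : ℝ) + (K + 1 : ℝ) ^ 2 * t := by
  have h3 : ∀ a b, f a b ≤ t + if a = b then 1 else 0 := by
    intro a b
    by_cases h : a = b
    · simp only [h, if_true]
      have := h1 b b
      linarith
    · simp only [h, if_false, add_zero]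
      exact h2 a b h
  calc ∑ a, ∑ b, f a b ≤ ∑ a : Fin (K + 1), ∑ b : Fin (K + 1), (t + if a = b then 1 else 0) :=
        Finset.sum_le_sum fun a _ => Finset.sum_le_sum fun b _ => h3 a b
    _ = (K + 1 : ℝ) + (K + 1 : ℝ) ^ 2 * t := by
        simp only [Finset.sum_add_distrib, Finset.sum_const, Finset.card_univ, Fintype.card_fin,
          nsmul_eq_mul, Finset.sum_ite_eq, Finset.mem_univ, if_true]
        push_cast
        ring

private theorem step_dist_K {P : Measure Obs} (hP : LimitModel P) (hGG : GG P) {r : ℕ} (hr : 1 ≤ r)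
    (s : Species) (θ : (Fin r → s.Cfg) → ℝ) (B : ℝ) (hB : ∀ c, |θ c| ≤ B) (χ : s.Cfg → ℝ)
    (j j' w : ℝ) (q : Fin r → ℝ) (d t : ℝ)
    (ht : ∀ i, q i + d ≤ t) (ht' : ∃ i, q i + d = t)
    (hpos : 0 < P {x |
      Yv s θ χ r x ∈ Set.Icc j (j + w) ×ˢ {y : Fin r → ℝ | ∀ i, q i ≤ y i ∧ y i < q i + d} ∧
      Yv s θ χ (r + 1) x ∈
        Set.Icc j' (j' + w) ×ˢ {y : Fin r → ℝ | ∀ i, q i ≤ y i ∧ y i < q i + d} ∧
      Rov x r (r + 1) ≤ t}) (K : ℕ) :
    |j - j'| ≤ w + B * Real.sqrt (∑ c, χ c ^ 2) *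
      Real.sqrt ((2 * d + 2 * (1 / ((K : ℝ) + 1))) / wt s) := by
  haveI := hP.prob
  set A : Set (ℝ × (Fin r → ℝ)) :=
    Set.Icc j (j + w) ×ˢ {y : Fin r → ℝ | ∀ i, q i ≤ y i ∧ y i < q i + d} with hA
  set A' : Set (ℝ × (Fin r → ℝ)) :=
    Set.Icc j' (j' + w) ×ˢ {y : Fin r → ℝ | ∀ i, q i ≤ y i ∧ y i < q i + d} with hA'
  have hAm : MeasurableSet A := measurableSet_Icc.prod (ms_box q d)
  have hAm' : MeasurableSet A' := measurableSet_Icc.prod (ms_box q d)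
  set U : Set Obs := {x | Yv s θ χ r x ∈ A ∧ Yv s θ χ (r + 1) x ∈ A' ∧ Rov x r (r + 1) ≤ t}
    with hU
  -- `P(t < R_01) < 1`
  have hγ : P {x | t < Rov x 0 1} < 1 := by
    have e1 : P {x | t < Rov x 0 1} = P {x | t < Rov x 0 r} := by
      have h1 := (hP.exch 1 r).measure_preimage
        (s := {x | t < Rov x 0 r})
        (measurableSet_lt measurable_const (measurable_Rov 0 r)).nullMeasurableSet
      rw [← h1]
      congr 1
      ext x
      simp only [Set.mem_setOf_eq, Set.mem_preimage, Rov_swapRep]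
      rw [Equiv.swap_apply_right, Equiv.swap_apply_of_ne_of_ne (by omega) (by omega)]
    rw [e1]
    have h2 : P {x | t < Rov x 0 r} = 1 - P {x | Rov x 0 r ≤ t} := by
      have : {x : Obs | t < Rov x 0 r} = {x | Rov x 0 r ≤ t}ᶜ := by
        ext x; simp
      rw [this, prob_compl_eq_one_sub (measurableSet_le (measurable_Rov 0 r) measurable_const)]
    rw [h2]
    refine ENNReal.sub_lt_self ENNReal.one_ne_top one_ne_zero ?_
    have h3 : P U ≤ P {x | Rov x 0 r ≤ t} := by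
      refine measure_mono fun x hx => ?_
      have h4 := (hx.1.2 : ∀ i, q i ≤ Rov x i r ∧ Rov x i r < q i + d) ⟨0, hr⟩
      exact h4.2.le.trans (ht _)
    exact (hpos.trans_le h3).ne'
  -- first duplication
  have hUm : MeasurableSet[Gσ (r + 1 + 1)] U := by
    refine ms_and ?_ (ms_and ?_ ?_)
    · exact measurable_Yv θ χ (by omega) (by omega) hAm
    · exact measurable_Yv θ χ (by omega) (by omega) hAm'
    · exact ms_Rov (by omega) (by omega) t
  have hUR : ∀ᵐ x ∂P, x ∈ U → ∀ i < r + 1, Rov x i (r + 1) ≤ t := by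
    refine Eventually.of_forall fun x hx i hi => ?_
    rcases Nat.lt_succ_iff_lt_or_eq.1 hi with h | h
    · have h4 := (hx.2.1.2 : ∀ i, q i ≤ Rov x i (r + 1) ∧ Rov x i (r + 1) < q i + d) ⟨i, h⟩
      exact h4.2.le.trans (ht _)
    · rw [h]; exact hx.2.2
  have hV := dup_iter hP hGG (n := r + 1) (by omega) U hUm t hUR hγ hpos K
  set V : Set Obs := {x | (∀ a ≤ K, swapRep (r + 1) (r + 1 + a) x ∈ U) ∧
      ∀ a ≤ K, ∀ b ≤ K, a ≠ b → Rov x (r + 1 + a) (r + 1 + b) ≤ t} with hVdef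
  have hVx : ∀ x ∈ V, Yv s θ χ r x ∈ A ∧
      (∀ a ≤ K, Yv s θ χ (r + 1 + a) x ∈ A' ∧ Rov x r (r + 1 + a) ≤ t) := by
    intro x hx
    have key : ∀ a ≤ K, Yv s θ χ r x ∈ A ∧ Yv s θ χ (r + 1 + a) x ∈ A' ∧
        Rov x r (r + 1 + a) ≤ t := by
      intro a ha
      obtain ⟨h1, h2, h3⟩ := hx.1 a ha
      rw [Yv_swap θ χ (by omega) (by omega)] at h1 h2
      rw [Rov_swapRep] at h3
      rw [Equiv.swap_apply_of_ne_of_ne (by omega) (by omega)] at h1 h3
      rw [Equiv.swap_apply_left] at h2 h3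
      exact ⟨h1, h2, h3⟩
    exact ⟨(key 0 (Nat.zero_le _)).1, fun a ha => (key a ha).2⟩
  -- second event
  set n' : ℕ := r + K + 1 with hn'
  set U₂ : Set Obs := {x | Yv s θ χ n' x ∈ A ∧ (∀ a, a ≤ K → (Yv s θ χ (r + a) x ∈ A' ∧
      Rov x n' (r + a) ≤ t)) ∧ ∀ a, a ≤ K → ∀ b, b ≤ K → (a ≠ b → Rov x (r + a) (r + b) ≤ t)}
    with hU₂
  have hU₂m : MeasurableSet[Gσ (n' + 1)] U₂ := by
    refine ms_and ?_ (ms_and ?_ ?_)
    · exact measurable_Yv θ χ (by omega) (by omega) hAm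
    · refine ms_all fun a => ms_imp fun ha => ms_and ?_ ?_
      · exact measurable_Yv θ χ (by omega) (by omega) hAm'
      · exact ms_Rov (by omega) (by omega) t
    · refine ms_all fun a => ms_imp fun ha => ms_all fun b => ms_imp fun hb => ms_imp fun _ => ?_
      exact ms_Rov (by omega) (by omega) t
  have hU₂pos : 0 < P U₂ := by
    refine hV.trans_le ?_
    rw [← (hP.exch r n').measure_preimage (s := U₂) (Gσ_le _ _ hU₂m).nullMeasurableSet]
    refine measure_mono fun x hx => ?_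
    have h0 := hVx x hx
    have h1 := hx.2
    have hσ : ∀ a ≤ K, ∃ a'' ≤ K, Equiv.swap r n' (r + a) = r + 1 + a'' ∧
        (a'' = if a = 0 then K else a - 1) := by
      intro a ha
      by_cases h : a = 0
      · refine ⟨K, le_rfl, ?_, by simp [h]⟩
        rw [h, add_zero, Equiv.swap_apply_left]
        omega
      · refine ⟨a - 1, by omega, ?_, by simp [h]⟩
        rw [Equiv.swap_apply_of_ne_of_ne (by omega) (by omega)]
        omega
    show swapRep r n' x ∈ U₂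
    refine ⟨?_, ?_, ?_⟩
    · rw [Yv_swap θ χ le_rfl (by omega), Equiv.swap_apply_right]
      exact h0.1
    · intro a ha
      obtain ⟨a'', ha'', h2, -⟩ := hσ a ha
      rw [Yv_swap θ χ le_rfl (by omega), Rov_swapRep, Equiv.swap_apply_right, h2]
      exact h0.2 a'' ha''
    · intro a ha b hb hab
      obtain ⟨a'', ha'', h2, h3⟩ := hσ a ha
      obtain ⟨b'', hb'', h4, h5⟩ := hσ b hb
      rw [Rov_swapRep, h2, h4]
      refine h1 a'' ha'' b'' hb'' ?_
      rw [h3, h5]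
      split_ifs <;> omega
  have hU₂R : ∀ᵐ x ∂P, x ∈ U₂ → ∀ i < n', Rov x i n' ≤ t := by
    filter_upwards [Rov_symm hP] with x hsym hx i hi
    rcases lt_or_ge i r with h | h
    · have h4 := (hx.1.2 : ∀ i, q i ≤ Rov x i n' ∧ Rov x i n' < q i + d) ⟨i, h⟩
      exact h4.2.le.trans (ht _)
    · obtain ⟨a, rfl⟩ := Nat.exists_eq_add_of_le h
      rw [hsym]
      exact (hx.2.1 a (by omega)).2
  have hW := dup_iter hP hGG (n := n') (by omega) U₂ hU₂m t hU₂R hγ hU₂pos K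
  -- choose a point
  obtain ⟨x, hxW, hsym, hult, hcs, hsimple⟩ : ∃ x, x ∈ {x | (∀ a ≤ K, swapRep n' (n' + a) x ∈ U₂) ∧
      ∀ a ≤ K, ∀ b ≤ K, a ≠ b → Rov x (n' + a) (n' + b) ≤ t} ∧
      (∀ l l' : ℕ, Rov x l l' = Rov x l' l) ∧
      (∀ i j k : ℕ, i ≠ j → i ≠ k → j ≠ k → min (Rov x i k) (Rov x j k) ≤ Rov x i j) ∧
      (∀ (s : Species) (r : ℕ) (θ : (Fin r → s.Cfg) → ℝ) (B : ℝ) (χ : s.Cfg → ℝ)
      (K : ℕ) (as bs : Fin K → ℕ), 0 < K → (∀ c, |θ c| ≤ B) →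
      |(∑ a, Dθ s (rgl r (as a)) (tens θ χ) x) / K - (∑ b, Dθ s (rgl r (bs b)) (tens θ χ) x) / K| ≤
        B * Real.sqrt (∑ c, χ c ^ 2) * Real.sqrt (Qf as bs x / wt s)) ∧ True := by
    have h1 : ∃ᵐ x ∂P, x ∈ {x | (∀ a ≤ K, swapRep n' (n' + a) x ∈ U₂) ∧
      ∀ a ≤ K, ∀ b ≤ K, a ≠ b → Rov x (n' + a) (n' + b) ≤ t} := by
      rw [frequently_ae_iff]
      exact hW.ne'
    have h2 := h1.and_eventually ((Rov_symm hP).and ((ultra hP hGG).and (cs_D hP)))
    obtain ⟨x, h3, h4, h5, h6⟩ := h2.exists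
    exact ⟨x, h3, h4, h5, h6, trivial⟩
  have hWx : ∀ b ≤ K, Yv s θ χ (n' + b) x ∈ A ∧ (∀ a ≤ K, Yv s θ χ (r + a) x ∈ A') ∧
      (∀ a ≤ K, ∀ a' ≤ K, a ≠ a' → Rov x (r + a) (r + a') ≤ t) := by
    intro b hb
    obtain ⟨h1, h2, h3⟩ := hxW.1 b hb
    rw [Yv_swap θ χ (by omega) (by omega), Equiv.swap_apply_left] at h1
    refine ⟨h1, fun a ha => ?_, fun a ha a' ha' haa => ?_⟩
    · have h4 := (h2 a ha).1
      rwa [Yv_swap θ χ (by omega) (by omega),
        Equiv.swap_apply_of_ne_of_ne (by omega) (by omega)] at h4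
    · have h4 := h3 a ha a' ha' haa
      rwa [Rov_swapRep, Equiv.swap_apply_of_ne_of_ne (by omega) (by omega),
        Equiv.swap_apply_of_ne_of_ne (by omega) (by omega)] at h4
  have hYA : ∀ b : Fin (K + 1), Yv s θ χ (n' + b) x ∈ A := fun b => (hWx b (by omega)).1
  have hYA' : ∀ a : Fin (K + 1), Yv s θ χ (r + a) x ∈ A' := fun a =>
    (hWx 0 (Nat.zero_le _)).2.1 a (by omega)
  obtain ⟨i0, hi0⟩ := ht'
  have hbox : ∀ b : Fin (K + 1), q i0 ≤ Rov x i0 (n' + b) ∧ Rov x i0 (n' + b) < q i0 + d :=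
    fun b => (hYA b).2 i0
  have hbox' : ∀ b : Fin (K + 1), q i0 ≤ Rov x i0 (r + b) ∧ Rov x i0 (r + b) < q i0 + d :=
    fun b => (hYA' b).2 i0
  have ht0 : 0 ≤ t := by
    have h1 := hbox 0
    have h2 := Rov_nonneg x i0 (n' + ((0 : Fin (K + 1)) : ℕ))
    linarith [h1.2]
  set as : Fin (K + 1) → ℕ := fun a => r + a with has
  set bs : Fin (K + 1) → ℕ := fun b => n' + b with hbs
  have hcross : ∀ a b : Fin (K + 1), t - d ≤ Rov x (as a) (bs b) := by
    intro a b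
    have h1 := hult (as a) (bs b) i0 (by simp only [has, hbs]; omega)
      (by simp only [has]; omega) (by simp only [hbs]; omega)
    have h2 := hbox' a
    have h3 := hbox b
    rw [hsym (as a) i0, hsym (bs b) i0] at h1
    have h4 : t - d ≤ min (Rov x i0 (as a)) (Rov x i0 (bs b)) := by
      refine le_min ?_ ?_
      · have := h2.1
        simp only [has]
        linarith
      · have := h3.1
        simp only [hbs]
        linarith
    exact h4.trans h1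
  have hQ : Qf as bs x ≤ 2 * d + 2 * (1 / ((K : ℝ) + 1)) := by
    have hK : (0 : ℝ) < (K : ℝ) + 1 := by positivity
    unfold Qf
    have h1 : ∑ a, ∑ a', Rov x (as a) (as a') ≤ (K + 1 : ℝ) + (K + 1 : ℝ) ^ 2 * t := by
      refine sum_le_diag _ ht0 (fun a b => Rov_le_one _ _ _) fun a b hab => ?_
      exact (hWx 0 (Nat.zero_le _)).2.2 a (by omega) b (by omega) (by
        intro h; exact hab (Fin.ext h))
    have h2 : ∑ a, ∑ a', Rov x (bs a) (bs a') ≤ (K + 1 : ℝ) + (K + 1 : ℝ) ^ 2 * t := by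
      refine sum_le_diag _ ht0 (fun a b => Rov_le_one _ _ _) fun a b hab => ?_
      exact hxW.2 a (by omega) b (by omega) (by intro h; exact hab (Fin.ext h))
    have h3 : (K + 1 : ℝ) ^ 2 * (t - d) ≤ ∑ a, ∑ b, Rov x (as a) (bs b) := by
      calc (K + 1 : ℝ) ^ 2 * (t - d) = ∑ _a : Fin (K + 1), ∑ _b : Fin (K + 1), (t - d) := by
            simp only [Finset.sum_const, Finset.card_univ, Fintype.card_fin, nsmul_eq_mul]
            push_cast
            ring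
        _ ≤ _ := Finset.sum_le_sum fun a _ => Finset.sum_le_sum fun b _ => hcross a b
    rw [div_le_iff₀ (by push_cast; positivity)]
    have h4 : (2 * d + 2 * (1 / ((K : ℝ) + 1))) * (((K + 1 : ℕ) : ℝ)) ^ 2 =
        2 * d * (K + 1 : ℝ) ^ 2 + 2 * (K + 1 : ℝ) := by
      push_cast
      field_simp
    rw [h4]
    nlinarith
  have hwt : 0 < wt s := wt_pos s
  have hB0 : 0 ≤ B := (abs_nonneg _).trans (hB (fun _ => fun _ => false))
  have hfin := hcs s r θ B χ (K + 1) as bs (by omega) hB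
  have hmono : B * Real.sqrt (∑ c, χ c ^ 2) * Real.sqrt (Qf as bs x / wt s) ≤
      B * Real.sqrt (∑ c, χ c ^ 2) *
        Real.sqrt ((2 * d + 2 * (1 / ((K : ℝ) + 1))) / wt s) := by
    refine mul_le_mul_of_nonneg_left ?_ (mul_nonneg hB0 (Real.sqrt_nonneg _))
    exact Real.sqrt_le_sqrt (div_le_div_of_nonneg_right hQ hwt.le)
  have hfin2 := hfin.trans hmono
  have hK : (0 : ℝ) < (((K + 1 : ℕ) : ℝ)) := by positivity
  have ha1 : j' ≤ (∑ a, Dθ s (rgl r (as a)) (tens θ χ) x) / ((K + 1 : ℕ) : ℝ) := by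
    rw [le_div_iff₀ hK]
    calc j' * ((K + 1 : ℕ) : ℝ) = ∑ _a : Fin (K + 1), j' := by simp [mul_comm]
      _ ≤ _ := Finset.sum_le_sum fun a _ => ((hYA' a).1 : _ ∈ Set.Icc j' (j' + w)).1
  have ha2 : (∑ a, Dθ s (rgl r (as a)) (tens θ χ) x) / ((K + 1 : ℕ) : ℝ) ≤ j' + w := by
    rw [div_le_iff₀ hK]
    calc _ ≤ ∑ _a : Fin (K + 1), (j' + w) :=
          Finset.sum_le_sum fun a _ => ((hYA' a).1 : _ ∈ Set.Icc j' (j' + w)).2
      _ = (j' + w) * ((K + 1 : ℕ) : ℝ) := by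
          rw [Finset.sum_const, Finset.card_univ, Fintype.card_fin, nsmul_eq_mul, mul_comm]
  have hb1 : j ≤ (∑ a, Dθ s (rgl r (bs a)) (tens θ χ) x) / ((K + 1 : ℕ) : ℝ) := by
    rw [le_div_iff₀ hK]
    calc j * ((K + 1 : ℕ) : ℝ) = ∑ _a : Fin (K + 1), j := by simp [mul_comm]
      _ ≤ _ := Finset.sum_le_sum fun a _ => ((hYA a).1 : _ ∈ Set.Icc j (j + w)).1
  have hb2 : (∑ a, Dθ s (rgl r (bs a)) (tens θ χ) x) / ((K + 1 : ℕ) : ℝ) ≤ j + w := by
    rw [div_le_iff₀ hK]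
    calc _ ≤ ∑ _a : Fin (K + 1), (j + w) :=
          Finset.sum_le_sum fun a _ => ((hYA a).1 : _ ∈ Set.Icc j (j + w)).2
      _ = (j + w) * ((K + 1 : ℕ) : ℝ) := by
          rw [Finset.sum_const, Finset.card_univ, Fintype.card_fin, nsmul_eq_mul, mul_comm]
  rw [abs_le] at hfin2
  rw [abs_le]
  constructor <;> linarith [hfin2.1, hfin2.2]

theorem step_dist {P : Measure Obs} (hP : LimitModel P) (hGG : GG P) {r : ℕ} (hr : 1 ≤ r)
    (s : Species) (θ : (Fin r → s.Cfg) → ℝ) (B : ℝ) (hB : ∀ c, |θ c| ≤ B) (χ : s.Cfg → ℝ)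
    (j j' w : ℝ) (q : Fin r → ℝ) (d t : ℝ) (hd : 0 < d)
    (ht : ∀ i, q i + d ≤ t) (ht' : ∃ i, q i + d = t)
    (hpos : 0 < P {x |
      Yv s θ χ r x ∈ Set.Icc j (j + w) ×ˢ {y : Fin r → ℝ | ∀ i, q i ≤ y i ∧ y i < q i + d} ∧
      Yv s θ χ (r + 1) x ∈
        Set.Icc j' (j' + w) ×ˢ {y : Fin r → ℝ | ∀ i, q i ≤ y i ∧ y i < q i + d} ∧
      Rov x r (r + 1) ≤ t}) :
    |j - j'| ≤ w + B * Real.sqrt (∑ c, χ c ^ 2) * Real.sqrt (2 * d / wt s) := by
  have h1 : Tendsto (fun K : ℕ => w + B * Real.sqrt (∑ c, χ c ^ 2) *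
      Real.sqrt ((2 * d + 2 * (1 / ((K : ℝ) + 1))) / wt s)) atTop
      (𝓝 (w + B * Real.sqrt (∑ c, χ c ^ 2) * Real.sqrt ((2 * d + 2 * 0) / wt s))) := by
    refine Tendsto.const_add _ (Tendsto.const_mul _ ?_)
    refine (Real.continuous_sqrt.tendsto _).comp ?_
    refine Tendsto.div_const (Tendsto.const_add _ (Tendsto.const_mul _ ?_)) _
    exact tendsto_one_div_add_atTop_nhds_zero_nat
  have h2 := ge_of_tendsto' h1 fun K =>
    step_dist_K hP hGG hr s θ B hB χ j j' w q d t ht ht' hpos K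
  simpa using h2

end Crest.Agent.MP
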