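import Crest.Agent.MP.RStep1
import Crest.Agent.MP.RStep2

/-!
# R-STEP3: RULE_r ⇒ CLAIM_{r+1} (§5, conclusion)

First for product functions `tens θ χ` (they span all functions on `Fin (r+1) → Cfg`).
Fix `d = 1/N`, cover the range `[0,1]^r` of `(R_{i,r})` by cells `Q` with corners in `d ℤ`
(finitely many), the range of `K_r` by intervals `J` of length `d`.  Let `G_{Q,J}` be the
functions of `RuleB` for the indicators of `J × Q`.  Define, for a matrix `M` of size `r+1`:
`g(M)` = the largest corner of an interval `J` with `G_{Q,J}(M|_r) > 0`, `Q ∋` last column.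
A.s. `K_r ∈ J'`, `(R_{i,r}) ∈ Q` implies `G_{Q,J'}(Rmat) > 0` (rule with `m = r`,
`Φ = 1[G_{Q,J'}(Rmat) ≤ 0]`), and by `step_joint`, `step_dist` the corners of `J` and `J'` are within
`d + C sqrt(2d)` unless `P(G_{Q,J} > 0, G_{Q,J'} > 0) = 0`.  So `|K_r - g(Rmat (rg (r+1)))| ≤
2d + C sqrt(2d)` a.s., and `G := limsup_N g`.
-/

set_option autoImplicit false

namespace Crest.Agent.MP

open MeasureTheory Filter Topology

namespace Step3

/-- The cell with lower corner `q` and side `d`. -/
def Qcell {r : ℕ} (q : Fin r → ℝ) (d : ℝ) : Set (Fin r → ℝ) :=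
  {y : Fin r → ℝ | ∀ i, q i ≤ y i ∧ y i < q i + d}

theorem measurableSet_Qcell {r : ℕ} (q : Fin r → ℝ) (d : ℝ) : MeasurableSet (Qcell q d) := by
  have : Qcell q d = ⋂ i, (fun y : Fin r → ℝ => y i) ⁻¹' (Set.Ico (q i) (q i + d)) := by
    ext y
    simp [Qcell, Set.mem_iInter]
  rw [this]
  exact MeasurableSet.iInter fun i => measurableSet_Ico.preimage (measurable_pi_apply i)

theorem measurable_Yv (s : Species) {r : ℕ} (θ : (Fin r → s.Cfg) → ℝ) (χ : s.Cfg → ℝ) (l : ℕ) :
    Measurable (Yv s θ χ l) :=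
  (measurable_Dθ s (rgl r l) (tens θ χ)).prodMk
    (measurable_pi_lambda _ fun i => measurable_Rov i l)

theorem rgl_self (r : ℕ) : rgl r r = rg (r + 1) := by
  funext j
  simp only [rgl, rg]
  split_ifs with h
  · rfl
  · have := j.2
    omega

/-- Scale `1/N`. -/
theorem one_scale {P : Measure Obs} (hP : LimitModel P) (hGG : GG P) {r : ℕ} (hr : 1 ≤ r)
    (hB : RuleB P r) (s : Species) (θ : (Fin r → s.Cfg) → ℝ) (χ : s.Cfg → ℝ) (N : ℕ)
    (hN : 0 < N) :
    ∃ g : (Fin (r + 1) → Fin (r + 1) → ℝ) → ℝ, Measurable g ∧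
      ∀ᵐ x ∂P, |Dθ s (rgl r r) (tens θ χ) x - g (Rmat (rg (r + 1)) x)| ≤
        2 * (1 / (N : ℝ)) +
          (∑ c, |θ c|) * Real.sqrt (∑ c, χ c ^ 2) * Real.sqrt (2 * (1 / (N : ℝ)) / wt s) := by
  have := hP.prob
  classical
  set d : ℝ := 1 / (N : ℝ) with hd
  have hN' : (0 : ℝ) < N := by exact_mod_cast hN
  have hdpos : 0 < d := by positivity
  have hdN : d * N = 1 := by rw [hd]; field_simp
  set B' : ℝ := ∑ c, |tens θ χ c| with hB'
  have hB'0 : 0 ≤ B' := Finset.sum_nonneg fun _ _ => abs_nonneg _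
  set M : ℤ := ⌈B' * N⌉ + 1 with hM
  have hM0 : 0 ≤ M := by
    have : 0 ≤ ⌈B' * N⌉ := Int.ceil_nonneg (by positivity)
    omega
  let q : (Fin r → Fin (N + 1)) → Fin r → ℝ := fun v i => ((v i : ℕ) : ℝ) * d
  let J : ℤ → Set ℝ := fun j => Set.Icc ((j : ℝ) * d) ((j : ℝ) * d + d)
  have hJm : ∀ j, MeasurableSet (J j) := fun j => measurableSet_Icc
  have hset : ∀ v j, MeasurableSet (J j ×ˢ Qcell (q v) d) := fun v j =>
    (hJm j).prod (measurableSet_Qcell _ _)
  have hex := fun (v : Fin r → Fin (N + 1)) (j : ℤ) =>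
    hB s θ χ ((J j ×ˢ Qcell (q v) d).indicator 1) (measurable_one.indicator (hset v j))
      ⟨1, fun y => by
        by_cases hy : y ∈ J j ×ˢ Qcell (q v) d
        · simp [Set.indicator_of_mem hy]
        · simp [Set.indicator_of_notMem hy]⟩
  choose G hGm hGb hGr using hex
  -- positivity
  have hls : ∀ j : Fin r, rg r j < r := fun j => j.2
  have hRm : Measurable[Gσ r] (Rmat (rg r)) := Gσ_Rmat (rg r) hls
  have fact1 : ∀ v j, ∀ᵐ x ∂P, Yv s θ χ r x ∈ J j ×ˢ Qcell (q v) d →
      0 < G v j (Rmat (rg r) x) := by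
    intro v j
    set A : Set Obs := {x | G v j (Rmat (rg r) x) ≤ 0} with hA
    have hAm : MeasurableSet[Gσ r] A := by
      have h1 : Measurable[Gσ r] (fun x => G v j (Rmat (rg r) x)) := (hGm v j).comp hRm
      exact h1 measurableSet_Iic
    have hΦm : Measurable[Gσ r] (A.indicator (1 : Obs → ℝ)) := by
      exact Measurable.indicator (m := Gσ r) measurable_const hAm
    have hΦb : ∀ x, |A.indicator (1 : Obs → ℝ) x| ≤ 1 := by
      intro x
      by_cases hx : x ∈ A
      · simp [Set.indicator_of_mem hx]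
      · simp [Set.indicator_of_notMem hx]
    have hrule := hGr v j r le_rfl (A.indicator 1) hΦm hΦb
    simp only [Finset.Ico_self, Finset.sum_empty, zero_add] at hrule
    have hr' : (0 : ℝ) < r := by exact_mod_cast hr
    have hrule2 := mul_left_cancel₀ hr'.ne' hrule
    have hle : ∫ x, A.indicator (1 : Obs → ℝ) x * G v j (Rmat (rg r) x) ∂P ≤ 0 := by
      apply integral_nonpos
      intro x
      by_cases hx : x ∈ A
      · show A.indicator (1 : Obs → ℝ) x * G v j (Rmat (rg r) x) ≤ 0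
        rw [Set.indicator_of_mem hx, Pi.one_apply, one_mul]
        exact hx
      · simp [Set.indicator_of_notMem hx]
    have hAm' : MeasurableSet A := Gσ_le r _ hAm
    set F : Obs → ℝ := fun x => A.indicator (1 : Obs → ℝ) x *
      (J j ×ˢ Qcell (q v) d).indicator (1 : ℝ × (Fin r → ℝ) → ℝ) (Yv s θ χ r x) with hF
    have hFm : Measurable F := by
      apply Measurable.mul
      · exact measurable_one.indicator hAm'
      · exact (measurable_one.indicator (hset v j)).comp (measurable_Yv s θ χ r)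
    have hF0 : ∀ x, 0 ≤ F x := by
      intro x
      apply mul_nonneg
      · exact Set.indicator_nonneg (fun _ _ => zero_le_one) _
      · exact Set.indicator_nonneg (fun _ _ => zero_le_one) _
    have hF1 : ∀ x, ‖F x‖ ≤ 1 := by
      intro x
      rw [Real.norm_eq_abs, abs_of_nonneg (hF0 x)]
      have h1 : A.indicator (1 : Obs → ℝ) x ≤ 1 := by
        by_cases hx : x ∈ A
        · simp [Set.indicator_of_mem hx]
        · simp [Set.indicator_of_notMem hx]
      have h2 : (J j ×ˢ Qcell (q v) d).indicator (1 : ℝ × (Fin r → ℝ) → ℝ) (Yv s θ χ r x) ≤ 1 := by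
        by_cases hx : Yv s θ χ r x ∈ J j ×ˢ Qcell (q v) d
        · simp [Set.indicator_of_mem hx]
        · simp [Set.indicator_of_notMem hx]
      exact mul_le_one₀ h1 (Set.indicator_nonneg (fun _ _ => zero_le_one) _) h2
    have hFi : Integrable F P := Integrable.of_bound hFm.aestronglyMeasurable 1
      (Eventually.of_forall hF1)
    have hint : ∫ x, F x ∂P = 0 := by
      refine le_antisymm ?_ (integral_nonneg hF0)
      calc ∫ x, F x ∂P = ∫ x, A.indicator (1 : Obs → ℝ) x * G v j (Rmat (rg r) x) ∂P := hrule2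
        _ ≤ 0 := hle
    have hae := (integral_eq_zero_iff_of_nonneg hF0 hFi).1 hint
    filter_upwards [hae] with x hx hxY
    by_contra hcon
    have hxA : x ∈ A := not_lt.1 hcon
    have hFx : F x = 1 := by
      simp [hF, Set.indicator_of_mem hxA, Set.indicator_of_mem hxY]
    have : F x = 0 := hx
    rw [hFx] at this
    exact one_ne_zero this
  -- distance
  have : Nonempty (Fin r) := ⟨⟨0, hr⟩⟩
  have fact2 : ∀ v j j', ∀ᵐ x ∂P, 0 < G v j (Rmat (rg r) x) → 0 < G v j' (Rmat (rg r) x) →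
      |(j : ℝ) * d - (j' : ℝ) * d| ≤ d +
        (∑ c, |θ c|) * Real.sqrt (∑ c, χ c ^ 2) * Real.sqrt (2 * d / wt s) := by
    intro v j j'
    by_cases h0 : P {x | 0 < G v j (Rmat (rg r) x) ∧ 0 < G v j' (Rmat (rg r) x)} = 0
    · have h1 : ∀ᵐ x ∂P, ¬ (0 < G v j (Rmat (rg r) x) ∧ 0 < G v j' (Rmat (rg r) x)) := by
        rw [ae_iff]
        simpa using h0
      filter_upwards [h1] with x hx h2 h3
      exact absurd ⟨h2, h3⟩ hx
    · obtain ⟨i0, hi0⟩ := Finite.exists_max (q v)
      have hpos := step_joint hP hGG hr s θ χ (J j) (J j') (hJm j) (hJm j') (q v) d (q v i0 + d)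
        (fun i => by linarith [hi0 i]) (G v j) (G v j') (hGm v j) (hGm v j') (hGb v j) (hGb v j')
        (hGr v j) (hGr v j') (pos_iff_ne_zero.2 h0)
      have hdist := step_dist hP hGG hr s θ (∑ c, |θ c|)
        (fun c => Finset.single_le_sum (f := fun c => |θ c|) (fun _ _ => abs_nonneg _)
          (Finset.mem_univ c)) χ ((j : ℝ) * d) ((j' : ℝ) * d) d (q v) d (q v i0 + d) hdpos
        (fun i => by linarith [hi0 i]) ⟨i0, rfl⟩ hpos
      exact Eventually.of_forall fun x _ _ => hdist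
  -- the function
  let S : Finset ℤ := Finset.Icc (-M) M
  let T : Finset ((Fin r → Fin (N + 1)) × ℤ) := Finset.univ ×ˢ S
  have hT : T.Nonempty := by
    refine ⟨(fun _ => 0, 0), ?_⟩
    simp only [T, S, Finset.mem_product, Finset.mem_univ, Finset.mem_Icc, true_and]
    omega
  let yy : (Fin (r + 1) → Fin (r + 1) → ℝ) → Fin r → ℝ := fun m i => m i.castSucc (Fin.last r)
  let mm : (Fin (r + 1) → Fin (r + 1) → ℝ) → Fin r → Fin r → ℝ :=
    fun m i j => m i.castSucc j.castSucc
  have hyy : Measurable yy := measurable_pi_lambda _ fun i =>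
    (measurable_pi_apply _).comp (measurable_pi_apply _)
  have hmm : Measurable mm := measurable_pi_lambda _ fun i => measurable_pi_lambda _ fun j =>
    (measurable_pi_apply _).comp (measurable_pi_apply _)
  let φ : (Fin r → Fin (N + 1)) × ℤ → (Fin (r + 1) → Fin (r + 1) → ℝ) → ℝ := fun p m =>
    if yy m ∈ Qcell (q p.1) d ∧ 0 < G p.1 p.2 (mm m) then (p.2 : ℝ) * d else ((-M : ℤ) : ℝ) * d
  have hφ : ∀ p, Measurable (φ p) := by
    intro p
    refine Measurable.ite ?_ measurable_const measurable_const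
    exact (hyy (measurableSet_Qcell _ _)).inter
      (measurableSet_lt measurable_const ((hGm p.1 p.2).comp hmm))
  refine ⟨fun m => T.sup' hT (fun p => φ p m), ?_, ?_⟩
  · have h1 := Finset.measurable_sup' hT (f := φ) (fun p _ => hφ p)
    have h2 : T.sup' hT φ = fun m => T.sup' hT (fun p => φ p m) := by
      funext m
      exact Finset.sup'_apply hT φ m
    rw [← h2]
    exact h1
  · have f1 : ∀ᵐ x ∂P, ∀ v j, Yv s θ χ r x ∈ J j ×ˢ Qcell (q v) d → 0 < G v j (Rmat (rg r) x) := by
      rw [ae_all_iff]; intro v; rw [ae_all_iff]; exact fact1 v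
    have f2 : ∀ᵐ x ∂P, ∀ v j j', 0 < G v j (Rmat (rg r) x) → 0 < G v j' (Rmat (rg r) x) →
      |(j : ℝ) * d - (j' : ℝ) * d| ≤ d +
        (∑ c, |θ c|) * Real.sqrt (∑ c, χ c ^ 2) * Real.sqrt (2 * d / wt s) := by
      rw [ae_all_iff]; intro v; rw [ae_all_iff]; intro j; rw [ae_all_iff]; exact fact2 v j
    filter_upwards [f1, f2] with x hx1 hx2
    set K : ℝ := Dθ s (rgl r r) (tens θ χ) x with hK
    have hKb : |K| ≤ B' := abs_Dθ_le s (rgl r r) (tens θ χ) x
    -- the cells of x
    let j' : ℤ := ⌊K * N⌋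
    have hj1 : (j' : ℝ) ≤ K * N := Int.floor_le _
    have hj2 : K * N < j' + 1 := Int.lt_floor_add_one _
    have hjd1 : (j' : ℝ) * d ≤ K := by
      have := mul_le_mul_of_nonneg_right hj1 hdpos.le
      calc (j' : ℝ) * d ≤ K * N * d := this
        _ = K := by rw [mul_assoc, mul_comm (N : ℝ) d, hdN, mul_one]
    have hjd2 : K ≤ (j' : ℝ) * d + d := by
      have := mul_le_mul_of_nonneg_right hj2.le hdpos.le
      calc K = K * N * d := by rw [mul_assoc, mul_comm (N : ℝ) d, hdN, mul_one]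
        _ ≤ ((j' : ℝ) + 1) * d := this
        _ = (j' : ℝ) * d + d := by ring
    have hjM : -M ≤ j' ∧ j' ≤ M := by
      have hc : B' * N ≤ ⌈B' * N⌉ := Int.le_ceil _
      have hMr : (M : ℝ) = (⌈B' * N⌉ : ℝ) + 1 := by rw [hM]; push_cast; ring
      obtain ⟨hb1, hb2⟩ := abs_le.1 hKb
      have hk1 : K * N ≤ B' * N := mul_le_mul_of_nonneg_right hb2 hN'.le
      have hk2 : -(B' * N) ≤ K * N := by
        have := mul_le_mul_of_nonneg_right hb1 hN'.le
        linarith
      constructor
      · have : (-(M : ℝ)) ≤ (j' : ℝ) := by linarith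
        exact_mod_cast this
      · have : (j' : ℝ) ≤ (M : ℝ) := by linarith
        exact_mod_cast this
    let v' : Fin r → Fin (N + 1) := fun i => ⟨⌊Rov x i r * N⌋₊, by
      have h1 : Rov x i r * N ≤ N := by
        have := mul_le_mul_of_nonneg_right (Rov_le_one x i r) hN'.le
        linarith
      have h2 : ⌊Rov x i r * N⌋₊ ≤ N := by
        have := Nat.floor_le_floor h1
        simpa using this
      omega⟩
    have hv' : (fun i : Fin r => Rov x i r) ∈ Qcell (q v') d := by
      intro i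
      have h0 : 0 ≤ Rov x i r * N := mul_nonneg (Rov_nonneg x i r) hN'.le
      have h1 : ((⌊Rov x i r * N⌋₊ : ℕ) : ℝ) ≤ Rov x i r * N := Nat.floor_le h0
      have h2 : Rov x i r * N < (⌊Rov x i r * N⌋₊ : ℕ) + 1 := Nat.lt_floor_add_one _
      have e : Rov x i r * N * d = Rov x i r := by
        rw [mul_assoc, mul_comm (N : ℝ) d, hdN, mul_one]
      constructor
      · calc q v' i = ((⌊Rov x i r * N⌋₊ : ℕ) : ℝ) * d := rfl
          _ ≤ Rov x i r * N * d := mul_le_mul_of_nonneg_right h1 hdpos.le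
          _ = Rov x i r := e
      · calc Rov x i r = Rov x i r * N * d := e.symm
          _ < ((⌊Rov x i r * N⌋₊ : ℕ) + 1) * d := mul_lt_mul_of_pos_right h2 hdpos
          _ = q v' i + d := by simp only [q, v']; ring
    have hYeq : Yv s θ χ r x = (K, fun i : Fin r => Rov x i r) := rfl
    have hyy' : yy (Rmat (rg (r + 1)) x) = fun i : Fin r => Rov x i r := by
      funext i
      simp [yy, Rmat, rg]
    have hmm' : mm (Rmat (rg (r + 1)) x) = Rmat (rg r) x := by
      funext i j
      simp [mm, Rmat, rg]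
    have hYmem : ∀ v, (fun i : Fin r => Rov x i r) ∈ Qcell (q v) d →
        Yv s θ χ r x ∈ J j' ×ˢ Qcell (q v) d := by
      intro v hv
      rw [hYeq]
      exact ⟨⟨hjd1, hjd2⟩, hv⟩
    have hGpos : ∀ v, (fun i : Fin r => Rov x i r) ∈ Qcell (q v) d →
        0 < G v j' (Rmat (rg r) x) := fun v hv => hx1 v j' (hYmem v hv)
    -- value at (v', j')
    have hmemT : (v', j') ∈ T := by
      simp only [T, S, Finset.mem_product, Finset.mem_univ, Finset.mem_Icc, true_and]
      exact hjM
    have hval : φ (v', j') (Rmat (rg (r + 1)) x) = (j' : ℝ) * d := by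
      simp only [φ, hyy', hmm']
      rw [if_pos ⟨hv', hGpos v' hv'⟩]
    obtain ⟨p, hp, hpe⟩ := Finset.exists_mem_eq_sup' hT (fun p => φ p (Rmat (rg (r + 1)) x))
    rw [hpe]
    have hge : (j' : ℝ) * d ≤ φ p (Rmat (rg (r + 1)) x) := by
      rw [← hpe, ← hval]
      exact Finset.le_sup' (fun p => φ p (Rmat (rg (r + 1)) x)) hmemT
    have hC0 : 0 ≤ (∑ c, |θ c|) * Real.sqrt (∑ c, χ c ^ 2) * Real.sqrt (2 * d / wt s) := by
      have : 0 ≤ ∑ c, |θ c| := Finset.sum_nonneg fun _ _ => abs_nonneg _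
      positivity
    by_cases hcase : yy (Rmat (rg (r + 1)) x) ∈ Qcell (q p.1) d ∧
        0 < G p.1 p.2 (mm (Rmat (rg (r + 1)) x))
    · have hφp : φ p (Rmat (rg (r + 1)) x) = (p.2 : ℝ) * d := by
        simp only [φ]
        rw [if_pos hcase]
      rw [hφp]
      rw [hyy', hmm'] at hcase
      have h3 := hx2 p.1 p.2 j' hcase.2 (hGpos p.1 hcase.1)
      rw [abs_le] at h3 ⊢
      constructor <;> linarith [h3.1, h3.2]
    · have hφp : φ p (Rmat (rg (r + 1)) x) = ((-M : ℤ) : ℝ) * d := by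
        simp only [φ]
        rw [if_neg hcase]
      rw [hφp] at hge ⊢
      have h4 : ((-M : ℤ) : ℝ) * d ≤ (j' : ℝ) * d :=
        mul_le_mul_of_nonneg_right (by exact_mod_cast hjM.1) hdpos.le
      rw [abs_le]
      constructor <;> linarith

theorem claim_prod {P : Measure Obs} (hP : LimitModel P) (hGG : GG P) {r : ℕ} (hr : 1 ≤ r)
    (hB : RuleB P r) (s : Species) (θ : (Fin r → s.Cfg) → ℝ) (χ : s.Cfg → ℝ) :
    ∃ G : (Fin (r + 1) → Fin (r + 1) → ℝ) → ℝ, Measurable G ∧
      ∀ᵐ x ∂P, Dθ s (rg (r + 1)) (tens θ χ) x = G (Rmat (rg (r + 1)) x) := by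
  have h := fun k : ℕ => one_scale hP hGG hr hB s θ χ (k + 1) (Nat.succ_pos k)
  choose g hg hgx using h
  refine ⟨fun m => (limsup (fun k => ((g k m : ℝ) : EReal)) atTop).toReal, ?_, ?_⟩
  · exact measurable_ereal_toReal.comp
      (Measurable.limsup fun k => measurable_coe_real_ereal.comp (hg k))
  · rw [← ae_all_iff] at hgx
    filter_upwards [hgx] with x hx
    rw [rgl_self] at hx
    have hlim : Tendsto (fun k => g k (Rmat (rg (r + 1)) x)) atTop
        (𝓝 (Dθ s (rg (r + 1)) (tens θ χ) x)) := by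
      rw [tendsto_iff_norm_sub_tendsto_zero]
      have hd : Tendsto (fun k : ℕ => 1 / ((k + 1 : ℕ) : ℝ)) atTop (𝓝 0) := by
        simpa using tendsto_one_div_add_atTop_nhds_zero_nat (𝕜 := ℝ)
      have hu : Tendsto (fun k : ℕ => 2 * (1 / ((k + 1 : ℕ) : ℝ)) +
          (∑ c, |θ c|) * Real.sqrt (∑ c, χ c ^ 2) *
            Real.sqrt (2 * (1 / ((k + 1 : ℕ) : ℝ)) / wt s)) atTop (𝓝 0) := by
        have h1 : Tendsto (fun k : ℕ => 2 * (1 / ((k + 1 : ℕ) : ℝ))) atTop (𝓝 0) := by
          simpa using hd.const_mul 2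
        have h2 : Tendsto (fun k : ℕ => 2 * (1 / ((k + 1 : ℕ) : ℝ)) / wt s) atTop (𝓝 0) := by
          simpa using h1.div_const (wt s)
        have h3 : Tendsto (fun k : ℕ => Real.sqrt (2 * (1 / ((k + 1 : ℕ) : ℝ)) / wt s)) atTop
            (𝓝 0) := by
          have h4 := (Real.continuous_sqrt.tendsto 0).comp h2
          rw [Real.sqrt_zero] at h4
          exact h4
        simpa using h1.add (h3.const_mul ((∑ c, |θ c|) * Real.sqrt (∑ c, χ c ^ 2)))
      refine squeeze_zero (fun k => norm_nonneg _) (fun k => ?_) hu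
      rw [Real.norm_eq_abs, abs_sub_comm]
      exact hx k
    have hlim2 : Tendsto (fun k => ((g k (Rmat (rg (r + 1)) x) : ℝ) : EReal)) atTop
        (𝓝 ((Dθ s (rg (r + 1)) (tens θ χ) x : ℝ) : EReal)) :=
      (continuous_coe_real_ereal.tendsto _).comp hlim
    rw [hlim2.limsup_eq, EReal.toReal_coe]

end Step3

open Step3 in
theorem claim_succ {P : Measure Obs} (hP : LimitModel P) (hGG : GG P) {r : ℕ} (hr : 1 ≤ r)
    (hB : RuleB P r) : ClaimR P (r + 1) := by
  classical
  intro s θ
  have h := fun c : Fin (r + 1) → s.Cfg => claim_prod hP hGG hr hB s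
    (fun a => if a = (fun j => c j.castSucc) then 1 else 0)
    (fun b => if b = c (Fin.last r) then 1 else 0)
  choose G hG hGx using h
  refine ⟨fun m => ∑ c, θ c * G c m, ?_, ?_⟩
  · exact Finset.measurable_sum _ fun c _ => (hG c).const_mul _
  · have hGx' : ∀ᵐ x ∂P, ∀ c, Dθ s (rg (r + 1)) (tens
        (fun a => if a = (fun j => c (Fin.castSucc j)) then 1 else 0)
        (fun b => if b = c (Fin.last r) then 1 else 0)) x = G c (Rmat (rg (r + 1)) x) := by
      rw [ae_all_iff]; exact hGx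
    filter_upwards [hGx'] with x hx
    simp only [← hx]
    have key : ∀ c : Fin (r + 1) → s.Cfg, Dθ s (rg (r + 1)) (tens
        (fun a => if a = (fun j => c (Fin.castSucc j)) then 1 else 0)
        (fun b => if b = c (Fin.last r) then 1 else 0)) x = Dl s (rg (r + 1)) x c := by
      intro c
      rw [Dθ, Finset.sum_eq_single c]
      · simp [tens]
      · intro b _ hbc
        have : ¬ ((fun j : Fin r => b j.castSucc) = (fun j => c (Fin.castSucc j)) ∧
            b (Fin.last r) = c (Fin.last r)) := by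
          rintro ⟨h1, h2⟩
          apply hbc
          funext j
          refine Fin.lastCases h2 (fun i => ?_) j
          exact congrFun h1 i
        simp only [tens]
        by_cases h1 : (fun j : Fin r => b j.castSucc) = (fun j => c (Fin.castSucc j))
        · have h2 : ¬ b (Fin.last r) = c (Fin.last r) := fun h2 => this ⟨h1, h2⟩
          simp [h2]
        · simp [h1]
      · intro h
        exact absurd (Finset.mem_univ _) h
    simp only [key]
    rw [Dθ]
    exact Finset.sum_congr rfl fun c _ => mul_comm _ _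

end Crest.Agent.MP
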