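import Crest.Agent.MP.RRule
import Crest.Agent.MP.RRuleB
import Crest.Agent.MP.RGG
import Crest.Agent.MP.RStep3

/-!
# Module R, main theorem: rigidity of all multi-overlaps
-/

set_option autoImplicit false

namespace Crest.Agent.MP

open MeasureTheory Filter Topology

theorem gg {P : Measure Obs} (hP : LimitModel P) : GG P :=
  gg_of_ruleB hP (ruleB_of_rule hP le_rfl (rule_of_claim hP le_rfl (claim_one hP)))

theorem claim_all {P : Measure Obs} (hP : LimitModel P) (r : ℕ) (hr : 1 ≤ r) : ClaimR P r := by
  induction r, hr using Nat.le_induction with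
  | base => exact claim_one hP
  | succ r hr ih => exact claim_succ hP (gg hP) hr (ruleB_of_rule hP hr (rule_of_claim hP hr ih))

end Crest.Agent.MP
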