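import Crest.Agent.MP.TPred

/-!
# T-FUN-B: bounds (§9)

For probability vectors the terms of `Lfun` are between `0` and `(1-κ)^n / n`, `κ = exp(-C)`, and
`Σ (1-κ)^n/n = -log κ = C`.  For the trial: `genE` is positive and normalised (`lev` increasing from
`0` to `1`).  `siteψ`: every exponent is between `-2 siteC` and `0`.
-/

set_option autoImplicit false

namespace Crest.Agent.MP

open MeasureTheory Filter Topology
open Crest.ProbabilityR.Diluted

/-! ### Weights -/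

theorem abs_le_supNorm {p : ℕ} (θ : Inter p) (c : Fin p → Bool) : |θ c| ≤ supNorm θ :=
  le_ciSup (f := fun c => |θ c|) (Set.finite_range _).bddAbove c

theorem supNorm_nonneg {p : ℕ} (θ : Inter p) : 0 ≤ supNorm θ :=
  (abs_nonneg _).trans (abs_le_supNorm θ (fun _ => true))

theorem siteC_nonneg {p k : ℕ} (h : ℝ) (θs : Fin k → Inter p) : 0 ≤ siteC h θs :=
  add_nonneg (abs_nonneg _) (Finset.sum_nonneg fun _ _ => supNorm_nonneg _)

theorem abs_spinVal (b : Bool) : |spinVal b| = 1 := by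
  unfold spinVal; split_ifs <;> simp

/-- Lemmas on `siteψ`, `edgeψ`. -/
theorem siteψ_bounds {p k : ℕ} (h : ℝ) (θs : Fin k → Inter p) (c : Fin k × Fin (p - 1) → Bool) :
    Real.exp (-(2 * siteC h θs)) ≤ siteψ h θs c ∧ siteψ h θs c ≤ 1 := by
  have key : ∀ ε : Bool, |h * spinVal ε +
    (∑ j : Fin k, θs j (fun ℓ => if hℓ : ℓ.val < p - 1 then c (j, ⟨ℓ.val, hℓ⟩) else ε))| ≤
      siteC h θs := by
    intro ε
    unfold siteC
    refine (abs_add_le _ _).trans (add_le_add ?_ ?_)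
    · rw [abs_mul, abs_spinVal, mul_one]
    · refine (Finset.abs_sum_le_sum_abs _ _).trans (Finset.sum_le_sum fun j _ => ?_)
      exact abs_le_supNorm _ _
  unfold siteψ
  have h1 : ∀ ε : Bool, Real.exp (-(2 * siteC h θs)) ≤ Real.exp (h * spinVal ε +
    (∑ j : Fin k, θs j (fun ℓ => if hℓ : ℓ.val < p - 1 then c (j, ⟨ℓ.val, hℓ⟩) else ε)) -
    siteC h θs) := by
    intro ε
    apply Real.exp_le_exp.mpr
    have := (abs_le.mp (key ε)).1
    linarith
  have h2 : ∀ ε : Bool, Real.exp (h * spinVal ε +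
    (∑ j : Fin k, θs j (fun ℓ => if hℓ : ℓ.val < p - 1 then c (j, ⟨ℓ.val, hℓ⟩) else ε)) -
    siteC h θs) ≤ 1 := by
    intro ε
    apply Real.exp_le_one_iff.mpr
    have := (abs_le.mp (key ε)).2
    linarith
  rw [Fintype.sum_bool]
  constructor
  · linarith [h1 true, h1 false]
  · linarith [h2 true, h2 false]

theorem edgeψ_bounds {p : ℕ} (θ : Inter p) (c : Fin p → Bool) :
    Real.exp (-(2 * supNorm θ)) ≤ edgeψ θ c ∧ edgeψ θ c ≤ 1 := by
  have h := abs_le.mp (abs_le_supNorm θ c)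
  unfold edgeψ
  refine ⟨Real.exp_le_exp.mpr (by linarith [h.1]), Real.exp_le_one_iff.mpr (by linarith [h.2])⟩

/-! ### Probability vectors -/

theorem sum_prod_D {L : Type} [Fintype L] [DecidableEq L] {n : ℕ} (D : (Fin n → Bool) → ℝ)
    (h1 : ∑ c, D c = 1) : ∑ c : L → Fin n → Bool, ∏ ℓ, D (c ℓ) = 1 := by
  rw [← Fintype.piFinset_univ, ← Finset.prod_univ_sum]
  simp [h1]

/-- The integrand of `mom` for the log functional. -/
theorem integrand_bound {L : Type} [Fintype L] [DecidableEq L] {n : ℕ} (D : (Fin n → Bool) → ℝ)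
    (h0 : ∀ c, 0 ≤ D c) (h1 : ∑ c, D c = 1) (ψ : (L → Bool) → ℝ) (κ : ℝ)
    (hψ : ∀ c, κ ≤ ψ c) (hψ1 : ∀ c, ψ c ≤ 1) :
    0 ≤ ∑ c : L → Fin n → Bool, (∏ ℓ, D (c ℓ)) * ∏ l : Fin n, (1 - ψ (fun ℓ => c ℓ l)) ∧
    ∑ c : L → Fin n → Bool, (∏ ℓ, D (c ℓ)) * ∏ l : Fin n, (1 - ψ (fun ℓ => c ℓ l)) ≤
      (1 - κ) ^ n := by
  have hp : ∀ c : L → Fin n → Bool, 0 ≤ ∏ ℓ, D (c ℓ) := fun c =>
    Finset.prod_nonneg fun ℓ _ => h0 _
  have hq0 : ∀ c : L → Fin n → Bool, 0 ≤ ∏ l : Fin n, (1 - ψ (fun ℓ => c ℓ l)) := fun c =>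
    Finset.prod_nonneg fun l _ => sub_nonneg.mpr (hψ1 _)
  have hq1 : ∀ c : L → Fin n → Bool, ∏ l : Fin n, (1 - ψ (fun ℓ => c ℓ l)) ≤ (1 - κ) ^ n := by
    intro c
    calc ∏ l : Fin n, (1 - ψ (fun ℓ => c ℓ l)) ≤ ∏ _l : Fin n, (1 - κ) :=
          Finset.prod_le_prod (fun l _ => sub_nonneg.mpr (hψ1 _)) (fun l _ => by linarith [hψ (fun ℓ => c ℓ l)])
      _ = (1 - κ) ^ n := by simp
  refine ⟨Finset.sum_nonneg fun c _ => mul_nonneg (hp c) (hq0 c), ?_⟩
  calc ∑ c : L → Fin n → Bool, (∏ ℓ, D (c ℓ)) * ∏ l : Fin n, (1 - ψ (fun ℓ => c ℓ l))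
      ≤ ∑ c : L → Fin n → Bool, (∏ ℓ, D (c ℓ)) * (1 - κ) ^ n :=
        Finset.sum_le_sum fun c _ => mul_le_mul_of_nonneg_left (hq1 c) (hp c)
    _ = (1 - κ) ^ n := by rw [← Finset.sum_mul, sum_prod_D D h1, one_mul]

/-! ### Limit model -/

theorem Dn_nonneg' (n : ℕ) (x : Obs) (c : Fin n → Bool) : 0 ≤ Dn n x c := by
  unfold Dn Dplain Dl
  exact (x _).2.1

theorem Dn_sum {P : Measure Obs} (hP : LimitModel P) : ∀ᵐ x ∂P, ∀ n, ∑ c, Dn n x c = 1 := by
  filter_upwards [hP.simplex] with x hx n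
  rw [← hx Species.plain n (rg n)]
  unfold Dn Dplain
  refine Fintype.sum_equiv (Equiv.piCongrRight fun _ => (Equiv.funUnique (Fin 1) Bool).symm) _ _ ?_
  intro c
  congr 1

theorem term_bound_limit {P : Measure Obs} (hP : LimitModel P) (L : Type) [Fintype L]
    [DecidableEq L] (ψ : (L → Bool) → ℝ) (κ : ℝ) (hψ : ∀ c, κ ≤ ψ c)
    (hψ1 : ∀ c, ψ c ≤ 1) (n : ℕ) :
    0 ≤ mom (fun _ g => ∫ x, g x ∂P) Dn n L (fun c => ∏ l : Fin n, (1 - ψ (fun ℓ => c ℓ l))) ∧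
    mom (fun _ g => ∫ x, g x ∂P) Dn n L (fun c => ∏ l : Fin n, (1 - ψ (fun ℓ => c ℓ l))) ≤
      (1 - κ) ^ n := by
  have := hP.prob
  have hb : ∀ᵐ x ∂P, 0 ≤ (∑ c : L → Fin n → Bool, (∏ ℓ, Dn n x (c ℓ)) *
      ∏ l : Fin n, (1 - ψ (fun ℓ => c ℓ l))) ∧
      (∑ c : L → Fin n → Bool, (∏ ℓ, Dn n x (c ℓ)) *
      ∏ l : Fin n, (1 - ψ (fun ℓ => c ℓ l))) ≤ (1 - κ) ^ n := by
    filter_upwards [Dn_sum hP] with x hx
    exact integrand_bound (Dn n x) (Dn_nonneg' n x) (hx n) ψ κ hψ hψ1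
  unfold mom
  constructor
  · exact integral_nonneg_of_ae (hb.mono fun x hx => hx.1)
  · have h1κ : 0 ≤ (1 - κ) ^ n := by
      have := hψ (fun _ => true)
      have := hψ1 (fun _ => true)
      exact pow_nonneg (by linarith) n
    calc ∫ x, (∑ c : L → Fin n → Bool, (∏ ℓ, Dn n x (c ℓ)) *
      ∏ l : Fin n, (1 - ψ (fun ℓ => c ℓ l))) ∂P ≤ ∫ _x, (1 - κ) ^ n ∂P := by
          apply integral_mono_of_nonneg (hb.mono fun x hx => hx.1) (integrable_const _)
            (hb.mono fun x hx => hx.2)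
      _ = (1 - κ) ^ n := by simp

/-! ### Trials -/

theorem lev_mono {r : ℕ} {m : Fin r → ℝ} (hm : AdmissibleExponents m) : Monotone (lev m) := by
  apply monotone_nat_of_le_succ
  intro j
  unfold lev
  by_cases hj : j = 0
  · subst hj
    simp only [if_true, zero_add, one_ne_zero, if_false, Nat.sub_self]
    split_ifs with h
    · exact (hm.2 _).1.le
    · exact zero_le_one
  · rw [if_neg hj, if_neg (Nat.succ_ne_zero j)]
    have e : j + 1 - 1 = j := rfl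
    split_ifs with h1 h2 h2
    · apply hm.1.monotone
      simp
    · exact (hm.2 _).2.le
    · omega
    · exact le_rfl

theorem lev_zero {r : ℕ} (m : Fin r → ℝ) : lev m 0 = 0 := by simp [lev]

theorem lev_top {r : ℕ} (m : Fin r → ℝ) : lev m (r + 1) = 1 := by simp [lev]

theorem genE_mono {x : ℕ → ℝ} {r : ℕ} (hx : Monotone x) (n : ℕ) (f g : (ℕ → ℕ × ℕ) → ℝ)
    (hfg : ∀ a, f a ≤ g a) : genE x r n f ≤ genE x r n g := by
  induction n using Nat.strong_induction_on generalizing f g with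
  | _ n ih =>
    match n with
    | 0 => exact hfg _
    | 1 => exact hfg _
    | n + 2 =>
      simp only [genE]
      apply ih (n + 1) (by omega)
      intro att
      apply div_le_div_of_nonneg_right _ (by positivity)
      apply Finset.sum_le_sum fun a _ => Finset.sum_le_sum fun j _ => ?_
      exact mul_le_mul_of_nonneg_left (hfg _) (sub_nonneg.mpr (hx (Nat.le_succ j)))

theorem genE_const {x : ℕ → ℝ} {r : ℕ} (h0 : x 0 = 0) (h1 : x (r + 1) = 1) (n : ℕ) (k : ℝ) :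
    genE x r n (fun _ => k) = k := by
  induction n using Nat.strong_induction_on with
  | _ n ih =>
    match n with
    | 0 => rfl
    | 1 => rfl
    | n + 2 =>
      simp only [genE]
      have : ∀ att : ℕ → ℕ × ℕ, (∑ _a ∈ Finset.range (n + 1), ∑ j ∈ Finset.range (r + 1),
        (x (j + 1) - x j) * k) / ((n : ℝ) + 1) = k := by
        intro att
        rw [← Finset.sum_mul, Finset.sum_range_sub, h0, h1]
        simp only [sub_zero, one_mul, Finset.sum_const, Finset.card_range, nsmul_eq_mul]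
        push_cast
        field_simp
      simp only [this (fun _ => (0,0))]
      exact ih (n + 1) (by omega)

theorem D_nonneg_aux (t : FinTrial) (n : ℕ) (att : ℕ → ℕ × ℕ) (c : Fin n → Bool) :
    0 ≤ t.D n att c := by
  unfold FinTrial.D
  refine div_nonneg (Finset.sum_nonneg fun U _ => Finset.prod_nonneg fun l _ => ?_) (by positivity)
  unfold tilt
  exact div_nonneg (Real.exp_pos _).le (mul_nonneg (by norm_num) (Real.cosh_pos _).le)

theorem tilt_sum (x : ℝ) : tilt x true + tilt x false = 1 := by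
  unfold tilt spinVal
  have h := Real.cosh_pos x
  rw [Real.cosh_eq] at *
  simp
  field_simp

theorem D_sum_aux (t : FinTrial) (n : ℕ) (att : ℕ → ℕ × ℕ) : ∑ c, t.D n att c = 1 := by
  unfold FinTrial.D
  rw [← Finset.sum_div, Finset.sum_comm]
  have : ∀ U : Fin n → Fin (t.r + 1) → Fin t.K, ∑ c : Fin n → Bool, ∏ l : Fin n,
      tilt (t.X (fun j => U ⟨min (owner att l j) l, by omega⟩ j)) (c l) = 1 := by
    intro U
    rw [← Fintype.piFinset_univ, ← Finset.prod_univ_sum]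
    apply Finset.prod_eq_one
    intro l _
    rw [Fintype.sum_bool, tilt_sum]
  rw [Finset.sum_congr rfl fun U _ => this U]
  have hK : (t.K : ℝ) ≠ 0 := by exact_mod_cast t.hK.ne'
  simp only [Finset.sum_const, Finset.card_univ, Fintype.card_pi, Fintype.card_fin, nsmul_eq_mul,
    mul_one, Finset.prod_const]
  push_cast
  rw [← pow_mul, mul_comm (t.r + 1) n, div_self (pow_ne_zero _ hK)]

theorem term_bound_trial (t : FinTrial) (L : Type) [Fintype L]
    [DecidableEq L] (ψ : (L → Bool) → ℝ) (κ : ℝ) (hψ : ∀ c, κ ≤ ψ c)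
    (hψ1 : ∀ c, ψ c ≤ 1) (n : ℕ) :
    0 ≤ mom (genE (lev t.m) t.r) t.D n L (fun c => ∏ l : Fin n, (1 - ψ (fun ℓ => c ℓ l))) ∧
    mom (genE (lev t.m) t.r) t.D n L (fun c => ∏ l : Fin n, (1 - ψ (fun ℓ => c ℓ l))) ≤
      (1 - κ) ^ n := by
  have hb : ∀ att, _ := fun att => integrand_bound (L := L) (t.D n att) (D_nonneg_aux t n att)
    (D_sum_aux t n att) ψ κ hψ hψ1
  unfold mom
  constructor
  · rw [← genE_const (x := lev t.m) (r := t.r) (lev_zero _) (lev_top _) n 0]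
    exact genE_mono (lev_mono t.adm) n _ _ fun att => (hb att).1
  · rw [← genE_const (x := lev t.m) (r := t.r) (lev_zero _) (lev_top _) n ((1 - κ) ^ n)]
    exact genE_mono (lev_mono t.adm) n _ _ fun att => (hb att).2

/-! ### Bounds of the log functional -/

theorem Lfun_bound_aux {Ω : Type} (E : ℕ → (Ω → ℝ) → ℝ) (D : (n : ℕ) → Ω → (Fin n → Bool) → ℝ)
    (L : Type) [Fintype L] [DecidableEq L] (ψ : (L → Bool) → ℝ) (C : ℝ)
    (hC : 0 ≤ C)
    (h : ∀ n, 0 ≤ mom E D n L (fun c => ∏ l : Fin n, (1 - ψ (fun ℓ => c ℓ l))) ∧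
      mom E D n L (fun c => ∏ l : Fin n, (1 - ψ (fun ℓ => c ℓ l))) ≤ (1 - Real.exp (-C)) ^ n) :
    Summable (fun n : ℕ => (1 / ((n : ℝ) + 1)) *
      mom E D (n + 1) L (fun c => ∏ l : Fin (n + 1), (1 - ψ (fun ℓ => c ℓ l)))) ∧
    -C ≤ Lfun E D L ψ ∧ Lfun E D L ψ ≤ 0 := by
  set κ := Real.exp (-C) with hκ
  have hκ0 : 0 < κ := Real.exp_pos _
  have hκ1 : κ ≤ 1 := Real.exp_le_one_iff.mpr (by linarith)
  have habs : |1 - κ| < 1 := by rw [abs_of_nonneg (by linarith)]; linarith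
  have hs := Real.hasSum_pow_div_log_of_abs_lt_one habs
  have hle : ∀ n : ℕ, (1 / ((n : ℝ) + 1)) *
      mom E D (n + 1) L (fun c => ∏ l : Fin (n + 1), (1 - ψ (fun ℓ => c ℓ l))) ≤
      (1 - κ) ^ (n + 1) / ((n : ℝ) + 1) := by
    intro n
    rw [div_mul_eq_mul_div, one_mul]
    exact div_le_div_of_nonneg_right (h (n + 1)).2 (by positivity)
  have h0 : ∀ n : ℕ, 0 ≤ (1 / ((n : ℝ) + 1)) *
      mom E D (n + 1) L (fun c => ∏ l : Fin (n + 1), (1 - ψ (fun ℓ => c ℓ l))) := fun n =>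
    mul_nonneg (by positivity) (h (n + 1)).1
  have hsum := Summable.of_nonneg_of_le h0 hle hs.summable
  refine ⟨hsum, ?_, ?_⟩
  · have := hsum.tsum_le_tsum hle hs.summable
    rw [hs.tsum_eq, sub_sub_cancel, hκ, Real.log_exp, neg_neg] at this
    unfold Lfun
    linarith
  · have h00 : 0 ≤ ∑' n : ℕ, (1 / ((n : ℝ) + 1)) *
      mom E D (n + 1) L (fun c => ∏ l : Fin (n + 1), (1 - ψ (fun ℓ => c ℓ l))) := tsum_nonneg h0
    unfold Lfun
    linarith

theorem C_nonneg_of {L : Type} (ψ : (L → Bool) → ℝ) (C : ℝ) (hψ : ∀ c, Real.exp (-C) ≤ ψ c)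
    (hψ1 : ∀ c, ψ c ≤ 1) : 0 ≤ C := by
  have := (hψ (fun _ => true)).trans (hψ1 _)
  have := Real.exp_le_one_iff.mp this
  linarith

/-- Bounds of the log functional. -/
theorem Lfun_bound_limit {P : Measure Obs} (hP : LimitModel P) (L : Type) [Fintype L]
    [DecidableEq L] (ψ : (L → Bool) → ℝ) (C : ℝ) (hψ : ∀ c, Real.exp (-C) ≤ ψ c)
    (hψ1 : ∀ c, ψ c ≤ 1) :
    -C ≤ Lfun (fun _ g => ∫ x, g x ∂P) Dn L ψ ∧ Lfun (fun _ g => ∫ x, g x ∂P) Dn L ψ ≤ 0 :=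
  (Lfun_bound_aux _ _ L ψ C (C_nonneg_of ψ C hψ hψ1)
    (fun n => term_bound_limit hP L ψ _ hψ hψ1 n)).2

theorem Lfun_bound_trial (t : FinTrial) (L : Type) [Fintype L]
    [DecidableEq L] (ψ : (L → Bool) → ℝ) (C : ℝ) (hψ : ∀ c, Real.exp (-C) ≤ ψ c)
    (hψ1 : ∀ c, ψ c ≤ 1) :
    -C ≤ Lfun (genE (lev t.m) t.r) t.D L ψ ∧ Lfun (genE (lev t.m) t.r) t.D L ψ ≤ 0 :=
  (Lfun_bound_aux _ _ L ψ C (C_nonneg_of ψ C hψ hψ1)
    (fun n => term_bound_trial t L ψ _ hψ hψ1 n)).2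

end Crest.Agent.MP
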