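import Crest.Agent.MP.TFunA
import Crest.Agent.MP.TFunB

/-!
# T-FUN: continuity of the functional (§9)

`mom_close`: by `integral_gen`, `genE n (Σ_c Π t.D(c_ℓ) f(c)) = ∫ Σ_c Π t.D n (gen x) (c_ℓ) f(c)`, and
`|Σ_c (Π_ℓ D(c_ℓ) - Π_ℓ D'(c_ℓ)) f(c)| ≤ |f|_∞ Σ_ℓ l1 D D'` for probability vectors.
`functional_close`: for `k ≤ k₀` cut the series in `n` at `n₀` (remainder `≤ 2 Σ_{n>n₀} (1-κ)^n/n`,
`κ = exp(-2 siteC)`, uniformly for the finitely many values of `θs, h`); for `k > k₀` use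
`|siteC + Lfun| ≤ siteC + 2 siteC` (`0 ≤ -Lfun ≤ Σ (1-κ)^n/n = 2 siteC`) and `siteC ≤ C(k+1)`.
-/

set_option autoImplicit false

namespace Crest.Agent.MP

open MeasureTheory Filter Topology
open Crest.ProbabilityR.Diluted

theorem Lfun_close {P : Measure Obs} (hP : LimitModel P) {r : ℕ} (q : Fin r → ℝ)
    (hq : AdmissibleExponents (levP P q)) (t : FinTrial) (h : t.r = r)
    (ht : t.m = fun j => levP P q (Fin.cast h j)) (L : Type) [Fintype L] [DecidableEq L]
    (ψ : (L → Bool) → ℝ) (C : ℝ) (hψ : ∀ c, Real.exp (-C) ≤ ψ c) (hψ1 : ∀ c, ψ c ≤ 1)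
    (n₀ : ℕ) (ε' : ℝ) (hc : ∀ n ≤ n₀, ∫ x, l1 (Dn n x) (t.D n (gen q x)) ∂P ≤ ε') :
    |Lfun (genE (lev t.m) t.r) t.D L ψ - Lfun (fun _ g => ∫ x, g x ∂P) Dn L ψ| ≤
      n₀ * (Fintype.card L * ε') +
        ∑' n : ℕ, (1 - Real.exp (-C)) ^ (n + n₀ + 1) / ((((n + n₀ : ℕ) : ℝ)) + 1) := by
  have hC := C_nonneg_of ψ C hψ hψ1
  set κ := Real.exp (-C) with hκ
  have hκ0 : 0 < κ := Real.exp_pos _
  have hκ1 : κ ≤ 1 := Real.exp_le_one_iff.mpr (by linarith)
  have habs : |1 - κ| < 1 := by rw [abs_of_nonneg (by linarith)]; linarith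
  have hs := (Real.hasSum_pow_div_log_of_abs_lt_one habs).summable
  have s1 := (Lfun_bound_aux (genE (lev t.m) t.r) t.D L ψ C hC
    (fun n => term_bound_trial t L ψ _ hψ hψ1 n)).1
  have s2 := (Lfun_bound_aux (fun _ g => ∫ x, g x ∂P) Dn L ψ C hC
    (fun n => term_bound_limit hP L ψ _ hψ hψ1 n)).1
  set a : ℕ → ℝ := fun n => (1 / ((n : ℝ) + 1)) * mom (genE (lev t.m) t.r) t.D (n + 1) L
    (fun c => ∏ l : Fin (n + 1), (1 - ψ (fun ℓ => c ℓ l))) with ha
  set b : ℕ → ℝ := fun n => (1 / ((n : ℝ) + 1)) * mom (fun _ g => ∫ x, g x ∂P) Dn (n + 1) L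
    (fun c => ∏ l : Fin (n + 1), (1 - ψ (fun ℓ => c ℓ l))) with hb
  have hab : ∀ n, |a n - b n| ≤ (1 - κ) ^ (n + 1) / ((n : ℝ) + 1) := by
    intro n
    have h1 := term_bound_trial t L ψ κ hψ hψ1 (n + 1)
    have h2 := term_bound_limit hP L ψ κ hψ hψ1 (n + 1)
    have hn : (0 : ℝ) < (n : ℝ) + 1 := by positivity
    rw [ha, hb]
    simp only
    rw [← mul_sub, abs_mul, abs_of_pos (by positivity : (0 : ℝ) < 1 / ((n : ℝ) + 1)),
      div_mul_eq_mul_div, one_mul]
    apply div_le_div_of_nonneg_right _ hn.le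
    rw [abs_le]
    constructor <;> linarith [h1.1, h1.2, h2.1, h2.2]
  have hab' : ∀ n < n₀, |a n - b n| ≤ Fintype.card L * ε' := by
    intro n hn
    have h3 := mom_close hP q hq t h ht (n + 1) L
      (fun c => ∏ l : Fin (n + 1), (1 - ψ (fun ℓ => c ℓ l))) 1 (by
        intro c
        rw [abs_of_nonneg (Finset.prod_nonneg fun l _ => sub_nonneg.mpr (hψ1 _))]
        apply Finset.prod_le_one (fun l _ => sub_nonneg.mpr (hψ1 _))
        intro l _
        have := (Real.exp_pos (-C)).le.trans (hψ (fun ℓ => c ℓ l))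
        linarith)
    have hn0 : (0 : ℝ) < (n : ℝ) + 1 := by positivity
    have hle1 : 1 / ((n : ℝ) + 1) ≤ 1 := by
      rw [div_le_one hn0]
      have : (0 : ℝ) ≤ n := Nat.cast_nonneg n
      linarith
    rw [ha, hb]
    simp only
    rw [← mul_sub, abs_mul, abs_of_pos (by positivity : (0 : ℝ) < 1 / ((n : ℝ) + 1))]
    have h4 := hc (n + 1) hn
    calc 1 / ((n : ℝ) + 1) * |_| ≤ 1 * |_| := mul_le_mul_of_nonneg_right hle1 (abs_nonneg _)
      _ ≤ 1 * (1 * Fintype.card L * ∫ x, l1 (Dn (n + 1) x) (t.D (n + 1) (gen q x)) ∂P) :=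
          mul_le_mul_of_nonneg_left h3 zero_le_one
      _ ≤ 1 * (1 * Fintype.card L * ε') := by gcongr
      _ = Fintype.card L * ε' := by ring
  have hsab : Summable (fun n => |a n - b n|) :=
    Summable.of_nonneg_of_le (fun n => abs_nonneg _) hab hs
  have e : Lfun (genE (lev t.m) t.r) t.D L ψ - Lfun (fun _ g => ∫ x, g x ∂P) Dn L ψ =
      -(∑' n, (a n - b n)) := by
    rw [s1.tsum_sub s2]
    unfold Lfun
    ring
  rw [e, abs_neg]
  calc |∑' n, (a n - b n)| ≤ ∑' n, |a n - b n| := by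
        have := norm_tsum_le_tsum_norm (f := fun n => a n - b n) hsab
        simpa using this
    _ = ∑ n ∈ Finset.range n₀, |a n - b n| + ∑' n, |a (n + n₀) - b (n + n₀)| :=
        (hsab.sum_add_tsum_nat_add n₀).symm
    _ ≤ n₀ * (Fintype.card L * ε') +
        ∑' n : ℕ, (1 - κ) ^ (n + n₀ + 1) / ((((n + n₀ : ℕ) : ℝ)) + 1) := by
        apply add_le_add
        · calc ∑ n ∈ Finset.range n₀, |a n - b n|
              ≤ ∑ _n ∈ Finset.range n₀, (Fintype.card L * ε') :=
                Finset.sum_le_sum fun n hn => hab' n (Finset.mem_range.mp hn)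
            _ = n₀ * (Fintype.card L * ε') := by simp
        · apply Summable.tsum_le_tsum (fun n => hab (n + n₀))
          · exact (summable_nat_add_iff n₀).mpr hsab
          · exact (summable_nat_add_iff n₀).mpr hs

/-! ### Finite laws and Poisson sums -/

theorem FinLaw.sum_pow {E : Type} (μ : FinLaw E) (k : ℕ) :
    ∑ j : Fin k → μ.ι, ∏ a, μ.w (j a) = 1 := by
  classical
  rw [← Fintype.piFinset_univ, ← Finset.prod_univ_sum]
  simp [μ.w_sum]

theorem FinLaw.abs_E_le {E : Type} (μ : FinLaw E) (f : E → ℝ) (B : ℝ)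
    (h : ∀ i, |f (μ.x i)| ≤ B) : |μ.E f| ≤ B := by
  unfold FinLaw.E
  calc |∑ i, μ.w i * f (μ.x i)| ≤ ∑ i, μ.w i * B := by
        refine (Finset.abs_sum_le_sum_abs _ _).trans (Finset.sum_le_sum fun i _ => ?_)
        rw [abs_mul, abs_of_nonneg (μ.w_nonneg i)]
        exact mul_le_mul_of_nonneg_left (h i) (μ.w_nonneg i)
    _ = B := by rw [← Finset.sum_mul, μ.w_sum, one_mul]

theorem FinLaw.abs_Epow_le {E : Type} (μ : FinLaw E) (k : ℕ) (f : (Fin k → E) → ℝ) (B : ℝ)
    (h : ∀ j : Fin k → μ.ι, |f (fun a => μ.x (j a))| ≤ B) : |μ.Epow k f| ≤ B := by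
  unfold FinLaw.Epow
  have hw : ∀ j : Fin k → μ.ι, 0 ≤ ∏ a, μ.w (j a) := fun j =>
    Finset.prod_nonneg fun a _ => μ.w_nonneg _
  calc |∑ j : Fin k → μ.ι, (∏ a, μ.w (j a)) * f (fun a => μ.x (j a))|
      ≤ ∑ j : Fin k → μ.ι, (∏ a, μ.w (j a)) * B := by
        refine (Finset.abs_sum_le_sum_abs _ _).trans (Finset.sum_le_sum fun j _ => ?_)
        rw [abs_mul, abs_of_nonneg (hw j)]
        exact mul_le_mul_of_nonneg_left (h j) (hw j)
    _ = B := by rw [← Finset.sum_mul, μ.sum_pow, one_mul]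

theorem FinLaw.E_sub {E : Type} (μ : FinLaw E) (f g : E → ℝ) :
    μ.E f - μ.E g = μ.E (fun x => f x - g x) := by
  unfold FinLaw.E
  rw [← Finset.sum_sub_distrib]
  exact Finset.sum_congr rfl fun i _ => by ring

theorem FinLaw.Epow_sub {E : Type} (μ : FinLaw E) (k : ℕ) (f g : (Fin k → E) → ℝ) :
    μ.Epow k f - μ.Epow k g = μ.Epow k (fun x => f x - g x) := by
  unfold FinLaw.Epow
  rw [← Finset.sum_sub_distrib]
  exact Finset.sum_congr rfl fun i _ => by ring

theorem poissonWeight_nonneg {lam : ℝ} (h : 0 ≤ lam) (k : ℕ) : 0 ≤ poissonWeight lam k := by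
  unfold poissonWeight
  positivity

theorem summable_poisson_lin (lam a b : ℝ) :
    Summable (fun k : ℕ => poissonWeight lam k * (a + b * k)) := by
  have h0 : Summable (fun k : ℕ => lam ^ k / (k.factorial : ℝ)) := Real.summable_pow_div_factorial lam
  have h1 : Summable (fun k : ℕ => lam ^ k / (k.factorial : ℝ) * k) := by
    rw [← summable_nat_add_iff 1]
    refine (h0.mul_left lam).congr fun k => ?_
    rw [Nat.factorial_succ]
    have : ((k : ℝ) + 1) ≠ 0 := by positivity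
    have : (k.factorial : ℝ) ≠ 0 := by positivity
    push_cast
    field_simp
    ring
  refine ((h0.mul_left (Real.exp (-lam) * a)).add (h1.mul_left (Real.exp (-lam) * b))).congr
    fun k => ?_
  unfold poissonWeight
  ring

/-- The tail of the logarithmic series. -/
theorem tendsto_logtail (κ : ℝ) (h0 : 0 < κ) (h1 : κ ≤ 1) :
    Tendsto (fun n₀ : ℕ => ∑' n : ℕ, (1 - κ) ^ (n + n₀ + 1) / ((((n + n₀ : ℕ) : ℝ)) + 1)) atTop
      (𝓝 0) := by
  have := tendsto_sum_nat_add (fun n : ℕ => (1 - κ) ^ (n + 1) / ((n : ℝ) + 1))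
  exact this

theorem functional_close (p : ℕ) (α : ℝ) (hα : 0 < α) (μ : FinLaw (Inter p)) (ν : FinLaw ℝ)
    {ε : ℝ} (hε : 0 < ε) :
    ∃ (n₀ : ℕ) (ε' : ℝ), 0 < ε' ∧ ∀ (P : Measure Obs) (_ : LimitModel P) (r : ℕ) (q : Fin r → ℝ)
      (_ : AdmissibleExponents (levP P q)) (t : FinTrial) (h : t.r = r)
      (_ : t.m = fun j => levP P q (Fin.cast h j)),
      (∀ n ≤ n₀, ∫ x, l1 (Dn n x) (t.D n (gen q x)) ∂P ≤ ε') →
        t.A p α μ ν ≤ AP p α μ ν P + ε := by
  classical
  set H : ℝ := ∑ i, |ν.x i| with hH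
  set Θ : ℝ := ∑ i, supNorm (μ.x i) with hΘ
  have hH0 : 0 ≤ H := Finset.sum_nonneg fun _ _ => abs_nonneg _
  have hΘ0 : 0 ≤ Θ := Finset.sum_nonneg fun _ _ => supNorm_nonneg _
  have hHi : ∀ i, |ν.x i| ≤ H := fun i =>
    Finset.single_le_sum (f := fun i => |ν.x i|) (fun _ _ => abs_nonneg _) (Finset.mem_univ i)
  have hΘi : ∀ i, supNorm (μ.x i) ≤ Θ := fun i =>
    Finset.single_le_sum (f := fun i => supNorm (μ.x i)) (fun _ _ => supNorm_nonneg _)
      (Finset.mem_univ i)
  have hsite : ∀ (k : ℕ) (j : Fin k → μ.ι) (i : ν.ι),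
      siteC (ν.x i) (fun a => μ.x (j a)) ≤ H + Θ * k := by
    intro k j i
    unfold siteC
    refine add_le_add (hHi i) ?_
    calc ∑ a : Fin k, supNorm (μ.x (j a)) ≤ ∑ _a : Fin k, Θ := Finset.sum_le_sum fun a _ => hΘi _
      _ = Θ * k := by simp [mul_comm]
  set lam := α * p with hlam
  have hlam0 : 0 ≤ lam := by positivity
  -- tail in k
  set g : ℕ → ℝ := fun k => poissonWeight lam k * (2 * H + 2 * Θ * k) with hg
  have hgs : Summable g := summable_poisson_lin lam (2 * H) (2 * Θ)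
  have hg0 : ∀ k, 0 ≤ g k := fun k => mul_nonneg (poissonWeight_nonneg hlam0 k) (by positivity)
  obtain ⟨k₀, hk₀⟩ : ∃ k₀ : ℕ, ∑' k, g (k + k₀) ≤ ε / 4 := by
    have := tendsto_sum_nat_add g
    have := (this.eventually (gt_mem_nhds (by positivity : (0 : ℝ) < ε / 4))).exists
    obtain ⟨k₀, h⟩ := this
    exact ⟨k₀, h.le⟩
  -- constants
  set Cm : ℝ := 2 * (H + Θ * k₀ + Θ) with hCm
  have hCm0 : 0 ≤ Cm := by positivity
  set w : ℝ := ∑ k ∈ Finset.range k₀, poissonWeight lam k + α * (p + 1) + 1 with hw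
  have hwp : 0 ≤ ∑ k ∈ Finset.range k₀, poissonWeight lam k :=
    Finset.sum_nonneg fun k _ => poissonWeight_nonneg hlam0 k
  have hw0 : 0 < w := by positivity
  have hκ0 : 0 < Real.exp (-Cm) := Real.exp_pos _
  have hκ1 : Real.exp (-Cm) ≤ 1 := Real.exp_le_one_iff.mpr (by linarith)
  obtain ⟨n₀, hn₀⟩ : ∃ n₀ : ℕ, ∑' n : ℕ, (1 - Real.exp (-Cm)) ^ (n + n₀ + 1) /
      ((((n + n₀ : ℕ) : ℝ)) + 1) ≤ ε / (4 * w) := by
    have := ((tendsto_logtail _ hκ0 hκ1).eventually
      (gt_mem_nhds (by positivity : (0 : ℝ) < ε / (4 * w)))).exists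
    obtain ⟨n₀, h⟩ := this
    exact ⟨n₀, h.le⟩
  set Q : ℝ := (n₀ : ℝ) * ((k₀ : ℝ) * p + p + 1) + 1 with hQ
  have hQ0 : 0 < Q := by positivity
  refine ⟨n₀, ε / (4 * w * Q), by positivity, ?_⟩
  intro P hP r q hq t h ht hc
  set ε' := ε / (4 * w * Q) with hε'
  have hε'0 : 0 < ε' := by positivity
  -- uniform bound for small label sets
  set δ : ℝ := ε / (2 * w) with hδ
  have hδ0 : 0 < δ := by positivity
  have small : ∀ (L : Type) [Fintype L] [DecidableEq L] (ψ : (L → Bool) → ℝ)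
      (_ : ∀ c, Real.exp (-Cm) ≤ ψ c) (_ : ∀ c, ψ c ≤ 1) (_ : (Fintype.card L : ℝ) ≤ k₀ * p + p),
      |Lfun (genE (lev t.m) t.r) t.D L ψ - Lfun (fun _ g => ∫ x, g x ∂P) Dn L ψ| ≤ δ := by
    intro L _ _ ψ h1 h2 h3
    refine (Lfun_close hP q hq t h ht L ψ Cm h1 h2 n₀ ε' hc).trans ?_
    have e1 : (n₀ : ℝ) * (Fintype.card L * ε') ≤ ε / (4 * w) := by
      calc (n₀ : ℝ) * (Fintype.card L * ε') ≤ n₀ * ((k₀ * p + p) * ε') := by gcongr
        _ ≤ Q * ε' := by
            rw [← mul_assoc]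
            apply mul_le_mul_of_nonneg_right _ hε'0.le
            rw [hQ]
            have : (0 : ℝ) ≤ n₀ := Nat.cast_nonneg _
            nlinarith
        _ = ε / (4 * w) := by
            rw [hε']
            field_simp
    calc _ ≤ ε / (4 * w) + ε / (4 * w) := add_le_add e1 hn₀
      _ = δ := by rw [hδ]; field_simp; ring
  -- the edge term
  have edge : |μ.E (fun θ => supNorm θ + Lfun (genE (lev t.m) t.r) t.D (Fin p) (edgeψ θ)) -
      μ.E (fun θ => supNorm θ + Lfun (fun _ g => ∫ x, g x ∂P) Dn (Fin p) (edgeψ θ))| ≤ δ := by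
    rw [FinLaw.E_sub]
    apply FinLaw.abs_E_le
    intro i
    rw [add_sub_add_left_eq_sub]
    apply small
    · intro c
      refine (Real.exp_le_exp.mpr ?_).trans (edgeψ_bounds (μ.x i) c).1
      have := hΘi i
      have h5 : 0 ≤ Θ * k₀ := by positivity
      rw [hCm]
      linarith
    · exact fun c => (edgeψ_bounds (μ.x i) c).2
    · rw [Fintype.card_fin]
      have : (0 : ℝ) ≤ k₀ * p := by positivity
      linarith
  -- the site terms
  set Ft : ℕ → ℝ := fun k => μ.Epow k (fun θs => ν.E (fun h =>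
        siteC h θs + Lfun (genE (lev t.m) t.r) t.D (Fin k × Fin (p - 1)) (siteψ h θs))) with hFt
  set FP : ℕ → ℝ := fun k => μ.Epow k (fun θs => ν.E (fun h =>
        siteC h θs + Lfun (fun _ g => ∫ x, g x ∂P) Dn (Fin k × Fin (p - 1)) (siteψ h θs))) with hFP
  have hFtb : ∀ k, |Ft k| ≤ H + Θ * k := by
    intro k
    apply FinLaw.abs_Epow_le
    intro j
    apply FinLaw.abs_E_le
    intro i
    have hb := Lfun_bound_trial t (Fin k × Fin (p - 1)) (siteψ (ν.x i) (fun a => μ.x (j a)))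
      (2 * siteC (ν.x i) (fun a => μ.x (j a))) (fun c => (siteψ_bounds _ _ c).1)
      (fun c => (siteψ_bounds _ _ c).2)
    have := hsite k j i
    rw [abs_le]
    constructor <;> linarith [hb.1, hb.2]
  have hFPb : ∀ k, |FP k| ≤ H + Θ * k := by
    intro k
    apply FinLaw.abs_Epow_le
    intro j
    apply FinLaw.abs_E_le
    intro i
    have hb := Lfun_bound_limit hP (Fin k × Fin (p - 1)) (siteψ (ν.x i) (fun a => μ.x (j a)))
      (2 * siteC (ν.x i) (fun a => μ.x (j a))) (fun c => (siteψ_bounds _ _ c).1)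
      (fun c => (siteψ_bounds _ _ c).2)
    have := hsite k j i
    rw [abs_le]
    constructor <;> linarith [hb.1, hb.2]
  have hlin : Summable (fun k : ℕ => poissonWeight lam k * (H + Θ * k)) :=
    summable_poisson_lin lam H Θ
  have sFt : Summable (fun k => poissonWeight lam k * Ft k) := by
    refine Summable.of_norm_bounded hlin fun k => ?_
    rw [Real.norm_eq_abs, abs_mul, abs_of_nonneg (poissonWeight_nonneg hlam0 k)]
    exact mul_le_mul_of_nonneg_left (hFtb k) (poissonWeight_nonneg hlam0 k)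
  have sFP : Summable (fun k => poissonWeight lam k * FP k) := by
    refine Summable.of_norm_bounded hlin fun k => ?_
    rw [Real.norm_eq_abs, abs_mul, abs_of_nonneg (poissonWeight_nonneg hlam0 k)]
    exact mul_le_mul_of_nonneg_left (hFPb k) (poissonWeight_nonneg hlam0 k)
  have hdiff : ∀ k, |poissonWeight lam k * Ft k - poissonWeight lam k * FP k| ≤ g k := by
    intro k
    rw [← mul_sub, abs_mul, abs_of_nonneg (poissonWeight_nonneg hlam0 k), hg]
    apply mul_le_mul_of_nonneg_left _ (poissonWeight_nonneg hlam0 k)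
    have h1 := abs_le.mp (hFtb k)
    have h2 := abs_le.mp (hFPb k)
    rw [abs_le]
    constructor <;> linarith [h1.1, h1.2, h2.1, h2.2]
  have hdiff' : ∀ k < k₀, |poissonWeight lam k * Ft k - poissonWeight lam k * FP k| ≤
      poissonWeight lam k * δ := by
    intro k hk
    rw [← mul_sub, abs_mul, abs_of_nonneg (poissonWeight_nonneg hlam0 k)]
    apply mul_le_mul_of_nonneg_left _ (poissonWeight_nonneg hlam0 k)
    rw [hFt, hFP]
    simp only
    rw [FinLaw.Epow_sub]
    apply FinLaw.abs_Epow_le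
    intro j
    rw [FinLaw.E_sub]
    apply FinLaw.abs_E_le
    intro i
    rw [add_sub_add_left_eq_sub]
    apply small
    · intro c
      refine (Real.exp_le_exp.mpr ?_).trans (siteψ_bounds _ _ c).1
      have h6 := hsite k j i
      have h7 : Θ * (k : ℝ) ≤ Θ * k₀ := by gcongr
      rw [hCm]
      linarith
    · exact fun c => (siteψ_bounds _ _ c).2
    · rw [Fintype.card_prod, Fintype.card_fin, Fintype.card_fin]
      push_cast
      have h8 : ((p - 1 : ℕ) : ℝ) ≤ p := by exact_mod_cast Nat.sub_le p 1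
      have h9 : (k : ℝ) ≤ k₀ := by exact_mod_cast hk.le
      have h10 : (k : ℝ) * ((p - 1 : ℕ) : ℝ) ≤ k₀ * p := by gcongr
      have : (0 : ℝ) ≤ p := Nat.cast_nonneg p
      linarith
  have hsd : Summable (fun k => |poissonWeight lam k * Ft k - poissonWeight lam k * FP k|) :=
    Summable.of_nonneg_of_le (fun k => abs_nonneg _) hdiff hgs
  have site : |(∑' k, poissonWeight lam k * Ft k) - ∑' k, poissonWeight lam k * FP k| ≤
      (∑ k ∈ Finset.range k₀, poissonWeight lam k) * δ + ε / 4 := by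
    rw [← sFt.tsum_sub sFP]
    calc |∑' k, (poissonWeight lam k * Ft k - poissonWeight lam k * FP k)|
        ≤ ∑' k, |poissonWeight lam k * Ft k - poissonWeight lam k * FP k| := by
          have := norm_tsum_le_tsum_norm
            (f := fun k => poissonWeight lam k * Ft k - poissonWeight lam k * FP k) hsd
          simpa using this
      _ = ∑ k ∈ Finset.range k₀, |poissonWeight lam k * Ft k - poissonWeight lam k * FP k| +
          ∑' k, |poissonWeight lam (k + k₀) * Ft (k + k₀) -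
            poissonWeight lam (k + k₀) * FP (k + k₀)| := (hsd.sum_add_tsum_nat_add k₀).symm
      _ ≤ ∑ k ∈ Finset.range k₀, poissonWeight lam k * δ + ∑' k, g (k + k₀) := by
          apply add_le_add
          · exact Finset.sum_le_sum fun k hk => hdiff' k (Finset.mem_range.mp hk)
          · apply Summable.tsum_le_tsum (fun k => hdiff (k + k₀))
            · exact (summable_nat_add_iff k₀).mpr hsd
            · exact (summable_nat_add_iff k₀).mpr hgs
      _ ≤ (∑ k ∈ Finset.range k₀, poissonWeight lam k) * δ + ε / 4 := by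
          rw [← Finset.sum_mul]
          exact add_le_add le_rfl hk₀
  -- conclusion
  have hA : t.A p α μ ν = Real.log 2 + (∑' k, poissonWeight lam k * Ft k) -
      α * (p - 1 : ℝ) * μ.E (fun θ => supNorm θ + Lfun (genE (lev t.m) t.r) t.D (Fin p) (edgeψ θ)) :=
    rfl
  have hAP : AP p α μ ν P = Real.log 2 + (∑' k, poissonWeight lam k * FP k) -
      α * (p - 1 : ℝ) * μ.E (fun θ => supNorm θ +
        Lfun (fun _ g => ∫ x, g x ∂P) Dn (Fin p) (edgeψ θ)) := rfl
  rw [hA, hAP]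
  have h1 := (abs_le.mp site).2
  have h2 : |α * (p - 1 : ℝ) * μ.E (fun θ => supNorm θ +
      Lfun (genE (lev t.m) t.r) t.D (Fin p) (edgeψ θ)) -
      α * (p - 1 : ℝ) * μ.E (fun θ => supNorm θ +
        Lfun (fun _ g => ∫ x, g x ∂P) Dn (Fin p) (edgeψ θ))| ≤ α * (p + 1) * δ := by
    rw [← mul_sub, abs_mul]
    apply mul_le_mul _ edge (abs_nonneg _) (by positivity)
    rw [abs_mul, abs_of_pos hα]
    apply mul_le_mul_of_nonneg_left _ hα.le
    rw [abs_le]
    have : (0 : ℝ) ≤ p := Nat.cast_nonneg p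
    constructor <;> linarith
  have h3 := (abs_le.mp h2).1
  have h4 : (∑ k ∈ Finset.range k₀, poissonWeight lam k) * δ + α * (p + 1) * δ ≤ ε / 2 := by
    rw [← add_mul]
    calc (∑ k ∈ Finset.range k₀, poissonWeight lam k + α * (p + 1)) * δ ≤ w * δ := by
          apply mul_le_mul_of_nonneg_right _ hδ0.le
          rw [hw]; linarith
      _ = ε / 2 := by rw [hδ]; field_simp
  linarith

end Crest.Agent.MP
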