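import Crest.Agent.MP.TClose
import Crest.Agent.MP.TFun

/-!
# Module T, main theorem
-/

set_option autoImplicit false

namespace Crest.Agent.MP

open MeasureTheory Filter Topology
open Crest.ProbabilityR.Diluted

theorem exists_trial {P : Measure Obs} (hP : LimitModel P) (p : ℕ) (α : ℝ) (hα : 0 < α)
    (μ : FinLaw (Inter p)) (ν : FinLaw ℝ) {ε : ℝ} (hε : 0 < ε) :
    ∃ t : FinTrial, t.A p α μ ν ≤ AP p α μ ν P + ε := by
  obtain ⟨n₀, ε', hε', H⟩ := functional_close p α hα μ ν hε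
  obtain ⟨r, q, t, h, hq, ht, hc⟩ := exists_trial_close hP n₀ hε'
  exact ⟨t, H P hP r q hq t h ht hc⟩

end Crest.Agent.MP
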