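import Crest.Agent.MP.UMain
import Crest.Agent.MP.FMain
import Crest.Agent.MP.RMain
import Crest.Agent.MP.TMain
import Crest.Agent.MP.ALip
import Crest.Agent.MP.AApprox

/-!
# Assembly of S0192 (rows 141)
-/

set_option autoImplicit false

namespace Crest.Agent.MP

open MeasureTheory Filter Topology
open Crest.ProbabilityR.Diluted

theorem supNorm_eq_norm' {p : ℕ} (θ : Inter p) : supNorm θ = ‖θ‖ := by
  unfold supNorm
  apply le_antisymm
  · refine ciSup_le (fun s => ?_)
    rw [← Real.norm_eq_abs]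
    exact norm_le_pi_norm θ s
  · have hb : BddAbove (Set.range fun s : Fin p → Bool => |θ s|) := Set.finite_range _ |>.bddAbove
    have h0 : 0 ≤ ⨆ s : Fin p → Bool, |θ s| :=
      le_ciSup_of_le hb (fun _ => true) (abs_nonneg _)
    rw [pi_norm_le_iff_of_nonneg h0]
    intro s
    rw [Real.norm_eq_abs]
    exact le_ciSup hb s

theorem supNorm_nonneg' {p : ℕ} (θ : Inter p) : 0 ≤ supNorm θ := by
  rw [supNorm_eq_norm']
  exact norm_nonneg _

theorem measurable_supNorm' {p : ℕ} : Measurable (fun θ : Inter p => supNorm θ) := by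
  have : (fun θ : Inter p => supNorm θ) = fun θ => ‖θ‖ := by
    funext θ
    exact supNorm_eq_norm' θ
  rw [this]
  exact measurable_norm

/-- The reduction to finite factorised laws (§11): the law `(μ, ν)` is replaced by
`(φ.toLaw, ν')` with an additive constant. -/
theorem reduction (p : ℕ) (hp : 2 ≤ p) (α : ℝ) (hα : 0 < α) (μ : Measure (Inter p))
    [IsProbabilityMeasure μ] (ν : Measure ℝ) [IsProbabilityMeasure ν]
    (hμ : Integrable (fun θ => supNorm θ) μ) (hν : Integrable (fun x : ℝ => x) ν)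
    (hfac : HasFactorization p μ) {ε : ℝ} (hε : 0 < ε) :
    ∃ (φ : FactLaw p) (ν' : FinLaw ℝ) (C : ℝ),
      (∀ N : ℕ, 1 ≤ N → |pressure p α μ ν N -
        (pressure p α φ.toLaw.toMeasure ν'.toMeasure N + C)| ≤ ε) ∧
      ∀ (r : ℕ) (m : Fin r → ℝ) (X : (Fin (r + 1) → unitInterval) → ℝ),
        AdmissibleExponents m → Measurable X →
        |trialFunctional p α μ ν r m X -
          (trialFunctional p α φ.toLaw.toMeasure ν'.toMeasure r m X + C)| ≤ ε := by
  set ε₁ : ℝ := ε / (4 * (p : ℝ) * α) with hε₁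
  have hp0 : (0 : ℝ) < p := by
    have : 0 < p := by omega
    exact_mod_cast this
  have hp1 : (1 : ℝ) ≤ p := by
    have : 1 ≤ p := by omega
    exact_mod_cast this
  have hε₁pos : 0 < ε₁ := by positivity
  obtain ⟨Ω, mΩ, P, hP, θ, θ', c, φ, hθ, hθ', hc, hmap, hmap', iθ', ic, hclose⟩ :=
    approx_fact p hp μ hμ hfac hε₁pos
  obtain ⟨T, ν', hT, hνT, iT, hTclose⟩ := approx_field ν hν (half_pos hε)
  have hid : ν.map (fun x : ℝ => x) = ν := Measure.map_id
  have iθ : Integrable (fun ω => supNorm (θ ω)) P := by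
    have h1 : Integrable (fun θ : Inter p => supNorm θ) (P.map θ) := by rw [hmap]; exact hμ
    exact (integrable_map_measure h1.aestronglyMeasurable hθ.aemeasurable).mp h1
  have hθc : Measurable (fun ω => (fun s => c ω + θ' ω s : Inter p)) := by
    refine measurable_pi_lambda _ (fun s => ?_)
    exact hc.add ((measurable_pi_apply s).comp hθ')
  have iθc : Integrable (fun ω => supNorm (fun s => c ω + θ' ω s : Inter p)) P := by
    refine (ic.abs.add iθ').mono (measurable_supNorm'.comp hθc).aestronglyMeasurable ?_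
    refine Filter.Eventually.of_forall (fun ω => ?_)
    rw [Real.norm_eq_abs, Real.norm_eq_abs, abs_of_nonneg (supNorm_nonneg' _)]
    refine le_trans ?_ (le_abs_self _)
    rw [supNorm_eq_norm']
    simp only [Pi.add_apply]
    rw [supNorm_eq_norm', pi_norm_le_iff_of_nonneg (add_nonneg (abs_nonneg _) (norm_nonneg _))]
    intro s
    refine (norm_add_le _ _).trans ?_
    rw [Real.norm_eq_abs]
    exact add_le_add le_rfl (norm_le_pi_norm (θ' ω) s)
  have hαε : α * ε₁ ≤ ε / 2 := by
    have h1 : 2 * p * α * ε₁ = ε / 2 := by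
      rw [hε₁]
      field_simp
      ring
    have h2 : α * ε₁ ≤ 2 * p * α * ε₁ := by
      have h3 : 0 ≤ α * ε₁ := by positivity
      nlinarith
    linarith
  have h2pα : 2 * p * α * ε₁ = ε / 2 := by
    rw [hε₁]
    field_simp
    ring
  refine ⟨φ, ν', α * ∫ ω, c ω ∂P, ?_, ?_⟩
  · intro N hN
    have h1 := pressure_lip P ν p α hα θ (fun ω => (fun s => c ω + θ' ω s : Inter p))
      (fun x => x) T hθ hθc measurable_id hT iθ iθc hν iT N hN
    rw [hmap, hid, hνT] at h1
    have h2 := pressure_shift P ν p α hα θ' c T hθ' hc hT iθ' ic iT N hN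
    rw [hνT, hmap'] at h2
    rw [h2] at h1
    refine h1.trans ?_
    have h3 : α * ∫ ω, supNorm (θ ω - fun s => c ω + θ' ω s) ∂P ≤ α * ε₁ :=
      mul_le_mul_of_nonneg_left hclose hα.le
    have h4 : ∫ x, |x - T x| ∂ν ≤ ε / 2 := hTclose
    linarith
  · intro r m X hm hX
    have h1 := trial_lip P ν p (by omega) α hα θ (fun ω => (fun s => c ω + θ' ω s : Inter p))
      (fun x => x) T hθ hθc measurable_id hT iθ iθc hν iT r m hm X hX
    rw [hmap, hid, hνT] at h1
    have h2 := trial_shift P ν p (by omega) α hα θ' c T hθ' hc hT iθ' ic iT r m hm X hX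
    rw [hνT, hmap'] at h2
    rw [h2] at h1
    refine h1.trans ?_
    have h3 : 2 * p * α * ∫ ω, supNorm (θ ω - fun s => c ω + θ' ω s) ∂P ≤ 2 * p * α * ε₁ :=
      mul_le_mul_of_nonneg_left hclose (by positivity)
    have h4 : ∫ x, |x - T x| ∂ν ≤ ε / 2 := hTclose
    linarith

/-- Lower bound for general factorised laws: `approx_fact`, `approx_field`, `pressure_lip`,
`trial_lip`, `pressure_shift`, `trial_shift` reduce to `φ.toLaw`; there `exists_limitModel`
(`FactLaw.sym`), `exists_trial`, `trial_value`. -/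
theorem lower_general (p : ℕ) (hp : 2 ≤ p) (α : ℝ) (hα : 0 < α) (μ : Measure (Inter p))
    [IsProbabilityMeasure μ] (ν : Measure ℝ) [IsProbabilityMeasure ν]
    (hμ : Integrable (fun θ => supNorm θ) μ) (hν : Integrable (fun x : ℝ => x) ν)
    (hfac : HasFactorization p μ) {ε : ℝ} (hε : 0 < ε) :
    ∃ (r : ℕ) (m : Fin r → ℝ) (X : (Fin (r + 1) → unitInterval) → ℝ),
      AdmissibleExponents m ∧ Measurable X ∧
      ∀ᶠ N : ℕ in atTop, trialFunctional p α μ ν r m X - ε ≤ pressure p α μ ν N := by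
  have hε4 : 0 < ε / 4 := by positivity
  obtain ⟨φ, ν', C, hpr, htr⟩ := reduction p hp α hα μ ν hμ hν hfac hε4
  obtain ⟨P, hP, hlow⟩ := exists_limitModel p hp α hα φ.toLaw ν' φ.sym
  obtain ⟨t, ht⟩ := exists_trial hP p α hα φ.toLaw ν' hε4
  refine ⟨t.r, t.m, t.Xu, t.adm, cell_measurable t, ?_⟩
  filter_upwards [hlow (ε / 4) hε4, eventually_ge_atTop 1] with N hN hN1
  have h1 := abs_le.mp (hpr N hN1)
  have h2 := abs_le.mp (htr t.r t.m t.Xu t.adm (cell_measurable t))
  rw [trial_value p hp α hα φ.toLaw ν' t] at h2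
  linarith [h1.1, h1.2, h2.1, h2.2]

/-- Upper bound for general factorised laws: the same reductions, `approx_trial`, `upper_bound`. -/
theorem upper_general (p : ℕ) (hpe : Even p) (hp : 2 ≤ p) (α : ℝ) (hα : 0 < α)
    (μ : Measure (Inter p))
    [IsProbabilityMeasure μ] (ν : Measure ℝ) [IsProbabilityMeasure ν]
    (hμ : Integrable (fun θ => supNorm θ) μ) (hν : Integrable (fun x : ℝ => x) ν)
    (hfac : HasFactorization p μ) (r : ℕ) (m : Fin r → ℝ)
    (X : (Fin (r + 1) → unitInterval) → ℝ) (hm : AdmissibleExponents m) (hX : Measurable X)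
    (N : ℕ) (hN : 1 ≤ N) : pressure p α μ ν N ≤ trialFunctional p α μ ν r m X := by
  refine le_of_forall_pos_le_add (fun ε hε => ?_)
  have hε4 : 0 < ε / 4 := by positivity
  obtain ⟨φ, ν', C, hpr, htr⟩ := reduction p hp α hα μ ν hμ hν hfac hε4
  obtain ⟨t, ht⟩ := approx_trial p hp α hα φ.toLaw ν' r m hm X hX hε4
  have h1 := abs_le.mp (hpr N hN)
  have h2 := abs_le.mp (htr r m X hm hX)
  have h3 := upper_bound p hp α hα φ (Or.inl hpe) ν' t N hN
  linarith [h1.1, h1.2, h2.1, h2.2]

/-- The pressures are bounded below. -/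
theorem main (p : ℕ) (hp : Even p)
    (hp2 : 2 ≤ p) (α : ℝ) (hα : 0 < α) (μ : Measure (Inter p))
    [IsProbabilityMeasure μ] (ν : Measure ℝ)
    [IsProbabilityMeasure ν]
    (hμ : Integrable (fun θ => supNorm θ) μ)
    (hν : Integrable (fun x : ℝ => x) ν) (hfac : HasFactorization p μ) :
    ∃ F : ℝ, Filter.Tendsto (pressure p α μ ν) Filter.atTop (nhds F) ∧
      IsGLB {B : ℝ | ∃ (r : ℕ) (m : Fin r → ℝ) (X : (Fin (r + 1) → unitInterval) → ℝ),
        AdmissibleExponents m ∧ Measurable X ∧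
        B = trialFunctional p α μ ν r m X} F := by
  set S := {B : ℝ | ∃ (r : ℕ) (m : Fin r → ℝ) (X : (Fin (r + 1) → unitInterval) → ℝ),
        AdmissibleExponents m ∧ Measurable X ∧
        B = trialFunctional p α μ ν r m X} with hS
  have hne : S.Nonempty := by
    obtain ⟨r, m, X, hm, hX, -⟩ := lower_general p hp2 α hα μ ν hμ hν hfac one_pos
    exact ⟨_, r, m, X, hm, hX, rfl⟩
  have hbdd : BddBelow S := by
    refine ⟨pressure p α μ ν 1, ?_⟩
    rintro B ⟨r, m, X, hm, hX, rfl⟩
    exact upper_general p hp hp2 α hα μ ν hμ hν hfac r m X hm hX 1 le_rfl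
  refine ⟨sInf S, ?_, isGLB_csInf hne hbdd⟩
  have hup : ∀ N : ℕ, 1 ≤ N → pressure p α μ ν N ≤ sInf S := by
    intro N hN
    refine le_csInf hne ?_
    rintro B ⟨r, m, X, hm, hX, rfl⟩
    exact upper_general p hp hp2 α hα μ ν hμ hν hfac r m X hm hX N hN
  rw [Metric.tendsto_atTop]
  intro ε hε
  obtain ⟨r, m, X, hm, hX, hN⟩ := lower_general p hp2 α hα μ ν hμ hν hfac (half_pos hε)
  obtain ⟨N₀, hN₀⟩ := eventually_atTop.mp hN
  refine ⟨max N₀ 1, fun N hN => ?_⟩
  have h1 := hup N (le_trans (le_max_right _ _) hN)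
  have h2 := hN₀ N (le_trans (le_max_left _ _) hN)
  have h3 : sInf S ≤ trialFunctional p α μ ν r m X := csInf_le hbdd ⟨r, m, X, hm, hX, rfl⟩
  rw [Real.dist_eq, abs_lt]
  constructor <;> linarith

end Crest.Agent.MP
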