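import Crest.Agent.MP.RDefs

/-!
# R-ALG-G: the σ-algebras `Gσ m` and the replica swaps

`Gσ_dep`: the sets `A` with `x ∈ A ↔ y ∈ A` form a σ-algebra containing the generators.
`Gσ_Rov`: `Rov` is a countable sum (limit of finite sums) of measurable functions.
-/

set_option autoImplicit false

namespace Crest.Agent.MP

open MeasureTheory Filter Topology

theorem Gσ_le (m : ℕ) : Gσ m ≤ (inferInstance : MeasurableSpace Obs) :=
  iSup_le fun i => (measurable_pi_apply i.1).comap_le

theorem Gσ_mono {m m' : ℕ} (h : m ≤ m') : Gσ m ≤ Gσ m' :=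
  iSup_le fun i => le_iSup
    (fun i : {i : OIdx // ∀ j, i.2.2.1 j < m'} =>
      MeasurableSpace.comap (fun x : Obs => x i.1) inferInstance)
    ⟨i.1, fun j => (i.2 j).trans_le h⟩

private theorem Gσ_coord {m : ℕ} (i : OIdx) (hi : ∀ j, i.2.2.1 j < m) :
    Measurable[Gσ m] (fun x : Obs => x i) := by
  apply Measurable.mono (ma := MeasurableSpace.comap (fun x : Obs => x i) inferInstance)
    (mb := inferInstance) (comap_measurable _) _ le_rfl
  exact le_iSup
    (fun i : {i : OIdx // ∀ j, i.2.2.1 j < m} =>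
      MeasurableSpace.comap (fun x : Obs => x i.1) inferInstance) ⟨i, hi⟩

theorem Gσ_Dl {m n : ℕ} (s : Species) (ls : Fin n → ℕ) (hls : ∀ j, ls j < m)
    (c : Fin n → s.Cfg) : Measurable[Gσ m] (fun x => Dl s ls x c) :=
  measurable_subtype_coe.comp (Gσ_coord ⟨s, n, ls, c⟩ hls)

theorem Gσ_Dθ {m n : ℕ} (s : Species) (ls : Fin n → ℕ) (hls : ∀ j, ls j < m)
    (θ : (Fin n → s.Cfg) → ℝ) : Measurable[Gσ m] (Dθ s ls θ) := by
  letI : MeasurableSpace Obs := Gσ m
  unfold Dθ
  exact Finset.measurable_fun_sum _ fun c _ => (Gσ_Dl s ls hls c).mul_const (θ c)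

private theorem Gσ_agrL {m l l' : ℕ} (hl : l < m) (hl' : l' < m) (s : Species) :
    Measurable[Gσ m] (fun x => agrL s l l' x) := by
  letI : MeasurableSpace Obs := Gσ m
  unfold agrL
  refine Measurable.min measurable_const ?_
  refine Finset.measurable_fun_sum _ fun c _ => Gσ_Dl s ![l, l'] ?_ _
  intro j
  fin_cases j
  · exact hl
  · exact hl'

private theorem agrL_nonneg (s : Species) (l l' : ℕ) (x : Obs) : 0 ≤ agrL s l l' x := by
  unfold agrL
  refine le_min zero_le_one (Finset.sum_nonneg fun c _ => ?_)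
  unfold Dl
  exact (x _).2.1

private theorem agrL_le_one (s : Species) (l l' : ℕ) (x : Obs) : agrL s l l' x ≤ 1 :=
  min_le_left _ _

private theorem wt_nonneg' (s : Species) : 0 ≤ wt s := by
  unfold wt; positivity

private theorem wt_summable' : Summable wt := by
  have h : Summable (fun n : ℕ => (1 / 2 : ℝ) ^ (n + 1)) :=
    (summable_nat_add_iff 1).2 summable_geometric_two
  exact h.comp_injective (Encodable.encode_injective (α := Species))

private theorem Rov_hasSum (x : Obs) (l l' : ℕ) :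
    HasSum (fun s : Species => wt s * agrL s l l' x) (Rov x l l') := by
  unfold Rov
  apply Summable.hasSum
  refine Summable.of_nonneg_of_le (fun s => mul_nonneg (wt_nonneg' s) (agrL_nonneg s l l' x))
    (fun s => ?_) wt_summable'
  calc wt s * agrL s l l' x ≤ wt s * 1 :=
        mul_le_mul_of_nonneg_left (agrL_le_one s l l' x) (wt_nonneg' s)
    _ = wt s := mul_one _

theorem Gσ_Rov {m l l' : ℕ} (hl : l < m) (hl' : l' < m) :
    Measurable[Gσ m] (fun x => Rov x l l') := by
  letI : MeasurableSpace Obs := Gσ m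
  have hlim : Tendsto (fun (S : Finset Species) (x : Obs) => ∑ s ∈ S, wt s * agrL s l l' x) atTop
      (𝓝 (fun x => Rov x l l')) := by
    rw [tendsto_pi_nhds]
    intro x
    exact Rov_hasSum x l l'
  refine measurable_of_tendsto_metrizable' atTop (fun S => ?_) hlim
  exact Finset.measurable_fun_sum _ fun s _ => (Gσ_agrL hl hl' s).const_mul (wt s)

theorem Gσ_Rmat {m r : ℕ} (ls : Fin r → ℕ) (hls : ∀ j, ls j < m) :
    Measurable[Gσ m] (Rmat ls) := by
  letI : MeasurableSpace Obs := Gσ m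
  refine measurable_pi_iff.2 fun i => measurable_pi_iff.2 fun j => ?_
  exact Gσ_Rov (hls i) (hls j)

/-- A `Gσ m`-measurable function depends only on the observables of the replicas `< m`. -/
theorem Gσ_dep {m : ℕ} {Φ : Obs → ℝ} (hΦ : Measurable[Gσ m] Φ) {x y : Obs}
    (h : ∀ i : OIdx, (∀ j, i.2.2.1 j < m) → x i = y i) : Φ x = Φ y := by
  let T : MeasurableSpace Obs :=
    { MeasurableSet' := fun A => x ∈ A ↔ y ∈ A
      measurableSet_empty := by simp
      measurableSet_compl := fun A hA => not_congr hA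
      measurableSet_iUnion := fun f hf => by
        simp only [Set.mem_iUnion]
        exact exists_congr hf }
  have hT : Gσ m ≤ T := by
    refine iSup_le fun i => ?_
    rintro A ⟨B, -, rfl⟩
    change x i.1 ∈ B ↔ y i.1 ∈ B
    rw [h i.1 i.2]
  have h1 : MeasurableSet[T] (Φ ⁻¹' {Φ x}) := hT _ (hΦ (measurableSet_singleton _))
  have h2 : x ∈ Φ ⁻¹' {Φ x} ↔ y ∈ Φ ⁻¹' {Φ x} := h1
  exact (h2.1 rfl).symm

theorem Dl_swapRep (s : Species) {n : ℕ} (ls : Fin n → ℕ) (a b : ℕ) (x : Obs) (c : Fin n → s.Cfg) :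
    Dl s ls (swapRep a b x) c = Dl s (fun j => Equiv.swap a b (ls j)) x c := rfl

theorem Dθ_swapRep (s : Species) {n : ℕ} (ls : Fin n → ℕ) (a b : ℕ) (x : Obs)
    (θ : (Fin n → s.Cfg) → ℝ) :
    Dθ s ls θ (swapRep a b x) = Dθ s (fun j => Equiv.swap a b (ls j)) θ x := rfl

theorem Rov_swapRep (a b : ℕ) (x : Obs) (l l' : ℕ) :
    Rov (swapRep a b x) l l' = Rov x (Equiv.swap a b l) (Equiv.swap a b l') := by
  unfold Rov
  refine tsum_congr fun s => ?_
  congr 1
  unfold agrL
  congr 1
  refine Finset.sum_congr rfl fun c _ => ?_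
  rw [Dl_swapRep]
  congr 1
  funext j
  fin_cases j <;> rfl

theorem swapRep_swapRep (a b : ℕ) (x : Obs) : swapRep a b (swapRep a b x) = x := by
  funext i
  unfold swapRep
  simp

theorem Gσ_swapRep {m M a b : ℕ} (hm : m ≤ M) (ha : a < M) (hb : b < M) {Φ : Obs → ℝ}
    (hΦ : Measurable[Gσ m] Φ) : Measurable[Gσ M] (fun x => Φ (swapRep a b x)) := by
  have h1 : Measurable[Gσ M, Gσ m] (swapRep a b) := by
    rw [measurable_iff_comap_le]
    unfold Gσ
    rw [MeasurableSpace.comap_iSup]
    refine iSup_le fun i => ?_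
    rw [MeasurableSpace.comap_comp]
    refine (Gσ_coord (m := M) ⟨i.1.1, i.1.2.1, (fun j => Equiv.swap a b (i.1.2.2.1 j)),
      i.1.2.2.2⟩ ?_).comap_le
    intro j
    change Equiv.swap a b (i.1.2.2.1 j) < M
    have hj : i.1.2.2.1 j < m := i.2 j
    rw [Equiv.swap_apply_def]
    split_ifs
    · exact hb
    · exact ha
    · exact hj.trans_le hm
  exact hΦ.comp h1


end Crest.Agent.MP
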