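import Crest.Agent.MP.RDefs

/-!
# R-ALG-A: elementary facts on the observables and the overlap

All proofs are short.  `simplex`: probability vectors; `map`: restriction/relabelling; e.g.
`agrL_eq_Dθ` = `map` with `g : Fin 2 → Fin n`.  `tsum_wt_le`: `Encodable.encode` is injective,
`Σ_n (1/2)^(n+1) = 1`.
-/

set_option autoImplicit false

namespace Crest.Agent.MP

open MeasureTheory Filter Topology

theorem Dl_nonneg (s : Species) {n : ℕ} (ls : Fin n → ℕ) (x : Obs) (c : Fin n → s.Cfg) :
    0 ≤ Dl s ls x c := (x ⟨s, n, ls, c⟩).2.1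

theorem Dl_le_one (s : Species) {n : ℕ} (ls : Fin n → ℕ) (x : Obs) (c : Fin n → s.Cfg) :
    Dl s ls x c ≤ 1 := (x ⟨s, n, ls, c⟩).2.2

theorem measurable_Dl (s : Species) {n : ℕ} (ls : Fin n → ℕ) (c : Fin n → s.Cfg) :
    Measurable (fun x => Dl s ls x c) :=
  measurable_subtype_coe.comp (measurable_pi_apply _)

theorem measurable_Dθ (s : Species) {n : ℕ} (ls : Fin n → ℕ) (θ : (Fin n → s.Cfg) → ℝ) :
    Measurable (Dθ s ls θ) :=
  Finset.measurable_fun_sum _ fun c _ => (measurable_Dl s ls c).mul_const _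

theorem abs_Dθ_le (s : Species) {n : ℕ} (ls : Fin n → ℕ) (θ : (Fin n → s.Cfg) → ℝ) (x : Obs) :
    |Dθ s ls θ x| ≤ ∑ c, |θ c| := by
  unfold Dθ
  refine (Finset.abs_sum_le_sum_abs _ _).trans (Finset.sum_le_sum fun c _ => ?_)
  rw [abs_mul, abs_of_nonneg (Dl_nonneg s ls x c)]
  exact mul_le_of_le_one_left (abs_nonneg _) (Dl_le_one s ls x c)

theorem agrL_nonneg (s : Species) (l l' : ℕ) (x : Obs) : 0 ≤ agrL s l l' x :=
  le_min zero_le_one (Finset.sum_nonneg fun c _ => Dl_nonneg s _ x _)

theorem agrL_le_one (s : Species) (l l' : ℕ) (x : Obs) : agrL s l l' x ≤ 1 := min_le_left _ _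

theorem wt_pos (s : Species) : 0 < wt s := by
  unfold wt; positivity

private theorem summable_half : Summable (fun n : ℕ => (1 / 2 : ℝ) ^ (n + 1)) := by
  simpa [pow_succ] using summable_geometric_two.mul_right (1 / 2 : ℝ)

private theorem tsum_half : ∑' n : ℕ, (1 / 2 : ℝ) ^ (n + 1) = 1 := by
  have : ∀ n : ℕ, (1 / 2 : ℝ) ^ (n + 1) = (1 / 2 : ℝ) ^ n * (1 / 2) := fun n => pow_succ _ _
  simp_rw [this]
  rw [tsum_mul_right, tsum_geometric_two]
  norm_num

theorem summable_wt : Summable wt :=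
  summable_half.comp_injective (Encodable.encode_injective (α := Species))

theorem tsum_wt_le : ∑' s, wt s ≤ 1 := by
  rw [← tsum_half]
  exact Summable.tsum_le_tsum_of_inj (Encodable.encode (α := Species))
    (Encodable.encode_injective (α := Species)) (fun n _ => by positivity) (fun s => le_rfl)
    summable_wt summable_half

theorem Rov_nonneg (x : Obs) (l l' : ℕ) : 0 ≤ Rov x l l' :=
  tsum_nonneg fun s => mul_nonneg (wt_pos s).le (agrL_nonneg s l l' x)

private theorem summable_Rov (x : Obs) (l l' : ℕ) : Summable (fun s => wt s * agrL s l l' x) :=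
  Summable.of_nonneg_of_le (fun s => mul_nonneg (wt_pos s).le (agrL_nonneg s l l' x))
    (fun s => mul_le_of_le_one_right (wt_pos s).le (agrL_le_one s l l' x)) summable_wt

theorem Rov_le_one (x : Obs) (l l' : ℕ) : Rov x l l' ≤ 1 :=
  ((summable_Rov x l l').tsum_le_tsum
    (fun s => mul_le_of_le_one_right (wt_pos s).le (agrL_le_one s l l' x)) summable_wt).trans
    tsum_wt_le

private theorem measurable_agrL (s : Species) (l l' : ℕ) : Measurable (agrL s l l') :=
  measurable_const.min (Finset.measurable_fun_sum _ fun c _ => measurable_Dl s _ _)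

theorem measurable_Rov (l l' : ℕ) : Measurable (fun x => Rov x l l') := by
  refine measurable_of_tendsto_metrizable' (atTop : Filter (Finset Species))
    (f := fun (S : Finset Species) (x : Obs) => ∑ s ∈ S, wt s * agrL s l l' x) ?_ ?_
  · intro S
    exact Finset.measurable_fun_sum _ fun s _ => (measurable_agrL s l l').const_mul _
  · rw [tendsto_pi_nhds]
    intro x
    exact (summable_Rov x l l').hasSum

private theorem Dθ_two (s : Species) (l l' : ℕ) (x : Obs) :
    Dθ s ![l, l'] (fun c => if c 0 = c 1 then 1 else 0) x =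
      ∑ c : s.Cfg, Dl s ![l, l'] x (fun _ => c) := by
  classical
  unfold Dθ
  rw [← (finTwoArrowEquiv s.Cfg).symm.sum_comp, Fintype.sum_prod_type]
  refine Finset.sum_congr rfl fun a _ => ?_
  rw [Finset.sum_eq_single a]
  · have : (finTwoArrowEquiv s.Cfg).symm (a, a) = fun _ => a := by
      ext j : 1
      fin_cases j <;> rfl
    rw [this]
    simp
  · intro b _ hb
    have : ¬ ((finTwoArrowEquiv s.Cfg).symm (a, b) 0 = (finTwoArrowEquiv s.Cfg).symm (a, b) 1) := by
      simpa [finTwoArrowEquiv] using fun h => hb h.symm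
    simp only [if_neg this, mul_zero]
  · simp

/-- A.s. the cap in `agrL` is void (`simplex`: the sum over the diagonal is at most one). -/
theorem agrL_eq {P : Measure Obs} (hP : LimitModel P) :
    ∀ᵐ x ∂P, ∀ (s : Species) (l l' : ℕ),
      agrL s l l' x = ∑ c : s.Cfg, Dl s ![l, l'] x (fun _ => c) := by
  filter_upwards [hP.simplex] with x hx s l l'
  unfold agrL
  rw [min_eq_right]
  refine le_trans ?_ (hx s 2 ![l, l']).le
  rw [← Dθ_two]
  unfold Dθ
  refine Finset.sum_le_sum fun c _ => ?_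
  simp only
  split_ifs
  · rw [mul_one]
  · rw [mul_zero]
    exact Dl_nonneg s _ x c

/-- More generally, the agreement of two replicas in a list. -/
theorem agrL_eq_Dθ {P : Measure Obs} (hP : LimitModel P) :
    ∀ᵐ x ∂P, ∀ (s : Species) (n : ℕ) (ls : Fin n → ℕ) (i j : Fin n),
      agrL s (ls i) (ls j) x = Dθ s ls (fun c => if c i = c j then 1 else 0) x := by
  filter_upwards [agrL_eq hP, hP.map] with x hx hm s n ls i j
  rw [hx, ← Dθ_two]
  have h := hm s 2 n ls ![i, j] (fun c => if c 0 = c 1 then 1 else 0)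
  have h2 : ls ∘ ![i, j] = ![ls i, ls j] := by
    ext k
    fin_cases k <;> rfl
  rw [h2] at h
  rw [h]
  rfl

theorem Rov_symm {P : Measure Obs} (hP : LimitModel P) :
    ∀ᵐ x ∂P, ∀ l l' : ℕ, Rov x l l' = Rov x l' l := by
  filter_upwards [agrL_eq_Dθ hP] with x hx l l'
  unfold Rov
  refine tsum_congr fun s => ?_
  have h1 := hx s 2 ![l, l'] 0 1
  have h2 := hx s 2 ![l, l'] 1 0
  simp only [Matrix.cons_val_zero, Matrix.cons_val_one] at h1 h2
  rw [h1, h2]
  congr 2
  ext c
  simp only [eq_comm]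

theorem Rov_self {P : Measure Obs} (hP : LimitModel P) :
    ∀ᵐ x ∂P, ∀ l : ℕ, Rov x l l = ∑' s, wt s := by
  filter_upwards [agrL_eq_Dθ hP, hP.simplex] with x hx hs l
  unfold Rov
  refine tsum_congr fun s => ?_
  have h1 := hx s 1 ![l] 0 0
  simp only [Matrix.cons_val_zero] at h1
  rw [h1]
  have h2 := hs s 1 ![l]
  unfold Dθ
  simp only [if_true, mul_one]
  rw [h2, mul_one]


end Crest.Agent.MP
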