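import Crest.Agent.MP.RAlg

/-!
# R-CS: Cauchy-Schwarz (§0)

Let `ls` list the replicas `0..r-1`, all `as a`, all `bs b`, and let `D = D_s(ls)` (a probability
vector on configurations `c` of all these replicas; `hP.simplex`, `hP.map`, nonnegativity).  With
`a(c) = θ(c_0..c_{r-1})`, `d_γ(c) = (1/K) Σ_a 1(c_{as a} = γ) - (1/K) Σ_b 1(c_{bs b} = γ)`:
`|D(a Σ_γ χ(γ) d_γ)|² ≤ B² (Σ χ²) D(Σ_γ d_γ²)` and
`D(Σ_γ d_γ²) = K^{-2}(Σ agrL(a,a') + Σ agrL(b,b') - 2 Σ agrL(a,b))` (`agrL_eq_Dθ`) `=: Q_s ≥ 0`.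
`Σ_s wt s · Q_s = Qf`, so `Q_s ≤ Qf / wt s`.  The second inequality is the same with
`agrL_s(i,·)`, `|agrL_s(i,as)avg - agrL_s(i,bs)avg| ≤ sqrt Q_s`, and Cauchy-Schwarz / Jensen in `s`
(`Σ wt s ≤ 1`).
-/

set_option autoImplicit false

namespace Crest.Agent.MP

open MeasureTheory Filter Topology

private theorem cs_sum {s : Species} {n : ℕ} (ls : Fin n → ℕ) (x : Obs) {ι : Type}
    (I : Finset ι) (f : ι → (Fin n → s.Cfg) → ℝ) :
    Dθ s ls (fun c => ∑ i ∈ I, f i c) x = ∑ i ∈ I, Dθ s ls (f i) x := by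
  unfold Dθ
  rw [Finset.sum_comm]
  exact Finset.sum_congr rfl fun c _ => Finset.mul_sum _ _ _

private theorem cs_add {s : Species} {n : ℕ} (ls : Fin n → ℕ) (x : Obs)
    (f g : (Fin n → s.Cfg) → ℝ) :
    Dθ s ls (fun c => f c + g c) x = Dθ s ls f x + Dθ s ls g x := by
  unfold Dθ
  rw [← Finset.sum_add_distrib]
  exact Finset.sum_congr rfl fun c _ => mul_add _ _ _

private theorem cs_sub {s : Species} {n : ℕ} (ls : Fin n → ℕ) (x : Obs)
    (f g : (Fin n → s.Cfg) → ℝ) :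
    Dθ s ls (fun c => f c - g c) x = Dθ s ls f x - Dθ s ls g x := by
  unfold Dθ
  rw [← Finset.sum_sub_distrib]
  exact Finset.sum_congr rfl fun c _ => mul_sub _ _ _

private theorem cs_mul {s : Species} {n : ℕ} (ls : Fin n → ℕ) (x : Obs) (k : ℝ)
    (f : (Fin n → s.Cfg) → ℝ) :
    Dθ s ls (fun c => k * f c) x = k * Dθ s ls f x := by
  unfold Dθ
  rw [Finset.mul_sum]
  exact Finset.sum_congr rfl fun c _ => by ring

private theorem cs_div {s : Species} {n : ℕ} (ls : Fin n → ℕ) (x : Obs) (k : ℝ)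
    (f : (Fin n → s.Cfg) → ℝ) :
    Dθ s ls (fun c => f c / k) x = Dθ s ls f x / k := by
  unfold Dθ
  rw [Finset.sum_div]
  exact Finset.sum_congr rfl fun c _ => by ring

/-- `d_γ(c)` -/
private noncomputable def dd {K n : ℕ} {C : Type} [DecidableEq C] (A B : Fin K → Fin n)
    (c : Fin n → C) (γ : C) : ℝ :=
  ((∑ a, if c (A a) = γ then (1 : ℝ) else 0) - ∑ b, if c (B b) = γ then (1 : ℝ) else 0) / K

private theorem sum_ind_mul {K K' : ℕ} {C : Type} [DecidableEq C] [Fintype C] (u : Fin K → C)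
    (v : Fin K' → C) :
    ∑ γ, (∑ a, if u a = γ then (1 : ℝ) else 0) * (∑ b, if v b = γ then (1 : ℝ) else 0) =
      ∑ a, ∑ b, if u a = v b then (1 : ℝ) else 0 := by
  simp_rw [Finset.sum_mul_sum]
  rw [Finset.sum_comm]
  refine Finset.sum_congr rfl fun a _ => ?_
  rw [Finset.sum_comm]
  refine Finset.sum_congr rfl fun b _ => ?_
  simp only [ite_mul, one_mul, zero_mul]
  rw [Finset.sum_ite_eq Finset.univ (u a)]
  simp [eq_comm]

private theorem sum_dd_sq {K n : ℕ} {C : Type} [DecidableEq C] [Fintype C] (A B : Fin K → Fin n)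
    (c : Fin n → C) :
    ∑ γ, dd A B c γ ^ 2 =
      ((∑ a, ∑ a', if c (A a) = c (A a') then (1 : ℝ) else 0) +
        (∑ b, ∑ b', if c (B b) = c (B b') then (1 : ℝ) else 0) -
        2 * ∑ a, ∑ b, if c (A a) = c (B b) then (1 : ℝ) else 0) / (K : ℝ) ^ 2 := by
  rw [← sum_ind_mul (fun a => c (A a)) (fun a => c (A a)),
    ← sum_ind_mul (fun a => c (B a)) (fun a => c (B a)),
    ← sum_ind_mul (fun a => c (A a)) (fun a => c (B a)), Finset.mul_sum,
    ← Finset.sum_add_distrib, ← Finset.sum_sub_distrib, Finset.sum_div]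
  refine Finset.sum_congr rfl fun γ _ => ?_
  unfold dd
  ring

/-- `Q_s` -/
private noncomputable def Qs (s : Species) {K : ℕ} (as bs : Fin K → ℕ) (x : Obs) : ℝ :=
  ((∑ a, ∑ a', agrL s (as a) (as a') x) + (∑ b, ∑ b', agrL s (bs b) (bs b') x)
    - 2 * ∑ a, ∑ b, agrL s (as a) (bs b) x) / (K : ℝ) ^ 2

private theorem Dθ_dd {x : Obs}
    (hx : ∀ (s : Species) (n : ℕ) (ls : Fin n → ℕ) (i j : Fin n),
      agrL s (ls i) (ls j) x = Dθ s ls (fun c => if c i = c j then 1 else 0) x)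
    (s : Species) {n K : ℕ} (ls : Fin n → ℕ) (A B : Fin K → Fin n) :
    Dθ s ls (fun c => ∑ γ, dd A B c γ ^ 2) x = Qs s (fun a => ls (A a)) (fun b => ls (B b)) x := by
  simp_rw [sum_dd_sq]
  rw [cs_div, cs_sub, cs_add, cs_mul, cs_sum, cs_sum, cs_sum]
  simp_rw [cs_sum]
  unfold Qs
  simp_rw [hx]

private theorem jensen_sqrt {ι : Type} [Fintype ι] (w y : ι → ℝ) (hw : ∀ i, 0 ≤ w i)
    (hw1 : ∑ i, w i = 1) :
    ∑ i, w i * Real.sqrt (y i) ≤ Real.sqrt (∑ i, w i * y i) ∨ ∃ i, y i < 0 := by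
  by_cases hy : ∃ i, y i < 0
  · exact Or.inr hy
  · left
    push Not at hy
    apply Real.le_sqrt_of_sq_le
    have h := Finset.sum_mul_sq_le_sq_mul_sq Finset.univ (fun i => Real.sqrt (w i))
      (fun i => Real.sqrt (w i) * Real.sqrt (y i))
    have h1 : ∀ i, Real.sqrt (w i) * (Real.sqrt (w i) * Real.sqrt (y i)) =
        w i * Real.sqrt (y i) := by
      intro i
      rw [← mul_assoc, Real.mul_self_sqrt (hw i)]
    have h2 : ∀ i, Real.sqrt (w i) ^ 2 = w i := fun i => Real.sq_sqrt (hw i)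
    have h3 : ∀ i, (Real.sqrt (w i) * Real.sqrt (y i)) ^ 2 = w i * y i := by
      intro i
      rw [mul_pow, Real.sq_sqrt (hw i), Real.sq_sqrt (hy i)]
    simp_rw [h1, h2, h3] at h
    rw [hw1, one_mul] at h
    exact h

/-- Cauchy-Schwarz on the configurations. -/
private theorem cs_core {x : Obs}
    (hsim : ∀ (s : Species) (n : ℕ) (ls : Fin n → ℕ), ∑ c : Fin n → s.Cfg, Dl s ls x c = 1)
    (hx : ∀ (s : Species) (n : ℕ) (ls : Fin n → ℕ) (i j : Fin n),
      agrL s (ls i) (ls j) x = Dθ s ls (fun c => if c i = c j then 1 else 0) x)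
    (s : Species) {n K : ℕ} (ls : Fin n → ℕ) (A B : Fin K → Fin n) (g : (Fin n → s.Cfg) → ℝ)
    (C : ℝ) (hC : 0 ≤ C) (hg : ∀ c, |g c| ≤ C * Real.sqrt (∑ γ, dd A B c γ ^ 2)) :
    |Dθ s ls g x| ≤ C * Real.sqrt (Qs s (fun a => ls (A a)) (fun b => ls (B b)) x) := by
  rw [← Dθ_dd hx]
  have h1 : |Dθ s ls g x| ≤ ∑ c, Dl s ls x c * (C * Real.sqrt (∑ γ, dd A B c γ ^ 2)) := by
    unfold Dθ
    refine (Finset.abs_sum_le_sum_abs _ _).trans (Finset.sum_le_sum fun c _ => ?_)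
    rw [abs_mul, abs_of_nonneg (Dl_nonneg s ls x c)]
    exact mul_le_mul_of_nonneg_left (hg c) (Dl_nonneg s ls x c)
  refine h1.trans ?_
  have h2 : ∑ c, Dl s ls x c * (C * Real.sqrt (∑ γ, dd A B c γ ^ 2)) =
      C * ∑ c, Dl s ls x c * Real.sqrt (∑ γ, dd A B c γ ^ 2) := by
    rw [Finset.mul_sum]
    exact Finset.sum_congr rfl fun c _ => by ring
  rw [h2]
  refine mul_le_mul_of_nonneg_left ?_ hC
  rcases jensen_sqrt (fun c => Dl s ls x c) (fun c => ∑ γ, dd A B c γ ^ 2)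
    (fun c => Dl_nonneg s ls x c) (hsim s n ls) with h | ⟨c, hc⟩
  · exact h
  · exact absurd hc (not_lt.2 (Finset.sum_nonneg fun γ _ => sq_nonneg _))

private theorem agr_hasSum (x : Obs) (l l' : ℕ) :
    HasSum (fun s : Species => wt s * agrL s l l' x) (Rov x l l') := by
  unfold Rov
  apply Summable.hasSum
  refine Summable.of_nonneg_of_le (fun s => mul_nonneg (wt_pos s).le (agrL_nonneg s l l' x))
    (fun s => ?_) summable_wt
  calc wt s * agrL s l l' x ≤ wt s * 1 :=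
        mul_le_mul_of_nonneg_left (agrL_le_one s l l' x) (wt_pos s).le
    _ = wt s := mul_one _

private theorem Qs_hasSum (x : Obs) {K : ℕ} (as bs : Fin K → ℕ) :
    HasSum (fun s : Species => wt s * Qs s as bs x) (Qf as bs x) := by
  unfold Qf
  have h1 : HasSum (fun s : Species => ∑ a, ∑ a', wt s * agrL s (as a) (as a') x)
      (∑ a, ∑ a', Rov x (as a) (as a')) :=
    hasSum_sum fun a _ => hasSum_sum fun a' _ => agr_hasSum x _ _
  have h2 : HasSum (fun s : Species => ∑ a, ∑ a', wt s * agrL s (bs a) (bs a') x)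
      (∑ a, ∑ a', Rov x (bs a) (bs a')) :=
    hasSum_sum fun a _ => hasSum_sum fun a' _ => agr_hasSum x _ _
  have h3 : HasSum (fun s : Species => ∑ a, ∑ a', wt s * agrL s (as a) (bs a') x)
      (∑ a, ∑ a', Rov x (as a) (bs a')) :=
    hasSum_sum fun a _ => hasSum_sum fun a' _ => agr_hasSum x _ _
  have h4 := ((h1.add h2).sub (h3.mul_left 2)).div_const ((K : ℝ) ^ 2)
  have h5 : ∀ s : Species, wt s * Qs s as bs x =
      (∑ a, ∑ a', wt s * agrL s (as a) (as a') x + ∑ a, ∑ a', wt s * agrL s (bs a) (bs a') x -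
          2 * ∑ a, ∑ a', wt s * agrL s (as a) (bs a') x) / (K : ℝ) ^ 2 := by
    intro s
    unfold Qs
    simp only [← Finset.mul_sum]
    ring
  simp_rw [h5]
  exact h4

/-- the good event -/
private def Good (x : Obs) : Prop :=
  (∀ (s : Species) (n : ℕ) (ls : Fin n → ℕ), ∑ c : Fin n → s.Cfg, Dl s ls x c = 1) ∧
  (∀ (s : Species) (n m : ℕ) (ls : Fin m → ℕ) (g : Fin n → Fin m)
      (θ : (Fin n → s.Cfg) → ℝ),
      Dθ s (ls ∘ g) θ x = Dθ s ls (fun c => θ (c ∘ g)) x) ∧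
  (∀ (s : Species) (n : ℕ) (ls : Fin n → ℕ) (i j : Fin n),
      agrL s (ls i) (ls j) x = Dθ s ls (fun c => if c i = c j then 1 else 0) x)

private theorem ae_Good {P : Measure Obs} (hP : LimitModel P) : ∀ᵐ x ∂P, Good x := by
  filter_upwards [hP.simplex, hP.map, agrL_eq_Dθ hP] with x h1 h2 h3
  exact ⟨h1, h2, h3⟩

private theorem Qs_nonneg {x : Obs} (hx : Good x) (s : Species) {K : ℕ} (as bs : Fin K → ℕ) :
    0 ≤ Qs s as bs x := by
  have h := Dθ_dd hx.2.2 s (Fin.append as bs) (fun a : Fin K => Fin.castAdd K a)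
    (fun b : Fin K => Fin.natAdd K b)
  simp only [Fin.append_left, Fin.append_right] at h
  rw [← h]
  unfold Dθ
  exact Finset.sum_nonneg fun c _ => mul_nonneg (Dl_nonneg s _ x c)
    (Finset.sum_nonneg fun γ _ => sq_nonneg _)

private theorem Qf_nonneg' {x : Obs} (hx : Good x) {K : ℕ} (as bs : Fin K → ℕ) :
    0 ≤ Qf as bs x :=
  (Qs_hasSum x as bs).nonneg fun s => mul_nonneg (wt_pos s).le (Qs_nonneg hx s as bs)

private theorem Qs_le {x : Obs} (hx : Good x) (s : Species) {K : ℕ} (as bs : Fin K → ℕ) :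
    Qs s as bs x ≤ Qf as bs x / wt s := by
  rw [le_div_iff₀ (wt_pos s), mul_comm]
  exact le_hasSum (Qs_hasSum x as bs) s
    fun s' _ => mul_nonneg (wt_pos s').le (Qs_nonneg hx s' as bs)

theorem Qf_nonneg {P : Measure Obs} (hP : LimitModel P) :
    ∀ᵐ x ∂P, ∀ (K : ℕ) (as bs : Fin K → ℕ), 0 ≤ Qf as bs x := by
  filter_upwards [ae_Good hP] with x hx K as bs
  exact Qf_nonneg' hx as bs

/-- `avg χ(c_a) - avg χ(c_b) = Σ_γ χ(γ) d_γ(c)`. -/
private theorem avg_eq {K n : ℕ} {C : Type} [DecidableEq C] [Fintype C] (A B : Fin K → Fin n)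
    (c : Fin n → C) (χ : C → ℝ) :
    (∑ a, χ (c (A a))) / K - (∑ b, χ (c (B b))) / K = ∑ γ, χ γ * dd A B c γ := by
  have h : ∀ u : Fin K → C, ∑ a, χ (u a) = ∑ γ, χ γ * ∑ a, if u a = γ then (1 : ℝ) else 0 := by
    intro u
    simp_rw [Finset.mul_sum]
    rw [Finset.sum_comm]
    refine Finset.sum_congr rfl fun a _ => ?_
    simp
  rw [h (fun a => c (A a)), h (fun a => c (B a)), Finset.sum_div, Finset.sum_div,
    ← Finset.sum_sub_distrib]
  refine Finset.sum_congr rfl fun γ _ => ?_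
  unfold dd
  ring

private theorem avg_abs_le {K n : ℕ} {C : Type} [DecidableEq C] [Fintype C] (A B : Fin K → Fin n)
    (c : Fin n → C) (χ : C → ℝ) :
    |(∑ a, χ (c (A a))) / K - (∑ b, χ (c (B b))) / K| ≤
      Real.sqrt (∑ γ, χ γ ^ 2) * Real.sqrt (∑ γ, dd A B c γ ^ 2) := by
  rw [avg_eq, ← Real.sqrt_mul (Finset.sum_nonneg fun γ _ => sq_nonneg _)]
  apply Real.abs_le_sqrt
  exact Finset.sum_mul_sq_le_sq_mul_sq _ _ _

theorem cs_D {P : Measure Obs} (hP : LimitModel P) :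
    ∀ᵐ x ∂P, ∀ (s : Species) (r : ℕ) (θ : (Fin r → s.Cfg) → ℝ) (B : ℝ) (χ : s.Cfg → ℝ)
      (K : ℕ) (as bs : Fin K → ℕ), 0 < K → (∀ c, |θ c| ≤ B) →
      |(∑ a, Dθ s (rgl r (as a)) (tens θ χ) x) / K - (∑ b, Dθ s (rgl r (bs b)) (tens θ χ) x) / K| ≤
        B * Real.sqrt (∑ c, χ c ^ 2) * Real.sqrt (Qf as bs x / wt s) := by
  filter_upwards [ae_Good hP] with x hx s r θ B χ K as bs hK hθ
  have hB : 0 ≤ B := (abs_nonneg _).trans (hθ (fun _ _ => false))
  obtain ⟨ls, hls⟩ : ∃ ls : Fin (r + (K + K)) → ℕ,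
    ls = Fin.append (rg r) (Fin.append as bs) := ⟨_, rfl⟩
  obtain ⟨g, hg⟩ : ∃ g : Fin (K + K) → Fin (r + 1) → Fin (r + (K + K)),
    g = fun k => Fin.snoc (fun j : Fin r => Fin.castAdd (K + K) j) (Fin.natAdd r k) := ⟨_, rfl⟩
  have hcomp : ∀ k, ls ∘ g k = rgl r (Fin.append as bs k) := by
    intro k
    funext j
    refine Fin.lastCases ?_ (fun j => ?_) j
    · rw [hg, hls]
      simp [rgl]
    · rw [hg, hls]
      simp [rgl, rg]
  have hterm : ∀ k, Dθ s (rgl r (Fin.append as bs k)) (tens θ χ) x =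
      Dθ s ls (fun c => θ (fun j => c (Fin.castAdd (K + K) j)) * χ (c (Fin.natAdd r k))) x := by
    intro k
    rw [← hcomp k, hx.2.1]
    congr 1
    funext c
    unfold tens
    rw [hg]
    simp
  have hA : ∀ a : Fin K, Dθ s (rgl r (as a)) (tens θ χ) x =
      Dθ s ls (fun c => θ (fun j => c (Fin.castAdd (K + K) j)) *
        χ (c (Fin.natAdd r (Fin.castAdd K a)))) x := by
    intro a
    have := hterm (Fin.castAdd K a)
    rwa [Fin.append_left] at this
  have hB' : ∀ b : Fin K, Dθ s (rgl r (bs b)) (tens θ χ) x =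
      Dθ s ls (fun c => θ (fun j => c (Fin.castAdd (K + K) j)) *
        χ (c (Fin.natAdd r (Fin.natAdd K b)))) x := by
    intro b
    have := hterm (Fin.natAdd K b)
    rwa [Fin.append_right] at this
  have heq : (∑ a, Dθ s (rgl r (as a)) (tens θ χ) x) / K -
      (∑ b, Dθ s (rgl r (bs b)) (tens θ χ) x) / K =
      Dθ s ls (fun c => θ (fun j => c (Fin.castAdd (K + K) j)) *
        ((∑ a : Fin K, χ (c (Fin.natAdd r (Fin.castAdd K a)))) / K -
          (∑ b : Fin K, χ (c (Fin.natAdd r (Fin.natAdd K b)))) / K)) x := by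
    simp_rw [hA, hB']
    rw [← cs_sum, ← cs_sum, ← cs_div, ← cs_div, ← cs_sub]
    congr 1
    funext c
    rw [← Finset.mul_sum, ← Finset.mul_sum]
    ring
  rw [heq]
  have hcore := cs_core hx.1 hx.2.2 s ls (fun a : Fin K => Fin.natAdd r (Fin.castAdd K a))
    (fun b : Fin K => Fin.natAdd r (Fin.natAdd K b))
    (fun c => θ (fun j => c (Fin.castAdd (K + K) j)) *
        ((∑ a : Fin K, χ (c (Fin.natAdd r (Fin.castAdd K a)))) / K -
          (∑ b : Fin K, χ (c (Fin.natAdd r (Fin.natAdd K b)))) / K))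
    (B * Real.sqrt (∑ c, χ c ^ 2)) (mul_nonneg hB (Real.sqrt_nonneg _)) (by
      intro c
      rw [abs_mul, mul_assoc]
      refine mul_le_mul (hθ _) ?_ (abs_nonneg _) hB
      exact avg_abs_le (fun a : Fin K => Fin.natAdd r (Fin.castAdd K a))
        (fun b : Fin K => Fin.natAdd r (Fin.natAdd K b)) c χ)
  refine hcore.trans ?_
  have hlsA : (fun a : Fin K => ls (Fin.natAdd r (Fin.castAdd K a))) = as := by
    funext a
    rw [hls, Fin.append_right, Fin.append_left]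
  have hlsB : (fun a : Fin K => ls (Fin.natAdd r (Fin.natAdd K a))) = bs := by
    funext a
    rw [hls, Fin.append_right, Fin.append_right]
  rw [hlsA, hlsB]
  exact mul_le_mul_of_nonneg_left (Real.sqrt_le_sqrt (Qs_le hx s as bs))
    (mul_nonneg hB (Real.sqrt_nonneg _))

private theorem cs_agr {x : Obs} (hx : Good x) (s : Species) (i : ℕ) {K : ℕ}
    (as bs : Fin K → ℕ) :
    |(∑ a, agrL s i (as a) x) / K - (∑ b, agrL s i (bs b) x) / K| ≤
      Real.sqrt (Qs s as bs x) := by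
  obtain ⟨ls, hls⟩ : ∃ ls : Fin (1 + (K + K)) → ℕ,
    ls = Fin.append (fun _ : Fin 1 => i) (Fin.append as bs) := ⟨_, rfl⟩
  have h0 : ls (Fin.castAdd (K + K) 0) = i := by rw [hls, Fin.append_left]
  have hlsA : ∀ a : Fin K, ls (Fin.natAdd 1 (Fin.castAdd K a)) = as a := by
    intro a
    rw [hls, Fin.append_right, Fin.append_left]
  have hlsB : ∀ a : Fin K, ls (Fin.natAdd 1 (Fin.natAdd K a)) = bs a := by
    intro a
    rw [hls, Fin.append_right, Fin.append_right]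
  have hA : ∀ a : Fin K, agrL s i (as a) x =
      Dθ s ls (fun c => if c (Fin.castAdd (K + K) 0) = c (Fin.natAdd 1 (Fin.castAdd K a))
        then 1 else 0) x := by
    intro a
    rw [← hx.2.2, h0, hlsA]
  have hB : ∀ a : Fin K, agrL s i (bs a) x =
      Dθ s ls (fun c => if c (Fin.castAdd (K + K) 0) = c (Fin.natAdd 1 (Fin.natAdd K a))
        then 1 else 0) x := by
    intro a
    rw [← hx.2.2, h0, hlsB]
  have heq : (∑ a, agrL s i (as a) x) / K - (∑ b, agrL s i (bs b) x) / K =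
      Dθ s ls (fun c =>
        (∑ a : Fin K, if c (Fin.castAdd (K + K) 0) = c (Fin.natAdd 1 (Fin.castAdd K a))
          then (1 : ℝ) else 0) / K -
        (∑ a : Fin K, if c (Fin.castAdd (K + K) 0) = c (Fin.natAdd 1 (Fin.natAdd K a))
          then (1 : ℝ) else 0) / K) x := by
    simp_rw [hA, hB]
    rw [← cs_sum, ← cs_sum, ← cs_div, ← cs_div, ← cs_sub]
  rw [heq]
  have hcore := cs_core hx.1 hx.2.2 s ls (fun a : Fin K => Fin.natAdd 1 (Fin.castAdd K a))
    (fun b : Fin K => Fin.natAdd 1 (Fin.natAdd K b))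
    (fun c =>
        (∑ a : Fin K, if c (Fin.castAdd (K + K) 0) = c (Fin.natAdd 1 (Fin.castAdd K a))
          then (1 : ℝ) else 0) / K -
        (∑ a : Fin K, if c (Fin.castAdd (K + K) 0) = c (Fin.natAdd 1 (Fin.natAdd K a))
          then (1 : ℝ) else 0) / K) 1 zero_le_one (by
      intro c
      have h := avg_abs_le (fun a : Fin K => Fin.natAdd 1 (Fin.castAdd K a))
        (fun b : Fin K => Fin.natAdd 1 (Fin.natAdd K b)) c
        (fun γ => if c (Fin.castAdd (K + K) 0) = γ then (1 : ℝ) else 0)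
      refine h.trans (le_of_eq ?_)
      congr 1
      simp)
  rw [one_mul] at hcore
  simp_rw [hlsA, hlsB] at hcore
  exact hcore

theorem cs_R {P : Measure Obs} (hP : LimitModel P) :
    ∀ᵐ x ∂P, ∀ (i K : ℕ) (as bs : Fin K → ℕ), 0 < K →
      |(∑ a, Rov x i (as a)) / K - (∑ b, Rov x i (bs b)) / K| ≤ Real.sqrt (Qf as bs x) := by
  filter_upwards [ae_Good hP] with x hx i K as bs hK
  have h1 : HasSum (fun s : Species => (∑ a, wt s * agrL s i (as a) x) / K -
      (∑ b, wt s * agrL s i (bs b) x) / K)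
      ((∑ a, Rov x i (as a)) / K - (∑ b, Rov x i (bs b)) / K) :=
    ((hasSum_sum fun a _ => agr_hasSum x i (as a)).div_const _).sub
      ((hasSum_sum fun a _ => agr_hasSum x i (bs a)).div_const _)
  have h2 : ∀ s : Species, (∑ a, wt s * agrL s i (as a) x) / K -
      (∑ b, wt s * agrL s i (bs b) x) / K =
      wt s * ((∑ a, agrL s i (as a) x) / K - (∑ b, agrL s i (bs b) x) / K) := by
    intro s
    rw [← Finset.mul_sum, ← Finset.mul_sum]
    ring
  simp_rw [h2] at h1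
  -- partial sums
  have h3 : ∀ S : Finset Species,
      |∑ s ∈ S, wt s * ((∑ a, agrL s i (as a) x) / K - (∑ b, agrL s i (bs b) x) / K)| ≤
        Real.sqrt (Qf as bs x) := by
    intro S
    have h4 : |∑ s ∈ S, wt s * ((∑ a, agrL s i (as a) x) / K - (∑ b, agrL s i (bs b) x) / K)| ≤
        ∑ s ∈ S, Real.sqrt (wt s) * (Real.sqrt (wt s) * Real.sqrt (Qs s as bs x)) := by
      refine (Finset.abs_sum_le_sum_abs _ _).trans (Finset.sum_le_sum fun s _ => ?_)
      rw [abs_mul, abs_of_nonneg (wt_pos s).le, ← mul_assoc, Real.mul_self_sqrt (wt_pos s).le]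
      exact mul_le_mul_of_nonneg_left (cs_agr hx s i as bs) (wt_pos s).le
    refine h4.trans ?_
    apply Real.le_sqrt_of_sq_le
    refine (Finset.sum_mul_sq_le_sq_mul_sq S _ _).trans ?_
    have h5 : ∑ s ∈ S, Real.sqrt (wt s) ^ 2 ≤ 1 := by
      have : ∀ s, Real.sqrt (wt s) ^ 2 = wt s := fun s => Real.sq_sqrt (wt_pos s).le
      simp_rw [this]
      exact (summable_wt.sum_le_tsum S fun s _ => (wt_pos s).le).trans tsum_wt_le
    have h6 : ∑ s ∈ S, (Real.sqrt (wt s) * Real.sqrt (Qs s as bs x)) ^ 2 ≤ Qf as bs x := by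
      have : ∀ s, (Real.sqrt (wt s) * Real.sqrt (Qs s as bs x)) ^ 2 = wt s * Qs s as bs x := by
        intro s
        rw [mul_pow, Real.sq_sqrt (wt_pos s).le, Real.sq_sqrt (Qs_nonneg hx s as bs)]
      simp_rw [this]
      exact sum_le_hasSum S (fun s _ => mul_nonneg (wt_pos s).le (Qs_nonneg hx s as bs))
        (Qs_hasSum x as bs)
    have h7 : 0 ≤ ∑ s ∈ S, (Real.sqrt (wt s) * Real.sqrt (Qs s as bs x)) ^ 2 :=
      Finset.sum_nonneg fun s _ => sq_nonneg _
    calc _ ≤ 1 * ∑ s ∈ S, (Real.sqrt (wt s) * Real.sqrt (Qs s as bs x)) ^ 2 :=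
          mul_le_mul_of_nonneg_right h5 h7
      _ ≤ Qf as bs x := by rw [one_mul]; exact h6
  have h8 : Tendsto (fun S : Finset Species =>
      |∑ s ∈ S, wt s * ((∑ a, agrL s i (as a) x) / K - (∑ b, agrL s i (bs b) x) / K)|) atTop
      (𝓝 |(∑ a, Rov x i (as a)) / K - (∑ b, Rov x i (bs b)) / K|) := by
    have : Tendsto (fun S : Finset Species =>
      ∑ s ∈ S, wt s * ((∑ a, agrL s i (as a) x) / K - (∑ b, agrL s i (bs b) x) / K)) atTop
      (𝓝 ((∑ a, Rov x i (as a)) / K - (∑ b, Rov x i (bs b)) / K)) := h1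
    exact this.abs
  exact le_of_tendsto' h8 h3

end Crest.Agent.MP
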