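import Crest.Agent.MP.Defs

/-!
# Module R (rigidity), definitions
-/

set_option autoImplicit false

namespace Crest.Agent.MP

open MeasureTheory Filter Topology

/-- The overlap matrix of the replicas `ls`. -/
noncomputable def Rmat {r : ℕ} (ls : Fin r → ℕ) (x : Obs) : Fin r → Fin r → ℝ :=
  fun i j => Rov x (ls i) (ls j)

/-- CLAIM_r (§1): the `r`-replica empirical laws of all species are functions of the overlap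
matrix. -/
def ClaimR (P : Measure Obs) (r : ℕ) : Prop :=
  ∀ (s : Species) (θ : (Fin r → s.Cfg) → ℝ), ∃ G : (Fin r → Fin r → ℝ) → ℝ, Measurable G ∧
    ∀ᵐ x ∂P, Dθ s (rg r) θ x = G (Rmat (rg r) x)

/-- RULE_r (§2), linear form. -/
def RuleR (P : Measure Obs) (r : ℕ) : Prop :=
  ∀ (s : Species) (θ : (Fin r → s.Cfg) → ℝ) (χ : s.Cfg → ℝ),
    ∃ G : (Fin r → Fin r → ℝ) → ℝ, Measurable G ∧ (∃ B, ∀ M, |G M| ≤ B) ∧
    ∀ (m : ℕ), r ≤ m → ∀ Φ : Obs → ℝ, Measurable[Gσ m] Φ → (∀ x, |Φ x| ≤ 1) →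
      (m : ℝ) * ∫ x, Φ x * Dθ s (rgl r m) (tens θ χ) x ∂P =
        (∑ l ∈ Finset.Ico r m, ∫ x, Φ x * Dθ s (rgl r l) (tens θ χ) x ∂P) +
          r * ∫ x, Φ x * G (Rmat (rg r) x) ∂P

/-- `Y_l = (D_s(0..r-1,l)(θ⊗χ), R_{0l}, …, R_{r-1,l})`. -/
noncomputable def Yv (s : Species) {r : ℕ} (θ : (Fin r → s.Cfg) → ℝ) (χ : s.Cfg → ℝ) (l : ℕ)
    (x : Obs) : ℝ × (Fin r → ℝ) :=
  (Dθ s (rgl r l) (tens θ χ) x, fun i => Rov x i l)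

/-- RULE_r for bounded Borel functions of `Y`. -/
def RuleB (P : Measure Obs) (r : ℕ) : Prop :=
  ∀ (s : Species) (θ : (Fin r → s.Cfg) → ℝ) (χ : s.Cfg → ℝ)
    (f : ℝ × (Fin r → ℝ) → ℝ), Measurable f → (∃ B, ∀ y, |f y| ≤ B) →
    ∃ G : (Fin r → Fin r → ℝ) → ℝ, Measurable G ∧ (∃ B, ∀ M, |G M| ≤ B) ∧
    ∀ (m : ℕ), r ≤ m → ∀ Φ : Obs → ℝ, Measurable[Gσ m] Φ → (∀ x, |Φ x| ≤ 1) →
      (m : ℝ) * ∫ x, Φ x * f (Yv s θ χ m x) ∂P =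
        (∑ l ∈ Finset.Ico r m, ∫ x, Φ x * f (Yv s θ χ l x) ∂P) +
          r * ∫ x, Φ x * G (Rmat (rg r) x) ∂P

/-- Ghirlanda-Guerra identities for the scalar overlap (§2, `r = 1`). -/
def GG (P : Measure Obs) : Prop :=
  ∀ (m n : ℕ), n < m → ∀ (f : ℝ → ℝ), Measurable f → (∃ B, ∀ y, |f y| ≤ B) →
    ∀ Φ : Obs → ℝ, Measurable[Gσ m] Φ → (∀ x, |Φ x| ≤ 1) →
      (m : ℝ) * ∫ x, Φ x * f (Rov x n m) ∂P =
        (∑ l ∈ (Finset.range m).erase n, ∫ x, Φ x * f (Rov x n l) ∂P) +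
          (∫ x, Φ x ∂P) * ∫ x, f (Rov x 0 1) ∂P

/-- The quadratic form of §0 (CS): two groups of replicas `as`, `bs` of size `K`. -/
noncomputable def Qf {K : ℕ} (as bs : Fin K → ℕ) (x : Obs) : ℝ :=
  ((∑ a, ∑ a', Rov x (as a) (as a')) + (∑ b, ∑ b', Rov x (bs b) (bs b'))
    - 2 * ∑ a, ∑ b, Rov x (as a) (bs b)) / (K : ℝ) ^ 2

end Crest.Agent.MP
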