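import Crest.Agent.MP.RAlg

/-!
# R-DUP: the duplication lemma (§3)

Proof of `dup`: suppose the probability is `0`.  Let `γ = P(t < R_01) < 1` and
`B_M = {R_{n,l} ≤ t for n < l ≤ n+M}`.  GG with `f = 1(· > t)`, replica `n`, `m = n+1+k` and
`Φ = 1_{U ∩ B_k}` gives `P(U ∩ B_{k+1}) = (1 - γ/(n+1+k)) P(U ∩ B_k)` (all `R_{n,l} ≤ t` on
`U ∩ B_k`).  Bernoulli: `1 - γ/x ≥ ((x-1)/x)^γ`, so `P(U ∩ B_M) ≥ P(U) (n/(n+M))^γ`.
By the assumption and exchangeability, a.s. on `U ∩ B_M` none of the sets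
`U_l = {swapRep n l x ∈ U}`, `n < l ≤ n+M` holds.  The events
`{U_l, no U_{l'} (l' ≠ l, n ≤ l' ≤ n+M)}`, `n ≤ l ≤ n+M`, are disjoint and have the same
probability, so it is `≤ 1/(M+1)`.  `M → ∞` gives a contradiction.
-/

set_option autoImplicit false

namespace Crest.Agent.MP

open MeasureTheory Filter Topology

/-- A `Gσ m`-measurable set depends only on the replicas `< m`. -/
theorem Gσ_mem_dep {m : ℕ} {U : Set Obs} (hU : MeasurableSet[Gσ m] U) {x y : Obs}
    (h : ∀ i : OIdx, (∀ j, i.2.2.1 j < m) → x i = y i) : x ∈ U ↔ y ∈ U := by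
  have hm : Measurable[Gσ m] (U.indicator (fun _ => (1 : ℝ))) :=
    Measurable.indicator measurable_const hU
  have h1 := Gσ_dep hm h
  by_cases hx : x ∈ U <;> by_cases hy : y ∈ U <;> simp_all [Set.indicator]

/-- The measurable set `{x | swapRep a b x ∈ U}`. -/
theorem Gσ_swap_set {m M a b : ℕ} (hm : m ≤ M) (ha : a < M) (hb : b < M) {U : Set Obs}
    (hU : MeasurableSet[Gσ m] U) : MeasurableSet[Gσ M] {x | swapRep a b x ∈ U} := by
  have hmeas : Measurable[Gσ m] (U.indicator (fun _ => (1 : ℝ))) :=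
    Measurable.indicator measurable_const hU
  have h1 := Gσ_swapRep hm ha hb hmeas
  have h2 : {x | swapRep a b x ∈ U} =
      (fun x => U.indicator (fun _ => (1 : ℝ)) (swapRep a b x)) ⁻¹' {1} := by
    ext x
    by_cases hx : swapRep a b x ∈ U <;> simp [hx, Set.indicator]
  rw [h2]
  exact h1 (measurableSet_singleton 1)

theorem Gσ_Rov_set {m l l' : ℕ} (hl : l < m) (hl' : l' < m) (t : ℝ) :
    MeasurableSet[Gσ m] {x | Rov x l l' ≤ t} :=
  Gσ_Rov hl hl' measurableSet_Iic

/-- the events `U ∩ B_M` -/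
def dupE (n : ℕ) (U : Set Obs) (t : ℝ) (M : ℕ) : Set Obs :=
  {x | x ∈ U ∧ ∀ l ∈ Finset.Ioc n (n + M), Rov x n l ≤ t}

theorem dupE_meas {n : ℕ} {U : Set Obs} (hU : MeasurableSet[Gσ (n + 1)] U) (t : ℝ) (M : ℕ) :
    MeasurableSet[Gσ (n + 1 + M)] (dupE n U t M) := by
  have h1 : MeasurableSet[Gσ (n + 1 + M)] U := Gσ_mono (by omega) _ hU
  have h2 : dupE n U t M = U ∩ ⋂ l ∈ Finset.Ioc n (n + M), {x | Rov x n l ≤ t} := by
    ext x; simp [dupE]
  rw [h2]
  refine MeasurableSet.inter h1 ?_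
  refine Finset.measurableSet_biInter _ fun l hl => ?_
  rw [Finset.mem_Ioc] at hl
  exact Gσ_Rov_set (by omega) (by omega) t

theorem dupE_zero (n : ℕ) (U : Set Obs) (t : ℝ) : dupE n U t 0 = U := by
  ext x; simp [dupE]

theorem dupE_succ (n : ℕ) (U : Set Obs) (t : ℝ) (M : ℕ) :
    dupE n U t (M + 1) = dupE n U t M \ {x | t < Rov x n (n + 1 + M)} := by
  ext x
  simp only [dupE, Set.mem_setOf_eq, Set.mem_diff, not_lt, Finset.mem_Ioc]
  constructor
  · rintro ⟨h1, h2⟩
    exact ⟨⟨h1, fun l hl => h2 l ⟨hl.1, by omega⟩⟩, h2 _ ⟨by omega, by omega⟩⟩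
  · rintro ⟨⟨h1, h2⟩, h3⟩
    refine ⟨h1, fun l hl => ?_⟩
    by_cases h : l ≤ n + M
    · exact h2 l ⟨hl.1, h⟩
    · have : l = n + 1 + M := by omega
      rw [this]; exact h3

/-- one step of the recursion -/
theorem dup_step {P : Measure Obs} (hP : LimitModel P) (hGG : GG P) {n : ℕ}
    (U : Set Obs) (hU : MeasurableSet[Gσ (n + 1)] U) (t : ℝ)
    (hR : ∀ᵐ x ∂P, x ∈ U → ∀ i < n, Rov x i n ≤ t) (M : ℕ) :
    P.real (dupE n U t (M + 1)) =
      (1 - P.real {x | t < Rov x 0 1} / (n + 1 + M)) * P.real (dupE n U t M) := by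
  haveI := hP.prob
  set E := dupE n U t M with hE
  have hEm : MeasurableSet[Gσ (n + 1 + M)] E := dupE_meas hU t M
  have hEm' : MeasurableSet E := Gσ_le _ _ hEm
  have hS : ∀ l l' : ℕ, MeasurableSet {x : Obs | t < Rov x l l'} := fun l l' =>
    (measurable_Rov l l') measurableSet_Ioi
  -- integrals
  have hint : ∀ l l' : ℕ, ∫ x, (E.indicator (fun _ => (1 : ℝ)) x) *
      ((Set.Ioi t).indicator (fun _ => (1 : ℝ)) (Rov x l l')) ∂P =
        P.real (E ∩ {x | t < Rov x l l'}) := by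
    intro l l'
    have h1 : (fun x => (E.indicator (fun _ => (1 : ℝ)) x) *
      ((Set.Ioi t).indicator (fun _ => (1 : ℝ)) (Rov x l l'))) =
        (E ∩ {x | t < Rov x l l'}).indicator (fun _ => (1 : ℝ)) := by
      funext x
      by_cases hx : x ∈ E <;> by_cases hx' : t < Rov x l l' <;> simp [hx, hx', Set.indicator]
    rw [h1, integral_indicator_const _ (hEm'.inter (hS l l'))]
    simp
  have hint0 : ∫ x, (E.indicator (fun _ => (1 : ℝ)) x) ∂P = P.real E := by
    rw [integral_indicator_const _ hEm']; simp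
  have hint1 : ∫ x, ((Set.Ioi t).indicator (fun _ => (1 : ℝ)) (Rov x 0 1)) ∂P =
      P.real {x | t < Rov x 0 1} := by
    have h1 : (fun x => ((Set.Ioi t).indicator (fun _ => (1 : ℝ)) (Rov x 0 1))) =
        ({x | t < Rov x 0 1}).indicator (fun _ => (1 : ℝ)) := by
      funext x
      by_cases hx' : t < Rov x 0 1 <;> simp [hx', Set.indicator]
    rw [h1, integral_indicator_const _ (hS 0 1)]
    simp
  have hgg := hGG (n + 1 + M) n (by omega) ((Set.Ioi t).indicator (fun _ => (1 : ℝ)))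
    (measurable_const.indicator measurableSet_Ioi)
    ⟨1, fun y => by
      by_cases hy : y ∈ Set.Ioi t <;> simp [hy]⟩
    (E.indicator (fun _ => (1 : ℝ)))
    (Measurable.indicator measurable_const hEm)
    (fun x => by by_cases hx : x ∈ E <;> simp [hx])
  rw [hint, hint0, hint1] at hgg
  have hzero : (∑ l ∈ (Finset.range (n + 1 + M)).erase n,
      ∫ x, (E.indicator (fun _ => (1 : ℝ)) x) *
        ((Set.Ioi t).indicator (fun _ => (1 : ℝ)) (Rov x n l)) ∂P) = 0 := by
    refine Finset.sum_eq_zero fun l hl => ?_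
    rw [hint]
    rw [Finset.mem_erase, Finset.mem_range] at hl
    have hae : ∀ᵐ x ∂P, x ∉ (E ∩ {x | t < Rov x n l}) := by
      filter_upwards [hR, Rov_symm hP] with x hx hs
      rintro ⟨h1, h2⟩
      rw [Set.mem_setOf_eq] at h2
      rcases lt_or_gt_of_ne hl.1 with h | h
      · have := hx h1.1 l h
        rw [hs l n] at this
        linarith
      · have := h1.2 l (Finset.mem_Ioc.mpr ⟨h, by omega⟩)
        linarith
    have h0 : P (E ∩ {x | t < Rov x n l}) = 0 := by
      rw [measure_eq_zero_iff_ae_notMem]; exact hae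
    simp [Measure.real, h0]
  rw [hzero, zero_add] at hgg
  have hm0 : (0 : ℝ) < (n : ℝ) + 1 + M := by positivity
  push_cast at hgg
  rw [dupE_succ]
  have hd : P.real (E \ {x | t < Rov x n (n + 1 + M)}) =
      P.real E - P.real (E ∩ {x | t < Rov x n (n + 1 + M)}) := by
    have := measureReal_inter_add_diff (μ := P) (s := E) (hS n (n + 1 + M))
    linarith
  rw [← hE, hd]
  have h3 : P.real (E ∩ {x | t < Rov x n (n + 1 + M)}) =
      P.real E * P.real {x | t < Rov x 0 1} / (n + 1 + M) := by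
    rw [eq_div_iff hm0.ne']; linarith
  rw [h3]; ring

theorem dup_lower {P : Measure Obs} (hP : LimitModel P) (hGG : GG P) {n : ℕ} (hn : 1 ≤ n)
    (U : Set Obs) (hU : MeasurableSet[Gσ (n + 1)] U) (t : ℝ)
    (hR : ∀ᵐ x ∂P, x ∈ U → ∀ i < n, Rov x i n ≤ t) (M : ℕ) :
    P.real U * ((n : ℝ) / (n + M)) ^ (P.real {x | t < Rov x 0 1}) ≤ P.real (dupE n U t M) := by
  haveI := hP.prob
  set γ := P.real {x | t < Rov x 0 1} with hγ
  have hγ0 : 0 ≤ γ := measureReal_nonneg
  have hγ1 : γ ≤ 1 := measureReal_le_one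
  have hn0 : (0 : ℝ) < n := by exact_mod_cast hn
  induction M with
  | zero =>
    rw [dupE_zero]
    simp [div_self hn0.ne']
  | succ M ih =>
    rw [dup_step hP hGG U hU t hR M, ← hγ]
    have hM : (0 : ℝ) ≤ M := Nat.cast_nonneg M
    have hpos : (0 : ℝ) < n + 1 + M := by positivity
    have hb : (((n : ℝ) + M) / (n + 1 + M)) ^ γ ≤ 1 - γ / (n + 1 + M) := by
      have h1 := rpow_one_add_le_one_add_mul_self (s := -(1 / ((n : ℝ) + 1 + M)))
        (by
          have : 1 / ((n : ℝ) + 1 + M) ≤ 1 := by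
            rw [div_le_one hpos]; linarith
          linarith) hγ0 hγ1
      have e1 : ((n : ℝ) + M) / (n + 1 + M) = 1 + -(1 / ((n : ℝ) + 1 + M)) := by
        field_simp; ring
      rw [e1]
      refine h1.trans (le_of_eq ?_)
      ring
    have e2 : ((n : ℝ) / (n + ((M + 1 : ℕ) : ℝ))) ^ γ =
        ((n : ℝ) / (n + M)) ^ γ * (((n : ℝ) + M) / (n + 1 + M)) ^ γ := by
      rw [← Real.mul_rpow (by positivity) (by positivity)]
      congr 1
      push_cast
      field_simp
      ring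
    rw [e2]
    have h0 : 0 ≤ (((n : ℝ) + M) / (n + 1 + M)) ^ γ := Real.rpow_nonneg (by positivity) _
    calc P.real U * (((n : ℝ) / (n + M)) ^ γ * (((n : ℝ) + M) / (n + 1 + M)) ^ γ)
        = (P.real U * ((n : ℝ) / (n + M)) ^ γ) * (((n : ℝ) + M) / (n + 1 + M)) ^ γ := by ring
      _ ≤ P.real (dupE n U t M) * (((n : ℝ) + M) / (n + 1 + M)) ^ γ :=
          mul_le_mul_of_nonneg_right ih h0
      _ ≤ P.real (dupE n U t M) * (1 - γ / (n + 1 + M)) :=
          mul_le_mul_of_nonneg_left hb measureReal_nonneg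
      _ = _ := by ring

/-! ### the upper bound -/

/-- composition of swaps on labels `≤ n` -/
theorem swap_comp_mem {n : ℕ} {U : Set Obs} (hU : MeasurableSet[Gσ (n + 1)] U) {x : Obs}
    {a b c d e f : ℕ}
    (h : ∀ j, j < n + 1 → Equiv.swap a b (Equiv.swap c d j) = Equiv.swap e f j) :
    swapRep c d (swapRep a b x) ∈ U ↔ swapRep e f x ∈ U := by
  refine Gσ_mem_dep hU fun i hi => ?_
  simp only [swapRep]
  congr 1
  have : (fun j => Equiv.swap a b (Equiv.swap c d (i.2.2.1 j))) =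
      fun j => Equiv.swap e f (i.2.2.1 j) := by
    funext j; exact h _ (hi j)
  rw [this]

theorem dup_null {P : Measure Obs} (hP : LimitModel P) {n : ℕ}
    (U : Set Obs) (hU : MeasurableSet[Gσ (n + 1)] U) (t : ℝ)
    (h0 : P {x | x ∈ U ∧ swapRep n (n + 1) x ∈ U ∧ Rov x n (n + 1) ≤ t} = 0) (l : ℕ)
    (hl : n < l) :
    ∀ᵐ x ∂P, ¬ (x ∈ U ∧ swapRep n l x ∈ U ∧ Rov x n l ≤ t) := by
  have h1 : ∀ᵐ x ∂P, ¬ (x ∈ U ∧ swapRep n (n + 1) x ∈ U ∧ Rov x n (n + 1) ≤ t) := by
    rw [ae_iff]; simpa using h0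
  have h2 := (hP.exch (n + 1) l).quasiMeasurePreserving.ae h1
  filter_upwards [h2] with x hx
  rintro ⟨a, b, c⟩
  apply hx
  refine ⟨?_, ?_, ?_⟩
  · have := swap_comp_mem hU (x := x) (a := n + 1) (b := l) (c := n) (d := n) (e := n) (f := n)
      (by
        intro j hj
        simp only [Equiv.swap_self, Equiv.refl_apply]
        rw [Equiv.swap_apply_of_ne_of_ne (by omega) (by omega)])
    have e : ∀ y : Obs, swapRep n n y = y := by
      intro y; funext i; simp [swapRep]
    rw [e, e] at this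
    exact this.mpr a
  · refine (swap_comp_mem hU (x := x) (a := n + 1) (b := l) (c := n) (d := n + 1) (e := n)
      (f := l) ?_).mpr b
    intro j hj
    rcases Nat.lt_or_ge j n with h | h
    · rw [Equiv.swap_apply_of_ne_of_ne (by omega : j ≠ n) (by omega : j ≠ n + 1),
        Equiv.swap_apply_of_ne_of_ne (by omega : j ≠ n + 1) (by omega : j ≠ l),
        Equiv.swap_apply_of_ne_of_ne (by omega : j ≠ n) (by omega : j ≠ l)]
    · have : j = n := by omega
      subst this
      rw [Equiv.swap_apply_left, Equiv.swap_apply_left, Equiv.swap_apply_left]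
  · rw [Rov_swapRep, Equiv.swap_apply_of_ne_of_ne (by omega : n ≠ n + 1) (by omega : n ≠ l),
      Equiv.swap_apply_left]
    exact c

/-- only `l` among `n..n+M` has its swap in `U` -/
def dupA (n : ℕ) (U : Set Obs) (M : ℕ) (l : ℕ) : Set Obs :=
  {x | swapRep n l x ∈ U ∧ ∀ l' ∈ Finset.Icc n (n + M), l' ≠ l → swapRep n l' x ∉ U}

theorem dupA_meas {n : ℕ} {U : Set Obs} (hU : MeasurableSet[Gσ (n + 1)] U) (M l : ℕ) :
    MeasurableSet (dupA n U M l) := by
  have h : ∀ l', MeasurableSet {x | swapRep n l' x ∈ U} := fun l' =>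
    Gσ_le _ _ (Gσ_swap_set (M := n + l' + 1) (by omega) (by omega) (by omega) hU)
  have h2 : dupA n U M l = {x | swapRep n l x ∈ U} ∩
      ⋂ l' ∈ (Finset.Icc n (n + M)).erase l, {x | swapRep n l' x ∈ U}ᶜ := by
    ext x
    simp only [dupA, Set.mem_setOf_eq, Set.mem_inter_iff, Set.mem_iInter, Finset.mem_erase,
      Set.mem_compl_iff]
    constructor
    · rintro ⟨h1, h2⟩; exact ⟨h1, fun l' hl' => h2 l' hl'.2 hl'.1⟩
    · rintro ⟨h1, h2⟩; exact ⟨h1, fun l' h3 h4 => h2 l' ⟨h4, h3⟩⟩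
  rw [h2]
  exact (h l).inter (Finset.measurableSet_biInter _ fun l' _ => (h l').compl)

theorem dupA_measure {P : Measure Obs} (hP : LimitModel P) {n : ℕ} {U : Set Obs}
    (hU : MeasurableSet[Gσ (n + 1)] U) (M l : ℕ) (hl : l ∈ Finset.Icc n (n + M)) :
    P (dupA n U M l) = P (dupA n U M n) := by
  rw [Finset.mem_Icc] at hl
  have h1 := (hP.exch n l).measure_preimage (dupA_meas hU M n).nullMeasurableSet
  rw [← h1]
  congr 1
  ext x
  have e : ∀ y : Obs, swapRep n n y = y := by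
    intro y; funext i; simp [swapRep]
  have hcomp : ∀ l', n ≤ l' → l' ≠ n → l' ≠ l →
      (swapRep n l' (swapRep n l x) ∈ U ↔ swapRep n l' x ∈ U) := by
    intro l' h2 h3 h4
    refine swap_comp_mem hU ?_
    intro j hj
    rcases Nat.lt_or_ge j n with h | h
    · rw [Equiv.swap_apply_of_ne_of_ne (by omega : j ≠ n) (by omega : j ≠ l'),
        Equiv.swap_apply_of_ne_of_ne (by omega : j ≠ n) (by omega : j ≠ l)]
    · have : j = n := by omega
      subst this
      rw [Equiv.swap_apply_left, Equiv.swap_apply_of_ne_of_ne h3 h4]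
  have hself : swapRep n l (swapRep n l x) = x := swapRep_swapRep n l x
  simp only [dupA, Set.mem_setOf_eq, Set.mem_preimage]
  constructor
  · rintro ⟨h2, h3⟩
    refine ⟨by rw [e]; exact h2, fun l' h4 h5 => ?_⟩
    by_cases h6 : l' = l
    · rw [h6, hself]
      have := h3 n (Finset.mem_Icc.mpr ⟨le_rfl, by omega⟩) (by
        rintro rfl; exact h5 h6)
      rwa [e] at this
    · rw [hcomp l' (Finset.mem_Icc.mp h4).1 h5 h6]
      exact h3 l' h4 h6
  · rintro ⟨h2, h3⟩
    rw [e] at h2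
    refine ⟨h2, fun l' h4 h5 => ?_⟩
    by_cases h6 : l' = n
    · subst h6
      have := h3 l (Finset.mem_Icc.mpr hl) (Ne.symm h5)
      rw [hself] at this
      rwa [e]
    · rw [← hcomp l' (Finset.mem_Icc.mp h4).1 h6 h5]
      exact h3 l' h4 h6

theorem dup_upper {P : Measure Obs} (hP : LimitModel P) {n : ℕ}
    (U : Set Obs) (hU : MeasurableSet[Gσ (n + 1)] U) (t : ℝ)
    (h0 : P {x | x ∈ U ∧ swapRep n (n + 1) x ∈ U ∧ Rov x n (n + 1) ≤ t} = 0) (M : ℕ) :
    ((M : ℝ) + 1) * P.real (dupE n U t M) ≤ 1 := by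
  haveI := hP.prob
  have hsub : P (dupE n U t M) ≤ P (dupA n U M n) := by
    refine measure_mono_ae ?_
    have h1 : ∀ᵐ x ∂P, ∀ l : ℕ, n < l → ¬ (x ∈ U ∧ swapRep n l x ∈ U ∧ Rov x n l ≤ t) := by
      rw [ae_all_iff]; intro l
      by_cases hl : n < l
      · filter_upwards [dup_null hP U hU t h0 l hl] with x hx _ using hx
      · exact Eventually.of_forall fun x h => absurd h hl
    filter_upwards [h1] with x hx
    rintro ⟨h2, h3⟩
    have e : ∀ y : Obs, swapRep n n y = y := by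
      intro y; funext i; simp [swapRep]
    refine ⟨by rw [e]; exact h2, fun l' h4 h5 h6 => ?_⟩
    have h7 : n < l' := lt_of_le_of_ne (Finset.mem_Icc.mp h4).1 (Ne.symm h5)
    exact hx l' h7 ⟨h2, h6, h3 l' (Finset.mem_Ioc.mpr ⟨h7, (Finset.mem_Icc.mp h4).2⟩)⟩
  have hdisj : Set.PairwiseDisjoint (↑(Finset.Icc n (n + M))) (dupA n U M) := by
    intro a ha b hb hab
    rw [Function.onFun, Set.disjoint_left]
    rintro x ⟨h1, h2⟩ ⟨h3, h4⟩
    exact h2 b hb (Ne.symm hab) h3
  have hsum : ∑ l ∈ Finset.Icc n (n + M), P (dupA n U M l) ≤ 1 := by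
    rw [← measure_biUnion_finset hdisj fun l _ => dupA_meas hU M l]
    exact prob_le_one
  have hsum2 : ((M : ENNReal) + 1) * P (dupA n U M n) ≤ 1 := by
    have : ∑ l ∈ Finset.Icc n (n + M), P (dupA n U M l) =
        ((M : ENNReal) + 1) * P (dupA n U M n) := by
      rw [Finset.sum_congr rfl fun l hl => dupA_measure hP hU M l hl, Finset.sum_const,
        Nat.card_Icc, nsmul_eq_mul]
      congr 1
      have : n + M + 1 - n = M + 1 := by omega
      rw [this]; push_cast; rfl
    rw [← this]; exact hsum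
  have h3 : ((M : ENNReal) + 1) * P (dupE n U t M) ≤ 1 :=
    (mul_le_mul_right hsub _).trans hsum2
  have h4 := ENNReal.toReal_mono ENNReal.one_ne_top h3
  rw [ENNReal.toReal_mul, ENNReal.toReal_one] at h4
  have h5 : ((M : ENNReal) + 1).toReal = (M : ℝ) + 1 := by
    rw [ENNReal.toReal_add (ENNReal.natCast_ne_top M) ENNReal.one_ne_top]; simp
  rw [h5] at h4
  exact h4

theorem dup {P : Measure Obs} (hP : LimitModel P) (hGG : GG P) {n : ℕ} (hn : 1 ≤ n)
    (U : Set Obs) (hU : MeasurableSet[Gσ (n + 1)] U) (t : ℝ)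
    (hR : ∀ᵐ x ∂P, x ∈ U → ∀ i < n, Rov x i n ≤ t)
    (hγ : P {x | t < Rov x 0 1} < 1) (hpos : 0 < P U) :
    0 < P {x | x ∈ U ∧ swapRep n (n + 1) x ∈ U ∧ Rov x n (n + 1) ≤ t} := by
  haveI := hP.prob
  by_contra hcon
  have h0 : P {x | x ∈ U ∧ swapRep n (n + 1) x ∈ U ∧ Rov x n (n + 1) ≤ t} = 0 := by
    simpa using hcon
  set γ := P.real {x | t < Rov x 0 1} with hγd
  have hγ0 : 0 ≤ γ := measureReal_nonneg
  have hγ1 : γ < 1 := by
    have := (ENNReal.toReal_lt_toReal (measure_ne_top P _) ENNReal.one_ne_top).mpr hγ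
    rw [hγd, Measure.real]; simpa using this
  have hp : 0 < P.real U := by
    rw [Measure.real]; exact ENNReal.toReal_pos hpos.ne' (measure_ne_top P _)
  have hn0 : (0 : ℝ) < n := by exact_mod_cast hn
  have key : ∀ M : ℕ, P.real U * (n : ℝ) ^ γ * (((n : ℝ) + M) ^ (1 - γ)) ≤
      ((n : ℝ) + M) / (M + 1) := by
    intro M
    have h1 := dup_lower hP hGG hn U hU t hR M
    have h2 := dup_upper hP U hU t h0 M
    rw [← hγd] at h1
    have hnM : (0 : ℝ) < n + M := by positivity
    have hM1 : (0 : ℝ) < M + 1 := by positivity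
    have h3 : P.real U * ((n : ℝ) / (n + M)) ^ γ ≤ 1 / (M + 1) := by
      rw [le_div_iff₀ hM1]
      calc P.real U * ((n : ℝ) / (n + M)) ^ γ * (M + 1)
          ≤ P.real (dupE n U t M) * (M + 1) := mul_le_mul_of_nonneg_right h1 hM1.le
        _ ≤ 1 := by linarith
    have e1 : ((n : ℝ) / (n + M)) ^ γ = (n : ℝ) ^ γ / (n + M) ^ γ :=
      Real.div_rpow hn0.le hnM.le _
    have e2 : ((n : ℝ) + M) ^ (1 - γ) = (n + M) / ((n : ℝ) + M) ^ γ := by
      rw [Real.rpow_sub hnM, Real.rpow_one]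
    rw [e1] at h3
    rw [e2]
    calc P.real U * (n : ℝ) ^ γ * ((n + M) / ((n : ℝ) + M) ^ γ)
        = (P.real U * ((n : ℝ) ^ γ / (n + M) ^ γ)) * (n + M) := by ring
      _ ≤ 1 / (M + 1) * (n + M) := mul_le_mul_of_nonneg_right h3 hnM.le
      _ = _ := by ring
  have key2 : ∀ M : ℕ, P.real U * (n : ℝ) ^ γ * ((M : ℝ) ^ (1 - γ)) ≤ n := by
    intro M
    have hM : (0 : ℝ) ≤ M := Nat.cast_nonneg M
    have h1 : ((n : ℝ) + M) / (M + 1) ≤ n := by
      rw [div_le_iff₀ (by positivity)]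
      have : (1 : ℝ) ≤ n := by exact_mod_cast hn
      nlinarith
    have h2 : (M : ℝ) ^ (1 - γ) ≤ ((n : ℝ) + M) ^ (1 - γ) :=
      Real.rpow_le_rpow hM (by linarith) (by linarith)
    have h3 : 0 ≤ P.real U * (n : ℝ) ^ γ := mul_nonneg hp.le (Real.rpow_nonneg hn0.le _)
    exact (mul_le_mul_of_nonneg_left h2 h3).trans ((key M).trans h1)
  have htend : Tendsto (fun M : ℕ => P.real U * (n : ℝ) ^ γ * ((M : ℝ) ^ (1 - γ))) atTop atTop := by
    refine Tendsto.const_mul_atTop (mul_pos hp (Real.rpow_pos_of_pos hn0 _)) ?_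
    exact (tendsto_rpow_atTop (by linarith)).comp tendsto_natCast_atTop_atTop
  obtain ⟨M, hM⟩ := (htend.eventually (eventually_gt_atTop (n : ℝ))).exists
  exact absurd (key2 M) (not_le.mpr hM)

/-- the iterated duplication event -/
def dupV (n : ℕ) (U : Set Obs) (t : ℝ) (K : ℕ) : Set Obs :=
  {x | (∀ a ≤ K, swapRep n (n + a) x ∈ U) ∧
      ∀ a ≤ K, ∀ b ≤ K, a ≠ b → Rov x (n + a) (n + b) ≤ t}

theorem dupV_meas {n : ℕ} {U : Set Obs} (hU : MeasurableSet[Gσ (n + 1)] U) (t : ℝ) (K : ℕ) :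
    MeasurableSet[Gσ (n + K + 1)] (dupV n U t K) := by
  have h2 : dupV n U t K = (⋂ a ∈ Finset.range (K + 1), {x | swapRep n (n + a) x ∈ U}) ∩
      ⋂ p ∈ ((Finset.range (K + 1) ×ˢ Finset.range (K + 1)).filter fun p => p.1 ≠ p.2),
        {x | Rov x (n + p.1) (n + p.2) ≤ t} := by
    ext x
    simp only [dupV, Set.mem_setOf_eq, Set.mem_inter_iff, Set.mem_iInter, Finset.mem_filter,
      Finset.mem_product, Finset.mem_range, Prod.forall, Nat.lt_succ_iff]
    constructor
    · rintro ⟨h1, h2⟩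
      exact ⟨fun a ha => h1 a ha, fun a b h => h2 a h.1.1 b h.1.2 h.2⟩
    · rintro ⟨h1, h2⟩
      exact ⟨fun a ha => h1 a ha, fun a ha b hb hab => h2 a b ⟨⟨ha, hb⟩, hab⟩⟩
  rw [h2]
  refine MeasurableSet.inter ?_ ?_
  · refine Finset.measurableSet_biInter _ fun a ha => ?_
    rw [Finset.mem_range] at ha
    exact Gσ_swap_set (by omega) (by omega) (by omega) hU
  · refine Finset.measurableSet_biInter _ fun p hp => ?_
    simp only [Finset.mem_filter, Finset.mem_product, Finset.mem_range] at hp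
    exact Gσ_Rov_set (by omega) (by omega) t

/-- `K + 1` duplicates. Proof: induction on `K`, applying `dup` with base `n + K` to the event
`V_K` below (which is `Gσ (n+K+1)`-measurable); membership in `U` only depends on replicas `≤ n`
(`Gσ_dep`). -/
theorem dup_iter {P : Measure Obs} (hP : LimitModel P) (hGG : GG P) {n : ℕ} (hn : 1 ≤ n)
    (U : Set Obs) (hU : MeasurableSet[Gσ (n + 1)] U) (t : ℝ)
    (hR : ∀ᵐ x ∂P, x ∈ U → ∀ i < n, Rov x i n ≤ t)
    (hγ : P {x | t < Rov x 0 1} < 1) (hpos : 0 < P U) (K : ℕ) :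
    0 < P {x | (∀ a ≤ K, swapRep n (n + a) x ∈ U) ∧
      ∀ a ≤ K, ∀ b ≤ K, a ≠ b → Rov x (n + a) (n + b) ≤ t} := by
  have e : ∀ y : Obs, swapRep n n y = y := by
    intro y; funext i; simp [swapRep]
  change 0 < P (dupV n U t K)
  induction K with
  | zero =>
    have : dupV n U t 0 = U := by
      ext x
      simp only [dupV, Set.mem_setOf_eq, Nat.le_zero]
      constructor
      · rintro ⟨h1, _⟩
        have := h1 0 rfl
        rwa [Nat.add_zero, e] at this
      · intro h
        refine ⟨?_, ?_⟩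
        · rintro a rfl
          rwa [Nat.add_zero, e]
        · rintro a rfl b rfl h; exact absurd rfl h
    rw [this]; exact hpos
  | succ K ih =>
    have hR' : ∀ᵐ x ∂P, x ∈ dupV n U t K → ∀ i < n + K, Rov x i (n + K) ≤ t := by
      have h2 := (hP.exch n (n + K)).quasiMeasurePreserving.ae hR
      filter_upwards [h2] with x hx
      rintro ⟨h3, h4⟩ i hi
      rcases Nat.lt_or_ge i n with h | h
      · have h5 := hx (h3 K le_rfl) i h
        rwa [Rov_swapRep, Equiv.swap_apply_of_ne_of_ne (by omega) (by omega),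
          Equiv.swap_apply_left] at h5
      · have h6 := h4 (i - n) (by omega) K le_rfl (by omega)
        have : n + (i - n) = i := by omega
        rwa [this] at h6
    have hd := dup hP hGG (n := n + K) (by omega) (dupV n U t K) (dupV_meas hU t K) t hR' hγ ih
    refine lt_of_lt_of_le hd (measure_mono_ae ?_)
    filter_upwards [Rov_symm hP] with x hs
    rintro ⟨h1, h2, h3⟩
    change x ∈ dupV n U t (K + 1)
    have hRov : ∀ a, a < K → Rov x (n + a) (n + (K + 1)) ≤ t := by
      intro a ha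
      have := h2.2 a ha.le K le_rfl (by omega)
      rw [Rov_swapRep, Equiv.swap_apply_of_ne_of_ne (by omega) (by omega),
        Equiv.swap_apply_left] at this
      exact this
    have hRov' : ∀ a, a ≤ K → Rov x (n + a) (n + (K + 1)) ≤ t := by
      intro a ha
      rcases Nat.lt_or_ge a K with h | h
      · exact hRov a h
      · have : a = K := by omega
        subst this; exact h3
    refine ⟨fun a ha => ?_, fun a ha b hb hab => ?_⟩
    · rcases Nat.lt_or_ge K a with h | h
      · have : a = K + 1 := by omega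
        subst this
        refine (swap_comp_mem hU (x := x) (a := n + K) (b := n + K + 1) (c := n) (d := n + K)
          (e := n) (f := n + (K + 1)) ?_).mp (h2.1 K le_rfl)
        intro j hj
        rcases Nat.lt_or_ge j n with h | h
        · rw [Equiv.swap_apply_of_ne_of_ne (by omega : j ≠ n) (by omega : j ≠ n + K),
            Equiv.swap_apply_of_ne_of_ne (by omega : j ≠ n + K) (by omega : j ≠ n + K + 1),
            Equiv.swap_apply_of_ne_of_ne (by omega : j ≠ n) (by omega : j ≠ n + (K + 1))]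
        · have : j = n := by omega
          subst this
          rw [Equiv.swap_apply_left, Equiv.swap_apply_left, Equiv.swap_apply_left]
          rfl
      · exact h1.1 a h
    · rcases Nat.lt_or_ge K a with h | h
      · have ha' : a = K + 1 := by omega
        subst ha'
        rw [hs]
        exact hRov' b (by omega)
      · rcases Nat.lt_or_ge K b with h' | h'
        · have hb' : b = K + 1 := by omega
          subst hb'
          exact hRov' a h
        · exact h1.2 a h b h' hab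

end Crest.Agent.MP
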