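import Crest.Agent.MP.RAlg

/-!
# R-RULE: CLAIM_r ⇒ RULE_r (§2)

Fix `s`, `θ` (|θ| ≤ 1 wlog), `χ = 1_c` (rational valued; general real `χ` by linearity).  By
`ClaimR`, `F_ρ := Dθ (s.tilt χ ρ) (rg r) θ`, `F := Dθ s (rg r) θ` and
`S := Σ_{l<r} Dθ s (rg r) (θ·χ_l)` are a.e. functions of `Rmat (rg r)`.  `hP.tilt r` with `m = r`:
for all `Φ ∈ Gσ r`, `|Φ| ≤ 1`:
`|∫ Φ ((F_ρ - F)/ρ - S + r K)| ≤ C ρ`, where `K = Dθ s (rgl r r) (tens θ χ)`.  Let
`H = E[K | σ(Rmat (rg r))] = G(Rmat (rg r))`.  For general bounded `Φ`, the conditional expectation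
`T = E[Φ | σ(Rmat)]` is in `Gσ r`, so `∫ Φ ((F_ρ - F)/ρ - S) = ∫ T ((F_ρ - F)/ρ - S)`
`→ - r ∫ T K = - r ∫ Φ G(Rmat)`.
For general `m ≥ r` apply `hP.tilt m` with `m` and `Φ ∈ Gσ m` and let `ρ → 0`.
-/

set_option autoImplicit false

namespace Crest.Agent.MP

open MeasureTheory Filter Topology

namespace RR

section gen

variable {Ω : Type} {m g : MeasurableSpace Ω} {m0 : MeasurableSpace Ω}

theorem int_of_bdd {P : Measure Ω} [IsProbabilityMeasure P] {f : Ω → ℝ} (hf : Measurable f)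
    {B : ℝ} (hb : ∀ x, |f x| ≤ B) : Integrable f P :=
  Integrable.of_bound hf.aestronglyMeasurable B (ae_of_all _ (fun x => by simpa using hb x))

theorem int_mul {P : Measure Ω} [IsProbabilityMeasure P] {Φ f : Ω → ℝ} (hΦ : Measurable Φ)
    (hΦb : ∀ x, |Φ x| ≤ 1) (hf : Integrable f P) : Integrable (fun x => Φ x * f x) P :=
  hf.bdd_mul hΦ.aestronglyMeasurable (ae_of_all _ (fun x => by simpa using hΦb x))

/-- `∫ Φ F = ∫ E[Φ|m] F` for `F` a.e. `m`-measurable. -/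
theorem pull {P : Measure Ω} [IsProbabilityMeasure P]
    (hm : m ≤ m0) {Φ F : Ω → ℝ} (hΦ : Measurable Φ)
    (hΦb : ∀ x, |Φ x| ≤ 1) (hF : AEStronglyMeasurable[m] F P) (hFi : Integrable F P) :
    ∫ x, Φ x * F x ∂P = ∫ x, (P[Φ|m]) x * F x ∂P := by
  have h := condExp_mul_of_aestronglyMeasurable_right (μ := P) (m := m) (f := Φ) (g := F) hF
    (int_mul hΦ hΦb hFi) (int_of_bdd hΦ hΦb)
  have h2 := integral_condExp (μ := P) (f := Φ * F) hm
  have h3 : ∫ x, Φ x * F x ∂P = ∫ x, (Φ * F) x ∂P := rfl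
  rw [h3, ← h2]
  exact integral_congr_ae h

/-- Truncation of the conditional expectation. -/
theorem exists_trunc {P : Measure Ω} [IsProbabilityMeasure P]
    {Φ : Ω → ℝ} {B : ℝ} (hB : 0 ≤ B) (hΦb : ∀ x, |Φ x| ≤ B) :
    ∃ T : Ω → ℝ, Measurable[m] T ∧ (∀ x, |T x| ≤ B) ∧ T =ᵐ[P] P[Φ|m] := by
  refine ⟨fun x => max (-B) (min B ((P[Φ|m]) x)), ?_, ?_, ?_⟩
  · have h : Measurable[m] (P[Φ|m]) := stronglyMeasurable_condExp.measurable
    exact (@measurable_const _ _ _ m _).max ((@measurable_const _ _ _ m _).min h)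
  · intro x
    rw [abs_le]
    constructor
    · exact le_max_left _ _
    · exact max_le (by linarith) (min_le_left _ _)
  · have h := ae_bdd_abs_condExp_of_ae_bdd_abs (μ := P) (m := m) (f := Φ) (R := B)
      (ae_of_all _ hΦb)
    filter_upwards [h] with x hx
    rw [abs_le] at hx
    rw [min_eq_right hx.2, max_eq_right hx.1]

/-- The core limit argument. -/
theorem core_lim {P : Measure Ω} [IsProbabilityMeasure P]
    (hm : m ≤ g) (hg : g ≤ m0)
    {F : ℕ → Ω → ℝ} {K : Ω → ℝ} {B : ℝ} (hK : Measurable K) (hKb : ∀ x, |K x| ≤ B)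
    (hF : ∀ k, AEStronglyMeasurable[m] (F k) P) (hFi : ∀ k, Integrable (F k) P) (r : ℝ)
    (hlim : ∀ Φ : Ω → ℝ, Measurable[g] Φ → (∀ x, |Φ x| ≤ 1) →
      Tendsto (fun k => ∫ x, Φ x * F k x ∂P) atTop (𝓝 (- r * ∫ x, Φ x * K x ∂P)))
    {Φ : Ω → ℝ} (hΦ : Measurable Φ) (hΦb : ∀ x, |Φ x| ≤ 1) :
    Tendsto (fun k => ∫ x, Φ x * F k x ∂P) atTop (𝓝 (- r * ∫ x, Φ x * (P[K|m]) x ∂P)) := by
  obtain ⟨T, hT, hTb, hTe⟩ := exists_trunc (P := P) (m := m) zero_le_one hΦb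
  have hm0 : m ≤ m0 := hm.trans hg
  have hT0 : Measurable T := hT.mono hm0 le_rfl
  have hTg : Measurable[g] T := hT.mono hm le_rfl
  have hKi : Integrable K P := int_of_bdd hK hKb
  have h1 := hlim T hTg hTb
  have h2 : ∀ k, ∫ x, T x * F k x ∂P = ∫ x, Φ x * F k x ∂P := by
    intro k
    rw [pull hm0 hΦ hΦb (hF k) (hFi k)]
    refine integral_congr_ae ?_
    filter_upwards [hTe] with x hx
    rw [hx]
  have h3 : ∫ x, T x * K x ∂P = ∫ x, Φ x * (P[K|m]) x ∂P := by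
    have e1 : ∫ x, T x * K x ∂P = ∫ x, T x * (P[K|m]) x ∂P := by
      have h := condExp_mul_of_stronglyMeasurable_left (μ := P) (m := m) (f := T) (g := K)
        hT.stronglyMeasurable (int_mul hT0 hTb hKi) hKi
      have h2 := integral_condExp (μ := P) (f := T * K) hm0
      have h3 : ∫ x, T x * K x ∂P = ∫ x, (T * K) x ∂P := rfl
      rw [h3, ← h2]
      exact integral_congr_ae h
    have e2 : ∫ x, Φ x * (P[K|m]) x ∂P = ∫ x, T x * (P[K|m]) x ∂P := by
      rw [pull hm0 hΦ hΦb stronglyMeasurable_condExp.aestronglyMeasurable integrable_condExp]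
      refine integral_congr_ae ?_
      filter_upwards [hTe] with x hx
      rw [hx]
    rw [e1, e2]
  simp only [h2, h3] at h1
  exact h1

end gen

theorem int_Dθ {P : Measure Obs} [IsProbabilityMeasure P] (s : Species) {n : ℕ} (ls : Fin n → ℕ)
    (θ : (Fin n → s.Cfg) → ℝ) : Integrable (Dθ s ls θ) P :=
  int_of_bdd (measurable_Dθ s ls θ) (abs_Dθ_le s ls θ)

/-- The σ-algebra of the overlap matrix. -/
@[instance_reducible]
noncomputable def mR (r : ℕ) : MeasurableSpace Obs :=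
  MeasurableSpace.comap (Rmat (rg r)) inferInstance

/-- RULE_r for one pair `θ, χ`. -/
def RuleFor (P : Measure Obs) {r : ℕ} (s : Species) (θ : (Fin r → s.Cfg) → ℝ) (χ : s.Cfg → ℝ) :
    Prop :=
  ∃ G : (Fin r → Fin r → ℝ) → ℝ, Measurable G ∧ (∃ B, ∀ M, |G M| ≤ B) ∧
    ∀ (m : ℕ), r ≤ m → ∀ Φ : Obs → ℝ, Measurable[Gσ m] Φ → (∀ x, |Φ x| ≤ 1) →
      (m : ℝ) * ∫ x, Φ x * Dθ s (rgl r m) (tens θ χ) x ∂P =
        (∑ l ∈ Finset.Ico r m, ∫ x, Φ x * Dθ s (rgl r l) (tens θ χ) x ∂P) +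
          r * ∫ x, Φ x * G (Rmat (rg r) x) ∂P

theorem aesm_of_claim {P : Measure Obs} {r : ℕ} (hc : ClaimR P r) (s : Species)
    (θ : (Fin r → s.Cfg) → ℝ) :
    AEStronglyMeasurable[mR r] (Dθ s (rg r) θ) P := by
  obtain ⟨G, hG, hGe⟩ := hc s θ
  refine ⟨fun x => G (Rmat (rg r) x), ?_, hGe⟩
  exact (hG.comp (comap_measurable (Rmat (rg r)))).stronglyMeasurable

theorem ruleFor_core {P : Measure Obs} (hP : LimitModel P) {r : ℕ} (hr : 1 ≤ r)
    (hc : ClaimR P r) (s : Species) (θ : (Fin r → s.Cfg) → ℝ) (hθ : ∀ c, |θ c| ≤ 1)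
    (χ : s.Cfg → ℚ) (hχ : ∀ c, |χ c| ≤ 1) : RuleFor P s θ (fun c => (χ c : ℝ)) := by
  have := hP.prob
  -- the parameters
  set ρ : ℕ → ℚ := fun k => 1 / (k + 2) with hρdef
  have hρ0 : ∀ k, 0 < ρ k := fun k => by rw [hρdef]; positivity
  have hρ2 : ∀ k, ρ k ≤ 1 / 2 := fun k => by
    rw [hρdef]
    exact one_div_le_one_div_of_le (by norm_num) (by
      have : (0 : ℚ) ≤ k := Nat.cast_nonneg k
      linarith)
  have hpos : ∀ k, ∀ c, 0 < 1 + ρ k * χ c := by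
    intro k c
    have h1 := (abs_le.1 (hχ c)).1
    nlinarith [hρ0 k, hρ2 k]
  have hρlim : Tendsto (fun k => ((ρ k : ℚ) : ℝ)) atTop (𝓝 0) := by
    have h : (fun k => ((ρ k : ℚ) : ℝ)) = fun k : ℕ => 1 / ((k : ℝ) + 2) := by
      funext k
      rw [hρdef]
      push_cast
      ring
    rw [h]
    have h2 : Tendsto (fun k : ℕ => ((k : ℝ) + 2)) atTop atTop :=
      tendsto_atTop_add_const_right _ _ tendsto_natCast_atTop_atTop
    simp only [one_div]
    exact h2.inv_tendsto_atTop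
  -- the functions
  set K : Obs → ℝ := Dθ s (rgl r r) (tens θ (fun c => (χ c : ℝ))) with hKdef
  set S : Fin r → Obs → ℝ := fun l => Dθ s (rg r) (fun c => θ c * (χ (c l) : ℝ)) with hSdef
  set D : ℕ → Obs → ℝ := fun k => Dθ (s.tilt χ (ρ k) (hpos k)) (rg r) θ with hDdef
  set D0 : Obs → ℝ := Dθ s (rg r) θ with hD0def
  set F : ℕ → Obs → ℝ := fun k x => (D k x - D0 x) / (ρ k : ℝ) - ∑ l, S l x with hFdef
  have hDi : ∀ k, Integrable (D k) P := fun k => int_Dθ _ _ _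
  have hD0i : Integrable D0 P := int_Dθ _ _ _
  have hSi : ∀ l, Integrable (S l) P := fun l => int_Dθ _ _ _
  have hFi : ∀ k, Integrable (F k) P := fun k =>
    (((hDi k).sub hD0i).div_const _).sub (integrable_finsetSum _ (fun l _ => hSi l))
  -- integral of Φ F
  have hFint : ∀ (Φ : Obs → ℝ), Measurable Φ → (∀ x, |Φ x| ≤ 1) → ∀ k,
      ∫ x, Φ x * F k x ∂P = ((∫ x, Φ x * D k x ∂P) - ∫ x, Φ x * D0 x ∂P) / (ρ k : ℝ)
        - ∑ l, ∫ x, Φ x * S l x ∂P := by
    intro Φ hΦ hΦb k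
    have e : (fun x => Φ x * F k x) = fun x => (Φ x * D k x - Φ x * D0 x) / (ρ k : ℝ)
        - ∑ l, Φ x * S l x := by
      funext x
      simp only [hFdef]
      rw [mul_sub, Finset.mul_sum]
      ring
    rw [e, integral_sub, integral_div, integral_sub (int_mul hΦ hΦb (hDi k))
      (int_mul hΦ hΦb hD0i), integral_finsetSum]
    · exact fun l _ => int_mul hΦ hΦb (hSi l)
    · exact ((int_mul hΦ hΦb (hDi k)).sub (int_mul hΦ hΦb hD0i)).div_const _
    · exact integrable_finsetSum _ (fun l _ => int_mul hΦ hΦb (hSi l))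
  -- the limits
  have hlimm : ∀ (m : ℕ), r ≤ m → ∀ Φ : Obs → ℝ, Measurable[Gσ m] Φ → (∀ x, |Φ x| ≤ 1) →
      Tendsto (fun k => ∫ x, Φ x * F k x ∂P) atTop
        (𝓝 ((∑ l ∈ Finset.Ico r m, ∫ x, Φ x * Dθ s (rgl r l) (tens θ (fun c => (χ c : ℝ))) x ∂P)
          - m * ∫ x, Φ x * Dθ s (rgl r m) (tens θ (fun c => (χ c : ℝ))) x ∂P)) := by
    intro m hrm Φ hΦ hΦb
    obtain ⟨C, hC⟩ := hP.tilt m
    have hΦ0 : Measurable Φ := hΦ.mono (Gσ_le m) le_rfl
    set I : ℝ := (∑ l ∈ Finset.Ico r m,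
      ∫ x, Φ x * Dθ s (rgl r l) (tens θ (fun c => (χ c : ℝ))) x ∂P)
          - m * ∫ x, Φ x * Dθ s (rgl r m) (tens θ (fun c => (χ c : ℝ))) x ∂P with hI
    have hest : ∀ k, |(∫ x, Φ x * F k x ∂P) - I| ≤ C * (ρ k : ℝ) := by
      intro k
      have h := hC s χ (ρ k) (hpos k) (hρ0 k) (hρ2 k) hχ r hrm θ hθ Φ hΦ hΦb
      have hρR : (0 : ℝ) < (ρ k : ℝ) := by exact_mod_cast hρ0 k
      rw [hFint Φ hΦ0 hΦb k]
      have e : ((∫ x, Φ x * D k x ∂P) - ∫ x, Φ x * D0 x ∂P) / (ρ k : ℝ)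
        - (∑ l, ∫ x, Φ x * S l x ∂P) - I =
        ((∫ x, Φ x * D k x ∂P) - (∫ x, Φ x * D0 x ∂P) - (ρ k : ℝ) *
          ((∑ l, ∫ x, Φ x * S l x ∂P) + (∑ l ∈ Finset.Ico r m,
      ∫ x, Φ x * Dθ s (rgl r l) (tens θ (fun c => (χ c : ℝ))) x ∂P)
          - m * ∫ x, Φ x * Dθ s (rgl r m) (tens θ (fun c => (χ c : ℝ))) x ∂P)) / (ρ k : ℝ) := by
        rw [hI]
        field_simp
        ring
      rw [e, abs_div, abs_of_pos hρR, div_le_iff₀ hρR]
      calc _ ≤ C * (ρ k : ℝ) ^ 2 := h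
        _ = C * (ρ k : ℝ) * (ρ k : ℝ) := by ring
    rw [tendsto_iff_norm_sub_tendsto_zero]
    refine squeeze_zero (fun k => norm_nonneg _) (fun k => ?_)
      (by simpa using hρlim.const_mul C)
    rw [Real.norm_eq_abs]
    exact hest k
  -- measurability
  have hmG : mR r ≤ Gσ r := by
    have h := Gσ_Rmat (m := r) (rg r) (fun j => j.2)
    exact h.comap_le
  have hFm : ∀ k, AEStronglyMeasurable[mR r] (F k) P := by
    intro k
    refine AEStronglyMeasurable.sub ?_ ?_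
    · have h1 : AEStronglyMeasurable[mR r] (D k) P := aesm_of_claim hc _ _
      have h2 : AEStronglyMeasurable[mR r] D0 P := aesm_of_claim hc _ _
      have h3 := (h1.sub h2).const_mul ((ρ k : ℝ)⁻¹)
      refine h3.congr (ae_of_all _ (fun x => ?_))
      simp only [Pi.sub_apply]
      rw [div_eq_inv_mul]
    · have h3 : AEStronglyMeasurable[mR r] (∑ l, S l) P :=
        Finset.sum_induction _ (fun f => AEStronglyMeasurable[mR r] f P)
          (fun _ _ h1 h2 => h1.add h2) aestronglyMeasurable_const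
          (fun l _ => aesm_of_claim hc _ _)
      refine h3.congr (ae_of_all _ (fun x => ?_))
      simp
  obtain ⟨B, hB⟩ : ∃ B, B = ∑ c, |tens θ (fun c => (χ c : ℝ)) c| := ⟨_, rfl⟩
  have hB0 : 0 ≤ B := by rw [hB]; exact Finset.sum_nonneg (fun c _ => abs_nonneg _)
  have hKb : ∀ x, |K x| ≤ B := fun x => by rw [hB]; exact abs_Dθ_le _ _ _ x
  have hKm : Measurable K := measurable_Dθ _ _ _
  have hcore : ∀ Φ : Obs → ℝ, Measurable Φ → (∀ x, |Φ x| ≤ 1) →
      Tendsto (fun k => ∫ x, Φ x * F k x ∂P) atTop (𝓝 (- (r : ℝ) * ∫ x, Φ x * (P[K|mR r]) x ∂P)) := by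
    intro Φ hΦ hΦb
    refine core_lim hmG (Gσ_le r) hKm hKb hFm hFi (r : ℝ) ?_ hΦ hΦb
    intro Φ' hΦ' hΦb'
    have h := hlimm r le_rfl Φ' hΦ' hΦb'
    simp only [Finset.Ico_self, Finset.sum_empty, zero_sub] at h
    rw [neg_mul]
    exact h
  -- the function G
  obtain ⟨T, hT, hTb, hTe⟩ := exists_trunc (P := P) (m := mR r) hB0 hKb
  obtain ⟨G0, hG0, hG0e⟩ := Measurable.exists_eq_measurable_comp hT
  refine ⟨fun M => max (-B) (min B (G0 M)), ?_, ⟨B, ?_⟩, ?_⟩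
  · exact measurable_const.max (measurable_const.min hG0)
  · intro M
    rw [abs_le]
    exact ⟨le_max_left _ _, max_le (by linarith) (min_le_left _ _)⟩
  · intro m hrm Φ hΦ hΦb
    have hΦ0 : Measurable Φ := hΦ.mono (Gσ_le m) le_rfl
    have h1 := hlimm m hrm Φ hΦ hΦb
    have h2 := hcore Φ hΦ0 hΦb
    have h3 := tendsto_nhds_unique h1 h2
    have h4 : ∫ x, Φ x * (P[K|mR r]) x ∂P =
        ∫ x, Φ x * max (-B) (min B (G0 (Rmat (rg r) x))) ∂P := by
      refine integral_congr_ae ?_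
      filter_upwards [hTe] with x hx
      have hT1 : T x = G0 (Rmat (rg r) x) := by rw [hG0e]; rfl
      rw [← hT1, ← hx]
      have hb := abs_le.1 (hTb x)
      rw [min_eq_right hb.2, max_eq_right hb.1]
    rw [h4] at h3
    linarith

end RR

theorem rule_of_claim {P : Measure Obs} (hP : LimitModel P) {r : ℕ} (hr : 1 ≤ r)
    (hc : ClaimR P r) : RuleR P r := by
  classical
  have := hP.prob
  intro s θ χ
  -- scale `θ`
  obtain ⟨A, hA0, hA⟩ : ∃ A : ℝ, 0 < A ∧ ∀ c, |θ c| ≤ A := by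
    refine ⟨1 + ∑ c, |θ c|, ?_, fun c => ?_⟩
    · have : 0 ≤ ∑ c, |θ c| := Finset.sum_nonneg (fun c _ => abs_nonneg _)
      linarith
    · have := Finset.single_le_sum (f := fun c => |θ c|) (fun c _ => abs_nonneg _)
        (Finset.mem_univ c)
      linarith
  have hbase : ∀ c0 : s.Cfg, RR.RuleFor P s (fun c => θ c / A)
      (fun c => (((if c = c0 then 1 else 0 : ℚ)) : ℝ)) := by
    intro c0
    refine RR.ruleFor_core hP hr hc s _ ?_ _ ?_
    · intro c
      rw [abs_div, abs_of_pos hA0, div_le_one hA0]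
      exact hA c
    · intro c
      split_ifs <;> simp
  choose G hGm hGb hG using hbase
  choose B hB using hGb
  have hlin : ∀ (l : ℕ) (x : Obs), Dθ s (rgl r l) (tens θ χ) x =
      ∑ c0 : s.Cfg, A * χ c0 * Dθ s (rgl r l) (tens (fun c => θ c / A)
        (fun c => (((if c = c0 then 1 else 0 : ℚ)) : ℝ))) x := by
    intro l x
    unfold Dθ
    simp only [Finset.mul_sum]
    rw [Finset.sum_comm]
    refine Finset.sum_congr rfl (fun c _ => ?_)
    simp only [tens]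
    rw [Finset.sum_eq_single (c (Fin.last r))]
    · simp
      field_simp
    · intro b _ hb
      simp [Ne.symm hb]
    · intro h
      exact absurd (Finset.mem_univ _) h
  refine ⟨fun M => ∑ c0, A * χ c0 * G c0 M, ?_, ⟨∑ c0, |A * χ c0| * B c0, ?_⟩, ?_⟩
  · exact Finset.measurable_sum _ (fun c0 _ => (hGm c0).const_mul _)
  · intro M
    refine (Finset.abs_sum_le_sum_abs _ _).trans (Finset.sum_le_sum (fun c0 _ => ?_))
    rw [abs_mul]
    exact mul_le_mul_of_nonneg_left (hB c0 M) (abs_nonneg _)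
  · intro m hrm Φ hΦ hΦb
    have hΦ0 : Measurable Φ := hΦ.mono (Gσ_le m) le_rfl
    have hint : ∀ l : ℕ, ∫ x, Φ x * Dθ s (rgl r l) (tens θ χ) x ∂P =
        ∑ c0 : s.Cfg, A * χ c0 * ∫ x, Φ x * Dθ s (rgl r l) (tens (fun c => θ c / A)
        (fun c => (((if c = c0 then 1 else 0 : ℚ)) : ℝ))) x ∂P := by
      intro l
      have e : (fun x => Φ x * Dθ s (rgl r l) (tens θ χ) x) = fun x =>
          ∑ c0 : s.Cfg, A * χ c0 * (Φ x * Dθ s (rgl r l) (tens (fun c => θ c / A)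
        (fun c => (((if c = c0 then 1 else 0 : ℚ)) : ℝ))) x) := by
        funext x
        rw [hlin l x, Finset.mul_sum]
        refine Finset.sum_congr rfl (fun c0 _ => by ring)
      rw [e, integral_finsetSum]
      · refine Finset.sum_congr rfl (fun c0 _ => ?_)
        rw [integral_const_mul]
      · intro c0 _
        exact (RR.int_mul hΦ0 hΦb (RR.int_Dθ _ _ _)).const_mul _
    have hRm : Measurable (Rmat (rg r)) :=
      (Gσ_Rmat (m := r) (rg r) (fun j => j.2)).mono (Gσ_le r) le_rfl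
    have hint2 : ∫ x, Φ x * ∑ c0, A * χ c0 * G c0 (Rmat (rg r) x) ∂P =
        ∑ c0 : s.Cfg, A * χ c0 * ∫ x, Φ x * G c0 (Rmat (rg r) x) ∂P := by
      have e : (fun x => Φ x * ∑ c0, A * χ c0 * G c0 (Rmat (rg r) x)) = fun x =>
          ∑ c0 : s.Cfg, A * χ c0 * (Φ x * G c0 (Rmat (rg r) x)) := by
        funext x
        rw [Finset.mul_sum]
        refine Finset.sum_congr rfl (fun c0 _ => by ring)
      rw [e, integral_finsetSum]
      · refine Finset.sum_congr rfl (fun c0 _ => ?_)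
        rw [integral_const_mul]
      · intro c0 _
        exact (RR.int_mul hΦ0 hΦb (RR.int_of_bdd ((hGm c0).comp hRm)
          (fun x => hB c0 _))).const_mul _
    simp only [hint, hint2]
    rw [Finset.sum_comm, Finset.mul_sum, Finset.mul_sum, ← Finset.sum_add_distrib]
    refine Finset.sum_congr rfl (fun c0 _ => ?_)
    have h := hG c0 m hrm Φ hΦ hΦb
    rw [← Finset.mul_sum]
    linear_combination (A * χ c0) * h

end Crest.Agent.MP
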