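import Crest.Agent.MP.RUltra

/-!
# R-STEP1 (§5, first half)

`U = J × Q`, `U' = J' × Q`, `Q = Π [q_i, q_i + d)`, `t ≥ q_i + d` for all `i`.
`G`, `G'` are the functions of RULE_r for `1_U`, `1_{U'}`.
Proof: `{G'(Rmat) > c} ∩ {Y_r ∈ U}` has positive probability for some `c > 0` (since
`∫ 1[G'>c] 1[Y_r∈U] = ∫ 1[G'>c] G`, rule with `m = r`).  `dup` with `n = r`: positive probability of
`G' > c`, `Y_r ∈ U`, `Y_{r+1} ∈ U`, `R_{r,r+1} ≤ t` (on `U`, `R_{i,r} ≤ t`; `P(t<R_01)<1` because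
`R_{0,r} ≤ t` has positive probability).  Rule with `m = r+2`:
`(r+2) P(that, Y_{r+2} ∈ U') ≥ r ∫ Φ G'(Rmat) ≥ r c P(that) > 0`.  Ultrametricity: one of
`R_{r,r+2}`, `R_{r+1,r+2}` is `≤ t`; use exchangeability to get replicas `r, r+1`.
-/

set_option autoImplicit false

namespace Crest.Agent.MP

open MeasureTheory Filter Topology

private theorem Yv_swapRep {r : ℕ} (s : Species) (θ : (Fin r → s.Cfg) → ℝ) (χ : s.Cfg → ℝ)
    {a b : ℕ} (ha : r ≤ a) (hb : r ≤ b) (l : ℕ) (x : Obs) :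
    Yv s θ χ l (swapRep a b x) = Yv s θ χ (Equiv.swap a b l) x := by
  unfold Yv
  rw [Dθ_swapRep]
  have h1 : (fun j => Equiv.swap a b (rgl r l j)) = rgl r (Equiv.swap a b l) := by
    funext j
    unfold rgl
    split_ifs with h
    · exact Equiv.swap_apply_of_ne_of_ne (by omega) (by omega)
    · rfl
  rw [h1]
  congr 1
  funext i
  rw [Rov_swapRep, Equiv.swap_apply_of_ne_of_ne (a := a) (b := b) (x := (i : ℕ)) (by omega)
    (by omega)]

private theorem Rmat_swapRep {r : ℕ} {a b : ℕ} (ha : r ≤ a) (hb : r ≤ b) (x : Obs) :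
    Rmat (rg r) (swapRep a b x) = Rmat (rg r) x := by
  funext i j
  unfold Rmat rg
  rw [Rov_swapRep, Equiv.swap_apply_of_ne_of_ne (a := a) (b := b) (x := (i : ℕ)) (by omega)
    (by omega), Equiv.swap_apply_of_ne_of_ne (a := a) (b := b) (x := (j : ℕ)) (by omega)
    (by omega)]

private theorem Gσ_Yv {r l m : ℕ} (hl : r ≤ l) (hm : l < m) (s : Species)
    (θ : (Fin r → s.Cfg) → ℝ) (χ : s.Cfg → ℝ) : Measurable[Gσ m] (Yv s θ χ l) := by
  have h1 : Measurable[Gσ m] (fun x => Dθ s (rgl r l) (tens θ χ) x) :=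
    Gσ_Dθ s (rgl r l) (fun j => by unfold rgl; split_ifs with h <;> omega) (tens θ χ)
  have h2 : Measurable[Gσ m] (fun (x : Obs) (i : Fin r) => Rov x i l) :=
    @measurable_pi_lambda _ _ _ (Gσ m) _ _ (fun i => Gσ_Rov (by omega) hm)
  exact h1.prodMk h2

private theorem ind_meas {α : Type*} {m : MeasurableSpace α} {A : Set α} (hA : MeasurableSet A) :
    Measurable (A.indicator (1 : α → ℝ)) := measurable_one.indicator hA

private theorem measurableSet_Q {r : ℕ} (q : Fin r → ℝ) (d : ℝ) :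
    MeasurableSet {y : Fin r → ℝ | ∀ i, q i ≤ y i ∧ y i < q i + d} := by
  have : {y : Fin r → ℝ | ∀ i, q i ≤ y i ∧ y i < q i + d}
      = ⋂ i, ((fun y : Fin r → ℝ => y i) ⁻¹' (Set.Ico (q i) (q i + d))) := by
    ext y; simp
  rw [this]
  exact MeasurableSet.iInter fun i => measurable_pi_apply i measurableSet_Ico

theorem step_joint {P : Measure Obs} (hP : LimitModel P) (hGG : GG P) {r : ℕ} (hr : 1 ≤ r)
    (s : Species) (θ : (Fin r → s.Cfg) → ℝ) (χ : s.Cfg → ℝ)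
    (J J' : Set ℝ) (hJ : MeasurableSet J) (hJ' : MeasurableSet J') (q : Fin r → ℝ) (d t : ℝ)
    (ht : ∀ i, q i + d ≤ t)
    (G G' : (Fin r → Fin r → ℝ) → ℝ) (hG : Measurable G) (hG' : Measurable G')
    (hGb : ∃ B, ∀ M, |G M| ≤ B) (hGb' : ∃ B, ∀ M, |G' M| ≤ B)
    (hrule : ∀ (m : ℕ), r ≤ m → ∀ Φ : Obs → ℝ, Measurable[Gσ m] Φ → (∀ x, |Φ x| ≤ 1) →
      (m : ℝ) * ∫ x, Φ x * (J ×ˢ {y | ∀ i, q i ≤ y i ∧ y i < q i + d}).indicator 1
          (Yv s θ χ m x) ∂P =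
        (∑ l ∈ Finset.Ico r m, ∫ x, Φ x *
          (J ×ˢ {y | ∀ i, q i ≤ y i ∧ y i < q i + d}).indicator 1 (Yv s θ χ l x) ∂P) +
          r * ∫ x, Φ x * G (Rmat (rg r) x) ∂P)
    (hrule' : ∀ (m : ℕ), r ≤ m → ∀ Φ : Obs → ℝ, Measurable[Gσ m] Φ → (∀ x, |Φ x| ≤ 1) →
      (m : ℝ) * ∫ x, Φ x * (J' ×ˢ {y | ∀ i, q i ≤ y i ∧ y i < q i + d}).indicator 1
          (Yv s θ χ m x) ∂P =
        (∑ l ∈ Finset.Ico r m, ∫ x, Φ x *
          (J' ×ˢ {y | ∀ i, q i ≤ y i ∧ y i < q i + d}).indicator 1 (Yv s θ χ l x) ∂P) +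
          r * ∫ x, Φ x * G' (Rmat (rg r) x) ∂P)
    (hpos : 0 < P {x | 0 < G (Rmat (rg r) x) ∧ 0 < G' (Rmat (rg r) x)}) :
    0 < P {x | Yv s θ χ r x ∈ J ×ˢ {y : Fin r → ℝ | ∀ i, q i ≤ y i ∧ y i < q i + d} ∧
      Yv s θ χ (r + 1) x ∈ J' ×ˢ {y : Fin r → ℝ | ∀ i, q i ≤ y i ∧ y i < q i + d} ∧
      Rov x r (r + 1) ≤ t} := by
  have := hP.prob
  set Q : Set (Fin r → ℝ) := {y : Fin r → ℝ | ∀ i, q i ≤ y i ∧ y i < q i + d} with hQdef
  have hQ : MeasurableSet Q := measurableSet_Q q d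
  have hU : MeasurableSet (J ×ˢ Q) := hJ.prod hQ
  have hU' : MeasurableSet (J' ×ˢ Q) := hJ'.prod hQ
  have hmR : Measurable[Gσ r] (Rmat (rg r)) := Gσ_Rmat (rg r) (fun j => j.2)
  have hmG : Measurable[Gσ r] (fun x => G (Rmat (rg r) x)) := hG.comp hmR
  have hmG' : Measurable[Gσ r] (fun x => G' (Rmat (rg r) x)) := hG'.comp hmR
  have hmeas : ∀ {m : ℕ} {S : Set Obs}, MeasurableSet[Gσ m] S → MeasurableSet S :=
    fun {m S} h => Gσ_le m S h
  -- Step 0: choose `c`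
  obtain ⟨c, hc, hpc⟩ : ∃ c : ℝ, 0 < c ∧
      0 < P {x | 0 < G (Rmat (rg r) x) ∧ c < G' (Rmat (rg r) x)} := by
    by_contra hcon
    push Not at hcon
    have hz : ∀ k : ℕ, P {x | 0 < G (Rmat (rg r) x) ∧ 1 / ((k : ℝ) + 1) < G' (Rmat (rg r) x)} = 0 :=
      fun k => le_antisymm (hcon _ (by positivity)) bot_le
    have hsub : {x | 0 < G (Rmat (rg r) x) ∧ 0 < G' (Rmat (rg r) x)} ⊆
        ⋃ k : ℕ, {x | 0 < G (Rmat (rg r) x) ∧ 1 / ((k : ℝ) + 1) < G' (Rmat (rg r) x)} := by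
      intro x hx
      obtain ⟨k, hk⟩ := exists_nat_one_div_lt hx.2
      exact Set.mem_iUnion.2 ⟨k, hx.1, hk⟩
    have := measure_mono_null hsub (measure_iUnion_null hz)
    rw [this] at hpos
    exact lt_irrefl _ hpos
  set A0 : Set Obs := {x | 0 < G (Rmat (rg r) x) ∧ c < G' (Rmat (rg r) x)} with hA0
  have hA0m : MeasurableSet[Gσ r] A0 :=
    @MeasurableSet.inter _ (Gσ r) _ _ (hmG measurableSet_Ioi) (hmG' measurableSet_Ioi)
  -- Step 1
  set W : Set Obs := {x | c < G' (Rmat (rg r) x) ∧ Yv s θ χ r x ∈ J ×ˢ Q} with hW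
  have hYm : ∀ {l m : ℕ}, r ≤ l → l < m → ∀ {S : Set (ℝ × (Fin r → ℝ))}, MeasurableSet S →
      MeasurableSet[Gσ m] {x | Yv s θ χ l x ∈ S} := by
    intro l m hl hm S hS
    exact Gσ_Yv hl hm s θ χ hS
  have hWm : MeasurableSet[Gσ (r + 1)] W :=
    @MeasurableSet.inter _ (Gσ (r + 1)) _ _
      (Gσ_mono (Nat.le_succ r) _ (hmG' measurableSet_Ioi)) (hYm le_rfl (Nat.lt_succ_self r) hU)
  have hPW : 0 < P W := by
    have h1 := hrule r le_rfl (A0.indicator 1)
      (@ind_meas _ (Gσ r) _ hA0m) (fun x => by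
        by_cases hx : x ∈ A0 <;> simp [hx])
    rw [Finset.Ico_self, Finset.sum_empty, zero_add] at h1
    have hr0 : (r : ℝ) ≠ 0 := by
      have : (1 : ℝ) ≤ r := by exact_mod_cast hr
      linarith
    have h2 := mul_left_cancel₀ hr0 h1
    by_contra hcon
    have hW0 : P W = 0 := by
      rw [not_lt] at hcon
      exact le_antisymm hcon bot_le
    have h3 : ∫ x, A0.indicator (1 : Obs → ℝ) x * (J ×ˢ Q).indicator 1 (Yv s θ χ r x) ∂P = 0 := by
      apply integral_eq_zero_of_ae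
      have : ∀ᵐ x ∂P, x ∉ W := measure_eq_zero_iff_ae_notMem.1 hW0
      filter_upwards [this] with x hx
      by_cases hxA : x ∈ A0
      · by_cases hxU : Yv s θ χ r x ∈ J ×ˢ Q
        · exact absurd ⟨hxA.2, hxU⟩ hx
        · simp only [Set.indicator_of_notMem hxU, mul_zero, Pi.zero_apply]
      · simp [hxA]
    rw [h3] at h2
    have h4 : ∀ x, A0.indicator (1 : Obs → ℝ) x * G (Rmat (rg r) x)
        = A0.indicator (fun x => G (Rmat (rg r) x)) x := by
      intro x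
      by_cases hxA : x ∈ A0 <;> simp [hxA]
    simp_rw [h4] at h2
    rw [integral_indicator (hmeas hA0m)] at h2
    obtain ⟨B, hB⟩ := hGb
    have hint : Integrable (fun x => G (Rmat (rg r) x)) P := by
      refine Integrable.of_bound ((hmG.mono (Gσ_le r) le_rfl).aestronglyMeasurable) B ?_
      filter_upwards with x
      rw [Real.norm_eq_abs]
      exact hB _
    have h5 := (setIntegral_pos_iff_support_of_nonneg_ae (μ := P) (s := A0)
      (f := fun x => G (Rmat (rg r) x)) (by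
        filter_upwards [ae_restrict_mem (hmeas hA0m)] with x hx
        exact hx.1.le) hint.integrableOn).2 (by
          refine lt_of_lt_of_le hpc (measure_mono ?_)
          intro x hx
          exact ⟨ne_of_gt hx.1, hx⟩)
    linarith
  -- Step 2: duplication
  have hRle : ∀ {l : ℕ} {x : Obs} {J₀ : Set ℝ}, Yv s θ χ l x ∈ J₀ ×ˢ Q →
      ∀ i < r, Rov x i l ≤ t := by
    intro l x J₀ hx i hi
    have h1 := (hx.2 ⟨i, hi⟩).2
    have h2 := ht ⟨i, hi⟩
    have h3 : Rov x i l < q ⟨i, hi⟩ + d := h1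
    linarith
  have hγ : P {x | t < Rov x 0 1} < 1 := by
    have hm1 : MeasurableSet {x : Obs | t < Rov x 0 1} := measurable_Rov 0 1 measurableSet_Ioi
    have h1 : 0 < P {x : Obs | Rov x 0 1 ≤ t} := by
      have hm : MeasurableSet {x : Obs | Rov x 0 1 ≤ t} := measurable_Rov 0 1 measurableSet_Iic
      rw [← (hP.exch 1 r).measure_preimage hm.nullMeasurableSet]
      refine lt_of_lt_of_le hPW (measure_mono ?_)
      intro x hx
      show Rov (swapRep 1 r x) 0 1 ≤ t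
      rw [Rov_swapRep, Equiv.swap_apply_left,
        Equiv.swap_apply_of_ne_of_ne (by omega : (0 : ℕ) ≠ 1) (by omega)]
      exact hRle hx.2 0 (by omega)
    have h2 : {x : Obs | Rov x 0 1 ≤ t} = {x : Obs | t < Rov x 0 1}ᶜ := by
      ext x; simp
    rw [h2, prob_compl_eq_one_sub hm1] at h1
    exact tsub_pos_iff_lt.1 h1
  have hV0 := dup hP hGG hr W hWm t (by
    filter_upwards with x hx
    exact hRle hx.2) hγ hPW
  -- the event V
  set V : Set Obs := {x | c < G' (Rmat (rg r) x) ∧ Yv s θ χ r x ∈ J ×ˢ Q ∧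
    Yv s θ χ (r + 1) x ∈ J ×ˢ Q ∧ Rov x r (r + 1) ≤ t} with hV
  have hPV : 0 < P V := by
    refine lt_of_lt_of_le hV0 (measure_mono ?_)
    rintro x ⟨hx1, hx2, hx3⟩
    refine ⟨hx1.1, hx1.2, ?_, hx3⟩
    have := hx2.2
    rwa [Yv_swapRep s θ χ le_rfl (Nat.le_succ r), Equiv.swap_apply_left] at this
  have hVm : MeasurableSet[Gσ (r + 2)] V := by
    refine @MeasurableSet.inter _ (Gσ (r + 2)) _ _
      (Gσ_mono (by omega : r ≤ r + 2) _ (hmG' measurableSet_Ioi)) ?_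
    refine @MeasurableSet.inter _ (Gσ (r + 2)) _ _ (hYm le_rfl (by omega) hU) ?_
    refine @MeasurableSet.inter _ (Gσ (r + 2)) _ _ (hYm (by omega) (by omega) hU) ?_
    exact (Gσ_Rov (m := r + 2) (l := r) (l' := r + 1) (by omega) (by omega)) measurableSet_Iic
  -- Step 3: the rule with `m = r + 2`
  have hX : 0 < P (V ∩ {x | Yv s θ χ (r + 2) x ∈ J' ×ˢ Q}) := by
    have h1 := hrule' (r + 2) (by omega) (V.indicator 1)
      (@ind_meas _ (Gσ (r + 2)) _ hVm) (fun x => by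
        by_cases hx : x ∈ V <;> simp [hx])
    by_contra hcon
    have hW0 : P (V ∩ {x | Yv s θ χ (r + 2) x ∈ J' ×ˢ Q}) = 0 := by
      rw [not_lt] at hcon
      exact le_antisymm hcon bot_le
    have h3 : ∫ x, V.indicator (1 : Obs → ℝ) x *
        (J' ×ˢ Q).indicator 1 (Yv s θ χ (r + 2) x) ∂P = 0 := by
      apply integral_eq_zero_of_ae
      have : ∀ᵐ x ∂P, x ∉ (V ∩ {x | Yv s θ χ (r + 2) x ∈ J' ×ˢ Q}) :=
        measure_eq_zero_iff_ae_notMem.1 hW0
      filter_upwards [this] with x hx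
      by_cases hxA : x ∈ V
      · by_cases hxU : Yv s θ χ (r + 2) x ∈ J' ×ˢ Q
        · exact absurd ⟨hxA, hxU⟩ hx
        · simp only [Set.indicator_of_notMem hxU, mul_zero, Pi.zero_apply]
      · simp [hxA]
    rw [h3, mul_zero] at h1
    have h4 : 0 ≤ ∑ l ∈ Finset.Ico r (r + 2), ∫ x, V.indicator (1 : Obs → ℝ) x *
          (J' ×ˢ Q).indicator 1 (Yv s θ χ l x) ∂P := by
      refine Finset.sum_nonneg fun l _ => integral_nonneg fun x => ?_
      refine mul_nonneg (Set.indicator_nonneg (fun _ _ => zero_le_one) _)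
        (Set.indicator_nonneg (fun _ _ => zero_le_one) _)
    have h5 : ∀ x, V.indicator (1 : Obs → ℝ) x * G' (Rmat (rg r) x)
        = V.indicator (fun x => G' (Rmat (rg r) x)) x := by
      intro x
      by_cases hxA : x ∈ V <;> simp [hxA]
    simp_rw [h5] at h1
    rw [integral_indicator (hmeas hVm)] at h1
    obtain ⟨B, hB⟩ := hGb'
    have hint : Integrable (fun x => G' (Rmat (rg r) x)) P := by
      refine Integrable.of_bound ((hmG'.mono (Gσ_le r) le_rfl).aestronglyMeasurable) B ?_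
      filter_upwards with x
      rw [Real.norm_eq_abs]
      exact hB _
    have h6 := (setIntegral_pos_iff_support_of_nonneg_ae (μ := P) (s := V)
      (f := fun x => G' (Rmat (rg r) x)) (by
        filter_upwards [ae_restrict_mem (hmeas hVm)] with x hx
        exact (hc.trans hx.1).le) hint.integrableOn).2 (by
          refine lt_of_lt_of_le hPV (measure_mono ?_)
          intro x hx
          exact ⟨ne_of_gt (hc.trans hx.1), hx⟩)
    have hr0 : (1 : ℝ) ≤ r := by exact_mod_cast hr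
    have h7 : 0 < (r : ℝ) * ∫ x in V, G' (Rmat (rg r) x) ∂P := by positivity
    linarith
  -- Step 4: ultrametricity and exchangeability
  set T : Set Obs := {x | Yv s θ χ r x ∈ J ×ˢ Q ∧ Yv s θ χ (r + 1) x ∈ J' ×ˢ Q ∧
    Rov x r (r + 1) ≤ t} with hT
  have hTm : MeasurableSet T := by
    refine hmeas (m := r + 2) ?_
    refine @MeasurableSet.inter _ (Gσ (r + 2)) _ _ (hYm le_rfl (by omega) hU) ?_
    refine @MeasurableSet.inter _ (Gσ (r + 2)) _ _ (hYm (by omega) (by omega) hU') ?_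
    exact (Gσ_Rov (m := r + 2) (l := r) (l' := r + 1) (by omega) (by omega)) measurableSet_Iic
  set T' : Set Obs := (swapRep (r + 1) (r + 2)) ⁻¹' T with hT'
  have hPT' : P T' = P T := (hP.exch (r + 1) (r + 2)).measure_preimage hTm.nullMeasurableSet
  have hT'm : MeasurableSet T' := (hP.exch (r + 1) (r + 2)).measurable hTm
  set T'' : Set Obs := (swapRep r (r + 1)) ⁻¹' T' with hT''
  have hPT'' : P T'' = P T' := (hP.exch r (r + 1)).measure_preimage hT'm.nullMeasurableSet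
  have hT'mem : ∀ x, x ∈ T' ↔ (Yv s θ χ r x ∈ J ×ˢ Q ∧ Yv s θ χ (r + 2) x ∈ J' ×ˢ Q ∧
      Rov x r (r + 2) ≤ t) := by
    intro x
    show (Yv s θ χ r (swapRep (r + 1) (r + 2) x) ∈ J ×ˢ Q ∧
      Yv s θ χ (r + 1) (swapRep (r + 1) (r + 2) x) ∈ J' ×ˢ Q ∧
      Rov (swapRep (r + 1) (r + 2) x) r (r + 1) ≤ t) ↔ _
    rw [Yv_swapRep s θ χ (by omega) (by omega), Yv_swapRep s θ χ (by omega) (by omega),
      Rov_swapRep, Equiv.swap_apply_left,
      Equiv.swap_apply_of_ne_of_ne (by omega : r ≠ r + 1) (by omega)]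
  have hT''mem : ∀ x, x ∈ T'' ↔ (Yv s θ χ (r + 1) x ∈ J ×ˢ Q ∧ Yv s θ χ (r + 2) x ∈ J' ×ˢ Q ∧
      Rov x (r + 1) (r + 2) ≤ t) := by
    intro x
    show swapRep r (r + 1) x ∈ T' ↔ _
    rw [hT'mem, Yv_swapRep s θ χ (by omega) (by omega), Yv_swapRep s θ χ (by omega) (by omega),
      Rov_swapRep, Equiv.swap_apply_left,
      Equiv.swap_apply_of_ne_of_ne (by omega : r + 2 ≠ r) (by omega)]
  by_contra hcon
  have hT0 : P T = 0 := by
    rw [not_lt] at hcon
    exact le_antisymm hcon bot_le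
  have hT0' : P T' = 0 := by rw [hPT', hT0]
  have hT0'' : P T'' = 0 := by rw [hPT'', hT0']
  have hnull : P (V ∩ {x | Yv s θ χ (r + 2) x ∈ J' ×ˢ Q}) = 0 := by
    rw [measure_eq_zero_iff_ae_notMem] at hT0' hT0'' ⊢
    filter_upwards [hT0', hT0'', ultra hP hGG] with x h1 h2 h3 hx
    have h4 := h3 r (r + 1) (r + 2) (by omega) (by omega) (by omega)
    rw [min_le_iff] at h4
    rcases h4 with h4 | h4
    · exact h1 ((hT'mem x).2 ⟨hx.1.2.1, hx.2, h4.trans hx.1.2.2.2⟩)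
    · exact h2 ((hT''mem x).2 ⟨hx.1.2.2.1, hx.2, h4.trans hx.1.2.2.2⟩)
  rw [hnull] at hX
  exact lt_irrefl _ hX

end Crest.Agent.MP
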