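import Crest.Agent.MP.RDup
import Crest.Agent.MP.RCS

/-!
# R-ULTRA: ultrametricity (§4)

If it fails there are rational `a < b` with `P(R_01 < a, R_02 > b, R_12 > b) > 0` (by
exchangeability the indices are `0,1,2`).  Localise: for every `d > 0` there are cells
`[a01, a01+d)`, `[a02,a02+d)`, `[a12, a12+d)` with positive probability; by symmetry (swap `0`,`1`)
`a02 ≤ a12`.  Put `t = a12 + d`.  `P(t < R_01) < 1` (otherwise `R_12 > t` a.s.).
Event `U`: replicas `0,1` base, replica `2` labelled: `dup_iter` gives `2_0,…,2_K` (replicas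
`2..K+2`) pairwise `≤ t`.  Then relabel (move replica `1` to the last position by `swapRep 1 (K+3)`,
i.e. consider the event with replica `1` as the duplicated one; use exchangeability) and apply
`dup_iter` again: replicas `1_0, …, 1_K` with `R_{0,1_b}` in cell 01, `R_{1_b,2_a}` in cell 12,
pairwise `≤ t`.  `Qf({1_b},{2_a}) ≤ 2(t + 1/(K+1)) - 2 a12 = 2d + 2/(K+1)` and `cs_R` with `i = 0`:
`a02 - a01 - d ≤ sqrt(2d + 2/(K+1))`.  `K → ∞`, `d → 0`: contradiction with `a < b`.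
-/

set_option autoImplicit false

namespace Crest.Agent.MP

open MeasureTheory Filter Topology

/-- The base cell. -/
def ucell (a01 a02 a12 d : ℝ) : Set Obs :=
  {x | Rov x 0 1 ∈ Set.Ico a01 (a01 + d)} ∩ ({x | Rov x 0 2 ∈ Set.Ico a02 (a02 + d)} ∩
    {x | Rov x 1 2 ∈ Set.Ico a12 (a12 + d)})

theorem ucell_meas (a01 a02 a12 d : ℝ) : MeasurableSet[Gσ (2 + 1)] (ucell a01 a02 a12 d) := by
  refine @MeasurableSet.inter _ (Gσ (2 + 1)) _ _ ?_ (@MeasurableSet.inter _ (Gσ (2 + 1)) _ _ ?_ ?_)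
  · exact (Gσ_Rov (m := 2 + 1) (l := 0) (l' := 1) (by norm_num) (by norm_num)) measurableSet_Ico
  · exact (Gσ_Rov (m := 2 + 1) (l := 0) (l' := 2) (by norm_num) (by norm_num)) measurableSet_Ico
  · exact (Gσ_Rov (m := 2 + 1) (l := 1) (l' := 2) (by norm_num) (by norm_num)) measurableSet_Ico

/-- The second event. -/
def ucell2 (a01 a02 a12 d t : ℝ) (K : ℕ) : Set Obs :=
  {x | Rov x 0 (K + 2) ∈ Set.Ico a01 (a01 + d)} ∩
    ((⋂ j ∈ Finset.Icc 1 (K + 1), ({x | Rov x 0 j ∈ Set.Ico a02 (a02 + d)} ∩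
      {x | Rov x (K + 2) j ∈ Set.Ico a12 (a12 + d)})) ∩
    (⋂ i ∈ Finset.Icc 1 (K + 1), ⋂ j ∈ (Finset.Icc 1 (K + 1)).erase i,
      {x | Rov x i j ∈ Set.Iic t}))

theorem ucell2_meas (a01 a02 a12 d t : ℝ) (K : ℕ) :
    MeasurableSet[Gσ (K + 2 + 1)] (ucell2 a01 a02 a12 d t K) := by
  refine @MeasurableSet.inter _ (Gσ (K + 2 + 1)) _ _ ?_
    (@MeasurableSet.inter _ (Gσ (K + 2 + 1)) _ _ ?_ ?_)
  · exact (Gσ_Rov (m := K + 2 + 1) (l := 0) (l' := K + 2) (by omega) (by omega)) measurableSet_Ico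
  · refine @Finset.measurableSet_biInter _ _ (Gσ (K + 2 + 1)) _ _ (fun j hj => ?_)
    rw [Finset.mem_Icc] at hj
    refine @MeasurableSet.inter _ (Gσ (K + 2 + 1)) _ _ ?_ ?_
    · exact (Gσ_Rov (m := K + 2 + 1) (l := 0) (l' := j) (by omega) (by omega)) measurableSet_Ico
    · exact (Gσ_Rov (m := K + 2 + 1) (l := K + 2) (l' := j) (by omega) (by omega)) measurableSet_Ico
  · refine @Finset.measurableSet_biInter _ _ (Gσ (K + 2 + 1)) _ _ (fun i hi => ?_)
    refine @Finset.measurableSet_biInter _ _ (Gσ (K + 2 + 1)) _ _ (fun j hj => ?_)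
    rw [Finset.mem_erase, Finset.mem_Icc] at hj
    rw [Finset.mem_Icc] at hi
    exact (Gσ_Rov (m := K + 2 + 1) (l := i) (l' := j) (by omega) (by omega)) measurableSet_Iic

theorem mem_ucell2 {a01 a02 a12 d t : ℝ} {K : ℕ} {x : Obs} :
    x ∈ ucell2 a01 a02 a12 d t K ↔
      Rov x 0 (K + 2) ∈ Set.Ico a01 (a01 + d) ∧
      (∀ j, 1 ≤ j → j ≤ K + 1 → Rov x 0 j ∈ Set.Ico a02 (a02 + d) ∧
        Rov x (K + 2) j ∈ Set.Ico a12 (a12 + d)) ∧
      (∀ i j, 1 ≤ i → i ≤ K + 1 → 1 ≤ j → j ≤ K + 1 → i ≠ j → Rov x i j ≤ t) := by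
  unfold ucell2
  simp only [Set.mem_inter_iff, Set.mem_iInter, Set.mem_ofPred_eq, Finset.mem_erase, Finset.mem_Icc]
  constructor
  · rintro ⟨h1, h2, h3⟩
    exact ⟨h1, fun j hj hj' => h2 j ⟨hj, hj'⟩, fun i j hi hi' hj hj' hij =>
      h3 i ⟨hi, hi'⟩ j ⟨fun h => hij h.symm, hj, hj'⟩⟩
  · rintro ⟨h1, h2, h3⟩
    exact ⟨h1, fun j hj => h2 j hj.1 hj.2, fun i hi j hj =>
      h3 i j hi.1 hi.2 hj.2.1 hj.2.2 (fun h => hj.1 h.symm)⟩

theorem ultra_aux {P : Measure Obs} (hP : LimitModel P) (hGG : GG P) (a01 a02 a12 d δ : ℝ)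
    (hδ : 0 < δ) (hδ1 : δ ≤ 1) (hd : d = δ ^ 2 / 16) (h12 : a02 ≤ a12)
    (h01 : a01 + δ ≤ a02 + d) : P (ucell a01 a02 a12 d) = 0 := by
  by_contra hne
  have := hP.prob
  have hpos : 0 < P (ucell a01 a02 a12 d) := pos_iff_ne_zero.mpr hne
  have hd0 : 0 < d := by rw [hd]; positivity
  have hdδ : d ≤ δ := by rw [hd]; nlinarith
  set t : ℝ := a12 + d with ht
  -- `P(t < R_01) < 1`
  have hγ : P {x | t < Rov x 0 1} < 1 := by
    by_contra hge
    push Not at hge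
    have h1 : P {x | t < Rov x 0 1} = 1 := le_antisymm prob_le_one hge
    have hae : ∀ᵐ x ∂P, t < Rov x 0 1 := by
      have hm : MeasurableSet {x | t < Rov x 0 1} :=
        measurableSet_lt measurable_const (measurable_Rov 0 1)
      exact (prob_compl_eq_zero_iff hm).mpr h1
    have hae2 : ∀ᵐ x ∂P, t < Rov (swapRep 0 2 x) 0 1 :=
      (hP.exch 0 2).quasiMeasurePreserving.ae hae
    have hnull : P (ucell a01 a02 a12 d) = 0 := by
      have : ∀ᵐ x ∂P, x ∉ ucell a01 a02 a12 d := by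
        filter_upwards [hae2, Rov_symm hP] with x hx hs hmem
        rw [Rov_swapRep] at hx
        have e1 : (Equiv.swap 0 2 : Equiv.Perm ℕ) 0 = 2 := Equiv.swap_apply_left _ _
        have e2 : (Equiv.swap 0 2 : Equiv.Perm ℕ) 1 = 1 :=
          Equiv.swap_apply_of_ne_of_ne (by norm_num) (by norm_num)
        rw [e1, e2, hs 2 1] at hx
        have := hmem.2.2.2
        linarith
      have h := measure_eq_zero_iff_ae_notMem.mpr this
      exact h
    exact hne hnull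
  -- choose `K`
  obtain ⟨K, hK⟩ := exists_nat_ge (16 / δ ^ 2)
  have hKpos : (0 : ℝ) < (K : ℝ) + 1 := by positivity
  have hKδ : 2 / ((K : ℝ) + 1) ≤ δ ^ 2 / 8 := by
    rw [div_le_iff₀ hKpos]
    have h16 : 16 ≤ K * δ ^ 2 := by
      rwa [div_le_iff₀ (by positivity)] at hK
    nlinarith
  -- first duplication
  have hV := dup_iter hP hGG (n := 2) (by norm_num) (ucell a01 a02 a12 d) (ucell_meas _ _ _ _) t
    (by
      refine Filter.Eventually.of_forall (fun x hx i hi => ?_)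
      have h02 := hx.2.1.2
      have h12' := hx.2.2.2
      have hi' : i = 0 ∨ i = 1 := by omega
      rcases hi' with rfl | rfl
      · show Rov x 0 2 ≤ t
        have : Rov x 0 2 < a02 + d := h02
        linarith
      · show Rov x 1 2 ≤ t
        have : Rov x 1 2 < a12 + d := h12'
        linarith) hγ hpos K
  set V : Set Obs := {x | (∀ a ≤ K, swapRep 2 (2 + a) x ∈ ucell a01 a02 a12 d) ∧
      ∀ a ≤ K, ∀ b ≤ K, a ≠ b → Rov x (2 + a) (2 + b) ≤ t} with hVdef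
  have hVfacts : ∀ x ∈ V, (Rov x 0 1 ∈ Set.Ico a01 (a01 + d)) ∧
      (∀ a ≤ K, Rov x 0 (2 + a) ∈ Set.Ico a02 (a02 + d) ∧
        Rov x 1 (2 + a) ∈ Set.Ico a12 (a12 + d)) ∧
      (∀ a ≤ K, ∀ b ≤ K, a ≠ b → Rov x (2 + a) (2 + b) ≤ t) := by
    intro x hx
    have hs0 : ∀ a : ℕ, (Equiv.swap 2 (2 + a) : Equiv.Perm ℕ) 0 = 0 := fun a =>
      Equiv.swap_apply_of_ne_of_ne (by omega) (by omega)
    have hs1 : ∀ a : ℕ, (Equiv.swap 2 (2 + a) : Equiv.Perm ℕ) 1 = 1 := fun a =>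
      Equiv.swap_apply_of_ne_of_ne (by omega) (by omega)
    have hs2 : ∀ a : ℕ, (Equiv.swap 2 (2 + a) : Equiv.Perm ℕ) 2 = 2 + a := fun a =>
      Equiv.swap_apply_left _ _
    refine ⟨?_, ?_, hx.2⟩
    · have h := (hx.1 0 (Nat.zero_le _)).1
      simp only [Set.mem_ofPred_eq] at h
      rw [Rov_swapRep, hs0, hs1] at h
      exact h
    · intro a ha
      have h := hx.1 a ha
      have h1 := h.2.1
      have h2 := h.2.2
      simp only [Set.mem_ofPred_eq] at h1 h2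
      rw [Rov_swapRep, hs0, hs2] at h1
      rw [Rov_swapRep, hs1, hs2] at h2
      exact ⟨h1, h2⟩
  -- the relabelled event
  have hU' : 0 < P (ucell2 a01 a02 a12 d t K) := by
    have hmeas : MeasurableSet (ucell2 a01 a02 a12 d t K) :=
      (Gσ_le (K + 2 + 1)) _ (ucell2_meas _ _ _ _ _ _)
    have hpre : P ((swapRep 1 (K + 2)) ⁻¹' (ucell2 a01 a02 a12 d t K)) =
        P (ucell2 a01 a02 a12 d t K) :=
      (hP.exch 1 (K + 2)).measure_preimage hmeas.nullMeasurableSet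
    rw [← hpre]
    refine lt_of_lt_of_le hV (measure_mono ?_)
    intro x hx
    obtain ⟨f1, f2, f3⟩ := hVfacts x hx
    rw [Set.mem_preimage, mem_ucell2]
    simp only [Rov_swapRep]
    have e0 : (Equiv.swap 1 (K + 2) : Equiv.Perm ℕ) 0 = 0 :=
      Equiv.swap_apply_of_ne_of_ne (by omega) (by omega)
    have e1 : (Equiv.swap 1 (K + 2) : Equiv.Perm ℕ) (K + 2) = 1 := Equiv.swap_apply_right _ _
    have e2 : ∀ j, 1 ≤ j → j ≤ K + 1 → ∃ a ≤ K, (Equiv.swap 1 (K + 2) : Equiv.Perm ℕ) j = 2 + a ∧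
        a = if j = 1 then K else j - 2 := by
      intro j hj hj'
      by_cases h : j = 1
      · subst h
        exact ⟨K, le_refl _, by rw [Equiv.swap_apply_left]; omega, by simp⟩
      · refine ⟨j - 2, by omega, ?_, by simp [h]⟩
        rw [Equiv.swap_apply_of_ne_of_ne h (by omega)]
        omega
    rw [e0, e1]
    refine ⟨f1, ?_, ?_⟩
    · intro j hj hj'
      obtain ⟨a, ha, haj, -⟩ := e2 j hj hj'
      rw [haj]
      exact f2 a ha
    · intro i j hi hi' hj hj' hij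
      obtain ⟨a, ha, hai, ha2⟩ := e2 i hi hi'
      obtain ⟨b, hb, hbj, hb2⟩ := e2 j hj hj'
      rw [hai, hbj]
      refine f3 a ha b hb ?_
      intro hab
      rw [ha2, hb2] at hab
      split_ifs at hab <;> omega
  -- second duplication
  have hW := dup_iter hP hGG (n := K + 2) (by omega) (ucell2 a01 a02 a12 d t K)
    (ucell2_meas _ _ _ _ _ _) t
    (by
      filter_upwards [Rov_symm hP] with x hs hx i hi
      rw [mem_ucell2] at hx
      obtain ⟨g1, g2, g3⟩ := hx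
      rcases Nat.eq_zero_or_pos i with rfl | hi0
      · have := g1.2
        linarith
      · have := (g2 i hi0 (by omega)).2.2
        rw [hs] at this
        linarith) hγ hU' K
  set W : Set Obs := {x | (∀ a ≤ K, swapRep (K + 2) (K + 2 + a) x ∈ ucell2 a01 a02 a12 d t K) ∧
      ∀ a ≤ K, ∀ b ≤ K, a ≠ b → Rov x (K + 2 + a) (K + 2 + b) ≤ t} with hWdef
  -- pick a good point
  obtain ⟨x, hxW, hself, hcs⟩ : ∃ x, x ∈ W ∧ (∀ l : ℕ, Rov x l l = ∑' s, wt s) ∧
      (∀ (i K : ℕ) (as bs : Fin K → ℕ), 0 < K →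
      |(∑ a, Rov x i (as a)) / K - (∑ b, Rov x i (bs b)) / K| ≤ Real.sqrt (Qf as bs x)) := by
    by_contra hno
    push Not at hno
    have : ∀ᵐ x ∂P, x ∉ W := by
      filter_upwards [Rov_self hP, cs_R hP] with x h1 h2 hxW
      obtain ⟨i, K', as, bs, hK', hlt⟩ := hno x hxW h1
      exact absurd (h2 i K' as bs hK') (not_le.mpr hlt)
    exact absurd (measure_eq_zero_iff_ae_notMem.mpr this) hW.ne'
  have hs1 : ∀ l, Rov x l l ≤ 1 := fun l => Rov_le_one x l l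
  -- facts at `x`
  have τ0 : ∀ a : ℕ, (Equiv.swap (K + 2) (K + 2 + a) : Equiv.Perm ℕ) 0 = 0 := fun a =>
    Equiv.swap_apply_of_ne_of_ne (by omega) (by omega)
  have τK : ∀ a : ℕ, (Equiv.swap (K + 2) (K + 2 + a) : Equiv.Perm ℕ) (K + 2) = K + 2 + a :=
    fun a => Equiv.swap_apply_left _ _
  have τj : ∀ a j : ℕ, j ≤ K + 1 → (Equiv.swap (K + 2) (K + 2 + a) : Equiv.Perm ℕ) j = j :=
    fun a j hj => Equiv.swap_apply_of_ne_of_ne (by omega) (by omega)
  have F : ∀ a ≤ K, Rov x 0 (K + 2 + a) ∈ Set.Ico a01 (a01 + d) ∧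
      (∀ j, 1 ≤ j → j ≤ K + 1 → Rov x 0 j ∈ Set.Ico a02 (a02 + d) ∧
        Rov x (K + 2 + a) j ∈ Set.Ico a12 (a12 + d)) ∧
      (∀ i j, 1 ≤ i → i ≤ K + 1 → 1 ≤ j → j ≤ K + 1 → i ≠ j → Rov x i j ≤ t) := by
    intro a ha
    have h := hxW.1 a ha
    rw [mem_ucell2] at h
    obtain ⟨g1, g2, g3⟩ := h
    rw [Rov_swapRep, τ0, τK] at g1
    refine ⟨g1, ?_, ?_⟩
    · intro j hj hj'
      have h2 := g2 j hj hj'
      rw [Rov_swapRep, Rov_swapRep, τ0, τK, τj a j hj'] at h2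
      exact h2
    · intro i j hi hi' hj hj' hij
      have h3 := g3 i j hi hi' hj hj' hij
      rwa [Rov_swapRep, τj a i hi', τj a j hj'] at h3
  have ht0 : 0 ≤ t := by
    have h := ((F 0 (Nat.zero_le _)).2.1 1 le_rfl (by omega)).2.2
    have h0 := Rov_nonneg x (K + 2 + 0) 1
    linarith
  let as : Fin (K + 1) → ℕ := fun a => K + 2 + (a : ℕ)
  let bs : Fin (K + 1) → ℕ := fun b => 1 + (b : ℕ)
  have hsumconst : ∀ u : ℝ, (∑ a : Fin (K + 1), ∑ a' : Fin (K + 1), (u + if a = a' then (1:ℝ) else 0))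
      = ((K : ℝ) + 1) ^ 2 * u + ((K : ℝ) + 1) := by
    intro u
    simp only [Finset.sum_add_distrib, Finset.sum_const, Finset.card_univ, Fintype.card_fin,
      nsmul_eq_mul, Finset.sum_ite_eq, Finset.mem_univ, if_true]
    push_cast
    ring
  have hAA : (∑ a, ∑ a', Rov x (as a) (as a')) ≤ ((K : ℝ) + 1) ^ 2 * t + ((K : ℝ) + 1) := by
    rw [← hsumconst]
    refine Finset.sum_le_sum (fun a _ => Finset.sum_le_sum (fun a' _ => ?_))
    by_cases h : a = a'
    · subst h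
      have := hs1 (as a)
      simp only [if_true]
      linarith
    · simp only [h, if_false, add_zero]
      have ha := a.2
      have ha' := a'.2
      refine hxW.2 a (by omega) a' (by omega) ?_
      intro h'
      exact h (Fin.ext h')
  have hBB : (∑ b, ∑ b', Rov x (bs b) (bs b')) ≤ ((K : ℝ) + 1) ^ 2 * t + ((K : ℝ) + 1) := by
    rw [← hsumconst]
    refine Finset.sum_le_sum (fun a _ => Finset.sum_le_sum (fun a' _ => ?_))
    by_cases h : a = a'
    · subst h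
      have := hs1 (bs a)
      simp only [if_true]
      linarith
    · simp only [h, if_false, add_zero]
      have ha := a.2
      have ha' := a'.2
      refine (F 0 (Nat.zero_le _)).2.2 (1 + (a : ℕ)) (1 + (a' : ℕ)) (by omega) (by omega)
        (by omega) (by omega) ?_
      intro h'
      exact h (Fin.ext (by omega))
  have hAB : ((K : ℝ) + 1) ^ 2 * a12 ≤ ∑ a, ∑ b, Rov x (as a) (bs b) := by
    have : ((K : ℝ) + 1) ^ 2 * a12 = ∑ _a : Fin (K + 1), ∑ _b : Fin (K + 1), a12 := by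
      simp only [Finset.sum_const, Finset.card_univ, Fintype.card_fin, nsmul_eq_mul]
      push_cast
      ring
    rw [this]
    refine Finset.sum_le_sum (fun a _ => Finset.sum_le_sum (fun b _ => ?_))
    have ha := a.2
    have hb := b.2
    exact ((F a (by omega)).2.1 (1 + (b : ℕ)) (by omega) (by omega)).2.1
  have hQ : Qf as bs x ≤ δ ^ 2 / 4 := by
    unfold Qf
    have hc : (((K + 1 : ℕ) : ℝ)) ^ 2 = ((K : ℝ) + 1) ^ 2 := by push_cast; ring
    rw [hc, div_le_iff₀ (by positivity)]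
    have h1 : 2 ≤ δ ^ 2 / 8 * ((K : ℝ) + 1) := by
      rwa [div_le_iff₀ hKpos] at hKδ
    have h2 : 2 * ((K : ℝ) + 1) ≤ δ ^ 2 / 8 * ((K : ℝ) + 1) ^ 2 := by nlinarith
    have h3 : ((K : ℝ) + 1) ^ 2 * t = ((K : ℝ) + 1) ^ 2 * a12 + ((K : ℝ) + 1) ^ 2 * (δ ^ 2 / 16) := by
      rw [ht, hd]; ring
    nlinarith
  have hfin := hcs 0 (K + 1) as bs (by omega)
  have hsq : Real.sqrt (Qf as bs x) ≤ δ / 2 := by
    rw [show δ / 2 = Real.sqrt (δ ^ 2 / 4) by
      rw [show δ ^ 2 / 4 = (δ / 2) ^ 2 by ring, Real.sqrt_sq (by positivity)]]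
    exact Real.sqrt_le_sqrt hQ
  have hcast : (((K + 1 : ℕ) : ℝ)) = (K : ℝ) + 1 := by push_cast; ring
  have hA : (∑ a, Rov x 0 (as a)) / ((K + 1 : ℕ) : ℝ) ≤ a01 + d := by
    rw [hcast, div_le_iff₀ hKpos]
    have : (a01 + d) * ((K : ℝ) + 1) = ∑ _a : Fin (K + 1), (a01 + d) := by
      simp only [Finset.sum_const, Finset.card_univ, Fintype.card_fin, nsmul_eq_mul]
      push_cast
      ring
    rw [this]
    refine Finset.sum_le_sum (fun a _ => ?_)
    have ha := a.2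
    exact ((F a (by omega)).1.2).le
  have hB : a02 ≤ (∑ b, Rov x 0 (bs b)) / ((K + 1 : ℕ) : ℝ) := by
    rw [hcast, le_div_iff₀ hKpos]
    have : a02 * ((K : ℝ) + 1) = ∑ _a : Fin (K + 1), a02 := by
      simp only [Finset.sum_const, Finset.card_univ, Fintype.card_fin, nsmul_eq_mul]
      push_cast
      ring
    rw [this]
    refine Finset.sum_le_sum (fun b _ => ?_)
    have hb := b.2
    exact ((F 0 (by omega)).2.1 (1 + (b : ℕ)) (by omega) (by omega)).1.1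
  have habs := (abs_le.mp hfin).1
  have : δ - 2 * d ≤ δ / 2 := by linarith
  have hd2 : 2 * d ≤ δ / 8 := by rw [hd]; nlinarith
  linarith

theorem ultra012 {P : Measure Obs} (hP : LimitModel P) (hGG : GG P) :
    ∀ᵐ x ∂P, min (Rov x 0 2) (Rov x 1 2) ≤ Rov x 0 1 := by
  have key : ∀ᵐ x ∂P, ∀ (N : ℕ) (p q r : ℤ), q ≤ r →
      (p : ℝ) * ((1 / ((N : ℝ) + 1)) ^ 2 / 16) + 1 / ((N : ℝ) + 1) ≤
        q * ((1 / ((N : ℝ) + 1)) ^ 2 / 16) + (1 / ((N : ℝ) + 1)) ^ 2 / 16 →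
      x ∉ ucell (p * ((1 / ((N : ℝ) + 1)) ^ 2 / 16)) (q * ((1 / ((N : ℝ) + 1)) ^ 2 / 16))
        (r * ((1 / ((N : ℝ) + 1)) ^ 2 / 16)) ((1 / ((N : ℝ) + 1)) ^ 2 / 16) := by
    rw [ae_all_iff]
    intro N
    rw [ae_all_iff]
    intro p
    rw [ae_all_iff]
    intro q
    rw [ae_all_iff]
    intro r
    by_cases hqr : q ≤ r
    · by_cases h : (p : ℝ) * ((1 / ((N : ℝ) + 1)) ^ 2 / 16) + 1 / ((N : ℝ) + 1) ≤
        q * ((1 / ((N : ℝ) + 1)) ^ 2 / 16) + (1 / ((N : ℝ) + 1)) ^ 2 / 16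
      · have hN : (0 : ℝ) < (N : ℝ) + 1 := by positivity
        have h0 := ultra_aux hP hGG (p * ((1 / ((N : ℝ) + 1)) ^ 2 / 16))
          (q * ((1 / ((N : ℝ) + 1)) ^ 2 / 16)) (r * ((1 / ((N : ℝ) + 1)) ^ 2 / 16))
          ((1 / ((N : ℝ) + 1)) ^ 2 / 16) (1 / ((N : ℝ) + 1)) (by positivity)
          (by
            rw [div_le_one hN]
            have : (0 : ℝ) ≤ N := Nat.cast_nonneg N
            linarith) rfl
          (mul_le_mul_of_nonneg_right (by exact_mod_cast hqr) (by positivity)) h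
        filter_upwards [measure_eq_zero_iff_ae_notMem.mp h0] with x hx _ _
        exact hx
      · exact Filter.Eventually.of_forall (fun x _ h' => absurd h' h)
    · exact Filter.Eventually.of_forall (fun x h' => absurd h' hqr)
  have key2 := (hP.exch 0 1).quasiMeasurePreserving.ae key
  filter_upwards [key, key2, Rov_symm hP] with x hx hx2 hs
  by_contra hlt
  push Not at hlt
  obtain ⟨N, hN⟩ := exists_nat_one_div_lt (sub_pos.mpr hlt)
  set δ : ℝ := 1 / ((N : ℝ) + 1) with hδ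
  have hδ0 : 0 < δ := by rw [hδ]; positivity
  set d : ℝ := δ ^ 2 / 16 with hd
  have hd0 : 0 < d := by rw [hd]; positivity
  have hcell : ∀ u : ℝ, u ∈ Set.Ico ((⌊u / d⌋ : ℝ) * d) ((⌊u / d⌋ : ℝ) * d + d) := by
    intro u
    constructor
    · have := Int.floor_le (u / d)
      rwa [le_div_iff₀ hd0] at this
    · have := Int.lt_floor_add_one (u / d)
      rw [div_lt_iff₀ hd0] at this
      linarith
  have c01 := hcell (Rov x 0 1)
  have c02 := hcell (Rov x 0 2)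
  have c12 := hcell (Rov x 1 2)
  have m1 := min_le_left (Rov x 0 2) (Rov x 1 2)
  have m2 := min_le_right (Rov x 0 2) (Rov x 1 2)
  rcases le_total (⌊Rov x 0 2 / d⌋) (⌊Rov x 1 2 / d⌋) with h | h
  · refine hx N ⌊Rov x 0 1 / d⌋ ⌊Rov x 0 2 / d⌋ ⌊Rov x 1 2 / d⌋ h ?_ ⟨c01, c02, c12⟩
    change (⌊Rov x 0 1 / d⌋ : ℝ) * d + δ ≤ (⌊Rov x 0 2 / d⌋ : ℝ) * d + d
    have q1 := c01.1
    have q2 := c02.2
    linarith
  · have s01 : Rov (swapRep 0 1 x) 0 1 = Rov x 0 1 := by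
      rw [Rov_swapRep, Equiv.swap_apply_left, Equiv.swap_apply_right, hs]
    have e2 : (Equiv.swap 0 1 : Equiv.Perm ℕ) 2 = 2 :=
      Equiv.swap_apply_of_ne_of_ne (by norm_num) (by norm_num)
    have s02 : Rov (swapRep 0 1 x) 0 2 = Rov x 1 2 := by
      rw [Rov_swapRep, Equiv.swap_apply_left, e2]
    have s12 : Rov (swapRep 0 1 x) 1 2 = Rov x 0 2 := by
      rw [Rov_swapRep, Equiv.swap_apply_right, e2]
    refine hx2 N ⌊Rov x 0 1 / d⌋ ⌊Rov x 1 2 / d⌋ ⌊Rov x 0 2 / d⌋ h ?_ ⟨?_, ?_, ?_⟩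
    · change (⌊Rov x 0 1 / d⌋ : ℝ) * d + δ ≤ (⌊Rov x 1 2 / d⌋ : ℝ) * d + d
      have q1 := c01.1
      have q2 := c12.2
      linarith
    · show Rov (swapRep 0 1 x) 0 1 ∈ Set.Ico ((⌊Rov x 0 1 / d⌋ : ℝ) * d)
        ((⌊Rov x 0 1 / d⌋ : ℝ) * d + d)
      rw [s01]; exact c01
    · show Rov (swapRep 0 1 x) 0 2 ∈ Set.Ico ((⌊Rov x 1 2 / d⌋ : ℝ) * d)
        ((⌊Rov x 1 2 / d⌋ : ℝ) * d + d)
      rw [s02]; exact c12
    · show Rov (swapRep 0 1 x) 1 2 ∈ Set.Ico ((⌊Rov x 0 2 / d⌋ : ℝ) * d)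
        ((⌊Rov x 0 2 / d⌋ : ℝ) * d + d)
      rw [s12]; exact c02

theorem ultra_swap {P : Measure Obs} (hP : LimitModel P) {i j k : ℕ} (a b : ℕ)
    (h : ∀ᵐ x ∂P, min (Rov x i k) (Rov x j k) ≤ Rov x i j) :
    ∀ᵐ x ∂P, min (Rov x (Equiv.swap a b i) (Equiv.swap a b k))
      (Rov x (Equiv.swap a b j) (Equiv.swap a b k)) ≤
        Rov x (Equiv.swap a b i) (Equiv.swap a b j) := by
  have h2 := (hP.exch a b).quasiMeasurePreserving.ae h
  filter_upwards [h2] with x hx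
  simpa only [Rov_swapRep] using hx

theorem ultra {P : Measure Obs} (hP : LimitModel P) (hGG : GG P) :
    ∀ᵐ x ∂P, ∀ i j k : ℕ, i ≠ j → i ≠ k → j ≠ k → min (Rov x i k) (Rov x j k) ≤ Rov x i j := by
  rw [ae_all_iff]
  intro i
  rw [ae_all_iff]
  intro j
  rw [ae_all_iff]
  intro k
  by_cases hij : i = j
  · exact Filter.Eventually.of_forall (fun x h => absurd hij h)
  by_cases hik : i = k
  · exact Filter.Eventually.of_forall (fun x _ h => absurd hik h)
  by_cases hjk : j = k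
  · exact Filter.Eventually.of_forall (fun x _ _ h => absurd hjk h)
  have h0 := ultra012 hP hGG
  have h1 := ultra_swap hP (i := 0) (j := 1) (k := 2) 0 i h0
  rw [Equiv.swap_apply_left] at h1
  set j1 := (Equiv.swap 0 i : Equiv.Perm ℕ) 1 with hj1
  set k1 := (Equiv.swap 0 i : Equiv.Perm ℕ) 2 with hk1
  have hij1 : i ≠ j1 := by
    intro h
    have : (Equiv.swap 0 i : Equiv.Perm ℕ) 0 = (Equiv.swap 0 i : Equiv.Perm ℕ) 1 := by
      rw [Equiv.swap_apply_left]; exact h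
    exact absurd ((Equiv.swap 0 i).injective this) (by norm_num)
  have hik1 : i ≠ k1 := by
    intro h
    have : (Equiv.swap 0 i : Equiv.Perm ℕ) 0 = (Equiv.swap 0 i : Equiv.Perm ℕ) 2 := by
      rw [Equiv.swap_apply_left]; exact h
    exact absurd ((Equiv.swap 0 i).injective this) (by norm_num)
  have hjk1 : j1 ≠ k1 := by
    intro h
    exact absurd ((Equiv.swap 0 i).injective h) (by norm_num)
  have h2 := ultra_swap hP (i := i) (j := j1) (k := k1) j1 j h1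
  rw [Equiv.swap_apply_left, Equiv.swap_apply_of_ne_of_ne hij1 hij] at h2
  set k2 := (Equiv.swap j1 j : Equiv.Perm ℕ) k1 with hk2
  have hik2 : i ≠ k2 := by
    intro h
    have : (Equiv.swap j1 j : Equiv.Perm ℕ) i = (Equiv.swap j1 j : Equiv.Perm ℕ) k1 := by
      rw [Equiv.swap_apply_of_ne_of_ne hij1 hij]; exact h
    exact hik1 ((Equiv.swap j1 j).injective this)
  have hjk2 : j ≠ k2 := by
    intro h
    have : (Equiv.swap j1 j : Equiv.Perm ℕ) j1 = (Equiv.swap j1 j : Equiv.Perm ℕ) k1 := by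
      rw [Equiv.swap_apply_left]; exact h
    exact hjk1 ((Equiv.swap j1 j).injective this)
  have h3 := ultra_swap hP (i := i) (j := j) (k := k2) k2 k h2
  rw [Equiv.swap_apply_left, Equiv.swap_apply_of_ne_of_ne hik2 hik,
    Equiv.swap_apply_of_ne_of_ne hjk2 hjk] at h3
  filter_upwards [h3] with x hx _ _ _
  exact hx

end Crest.Agent.MP
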