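import Crest.Agent.MP.TPred

/-!
# T-MART: fine thresholds determine `D_n` (§10)

By `claim_all` (`n ≥ 1`; `n = 0` trivial) each `Dn n x c` (`c : Fin n → Bool`, finitely many
`n ≤ n₀`) is a.e. a measurable function `G` of `(R_{ij})_{i,j<n}` (diagonal entries are a.s.
constant).  Approximate `G` in `L¹` of the law of the overlap matrix by a continuous compactly
supported `g`; as `g` is uniformly continuous, the off-diagonal overlaps may be replaced by
`⌊K R_{ij}⌋ / K`, `K` large (the same `K` for all `n ≤ n₀` and `c`).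
Thresholds: those `a/K`, `1 ≤ a ≤ K`, with `0 < P(R_01 < a/K) < 1`,
one for each value of `P(R_01 < a/K)`, increasing: `q_1 < … < q_r`.  Dropped thresholds carry no
information a.s., so `⌊K R_{ij}⌋` is a.e. a function of `coal q x i j` and, by ultrametricity
and `coalA_genOf`, of `gen q x` on `[1,n)`.
-/

set_option autoImplicit false

namespace Crest.Agent.MP

open MeasureTheory Filter Topology
open Crest.ProbabilityR.Diluted

namespace TMart

/-! ### Exchangeability of the overlaps -/

/-- The law function `F t = P(R_01 < t)`. -/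
noncomputable def Fov (P : Measure Obs) (t : ℝ) : ℝ := P.real {y | Rov y 0 1 < t}

theorem Fov_mono {P : Measure Obs} (hP : LimitModel P) : Monotone (Fov P) := by
  have := hP.prob
  intro s t hst
  exact measureReal_mono (fun y (hy : Rov y 0 1 < s) => lt_of_lt_of_le hy hst)

theorem Fov_nonneg (P : Measure Obs) (t : ℝ) : 0 ≤ Fov P t := measureReal_nonneg

theorem Fov_zero (P : Measure Obs) : Fov P 0 = 0 := by
  have : {y : Obs | Rov y 0 1 < 0} = ∅ := by
    ext y
    simp [Rov_nonneg y 0 1]
  simp [Fov, this]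

theorem Fov_two {P : Measure Obs} (hP : LimitModel P) : Fov P 2 = 1 := by
  have := hP.prob
  have : {y : Obs | Rov y 0 1 < 2} = Set.univ := by
    ext y
    simp only [Set.mem_ofPred_eq, Set.mem_univ, iff_true]
    linarith [Rov_le_one y 0 1]
  simp [Fov, this]

theorem Fov_le_one {P : Measure Obs} (hP : LimitModel P) (t : ℝ) : Fov P t ≤ 1 := by
  have := hP.prob
  exact measureReal_le_one

/-- Any pair of distinct replicas is obtained from `(0, 1)` by two swaps. -/
theorem Rov_eq_swap (x : Obs) {i j : ℕ} (hij : i ≠ j) :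
    Rov x i j = Rov (swapRep 0 i (swapRep (Equiv.swap 0 i 1) j x)) 0 1 := by
  rw [Rov_swapRep, Rov_swapRep, Equiv.swap_apply_left, Equiv.swap_apply_left]
  congr 1
  symm
  apply Equiv.swap_apply_of_ne_of_ne _ hij
  intro h
  have h2 : Equiv.swap 0 i 0 = Equiv.swap 0 i 1 := by rw [Equiv.swap_apply_left]; exact h
  have := (Equiv.swap 0 i).injective h2
  omega

theorem mp_swap2 {P : Measure Obs} (hP : LimitModel P) (i j : ℕ) :
    MeasurePreserving (fun x => swapRep 0 i (swapRep (Equiv.swap 0 i 1) j x)) P P :=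
  (hP.exch 0 i).comp (hP.exch _ j)

theorem real_Rov_lt {P : Measure Obs} (hP : LimitModel P) {i j : ℕ} (hij : i ≠ j) (t : ℝ) :
    P.real {x | Rov x i j < t} = Fov P t := by
  have h1 : {x : Obs | Rov x i j < t} =
      (fun x => swapRep 0 i (swapRep (Equiv.swap 0 i 1) j x)) ⁻¹' {y | Rov y 0 1 < t} := by
    ext x
    simp only [Set.mem_ofPred_eq, Set.mem_preimage]
    rw [Rov_eq_swap x hij]
  rw [h1, Fov, Measure.real, Measure.real, (mp_swap2 hP i j).measure_preimage]
  exact (measurableSet_lt (measurable_Rov 0 1) measurable_const).nullMeasurableSet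

/-- If `F t ≤ F s`, then a.s. `R < t` implies `R < s`. -/
theorem ae_lt_of_Fov_le {P : Measure Obs} (hP : LimitModel P) {s t : ℝ}
    (h : Fov P t ≤ Fov P s) :
    ∀ᵐ x ∂P, ∀ i j : ℕ, i ≠ j → Rov x i j < t → Rov x i j < s := by
  have := hP.prob
  rw [ae_all_iff]; intro i
  rw [ae_all_iff]; intro j
  by_cases hij : i ≠ j
  swap
  · exact Eventually.of_forall fun x hx => absurd hx hij
  rcases le_or_gt t s with hts | hst
  · exact Eventually.of_forall fun x _ hx => lt_of_lt_of_le hx hts
  have hsub : {x : Obs | Rov x i j < s} ⊆ {x | Rov x i j < t} :=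
    fun x (hx : Rov x i j < s) => lt_trans hx hst
  have hmeas : MeasurableSet {x : Obs | Rov x i j < s} :=
    measurableSet_lt (measurable_Rov i j) measurable_const
  have h0 : P.real ({x : Obs | Rov x i j < t} \ {x | Rov x i j < s}) = 0 := by
    rw [measureReal_sdiff hsub hmeas, real_Rov_lt hP hij, real_Rov_lt hP hij]
    apply le_antisymm
    · linarith
    · linarith [Fov_mono hP hst.le]
  have h1 : P ({x : Obs | Rov x i j < t} \ {x | Rov x i j < s}) = 0 := by
    rwa [measureReal_eq_zero_iff] at h0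
  have h2 : ∀ᵐ x ∂P, x ∉ ({x : Obs | Rov x i j < t} \ {x | Rov x i j < s}) :=
    measure_eq_zero_iff_ae_notMem.mp h1
  filter_upwards [h2] with x hx _ hxt
  by_contra hxs
  exact hx ⟨hxt, hxs⟩

/-! ### The thresholds -/

theorem lt_coal_iff {r : ℕ} {q : Fin r → ℝ} (hq : StrictMono q) (x : Obs) (l l' : ℕ)
    (j : Fin r) : (j : ℕ) < coal q x l l' ↔ q j ≤ Rov x l l' := by
  unfold coal
  constructor
  · intro h
    by_contra hlt
    have hsub : (Finset.univ.filter (fun i : Fin r => q i ≤ Rov x l l')) ⊆ Finset.Iio j := by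
      intro i hi
      rw [Finset.mem_filter] at hi
      rw [Finset.mem_Iio]
      by_contra hji
      exact hlt (le_trans (hq.monotone (not_lt.mp hji)) hi.2)
    have := Finset.card_le_card hsub
    rw [Fin.card_Iio] at this
    omega
  · intro h
    have hsub : Finset.Iic j ⊆ (Finset.univ.filter (fun i : Fin r => q i ≤ Rov x l l')) := by
      intro i hi
      rw [Finset.mem_Iic] at hi
      rw [Finset.mem_filter]
      exact ⟨Finset.mem_univ _, le_trans (hq.monotone hi) h⟩
    have := Finset.card_le_card hsub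
    rw [Fin.card_Iic] at this
    omega

theorem floor_eq_card {K : ℕ} (hK : 0 < K) {t : ℝ} (h0 : 0 ≤ t) (h1 : t ≤ 1) :
    ⌊(K : ℝ) * t⌋₊ = ((Finset.Icc 1 K).filter (fun a : ℕ => (a : ℝ) / K ≤ t)).card := by
  have hK' : (0 : ℝ) < K := by exact_mod_cast hK
  have : (Finset.Icc 1 K).filter (fun a : ℕ => (a : ℝ) / K ≤ t) =
      Finset.Icc 1 ⌊(K : ℝ) * t⌋₊ := by
    ext a
    rw [Finset.mem_filter, Finset.mem_Icc, Finset.mem_Icc, div_le_iff₀ hK',
      Nat.le_floor_iff (by positivity), mul_comm t]
    constructor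
    · rintro ⟨⟨h, _⟩, h'⟩
      exact ⟨h, h'⟩
    · rintro ⟨h, h'⟩
      refine ⟨⟨h, ?_⟩, h'⟩
      have : (a : ℝ) ≤ K := le_trans h' (by nlinarith)
      exact_mod_cast this
  rw [this]
  simp

theorem exists_thr {P : Measure Obs} (hP : LimitModel P) {K : ℕ} (hK : 0 < K) :
    ∃ (r : ℕ) (q : Fin r → ℝ), AdmissibleExponents (levP P q) ∧ StrictMono q ∧
      ∃ Ψ : ℕ → ℕ, ∀ᵐ x ∂P, ∀ i j : ℕ, i ≠ j → ⌊(K : ℝ) * Rov x i j⌋₊ = Ψ (coal q x i j) := by
  classical
  have := hP.prob
  set S : Finset ℝ := ((Finset.Icc 1 K).image (fun a : ℕ => Fov P ((a : ℝ) / K))).filter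
    (fun v => 0 < v ∧ v < 1) with hS
  have hSmem : ∀ v : ℝ, v ∈ S ↔ (∃ a ∈ Finset.Icc 1 K, Fov P ((a : ℝ) / K) = v) ∧
      (0 < v ∧ v < 1) := by
    intro v
    rw [hS, Finset.mem_filter, Finset.mem_image]
  set m : Fin S.card ↪o ℝ := S.orderEmbOfFin rfl with hm
  have hmem : ∀ j, m j ∈ S := fun j => Finset.orderEmbOfFin_mem S rfl j
  have hex : ∀ j, ∃ t : ℝ, Fov P t = m j := by
    intro j
    obtain ⟨⟨a, _, ha⟩, _⟩ := (hSmem _).mp (hmem j)
    exact ⟨_, ha⟩
  choose q hq using hex
  have hqm : StrictMono q := by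
    intro i j hij
    by_contra hle
    have h1 := Fov_mono hP (not_lt.mp hle)
    rw [hq, hq] at h1
    exact absurd (m.strictMono hij) (not_lt.mpr h1)
  have hlev : levP P q = fun j => m j := by
    funext j
    exact hq j
  refine ⟨S.card, q, ?_, hqm, ?_⟩
  · rw [hlev]
    refine ⟨m.strictMono, fun d => ?_⟩
    exact ((hSmem _).mp (hmem d)).2
  · refine ⟨fun c => ((Finset.Icc 1 K).filter (fun a : ℕ => Fov P ((a : ℝ) / K) = 0 ∨
      ∃ j : Fin S.card, (j : ℕ) < c ∧ Fov P ((a : ℝ) / K) = Fov P (q j))).card, ?_⟩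
    -- a.s. facts
    have h0 : ∀ᵐ x ∂P, ∀ a : ℕ, Fov P ((a : ℝ) / K) = 0 → ∀ i j : ℕ, i ≠ j →
        (a : ℝ) / K ≤ Rov x i j := by
      rw [ae_all_iff]; intro a
      by_cases ha : Fov P ((a : ℝ) / K) = 0
      · have := ae_lt_of_Fov_le hP (s := 0) (t := (a : ℝ) / K) (by rw [ha, Fov_zero])
        filter_upwards [this] with x hx _ i j hij
        by_contra hlt
        exact absurd (hx i j hij (not_le.mp hlt)) (not_lt.mpr (Rov_nonneg x i j))
      · exact Eventually.of_forall fun x h => absurd h ha
    have h1 : ∀ᵐ x ∂P, ∀ a : ℕ, 1 ≤ Fov P ((a : ℝ) / K) → ∀ i j : ℕ, i ≠ j →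
        Rov x i j < (a : ℝ) / K := by
      rw [ae_all_iff]; intro a
      by_cases ha : 1 ≤ Fov P ((a : ℝ) / K)
      · have := ae_lt_of_Fov_le hP (s := (a : ℝ) / K) (t := 2) (by rw [Fov_two hP]; exact ha)
        filter_upwards [this] with x hx _ i j hij
        exact hx i j hij (by linarith [Rov_le_one x i j])
      · exact Eventually.of_forall fun x h => absurd h ha
    have h2 : ∀ᵐ x ∂P, ∀ (a : ℕ) (d : Fin S.card), Fov P ((a : ℝ) / K) = Fov P (q d) →
        ∀ i j : ℕ, i ≠ j → ((a : ℝ) / K ≤ Rov x i j ↔ q d ≤ Rov x i j) := by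
      rw [ae_all_iff]; intro a
      rw [ae_all_iff]; intro d
      by_cases ha : Fov P ((a : ℝ) / K) = Fov P (q d)
      · have e1 := ae_lt_of_Fov_le hP (s := (a : ℝ) / K) (t := q d) (by rw [ha])
        have e2 := ae_lt_of_Fov_le hP (s := q d) (t := (a : ℝ) / K) (by rw [ha])
        filter_upwards [e1, e2] with x hx1 hx2 _ i j hij
        constructor
        · intro h
          by_contra hlt
          exact absurd (hx1 i j hij (not_le.mp hlt)) (not_lt.mpr h)
        · intro h
          by_contra hlt
          exact absurd (hx2 i j hij (not_le.mp hlt)) (not_lt.mpr h)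
      · exact Eventually.of_forall fun x h => absurd h ha
    filter_upwards [h0, h1, h2] with x hx0 hx1 hx2 i j hij
    rw [floor_eq_card hK (Rov_nonneg x i j) (Rov_le_one x i j)]
    congr 1
    apply Finset.filter_congr
    intro a ha
    constructor
    · intro h
      rcases eq_or_lt_of_le (Fov_nonneg P ((a : ℝ) / K)) with h3 | h3
      · exact Or.inl h3.symm
      right
      have h4 : Fov P ((a : ℝ) / K) < 1 := by
        by_contra h5
        exact absurd (hx1 a (not_lt.mp h5) i j hij) (not_lt.mpr h)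
      have h6 : Fov P ((a : ℝ) / K) ∈ S := (hSmem _).mpr ⟨⟨a, ha, rfl⟩, h3, h4⟩
      have h7 : Fov P ((a : ℝ) / K) ∈ Set.range m := by
        rw [hm, Finset.range_orderEmbOfFin]
        exact h6
      obtain ⟨d, hd⟩ := h7
      have h8 : Fov P ((a : ℝ) / K) = Fov P (q d) := by rw [hq, hd]
      refine ⟨d, ?_, h8⟩
      rw [lt_coal_iff hqm]
      exact (hx2 a d h8 i j hij).mp h
    · rintro (h | ⟨d, hd, h⟩)
      · exact hx0 a h i j hij
      · rw [lt_coal_iff hqm] at hd
        exact (hx2 a d h i j hij).mpr hd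

/-! ### Approximation -/

/-- The discretised overlap matrix, with constant diagonal. -/
noncomputable def discM (n K : ℕ) (x : Obs) : Fin n → Fin n → ℝ :=
  fun i j => if i = j then ∑' s, wt s else (⌊(K : ℝ) * Rov x i j⌋₊ : ℝ) / K

theorem measurable_discM (n K : ℕ) : Measurable (discM n K) := by
  refine measurable_pi_lambda _ fun i => measurable_pi_lambda _ fun j => ?_
  unfold discM
  by_cases h : i = j
  · simp only [h, if_true]
    exact measurable_const
  · simp only [h, if_false]
    have h1 : Measurable (fun x : Obs => ⌊(K : ℝ) * Rov x i j⌋₊) :=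
      Nat.measurable_floor.comp ((measurable_Rov i j).const_mul _)
    have h2 : Measurable (fun k : ℕ => (k : ℝ) / K) := measurable_of_countable _
    exact h2.comp h1

theorem measurable_Rmat {n : ℕ} (ls : Fin n → ℕ) : Measurable (Rmat ls) :=
  measurable_pi_lambda _ fun _ => measurable_pi_lambda _ fun _ => measurable_Rov _ _

theorem measurable_Dn (n : ℕ) (c : Fin n → Bool) : Measurable (fun x => Dn n x c) :=
  measurable_Dl _ _ _

theorem Dn_nonneg (n : ℕ) (x : Obs) (c : Fin n → Bool) : 0 ≤ Dn n x c := Dl_nonneg _ _ _ _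

theorem Dn_le_one (n : ℕ) (x : Obs) (c : Fin n → Bool) : Dn n x c ≤ 1 := Dl_le_one _ _ _ _

theorem integrable_Dn {P : Measure Obs} (hP : LimitModel P) (n : ℕ) (c : Fin n → Bool) :
    Integrable (fun x => Dn n x c) P := by
  have := hP.prob
  refine Integrable.of_bound (measurable_Dn n c).aestronglyMeasurable 1 ?_
  refine Eventually.of_forall fun x => ?_
  rw [Real.norm_eq_abs, abs_of_nonneg (Dn_nonneg n x c)]
  exact Dn_le_one n x c

/-- `D_n(c)` is a.s. a function of the overlap matrix. -/
theorem Dn_eq_G {P : Measure Obs} (hP : LimitModel P) (n : ℕ) (c : Fin n → Bool) :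
    ∃ G : (Fin n → Fin n → ℝ) → ℝ, Measurable G ∧ ∀ᵐ x ∂P, Dn n x c = G (Rmat (rg n) x) := by
  classical
  rcases Nat.eq_zero_or_pos n with rfl | hn
  · refine ⟨fun _ => 1, measurable_const, ?_⟩
    filter_upwards [hP.simplex] with x hx
    have := hx Species.plain 0 (rg 0)
    rw [Fintype.sum_unique] at this
    rw [← this]
    unfold Dn Dplain
    congr 1
    funext j
    exact j.elim0
  · obtain ⟨G, hG, hGx⟩ := claim_all hP n hn Species.plain
      (fun c' => if c' = (fun j _ => c j) then 1 else 0)
    refine ⟨G, hG, ?_⟩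
    filter_upwards [hGx] with x hx
    rw [← hx]
    unfold Dn Dplain Dθ
    simp

theorem approx_disc {P : Measure Obs} (hP : LimitModel P) (n : ℕ) (c : Fin n → Bool) {δ : ℝ}
    (hδ : 0 < δ) :
    ∃ g : (Fin n → Fin n → ℝ) → ℝ, Measurable g ∧ (∃ B, ∀ M, |g M| ≤ B) ∧
      ∀ᶠ K : ℕ in atTop, ∫ x, |Dn n x c - g (discM n K x)| ∂P ≤ δ := by
  have := hP.prob
  obtain ⟨G, hG, hGx⟩ := Dn_eq_G hP n c
  have hGi : Integrable G (P.map (Rmat (rg n))) := by
    rw [integrable_map_measure hG.aestronglyMeasurable (measurable_Rmat _).aemeasurable]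
    exact (integrable_Dn hP n c).congr hGx
  have : IsProbabilityMeasure (P.map (Rmat (rg n))) :=
    Measure.isProbabilityMeasure_map (measurable_Rmat _).aemeasurable
  obtain ⟨g, hgs, hgi, hgc, hgint⟩ :=
    hGi.exists_hasCompactSupport_integral_sub_le (half_pos hδ)
  obtain ⟨B, hB⟩ := hgs.exists_bound_of_continuous hgc
  refine ⟨g, hgc.measurable, ⟨B, fun M => by simpa using hB M⟩, ?_⟩
  have huc : UniformContinuous g := hgs.uniformContinuous_of_continuous hgc
  obtain ⟨η, hη, hgη⟩ := Metric.uniformContinuous_iff.mp huc (δ / 2) (half_pos hδ)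
  have hev : ∀ᶠ K : ℕ in atTop, (1 : ℝ) / K < η := by
    have := tendsto_one_div_atTop_nhds_zero_nat (𝕜 := ℝ)
    exact this.eventually (gt_mem_nhds hη)
  filter_upwards [hev, eventually_gt_atTop 0] with K hKη hK
  have hK' : (0 : ℝ) < K := by exact_mod_cast hK
  have hself := Rov_self hP
  have hclose : ∀ᵐ x ∂P, |g (Rmat (rg n) x) - g (discM n K x)| ≤ δ / 2 := by
    filter_upwards [hself] with x hx
    have hd : dist (Rmat (rg n) x) (discM n K x) < η := by
      rw [dist_pi_lt_iff hη]
      intro i
      rw [dist_pi_lt_iff hη]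
      intro j
      unfold Rmat discM rg
      by_cases hij : i = j
      · subst hij
        simp only [if_true]
        rw [hx, dist_self]
        exact hη
      · simp only [hij, if_false]
        refine lt_of_le_of_lt ?_ hKη
        rw [Real.dist_eq, abs_le]
        have h1 := Nat.floor_le (mul_nonneg hK'.le (Rov_nonneg x i j))
        have h2 := (Nat.lt_floor_add_one ((K : ℝ) * Rov x i j)).le
        have e1 : (⌊(K : ℝ) * Rov x i j⌋₊ : ℝ) / K ≤ Rov x i j := by
          rw [div_le_iff₀ hK']; linarith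
        have e2 : Rov x i j ≤ (⌊(K : ℝ) * Rov x i j⌋₊ : ℝ) / K + 1 / K := by
          rw [← add_div, le_div_iff₀ hK']; linarith
        constructor
        · have : (0 : ℝ) ≤ 1 / K := by positivity
          linarith
        · linarith
    have := hgη hd
    rw [Real.dist_eq] at this
    exact this.le
  have hint1 : Integrable (fun x => |Dn n x c - g (Rmat (rg n) x)|) P := by
    apply Integrable.abs
    apply (integrable_Dn hP n c).sub
    exact (integrable_map_measure hgc.aestronglyMeasurable
      (measurable_Rmat _).aemeasurable).mp hgint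
  calc ∫ x, |Dn n x c - g (discM n K x)| ∂P
      ≤ ∫ x, (|Dn n x c - g (Rmat (rg n) x)| + δ / 2) ∂P := by
        apply integral_mono_of_nonneg
        · exact Eventually.of_forall fun x => abs_nonneg _
        · exact hint1.add (integrable_const _)
        · filter_upwards [hclose] with x hx
          have := abs_sub_le (Dn n x c) (g (Rmat (rg n) x)) (g (discM n K x))
          linarith
    _ = (∫ x, |Dn n x c - g (Rmat (rg n) x)| ∂P) + δ / 2 := by
        rw [integral_add hint1 (integrable_const _)]
        simp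
    _ ≤ δ / 2 + δ / 2 := by
        gcongr
        have h3 : ∫ x, |Dn n x c - g (Rmat (rg n) x)| ∂P =
            ∫ x, (fun M => ‖G M - g M‖) (Rmat (rg n) x) ∂P := by
          apply integral_congr_ae
          filter_upwards [hGx] with x hx
          rw [hx, Real.norm_eq_abs]
        rw [h3, ← integral_map (f := fun M => ‖G M - g M‖) (measurable_Rmat _).aemeasurable
          ((hG.sub hgc.measurable).norm).aestronglyMeasurable]
        exact hgi
    _ = δ := by ring

end TMart

open TMart in
theorem exists_thresholds {P : Measure Obs} (hP : LimitModel P) (n₀ : ℕ) {ε : ℝ} (hε : 0 < ε) :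
    ∃ (r : ℕ) (q : Fin r → ℝ), AdmissibleExponents (levP P q) ∧
      ∃ Dbar : (n : ℕ) → (ℕ → ℕ × ℕ) → (Fin n → Bool) → ℝ,
        (∀ n c, DepAtt n (fun att => Dbar n att c)) ∧
        ∀ n ≤ n₀, ∫ x, l1 (Dn n x) (Dbar n (gen q x)) ∂P ≤ ε := by
  classical
  have := hP.prob
  have key : ∀ (n : ℕ) (c : Fin n → Bool), ∃ g : (Fin n → Fin n → ℝ) → ℝ, Measurable g ∧
      (∃ B, ∀ M, |g M| ≤ B) ∧
      ∀ᶠ K : ℕ in atTop, ∫ x, |Dn n x c - g (discM n K x)| ∂P ≤ ε / 2 ^ n :=
    fun n c => approx_disc hP n c (by positivity)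
  choose g hgm hgb hgK using key
  have hev : ∀ᶠ K : ℕ in atTop, ∀ n ∈ Finset.range (n₀ + 1), ∀ c : Fin n → Bool,
      ∫ x, |Dn n x c - g n c (discM n K x)| ∂P ≤ ε / 2 ^ n := by
    rw [Filter.eventually_all_finset]
    intro n _
    rw [Filter.eventually_all]
    exact fun c => hgK n c
  obtain ⟨K, hKall, hK⟩ := (hev.and (eventually_gt_atTop 0)).exists
  obtain ⟨r, q, hadm, hqm, Ψ, hΨ⟩ := exists_thr hP hK
  refine ⟨r, q, hadm, fun n att c => g n c (fun i j => if i = j then ∑' s, wt s else
    (Ψ (coalA r (Function.update att 0 (0, 0)) i j) : ℝ) / K), ?_, ?_⟩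
  · intro n c att att' h
    simp only
    congr 1
    funext i j
    by_cases hij : i = j
    · simp [hij]
    · simp only [hij, if_false]
      have : coalA r (Function.update att 0 (0, 0)) i j =
          coalA r (Function.update att' 0 (0, 0)) i j := by
        apply coalA_congr (n := n) _ i.2 j.2
        · simp
        · intro l hl hl'
          have hl0 : l ≠ 0 := by omega
          rw [Function.update_of_ne hl0, Function.update_of_ne hl0]
          exact h l hl hl'
      rw [this]
  · intro n hn
    have hae : ∀ᵐ x ∂P, ∀ c : Fin n → Bool, g n c (fun i j => if i = j then ∑' s, wt s else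
        (Ψ (coalA r (Function.update (gen q x) 0 (0, 0)) i j) : ℝ) / K) =
        g n c (discM n K x) := by
      filter_upwards [hΨ, ultraOn_coal hP q hqm] with x hx hu c
      congr 1
      funext i j
      unfold discM
      by_cases hij : i = j
      · simp [hij]
      · simp only [hij, if_false]
        have hij' : (i : ℕ) ≠ (j : ℕ) := fun h => hij (Fin.ext h)
        have hup : Function.update (gen q x) 0 (0, 0) = gen q x := by
          rw [Function.update_eq_self_iff]
          simp [gen, genOf]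
        rw [hup, gen, coalA_genOf (hu n) i.2 j.2 hij', hx i j hij']
    have hint : ∀ c : Fin n → Bool,
        Integrable (fun x => |Dn n x c - g n c (discM n K x)|) P := by
      intro c
      obtain ⟨B, hB⟩ := hgb n c
      refine ((integrable_Dn hP n c).sub ?_).abs
      exact Integrable.of_bound
        ((hgm n c).comp (measurable_discM n K)).aestronglyMeasurable B
        (Eventually.of_forall fun x => by simpa using hB _)
    calc ∫ x, l1 (Dn n x) (fun c => g n c (fun i j => if i = j then ∑' s, wt s else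
          (Ψ (coalA r (Function.update (gen q x) 0 (0, 0)) i j) : ℝ) / K)) ∂P
        = ∫ x, ∑ c : Fin n → Bool, |Dn n x c - g n c (discM n K x)| ∂P := by
          apply integral_congr_ae
          filter_upwards [hae] with x hx
          unfold l1
          refine Finset.sum_congr rfl fun c _ => ?_
          simp only
          rw [hx c]
      _ = ∑ c : Fin n → Bool, ∫ x, |Dn n x c - g n c (discM n K x)| ∂P :=
          integral_finsetSum _ fun c _ => hint c
      _ ≤ ∑ c : Fin n → Bool, ε / 2 ^ n :=
          Finset.sum_le_sum fun c _ => hKall n (Finset.mem_range.mpr (by omega)) c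
      _ = ε := by
          rw [Finset.sum_const, Finset.card_univ, nsmul_eq_mul]
          simp only [Fintype.card_pi, Fintype.card_bool, Finset.prod_const, Finset.card_univ,
            Fintype.card_fin]
          push_cast
          field_simp

end Crest.Agent.MP
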