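import Crest.Agent.MP.TTableA

/-!
# T-TABLE-B: labels of the full tree, good choices
-/

set_option autoImplicit false

namespace Crest.Agent.MP

open MeasureTheory Filter Topology
open Crest.ProbabilityR.Diluted

/-- Common prefix length of two leaves. -/
def cpre {r K : ℕ} (α β : Fin r → Fin K) : ℕ :=
  ((Finset.range r).filter (fun j => ∀ i : Fin r, (i : ℕ) ≤ j → α i = β i)).card

/-- A downward closed subset of `range N` is the initial segment of its cardinality. -/
private theorem lt_card_iff {N : ℕ} (p : ℕ → Prop) [DecidablePred p]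
    (hp : ∀ i j, i ≤ j → j < N → p j → p i) (j : ℕ) :
    j < ((Finset.range N).filter p).card ↔ j < N ∧ p j := by
  constructor
  · intro h
    by_contra hcon
    have hsub : (Finset.range N).filter p ⊆ Finset.range j := by
      intro i hi
      rw [Finset.mem_filter, Finset.mem_range] at hi
      rw [Finset.mem_range]
      by_contra hij
      push Not at hij
      exact hcon ⟨hij.trans_lt hi.1, hp j i hij hi.1 hi.2⟩
    have := Finset.card_le_card hsub
    rw [Finset.card_range] at this
    omega
  · rintro ⟨hj, hpj⟩
    have hsub : Finset.range (j + 1) ⊆ (Finset.range N).filter p := by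
      intro i hi
      rw [Finset.mem_range] at hi
      rw [Finset.mem_filter, Finset.mem_range]
      exact ⟨by omega, hp i j (by omega) hj hpj⟩
    have := Finset.card_le_card hsub
    rw [Finset.card_range] at this
    omega

private theorem lt_cpre_iff {r K : ℕ} (α β : Fin r → Fin K) (j : ℕ) :
    j < cpre α β ↔ j < r ∧ ∀ i : Fin r, (i : ℕ) ≤ j → α i = β i :=
  lt_card_iff _ (fun _ _ hij _ h k hk => h k (hk.trans hij)) j

/-- The pattern of the labels of the full tree is ultrametric. -/
theorem cpre_ultra {r K : ℕ} (α β γ : Fin r → Fin K) :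
    min (cpre α γ) (cpre β γ) ≤ cpre α β ∧ cpre α β = cpre β α ∧ cpre α β ≤ r := by
  refine ⟨?_, ?_, ?_⟩
  · by_contra hcon
    push Not at hcon
    obtain ⟨h1, h2⟩ := lt_min_iff.1 hcon
    rw [lt_cpre_iff] at h1 h2
    have := (lt_cpre_iff α β (cpre α β)).2
      ⟨h1.1, fun i hi => (h1.2 i hi).trans (h2.2 i hi).symm⟩
    exact lt_irrefl _ this
  · unfold cpre
    congr 1
    refine Finset.filter_congr fun j _ => ?_
    exact forall₂_congr fun _ _ => eq_comm
  · exact (Finset.card_filter_le _ _).trans (Finset.card_range r).le

/-- Choices of `(V, w)` for which the labels `(path l, w l)` are distinct and have pattern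
`coalA r att`. -/
def GoodVW {r K L n : ℕ} (att : ℕ → ℕ × ℕ) (V : Fin n → Fin r → Fin K) (w : Fin n → Fin L) : Prop :=
  ∀ l l' : Fin n, l ≠ l' → (pathV att V l, w l) ≠ (pathV att V l', w l') ∧
    cpre (pathV att V l) (pathV att V l') = coalA r att l l'

private theorem ttb_owner_owner (att : ℕ → ℕ × ℕ) {j j' : ℕ} (h : j ≤ j') (l : ℕ) :
    owner att (owner att l j') j = owner att l j := by
  induction l using Nat.strong_induction_on with
  | _ l ih =>
    by_cases h1 : (att l).1 < l ∧ j' ≤ (att l).2
    · have e1 : owner att l j' = owner att (att l).1 j' := by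
        conv_lhs => rw [owner]
        rw [dif_pos h1]
      have e2 : owner att l j = owner att (att l).1 j := by
        conv_lhs => rw [owner]
        rw [dif_pos ⟨h1.1, h.trans h1.2⟩]
      rw [e1, e2]
      exact ih _ h1.1
    · have e1 : owner att l j' = l := by
        conv_lhs => rw [owner]
        rw [dif_neg h1]
      rw [e1]

/-- The common levels of two replicas are the levels `1, …, coalA`. -/
private theorem ttb_owner_eq_iff {r : ℕ} (att : ℕ → ℕ × ℕ) (l l' j : ℕ) :
    j < coalA r att l l' ↔ j < r ∧ owner att l (j + 1) = owner att l' (j + 1) := by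
  have h1 : coalA r att l l' = ((Finset.range r).filter
      (fun j => owner att l (j + 1) = owner att l' (j + 1))).card := by
    unfold coalA
    symm
    refine Finset.card_bij (fun j _ => j + 1) ?_ ?_ ?_
    · intro j hj
      rw [Finset.mem_filter, Finset.mem_range] at hj
      rw [Finset.mem_filter, Finset.mem_Icc]
      exact ⟨⟨by omega, by omega⟩, hj.2⟩
    · intro a _ b _ hab
      exact Nat.succ_injective hab
    · intro b hb
      rw [Finset.mem_filter, Finset.mem_Icc] at hb
      refine ⟨b - 1, ?_, by omega⟩
      rw [Finset.mem_filter, Finset.mem_range, Nat.sub_add_cancel hb.1.1]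
      exact ⟨by omega, hb.2⟩
  rw [h1]
  refine lt_card_iff _ (fun i j hij _ h => ?_) j
  rw [← ttb_owner_owner att (show i + 1 ≤ j + 1 by omega) l,
    ← ttb_owner_owner att (show i + 1 ≤ j + 1 by omega) l', h]

private theorem ttb_card_aux {T X : Type} [Fintype T] [Fintype X] (S : Finset T) (φ : T → X → T)
    (h : ∀ s ∈ S, ∀ s' ∈ S, ∀ x x', φ s x = φ s' x' → s = s' ∧ x = x') :
    S.card * Fintype.card X ≤ Fintype.card T := by
  rw [← Finset.card_univ (α := X), ← Finset.card_product, ← Finset.card_univ (α := T)]
  refine Finset.card_le_card_of_injOn (fun p => φ p.1 p.2) (fun _ _ => Finset.mem_coe.2 (Finset.mem_univ _)) ?_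
  rintro ⟨s, x⟩ hs ⟨s', x'⟩ hs' he
  rw [Finset.mem_coe, Finset.mem_product] at hs hs'
  obtain ⟨h1, h2⟩ := h s hs.1 s' hs'.1 x x' he
  rw [h1, h2]

/-- Few choices are bad: if the pair `l, l'` is bad then either `w l = w l'` or the children of two
distinct nodes with the same parent coincide. -/
theorem card_bad {r K L n : ℕ} (hK : 0 < K) (hL : 0 < L) (att : ℕ → ℕ × ℕ)
    (hatt : ValidAtt r n att) :
    (Nat.card {p : (Fin n → Fin r → Fin K) × (Fin n → Fin L) // ¬ GoodVW att p.1 p.2} : ℝ) ≤
      (n : ℝ) ^ 2 * (1 / K + 1 / L) * ((K : ℝ) ^ (n * r) * (L : ℝ) ^ n) := by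
  classical
  have hcardT : (Fintype.card ((Fin n → Fin r → Fin K) × (Fin n → Fin L)) : ℝ) =
      (K : ℝ) ^ (n * r) * (L : ℝ) ^ n := by
    rw [Fintype.card_prod, Fintype.card_fun, Fintype.card_fun, Fintype.card_fun]
    simp only [Fintype.card_fin]
    push_cast
    rw [← pow_mul, mul_comm n r]
  set N : ℝ := (K : ℝ) ^ (n * r) * (L : ℝ) ^ n with hN
  have hN0 : 0 ≤ N := by positivity
  have hK' : (0 : ℝ) < K := Nat.cast_pos.2 hK
  have hL' : (0 : ℝ) < L := Nat.cast_pos.2 hL
  -- bad pairs
  set bad : Fin n × Fin n → ((Fin n → Fin r → Fin K) × (Fin n → Fin L)) → Prop :=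
    fun q p => q.1 ≠ q.2 ∧ (p.2 q.1 = p.2 q.2 ∨
      cpre (pathV att p.1 q.1) (pathV att p.1 q.2) ≠ coalA r att q.1 q.2) with hbad
  have hsub : (Finset.univ.filter fun p : (Fin n → Fin r → Fin K) × (Fin n → Fin L) =>
      ¬ GoodVW att p.1 p.2) ⊆ Finset.univ.biUnion
        (fun q : Fin n × Fin n => Finset.univ.filter (bad q)) := by
    intro p hp
    rw [Finset.mem_filter] at hp
    have h1 := hp.2
    unfold GoodVW at h1
    push Not at h1
    obtain ⟨l, l', hne, h2⟩ := h1
    rw [Finset.mem_biUnion]
    refine ⟨(l, l'), Finset.mem_univ _, Finset.mem_filter.2 ⟨Finset.mem_univ _, hne, ?_⟩⟩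
    by_cases h3 : (pathV att p.1 l, p.2 l) = (pathV att p.1 l', p.2 l')
    · exact Or.inl (Prod.ext_iff.1 h3).2
    · exact Or.inr (h2 h3)
  have hq : ∀ q : Fin n × Fin n, ((Finset.univ.filter (bad q)).card : ℝ) ≤ (1 / K + 1 / L) * N := by
    rintro ⟨l, l'⟩
    by_cases hll : l = l'
    · have : Finset.univ.filter (bad (l, l')) = ∅ := by
        rw [Finset.filter_eq_empty_iff]
        rintro p - ⟨h1, -⟩
        exact h1 hll
      rw [this, Finset.card_empty, Nat.cast_zero]
      positivity
    -- `w l = w l'`
    have hA : ((Finset.univ.filter fun p : (Fin n → Fin r → Fin K) × (Fin n → Fin L) =>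
        p.2 l = p.2 l').card : ℝ) ≤ 1 / L * N := by
      have h1 := ttb_card_aux (Finset.univ.filter fun p : (Fin n → Fin r → Fin K) × (Fin n → Fin L) =>
        p.2 l = p.2 l') (fun p (x : Fin L) => (p.1, Function.update p.2 l x)) (by
          rintro ⟨V, w⟩ hs ⟨V', w'⟩ hs' x x' he
          simp only [Finset.mem_filter, Finset.mem_univ, true_and] at hs hs'
          simp only [Prod.mk.injEq] at he
          obtain ⟨hV, he⟩ := he
          have hx : x = x' := by simpa using congrFun he l
          refine ⟨?_, hx⟩
          have hw : ∀ c, c ≠ l → w c = w' c := fun c hc => by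
            simpa [Function.update_of_ne hc] using congrFun he c
          have hwl : w l = w' l := by
            rw [hs, hs', hw l' (Ne.symm hll)]
          have : w = w' := by
            funext c
            by_cases hc : c = l
            · rw [hc, hwl]
            · exact hw c hc
          rw [hV, this])
      rw [Fintype.card_fin] at h1
      have h2 : ((Finset.univ.filter fun p : (Fin n → Fin r → Fin K) × (Fin n → Fin L) =>
        p.2 l = p.2 l').card : ℝ) * L ≤ N := by
        rw [← hcardT]
        exact_mod_cast h1
      rw [one_div, inv_mul_eq_div, le_div_iff₀ hL']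
      exact h2
    set k := coalA r att l l' with hk
    -- the prefix is at least `k`
    have hge : ∀ V : Fin n → Fin r → Fin K, k ≤ cpre (pathV att V l) (pathV att V l') := by
      intro V
      by_contra hcon
      push Not at hcon
      have h1 := (ttb_owner_eq_iff att l l' _).1 hcon
      have h2 := (lt_cpre_iff (pathV att V l) (pathV att V l')
        (cpre (pathV att V l) (pathV att V l'))).2 ⟨h1.1, fun i hi => ?_⟩
      · exact lt_irrefl _ h2
      · have h3 : (i : ℕ) < coalA r att l l' := hi.trans_lt hcon
        have h4 := ((ttb_owner_eq_iff att l l' _).1 h3).2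
        unfold pathV
        congr 2
        rw [min_eq_left (owner_le att l _), min_eq_left (owner_le att l' _), h4]
    by_cases hkr : k < r
    · have hne : owner att l (k + 1) ≠ owner att l' (k + 1) := by
        intro h
        have := (ttb_owner_eq_iff (r := r) att l l' k).2 ⟨hkr, h⟩
        exact lt_irrefl _ this
      have ho : owner att l (k + 1) < n := (owner_le att l _).trans_lt l.2
      have ho' : owner att l' (k + 1) < n := (owner_le att l' _).trans_lt l'.2
      set o : Fin n := ⟨owner att l (k + 1), ho⟩ with hodef
      set o' : Fin n := ⟨owner att l' (k + 1), ho'⟩ with hodef'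
      have hoo : o ≠ o' := fun h => hne (Fin.mk.inj_iff.1 h)
      set kk : Fin r := ⟨k, hkr⟩ with hkk
      have hB : ((Finset.univ.filter fun p : (Fin n → Fin r → Fin K) × (Fin n → Fin L) =>
          p.1 o kk = p.1 o' kk).card : ℝ) ≤ 1 / K * N := by
        have h1 := ttb_card_aux (Finset.univ.filter fun p : (Fin n → Fin r → Fin K) × (Fin n → Fin L) =>
          p.1 o kk = p.1 o' kk) (fun p (x : Fin K) =>
            (Function.update p.1 o (Function.update (p.1 o) kk x), p.2)) (by
            rintro ⟨V, w⟩ hs ⟨V', w'⟩ hs' x x' he
            simp only [Finset.mem_filter, Finset.mem_univ, true_and] at hs hs'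
            simp only [Prod.mk.injEq] at he
            obtain ⟨he, hw⟩ := he
            have hx : x = x' := by simpa using congrFun (congrFun he o) kk
            refine ⟨?_, hx⟩
            have h1 : ∀ c, c ≠ o → V c = V' c := fun c hc => by
              simpa [Function.update_of_ne hc] using congrFun he c
            have h2 : ∀ i, i ≠ kk → V o i = V' o i := fun i hi => by
              simpa [Function.update_of_ne hi] using congrFun (congrFun he o) i
            have h3 : V o kk = V' o kk := by
              rw [hs, hs', h1 o' (Ne.symm hoo)]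
            have : V = V' := by
              funext c
              by_cases hc : c = o
              · subst hc
                funext i
                by_cases hi : i = kk
                · rw [hi, h3]
                · exact h2 i hi
              · exact h1 c hc
            rw [hw, this])
        rw [Fintype.card_fin] at h1
        have h2 : ((Finset.univ.filter fun p : (Fin n → Fin r → Fin K) × (Fin n → Fin L) =>
          p.1 o kk = p.1 o' kk).card : ℝ) * K ≤ N := by
          rw [← hcardT]
          exact_mod_cast h1
        rw [one_div, inv_mul_eq_div, le_div_iff₀ hK']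
        exact h2
      have hss : Finset.univ.filter (bad (l, l')) ⊆
          (Finset.univ.filter fun p : (Fin n → Fin r → Fin K) × (Fin n → Fin L) =>
            p.1 o kk = p.1 o' kk) ∪
          (Finset.univ.filter fun p : (Fin n → Fin r → Fin K) × (Fin n → Fin L) =>
            p.2 l = p.2 l') := by
        rintro p hp
        rw [Finset.mem_filter] at hp
        obtain ⟨-, -, hp⟩ := hp
        rw [Finset.mem_union, Finset.mem_filter, Finset.mem_filter]
        rcases hp with hp | hp
        · exact Or.inr ⟨Finset.mem_univ _, hp⟩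
        · refine Or.inl ⟨Finset.mem_univ _, ?_⟩
          have h1 : k < cpre (pathV att p.1 l) (pathV att p.1 l') :=
            lt_of_le_of_ne (hge p.1) (Ne.symm hp)
          have h2 := ((lt_cpre_iff _ _ _).1 h1).2 kk le_rfl
          have e1 : pathV att p.1 l kk = p.1 o kk :=
            congrArg (fun a => p.1 a kk) (Fin.ext (min_eq_left (owner_le att l _)))
          have e2 : pathV att p.1 l' kk = p.1 o' kk :=
            congrArg (fun a => p.1 a kk) (Fin.ext (min_eq_left (owner_le att l' _)))
          rw [← e1, ← e2, h2]
      calc ((Finset.univ.filter (bad (l, l'))).card : ℝ)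
          ≤ ((Finset.univ.filter fun p : (Fin n → Fin r → Fin K) × (Fin n → Fin L) =>
            p.1 o kk = p.1 o' kk) ∪
          (Finset.univ.filter fun p : (Fin n → Fin r → Fin K) × (Fin n → Fin L) =>
            p.2 l = p.2 l')).card := by exact_mod_cast Finset.card_le_card hss
        _ ≤ ((Finset.univ.filter fun p : (Fin n → Fin r → Fin K) × (Fin n → Fin L) =>
            p.1 o kk = p.1 o' kk)).card +
          (Finset.univ.filter fun p : (Fin n → Fin r → Fin K) × (Fin n → Fin L) =>
            p.2 l = p.2 l').card := by exact_mod_cast Finset.card_union_le _ _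
        _ ≤ 1 / K * N + 1 / L * N := add_le_add hB hA
        _ = (1 / K + 1 / L) * N := by ring
    · -- `k = r`: the prefix is `r`
      have hss : Finset.univ.filter (bad (l, l')) ⊆
          (Finset.univ.filter fun p : (Fin n → Fin r → Fin K) × (Fin n → Fin L) =>
            p.2 l = p.2 l') := by
        rintro p hp
        rw [Finset.mem_filter] at hp
        obtain ⟨-, -, hp⟩ := hp
        rw [Finset.mem_filter]
        refine ⟨Finset.mem_univ _, ?_⟩
        rcases hp with hp | hp
        · exact hp
        · exfalso
          have h1 := (cpre_ultra (pathV att p.1 l) (pathV att p.1 l') (pathV att p.1 l)).2.2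
          exact hp (le_antisymm (h1.trans (not_lt.1 hkr)) (hge p.1))
      calc ((Finset.univ.filter (bad (l, l'))).card : ℝ)
          ≤ (Finset.univ.filter fun p : (Fin n → Fin r → Fin K) × (Fin n → Fin L) =>
            p.2 l = p.2 l').card := by exact_mod_cast Finset.card_le_card hss
        _ ≤ 1 / L * N := hA
        _ ≤ (1 / K + 1 / L) * N := by
          have : 0 ≤ 1 / (K : ℝ) * N := by positivity
          linarith [this, add_mul (1 / (K : ℝ)) (1 / (L : ℝ)) N]
  rw [Nat.card_eq_fintype_card, Fintype.card_subtype]
  calc ((Finset.univ.filter fun p : (Fin n → Fin r → Fin K) × (Fin n → Fin L) =>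
      ¬ GoodVW att p.1 p.2).card : ℝ)
      ≤ ((Finset.univ.biUnion
        (fun q : Fin n × Fin n => Finset.univ.filter (bad q))).card : ℝ) := by
        exact_mod_cast Finset.card_le_card hsub
    _ ≤ ∑ q : Fin n × Fin n, ((Finset.univ.filter (bad q)).card : ℝ) := by
        exact_mod_cast Finset.card_biUnion_le
    _ ≤ ∑ _q : Fin n × Fin n, (1 / K + 1 / L) * N := Finset.sum_le_sum fun q _ => hq q
    _ = (n : ℝ) ^ 2 * (1 / K + 1 / L) * N := by
        rw [Finset.sum_const, Finset.card_univ, Fintype.card_prod, Fintype.card_fin, nsmul_eq_mul]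
        push_cast
        ring

end Crest.Agent.MP
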