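import Crest.Agent.MP.TPat
import Crest.Agent.MP.TMart
import Crest.Agent.MP.TTable

/-!
# T-CHOOSE: choice of a good table (§10)

Labels `τ ∈ (Fin r → Fin K) × Fin L`, enumerated by `e : labels ≃ Fin m`, pattern
`c = cpre` of the leaves on `Fin m` (`UltraPat` by `cpre_ultra`; positive probability `pat_pos`).
For every `n ≤ n₀`, valid `att` and good `(V,w)`: with `ls = e ∘ (path, w)` (injective),
`c ∘ ls = coalA r att`, and `pat_cond` with `β = Dbar n att` gives
`E[l1 (Dplain ls) (Dbar n att) | patSet c] = E[l1 (Dn n) (Dbar n att) | gen = att on [1,n)]`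
(`patSet (coalA r att) = {gen = att on [1,n)}` a.s.: `genOf_coalA`, `coalA_genOf`, `genOf_congr`).
Average over good `(V,w)` (weights `≤ 1`) and over `att` with the law of the genealogy
(`integral_gen`): the sum over `n ≤ n₀` of the expectations is
`≤ Σ_n ∫ l1 (Dn n x) (Dbar n (gen x)) ≤ (n₀+1) ε`.  So some `x` in `patSet c` (and in the event of
`hP.simplex`, `hP.map`) has the sum `≤ (n₀+1) ε`.  `D := Dplain (rg m) x` is a probability vector on
`Fin m → Bool`; `M` sites with configurations distributed approximately like `D`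
(`|#{i : σ_i = c}/M - D(c)| ≤ 1/M` for all but one `c`), `S i α w := σ_i (e (α, w))`; the empirical law of the
labels `C` is then close to `Dplain (e ∘ C) x` (`hP.map`).
-/

set_option autoImplicit false

namespace Crest.Agent.MP

open MeasureTheory Filter Topology
open Crest.ProbabilityR.Diluted

/-- Empirical law over the sites of a table, of the labels `C`. -/
noncomputable def tabEmp {M r K L n : ℕ} (S : Fin M → (Fin r → Fin K) → Fin L → Bool)
    (C : Fin n → (Fin r → Fin K) × Fin L) (c : Fin n → Bool) : ℝ :=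
  ((Finset.univ.filter (fun i : Fin M => ∀ l, S i (C l).1 (C l).2 = c l)).card : ℝ) / M

namespace TCh

/-! ### Congruences -/

theorem owner_congr {n : ℕ} {att att' : ℕ → ℕ × ℕ} (h : ∀ l, 1 ≤ l → l < n → att l = att' l)
    (j : ℕ) : ∀ l, l < n → owner att l j = owner att' l j := by
  intro l
  induction l using Nat.strong_induction_on with
  | _ l ih =>
    intro hl
    rcases Nat.eq_zero_or_pos l with h0 | h0
    · subst h0
      rw [owner.eq_1 att, owner.eq_1 att']
      simp
    · have e := h l h0 hl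
      rw [owner.eq_1 att, owner.eq_1 att']
      by_cases hc : (att l).1 < l ∧ j ≤ (att l).2
      · have hc' : (att' l).1 < l ∧ j ≤ (att' l).2 := by rw [← e]; exact hc
        rw [dif_pos hc, dif_pos hc', ← e]
        exact ih _ hc.1 (by omega)
      · have hc' : ¬ ((att' l).1 < l ∧ j ≤ (att' l).2) := by rw [← e]; exact hc
        rw [dif_neg hc, dif_neg hc']

theorem pathV_congr {r K n : ℕ} {att att' : ℕ → ℕ × ℕ}
    (h : ∀ l, 1 ≤ l → l < n → att l = att' l) (V : Fin n → Fin r → Fin K) (l : Fin n) :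
    pathV att V l = pathV att' V l := by
  funext j
  simp only [pathV, owner_congr h _ l l.2]

theorem coalA_congr' {r n : ℕ} {att att' : ℕ → ℕ × ℕ}
    (h : ∀ l, 1 ≤ l → l < n → att l = att' l) {l l' : ℕ} (hl : l < n) (hl' : l' < n) :
    coalA r att l l' = coalA r att' l l' := by
  unfold coalA
  congr 1
  apply Finset.filter_congr
  intro j _
  rw [owner_congr h j l hl, owner_congr h j l' hl']

theorem goodVW_congr {r K L n : ℕ} {att att' : ℕ → ℕ × ℕ}
    (h : ∀ l, 1 ≤ l → l < n → att l = att' l) (V : Fin n → Fin r → Fin K) (w : Fin n → Fin L) :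
    GoodVW att V w ↔ GoodVW att' V w := by
  unfold GoodVW
  simp only [pathV_congr h]
  constructor
  · intro hh l l' hne
    rw [← coalA_congr' h l.2 l'.2]
    exact hh l l' hne
  · intro hh l l' hne
    rw [coalA_congr' h l.2 l'.2]
    exact hh l l' hne

theorem validAtt_congr {r n : ℕ} {att att' : ℕ → ℕ × ℕ}
    (h : ∀ l, 1 ≤ l → l < n → att l = att' l) (hv : ValidAtt r n att) : ValidAtt r n att' := by
  intro l hl hl'
  have := hv l hl hl'
  rw [← h l hl hl']
  unfold nodes at this ⊢
  rw [Finset.mem_filter] at this ⊢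
  refine ⟨this.1, ?_⟩
  rcases Nat.eq_zero_or_pos (att l).1 with h0 | h0
  · exact Or.inl h0
  · have hlt : (att l).1 < l := by
      have := this.1
      rw [Finset.mem_product, Finset.mem_range] at this
      exact this.1
    rw [← h _ h0 (by omega)]
    exact this.2

/-! ### Truncated genealogies -/

/-- Keep `att 1, …, att (n-1)`. -/
def trunc (n : ℕ) (att : ℕ → ℕ × ℕ) : ℕ → ℕ × ℕ :=
  fun l => if 1 ≤ l ∧ l < n then att l else (0, 0)

theorem trunc_eq {n : ℕ} (att : ℕ → ℕ × ℕ) : ∀ l, 1 ≤ l → l < n → trunc n att l = att l := by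
  intro l h1 h2
  simp [trunc, h1, h2]

theorem trunc_congr {n : ℕ} {att att' : ℕ → ℕ × ℕ} (h : ∀ l, 1 ≤ l → l < n → att l = att' l) :
    trunc n att = trunc n att' := by
  funext l
  unfold trunc
  split_ifs with hc
  · exact h l hc.1 hc.2
  · rfl

theorem trunc_trunc {n : ℕ} (att : ℕ → ℕ × ℕ) : trunc n (trunc n att) = trunc n att :=
  trunc_congr (trunc_eq att)

/-- A function on `ℕ` from a function on `Fin n`. -/
def extA {n r : ℕ} (a : Fin n → Fin n × Fin (r + 1)) : ℕ → ℕ × ℕ :=
  fun l => if h : 1 ≤ l ∧ l < n then (((a ⟨l, h.2⟩).1 : ℕ), ((a ⟨l, h.2⟩).2 : ℕ)) else (0, 0)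

open Classical in
/-- The finite set of truncated genealogies. -/
noncomputable def gset (n r : ℕ) : Finset (ℕ → ℕ × ℕ) :=
  Finset.univ.image (extA (n := n) (r := r))

theorem trunc_mem_gset {n r : ℕ} {att : ℕ → ℕ × ℕ} (h : ValidAtt r n att) :
    trunc n att ∈ gset n r := by
  classical
  unfold gset
  rw [Finset.mem_image]
  have key : ∀ l, 1 ≤ l → l < n → (att l).1 < n ∧ (att l).2 < r + 1 := by
    intro l h1 h2
    have := h l h1 h2
    unfold nodes at this
    rw [Finset.mem_filter, Finset.mem_product, Finset.mem_range, Finset.mem_range] at this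
    exact ⟨by omega, this.1.2⟩
  refine ⟨fun l => if h : 1 ≤ (l : ℕ) then
    (⟨(att l).1, (key l h l.2).1⟩, ⟨(att l).2, (key l h l.2).2⟩)
    else (⟨0, l.pos⟩, ⟨0, by omega⟩), Finset.mem_univ _, ?_⟩
  funext l
  unfold extA trunc
  split_ifs with hc
  · simp [hc.1]
  · rfl

/-! ### Empirical laws -/

theorem exists_fibers {Ω : Type} [Fintype Ω] [DecidableEq Ω] {M : ℕ} (b : Ω → ℕ)
    (hb : ∑ σ, b σ = M) :
    ∃ s : Fin M → Ω, ∀ σ, (Finset.univ.filter (fun i => s i = σ)).card = b σ := by
  have hc : Fintype.card (Σ σ, Fin (b σ)) = Fintype.card (Fin M) := by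
    simp [Fintype.card_sigma, hb]
  let φ : (Σ σ, Fin (b σ)) ≃ Fin M := Fintype.equivOfCardEq hc
  refine ⟨fun i => (φ.symm i).1, fun σ => ?_⟩
  rw [← Fintype.card_fin (b σ), ← Finset.card_univ]
  symm
  apply Finset.card_bij (fun (k : Fin (b σ)) _ => φ ⟨σ, k⟩)
  · intro k _
    simp
  · intro k _ k' _ h
    have := φ.injective h
    simpa using this
  · intro i hi
    rw [Finset.mem_filter] at hi
    obtain ⟨_, hi⟩ := hi
    rcases h : φ.symm i with ⟨σ', k⟩
    simp only [h] at hi
    subst hi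
    exact ⟨k, Finset.mem_univ _, by rw [← h]; simp⟩

theorem exists_emp {Ω : Type} [Fintype Ω] [DecidableEq Ω] [Nonempty Ω] (p : Ω → ℝ)
    (h0 : ∀ σ, 0 ≤ p σ) (h1 : ∑ σ, p σ = 1) {δ : ℝ} (hδ : 0 < δ) :
    ∃ (M : ℕ) (s : Fin M → Ω), 0 < M ∧
      ∑ σ, |((Finset.univ.filter (fun i => s i = σ)).card : ℝ) / M - p σ| ≤ δ := by
  obtain ⟨σ₀⟩ := ‹Nonempty Ω›
  set N : ℝ := (Fintype.card Ω : ℝ) with hN
  obtain ⟨M, hM⟩ := exists_nat_gt (2 * N / δ)
  have hN0 : 0 ≤ N := by positivity
  have hMpos : (0 : ℝ) < M := lt_of_le_of_lt (by positivity) hM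
  have hMpos' : 0 < M := by exact_mod_cast hMpos
  set a : Ω → ℕ := fun σ => ⌊(M : ℝ) * p σ⌋₊ with ha
  have ha1 : ∀ σ, (a σ : ℝ) ≤ M * p σ := fun σ => Nat.floor_le (by have := h0 σ; positivity)
  have ha2 : ∀ σ, (M : ℝ) * p σ ≤ a σ + 1 := fun σ => (Nat.lt_floor_add_one _).le
  have hsum : (∑ σ, (a σ : ℝ)) ≤ M := by
    calc (∑ σ, (a σ : ℝ)) ≤ ∑ σ, (M : ℝ) * p σ := Finset.sum_le_sum fun σ _ => ha1 σ
      _ = M := by rw [← Finset.mul_sum, h1, mul_one]
  have hsum' : ∑ σ, a σ ≤ M := by exact_mod_cast hsum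
  have hsum2 : (M : ℝ) - ∑ σ, (a σ : ℝ) ≤ N := by
    have : (M : ℝ) = ∑ σ, (M : ℝ) * p σ := by rw [← Finset.mul_sum, h1, mul_one]
    have h2 : ∑ σ, (M : ℝ) * p σ ≤ ∑ σ, ((a σ : ℝ) + 1) := Finset.sum_le_sum fun σ _ => ha2 σ
    rw [Finset.sum_add_distrib, Finset.sum_const, Finset.card_univ, nsmul_eq_mul, mul_one] at h2
    linarith
  set b : Ω → ℕ := fun σ => a σ + if σ = σ₀ then M - ∑ σ, a σ else 0 with hb
  have hbsum : ∑ σ, b σ = M := by
    simp only [hb]
    rw [Finset.sum_add_distrib, Finset.sum_ite_eq' Finset.univ σ₀]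
    simp only [Finset.mem_univ, if_true]
    omega
  obtain ⟨s, hs⟩ := exists_fibers b hbsum
  refine ⟨M, s, hMpos', ?_⟩
  have hterm : ∀ σ, |((Finset.univ.filter (fun i => s i = σ)).card : ℝ) / M - p σ| ≤
      (1 + if σ = σ₀ then N else 0) / M := by
    intro σ
    rw [hs σ, le_div_iff₀ hMpos]
    have e1 : |((b σ : ℝ)) / M - p σ| * M = |(b σ : ℝ) - M * p σ| := by
      rw [← abs_of_pos hMpos, ← abs_mul, abs_of_pos hMpos]
      congr 1
      field_simp
    rw [e1]
    have hbσ : (b σ : ℝ) = a σ + if σ = σ₀ then ((M : ℝ) - ∑ σ, (a σ : ℝ)) else 0 := by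
      simp only [hb]
      push_cast [Nat.cast_sub hsum']
      rfl
    rw [hbσ]
    have := ha1 σ
    have := ha2 σ
    rw [abs_le]
    split_ifs with hσ
    · constructor <;> linarith
    · constructor <;> linarith
  calc ∑ σ, |((Finset.univ.filter (fun i => s i = σ)).card : ℝ) / M - p σ|
      ≤ ∑ σ, (1 + if σ = σ₀ then N else 0) / M := Finset.sum_le_sum fun σ _ => hterm σ
    _ = (2 * N) / M := by
        rw [← Finset.sum_div, Finset.sum_add_distrib, Finset.sum_ite_eq' Finset.univ σ₀]
        simp only [Finset.mem_univ, if_true, Finset.sum_const, Finset.card_univ, nsmul_eq_mul,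
          mul_one]
        rw [← hN]; ring
    _ ≤ δ := by
        rw [div_le_iff₀ hMpos]
        rw [div_lt_iff₀ hδ] at hM
        linarith

theorem l1_tri {n : ℕ} (f g h : (Fin n → Bool) → ℝ) : l1 f h ≤ l1 f g + l1 g h := by
  unfold l1
  rw [← Finset.sum_add_distrib]
  exact Finset.sum_le_sum fun c _ => abs_sub_le _ _ _

theorem l1_nonneg {n : ℕ} (f g : (Fin n → Bool) → ℝ) : 0 ≤ l1 f g :=
  Finset.sum_nonneg fun _ _ => abs_nonneg _

/-- The empirical law of the table is close to `Dplain`. -/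
theorem tabEmp_close {m n M r K L : ℕ} (e : (Fin r → Fin K) × Fin L ≃ Fin m) (p : (Fin m → Bool) → ℝ)
    (s : Fin M → (Fin m → Bool)) {δ : ℝ}
    (hs : ∑ σ, |((Finset.univ.filter (fun i => s i = σ)).card : ℝ) / M - p σ| ≤ δ)
    (C : Fin n → (Fin r → Fin K) × Fin L) (D : (Fin n → Bool) → ℝ)
    (hD : ∀ c, D c = ∑ σ : Fin m → Bool, p σ * (if ∀ l, σ (e (C l)) = c l then 1 else 0)) :
    l1 (tabEmp (fun i α w => s i (e (α, w))) C) D ≤ δ := by
  have hT : ∀ c, tabEmp (fun i α w => s i (e (α, w))) C c =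
      ∑ σ : Fin m → Bool, ((Finset.univ.filter (fun i => s i = σ)).card : ℝ) / M *
        (if ∀ l, σ (e (C l)) = c l then 1 else 0) := by
    intro c
    unfold tabEmp
    have h1 : ((Finset.univ.filter (fun i : Fin M => ∀ l, s i (e ((C l).1, (C l).2)) = c l)).card : ℝ)
        = ∑ σ : Fin m → Bool, ((Finset.univ.filter (fun i => s i = σ)).card : ℝ) *
        (if ∀ l, σ (e (C l)) = c l then 1 else 0) := by
      have h2 : ∀ σ : Fin m → Bool, ((Finset.univ.filter (fun i => s i = σ)).card : ℝ) *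
          (if ∀ l, σ (e (C l)) = c l then (1 : ℝ) else 0) =
          ∑ i : Fin M, if s i = σ then (if ∀ l, s i (e (C l)) = c l then (1 : ℝ) else 0) else 0 := by
        intro σ
        rw [← Finset.sum_filter, Finset.card_eq_sum_ones, Nat.cast_sum, Finset.sum_mul]
        apply Finset.sum_congr rfl
        intro i hi
        rw [Finset.mem_filter] at hi
        rw [hi.2]; simp
      simp only [h2]
      rw [Finset.sum_comm]
      rw [Finset.card_eq_sum_ones, Nat.cast_sum, Finset.sum_filter]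
      apply Finset.sum_congr rfl
      intro i _
      rw [Finset.sum_ite_eq Finset.univ (s i)]
      simp
    rw [h1, Finset.sum_div]
    apply Finset.sum_congr rfl
    intro σ _
    ring
  have hpt : ∀ c, |tabEmp (fun i α w => s i (e (α, w))) C c - D c| ≤
      ∑ σ : Fin m → Bool, |((Finset.univ.filter (fun i => s i = σ)).card : ℝ) / M - p σ| *
        (if (fun l => σ (e (C l))) = c then 1 else 0) := by
    intro c
    rw [hT, hD, ← Finset.sum_sub_distrib]
    refine (Finset.abs_sum_le_sum_abs _ _).trans (Finset.sum_le_sum fun σ _ => ?_)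
    rw [← sub_mul, abs_mul]
    have : |(if ∀ l, σ (e (C l)) = c l then (1 : ℝ) else 0)| =
        (if (fun l => σ (e (C l))) = c then (1 : ℝ) else 0) := by
      by_cases hh : ∀ l, σ (e (C l)) = c l
      · rw [if_pos hh, if_pos (funext hh)]; simp
      · rw [if_neg hh, if_neg (fun h => hh (fun l => congrFun h l))]; simp
    rw [this]
  refine le_trans ?_ hs
  unfold l1
  calc ∑ c, |tabEmp (fun i α w => s i (e (α, w))) C c - D c|
      ≤ ∑ c, ∑ σ : Fin m → Bool,
        |((Finset.univ.filter (fun i => s i = σ)).card : ℝ) / M - p σ| *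
        (if (fun l => σ (e (C l))) = c then 1 else 0) := Finset.sum_le_sum fun c _ => hpt c
    _ = ∑ σ : Fin m → Bool, |((Finset.univ.filter (fun i => s i = σ)).card : ℝ) / M - p σ| := by
        rw [Finset.sum_comm]
        apply Finset.sum_congr rfl
        intro σ _
        rw [← Finset.mul_sum, Finset.sum_ite_eq Finset.univ]
        simp

/-! ### Measurability and the partition by genealogies -/

theorem Gσ_le' (n : ℕ) : Gσ n ≤ (inferInstance : MeasurableSpace Obs) := by
  unfold Gσ
  exact iSup_le fun i => (measurable_pi_apply i.1).comap_le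

theorem measurable_gen' {r : ℕ} (q : Fin r → ℝ) {n : ℕ} (f : (ℕ → ℕ × ℕ) → ℝ)
    (hf : DepAtt n f) : Measurable (fun x => f (gen q x)) :=
  (measurable_gen q f hf).mono (Gσ_le' n) le_rfl

theorem measurableSet_E {r : ℕ} (q : Fin r → ℝ) (n : ℕ) (a : ℕ → ℕ × ℕ) :
    MeasurableSet {x : Obs | trunc n (gen q x) = a} := by
  classical
  have h1 : Measurable (fun x : Obs => (fun att : ℕ → ℕ × ℕ =>
      if trunc n att = a then (1 : ℝ) else 0) (gen q x)) :=
    measurable_gen' q (n := n) (fun att => if trunc n att = a then (1 : ℝ) else 0) (by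
      intro att att' h
      simp only [trunc_congr h])
  have h2 := h1 (measurableSet_singleton (1 : ℝ))
  convert h2 using 1
  ext x
  simp

theorem integral_split {P : Measure Obs} {r : ℕ} (q : Fin r → ℝ) (n : ℕ)
    (s : Finset (ℕ → ℕ × ℕ)) (hγ : ∀ᵐ x ∂P, trunc n (gen q x) ∈ s)
    (Φ : (ℕ → ℕ × ℕ) → Obs → ℝ) (hΦ : ∀ a ∈ s, Integrable (Φ a) P)
    (hdep : ∀ x, Φ (gen q x) x = Φ (trunc n (gen q x)) x) :
    ∫ x, Φ (gen q x) x ∂P = ∑ a ∈ s, ∫ x in {x | trunc n (gen q x) = a}, Φ a x ∂P := by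
  classical
  have h : (fun x => Φ (gen q x) x) =ᵐ[P]
      fun x => ∑ a ∈ s, Set.indicator {x | trunc n (gen q x) = a} (Φ a) x := by
    filter_upwards [hγ] with x hx
    rw [hdep, Finset.sum_eq_single (trunc n (gen q x))]
    · rw [Set.indicator_of_mem]
      rfl
    · intro a _ hne
      rw [Set.indicator_of_notMem]
      intro h
      exact hne h.symm
    · intro h
      exact absurd hx h
  rw [integral_congr_ae h, integral_finsetSum _
    (fun a ha => (hΦ a ha).indicator (measurableSet_E q n a))]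
  exact Finset.sum_congr rfl fun a _ => integral_indicator (measurableSet_E q n a)

theorem measurable_Dplain {n : ℕ} (ls : Fin n → ℕ) (c : Fin n → Bool) :
    Measurable (fun x : Obs => Dplain ls x c) :=
  measurable_subtype_coe.comp (measurable_pi_apply _)

theorem Dplain_nonneg {n : ℕ} (ls : Fin n → ℕ) (x : Obs) (c : Fin n → Bool) :
    0 ≤ Dplain ls x c := (x ⟨Species.plain, n, ls, fun j _ => c j⟩).2.1

theorem Dplain_le_one {n : ℕ} (ls : Fin n → ℕ) (x : Obs) (c : Fin n → Bool) :
    Dplain ls x c ≤ 1 := (x ⟨Species.plain, n, ls, fun j _ => c j⟩).2.2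

theorem integrable_l1 {μ : Measure Obs} [IsFiniteMeasure μ] {n : ℕ} (ls : Fin n → ℕ)
    (β : (Fin n → Bool) → ℝ) : Integrable (fun x => l1 (Dplain ls x) β) μ := by
  unfold l1
  refine integrable_finsetSum _ fun c _ => ?_
  refine Integrable.abs (Integrable.sub ?_ (integrable_const _))
  refine Integrable.mono' (integrable_const (1 : ℝ)) (measurable_Dplain ls c).aestronglyMeasurable
    (Filter.Eventually.of_forall fun x => ?_)
  rw [Real.norm_eq_abs, abs_of_nonneg (Dplain_nonneg ls x c)]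
  exact Dplain_le_one ls x c

/-- The pattern event is the genealogy event, a.s. -/
theorem pat_ae {P : Measure Obs} (hP : LimitModel P) {r : ℕ} (q : Fin r → ℝ)
    (hq : AdmissibleExponents (levP P q)) {n : ℕ} {a : ℕ → ℕ × ℕ} (hv : ValidAtt r n a)
    (ha : trunc n a = a) :
    (patSet q (rg n) (fun i j : Fin n => coalA r a i j) : Set Obs) =ᵐ[P]
      {x | trunc n (gen q x) = a} := by
  filter_upwards [ultraOn_coal hP q (strictMono_of_adm hP q hq)] with x hx
  rw [eq_iff_iff]
  constructor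
  · intro h
    change trunc n (gen q x) = a
    rw [← ha]
    apply trunc_congr
    intro l h1 h2
    rw [← genOf_coalA hv h1 h2]
    unfold gen
    refine genOf_congr (n := n) ?_ h2
    intro i j hi hj hij
    have := h ⟨i, hi⟩ ⟨j, hj⟩ (by intro h; exact hij (by simpa using h))
    simpa [rg] using this
  · intro h
    change trunc n (gen q x) = a at h
    intro i j hij
    have hij' : (i : ℕ) ≠ j := fun h => hij (Fin.ext h)
    change coal q x i j = coalA r a i j
    rw [← coalA_genOf (hx n) i.2 j.2 hij']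
    apply coalA_congr' (n := n) _ i.2 j.2
    intro l h1 h2
    rw [← h, trunc_eq _ l h1 h2]
    rfl

theorem ae_gen {P : Measure Obs} (hP : LimitModel P) {r : ℕ} (q : Fin r → ℝ)
    (hq : AdmissibleExponents (levP P q)) (n : ℕ) :
    ∀ᵐ x ∂P, ValidAtt r n (gen q x) ∧ trunc n (gen q x) ∈ gset n r := by
  filter_upwards [ultraOn_coal hP q (strictMono_of_adm hP q hq)] with x hx
  exact ⟨genOf_valid (hx n), trunc_mem_gset (genOf_valid (hx n))⟩

/-- The pattern of the labels of the full tree. -/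
def cpat {r K L m : ℕ} (e : (Fin r → Fin K) × Fin L ≃ Fin m) : Fin m → Fin m → ℕ :=
  fun i j => cpre (e.symm i).1 (e.symm j).1

theorem cpat_ultra {r K L m : ℕ} (e : (Fin r → Fin K) × Fin L ≃ Fin m) :
    UltraPat r (cpat e) :=
  ⟨fun i _ => (cpre_ultra _ _ (e.symm i).1).2.1, fun i _ => (cpre_ultra _ _ (e.symm i).1).2.2,
    fun _ _ _ _ _ _ => (cpre_ultra _ _ _).1⟩

open Classical in
/-- `F'`. -/
noncomputable def Fy {r K L m n : ℕ} (e : (Fin r → Fin K) × Fin L ≃ Fin m)
    (Db : (Fin n → Bool) → ℝ) (a : ℕ → ℕ × ℕ) (y : Obs) : ℝ :=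
  (∑ V : Fin n → Fin r → Fin K, ∑ w : Fin n → Fin L,
    if GoodVW a V w then
      l1 (Dplain (fun l => ((e (pathV a V l, w l) : Fin m) : ℕ)) y) Db else 0) /
    ((K : ℝ) ^ (n * r) * (L : ℝ) ^ n)

theorem card_VW (n r K L : ℕ) : (∑ _V : Fin n → Fin r → Fin K, ∑ _w : Fin n → Fin L, (1 : ℝ)) =
    (K : ℝ) ^ (n * r) * (L : ℝ) ^ n := by
  simp only [Finset.sum_const, Finset.card_univ, nsmul_eq_mul, mul_one, Fintype.card_pi,
    Fintype.card_fin, Finset.prod_const]
  push_cast
  rw [← pow_mul, mul_comm r n]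

theorem integrable_Fy {μ : Measure Obs} [IsFiniteMeasure μ] {r K L m n : ℕ}
    (e : (Fin r → Fin K) × Fin L ≃ Fin m) (Db : (Fin n → Bool) → ℝ) (a : ℕ → ℕ × ℕ) :
    Integrable (fun y => Fy e Db a y) μ := by
  classical
  unfold Fy
  refine Integrable.div_const ?_ _
  refine integrable_finsetSum _ fun V _ => integrable_finsetSum _ fun w _ => ?_
  split_ifs
  · exact integrable_l1 _ _
  · exact integrable_zero _ _ _

theorem Fy_nonneg {r K L m n : ℕ} (e : (Fin r → Fin K) × Fin L ≃ Fin m)
    (Db : (Fin n → Bool) → ℝ) (a : ℕ → ℕ × ℕ) (y : Obs) : 0 ≤ Fy e Db a y := by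
  unfold Fy
  refine div_nonneg ?_ (by positivity)
  refine Finset.sum_nonneg fun V _ => Finset.sum_nonneg fun w _ => ?_
  split_ifs
  · exact l1_nonneg _ _
  · exact le_rfl

/-- The conditional expectations over the pattern event. -/
theorem main_ineq {P : Measure Obs} (hP : LimitModel P) {r : ℕ} (q : Fin r → ℝ)
    (hq : AdmissibleExponents (levP P q)) {K L m n : ℕ} (hK : 0 < K) (hL : 0 < L)
    (e : (Fin r → Fin K) × Fin L ≃ Fin m) (a : ℕ → ℕ × ℕ) (β : (Fin n → Bool) → ℝ) :
    P.real {x | trunc n (gen q x) = a} * ∫ y in patSet q (rg m) (cpat e), Fy e β a y ∂P ≤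
      P.real (patSet q (rg m) (cpat e)) *
        ∫ x in {x | trunc n (gen q x) = a}, l1 (Dn n x) β ∂P := by
  classical
  have := hP.prob
  have hI : 0 ≤ ∫ x in {x | trunc n (gen q x) = a}, l1 (Dn n x) β ∂P :=
    integral_nonneg fun x => l1_nonneg _ _
  rcases eq_or_lt_of_le (measureReal_nonneg (μ := P) (s := {x | trunc n (gen q x) = a})) with h0 | h0
  · rw [← h0, zero_mul]
    exact mul_nonneg measureReal_nonneg hI
  -- a representative
  obtain ⟨x₀, hx₀, hv₀⟩ : ∃ x₀, trunc n (gen q x₀) = a ∧ ValidAtt r n (gen q x₀) := by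
    by_contra hcon
    push Not at hcon
    have : P {x | trunc n (gen q x) = a} = 0 := by
      have h1 : ∀ᵐ x ∂P, ¬ (trunc n (gen q x) = a) := by
        filter_upwards [ae_gen hP q hq n] with x hx h
        exact hcon x h hx.1
      rw [ae_iff] at h1
      simpa using h1
    rw [Measure.real, this] at h0
    simp at h0
  have hta : trunc n a = a := by rw [← hx₀, trunc_trunc]
  have hv : ValidAtt r n a := validAtt_congr (fun l h1 h2 => by rw [← hx₀, trunc_eq _ l h1 h2]) hv₀
  have hae := pat_ae hP q hq hv hta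
  have hN : (0 : ℝ) < (K : ℝ) ^ (n * r) * (L : ℝ) ^ n := by positivity
  -- the good choices
  have hgood : ∀ (V : Fin n → Fin r → Fin K) (w : Fin n → Fin L), GoodVW a V w →
      P.real {x | trunc n (gen q x) = a} * ∫ y in patSet q (rg m) (cpat e),
        l1 (Dplain (fun l => ((e (pathV a V l, w l) : Fin m) : ℕ)) y) β ∂P =
      P.real (patSet q (rg m) (cpat e)) *
        ∫ x in {x | trunc n (gen q x) = a}, l1 (Dn n x) β ∂P := by
    intro V w hg
    have hinj : Function.Injective (fun l : Fin n => e (pathV a V l, w l)) := by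
      intro l l' h
      by_contra hne
      exact (hg l l' hne).1 (e.injective h)
    have h := pat_cond hP q hq (fun l : Fin n => e (pathV a V l, w l)) hinj (cpat e)
      (cpat_ultra e) β
    have hset : (patSet q (rg n) (fun i j : Fin n => cpat e (e (pathV a V i, w i))
        (e (pathV a V j, w j))) : Set Obs) =
        patSet q (rg n) (fun i j : Fin n => coalA r a i j) := by
      ext x
      unfold patSet
      simp only [Set.mem_ofPred_eq, cpat, Equiv.symm_apply_apply]
      constructor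
      · intro hx i j hij
        rw [hx i j hij, (hg i j hij).2]
      · intro hx i j hij
        rw [hx i j hij, (hg i j hij).2]
    rw [hset] at h
    rw [measureReal_congr hae, Measure.restrict_congr_set hae] at h
    exact h
  unfold Fy
  rw [integral_div, mul_div_assoc', div_le_iff₀ hN]
  rw [integral_finsetSum _ (fun V _ => integrable_finsetSum _ fun w _ => by
    split_ifs
    · exact integrable_l1 _ _
    · exact integrable_zero _ _ _)]
  rw [Finset.mul_sum]
  rw [← card_VW n r K L, Finset.mul_sum]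
  refine Finset.sum_le_sum fun V _ => ?_
  rw [integral_finsetSum _ (fun w _ => by
    split_ifs
    · exact integrable_l1 _ _
    · exact integrable_zero _ _ _)]
  rw [Finset.mul_sum, Finset.mul_sum]
  refine Finset.sum_le_sum fun w _ => ?_
  rw [mul_one]
  by_cases hg : GoodVW a V w
  · simp only [if_pos hg]
    exact (hgood V w hg).le
  · simp only [if_neg hg, integral_zero, mul_zero]
    exact mul_nonneg measureReal_nonneg hI

/-- Sum over the configurations of the plain species. -/
theorem sum_plain {m : ℕ} (f : (Fin m → Species.plain.Cfg) → ℝ) :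
    ∑ c, f c = ∑ σ : Fin m → Bool, f (fun j _ => σ j) := by
  symm
  refine Fintype.sum_equiv
    (Equiv.arrowCongr (Equiv.refl (Fin m)) (Equiv.funUnique (Fin 1) Bool).symm) _ _ fun σ => ?_
  rfl

theorem Dplain_map {n m : ℕ} {y : Obs} (g : Fin n → Fin m)
    (hym : ∀ θ : (Fin n → Species.plain.Cfg) → ℝ,
      Dθ Species.plain (rg m ∘ g) θ y = Dθ Species.plain (rg m) (fun c => θ (c ∘ g)) y)
    (c : Fin n → Bool) :
    Dplain (fun l => ((g l : Fin m) : ℕ)) y c =
      ∑ σ : Fin m → Bool, Dplain (rg m) y σ * (if ∀ l, σ (g l) = c l then 1 else 0) := by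
  classical
  have h := hym (fun c' => if c' = (fun j _ => c j) then 1 else 0)
  unfold Dθ at h
  simp only [mul_ite, mul_one, mul_zero] at h
  rw [Finset.sum_ite_eq' Finset.univ (fun (j : Fin n) (_ : Fin Species.plain.k) => c j)] at h
  simp only [Finset.mem_univ, if_true] at h
  have h2 : Dplain (fun l => ((g l : Fin m) : ℕ)) y c =
      Dl Species.plain (rg m ∘ g) y (fun j _ => c j) := rfl
  rw [h2, h, sum_plain]
  refine Finset.sum_congr rfl fun σ _ => ?_
  rw [mul_ite, mul_one, mul_zero]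
  have h3 : ((fun (j : Fin m) (_ : Fin Species.plain.k) => σ j) ∘ g =
      fun (j : Fin n) (_ : Fin Species.plain.k) => c j) ↔ ∀ l, σ (g l) = c l := by
    constructor
    · intro hh l
      exact congrFun (congrFun hh l) (0 : Fin 1)
    · intro hh
      funext l _
      exact hh l
  by_cases hh : ∀ l, σ (g l) = c l
  · rw [if_pos hh, if_pos (h3.2 hh)]; rfl
  · rw [if_neg hh, if_neg (fun h => hh (h3.1 h))]

end TCh

open Classical in
theorem exists_good_table {P : Measure Obs} (hP : LimitModel P) {r : ℕ} (q : Fin r → ℝ)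
    (hq : AdmissibleExponents (levP P q)) (n₀ : ℕ) {ε : ℝ} (hε : 0 < ε)
    (Dbar : (n : ℕ) → (ℕ → ℕ × ℕ) → (Fin n → Bool) → ℝ)
    (hdep : ∀ n c, DepAtt n (fun att => Dbar n att c))
    (hD : ∀ n ≤ n₀, ∫ x, l1 (Dn n x) (Dbar n (gen q x)) ∂P ≤ ε) {K L : ℕ} (hK : 0 < K)
    (hL : 0 < L) :
    ∃ (M : ℕ) (S : Fin M → (Fin r → Fin K) → Fin L → Bool), 0 < M ∧ ∀ n ≤ n₀,
      ∫ x, (∑ V : Fin n → Fin r → Fin K, ∑ w : Fin n → Fin L,
        if GoodVW (gen q x) V w then
          l1 (tabEmp S (fun l => (pathV (gen q x) V l, w l))) (Dbar n (gen q x)) else 0) /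
        ((K : ℝ) ^ (n * r) * (L : ℝ) ^ n) ∂P ≤ (n₀ + 2) * ε := by
  have := hP.prob
  set m := Fintype.card ((Fin r → Fin K) × Fin L) with hm
  let e : (Fin r → Fin K) × Fin L ≃ Fin m := Fintype.equivFin _
  set A : Set Obs := patSet q (rg m) (TCh.cpat e) with hA
  have hApos : 0 < P.real A := pat_pos hP q hq _ (TCh.cpat_ultra e)
  have hDb : ∀ n (a : ℕ → ℕ × ℕ), Dbar n (TCh.trunc n a) = Dbar n a := by
    intro n a
    funext c
    exact hdep n c _ _ (TCh.trunc_eq a)
  set g : Obs → ℝ := fun y => ∑ n ∈ Finset.range (n₀ + 1), ∑ a ∈ TCh.gset n r,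
    P.real {x | TCh.trunc n (gen q x) = a} * TCh.Fy e (Dbar n a) a y with hg
  have hgint : ∀ (μ : Measure Obs) [IsFiniteMeasure μ], Integrable g μ := by
    intro μ _
    refine integrable_finsetSum _ fun n _ => integrable_finsetSum _ fun a _ => ?_
    exact (TCh.integrable_Fy e _ _).const_mul _
  have hgA : ∫ y in A, g y ∂P ≤ P.real A * ((n₀ + 1) * ε) := by
    simp only [hg]
    rw [integral_finsetSum _ (fun n _ => integrable_finsetSum _ fun a _ =>
      (TCh.integrable_Fy e _ _).const_mul _)]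
    have h1 : ∀ n ∈ Finset.range (n₀ + 1), ∫ y in A, ∑ a ∈ TCh.gset n r,
        P.real {x | TCh.trunc n (gen q x) = a} * TCh.Fy e (Dbar n a) a y ∂P ≤ P.real A * ε := by
      intro n hn
      rw [Finset.mem_range] at hn
      rw [integral_finsetSum _ (fun a _ => (TCh.integrable_Fy e _ _).const_mul _)]
      calc ∑ a ∈ TCh.gset n r, ∫ y in A, P.real {x | TCh.trunc n (gen q x) = a} *
            TCh.Fy e (Dbar n a) a y ∂P
          ≤ ∑ a ∈ TCh.gset n r, P.real A *
            ∫ x in {x | TCh.trunc n (gen q x) = a}, l1 (Dn n x) (Dbar n a) ∂P := by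
            refine Finset.sum_le_sum fun a _ => ?_
            rw [integral_const_mul]
            exact TCh.main_ineq hP q hq hK hL e a (Dbar n a)
        _ = P.real A * ∫ x, l1 (Dn n x) (Dbar n (gen q x)) ∂P := by
            rw [← Finset.mul_sum]
            rw [TCh.integral_split q n (TCh.gset n r)
              ((TCh.ae_gen hP q hq n).mono fun x hx => hx.2)
              (fun a x => l1 (Dn n x) (Dbar n a)) (fun a _ => TCh.integrable_l1 _ _)
              (fun x => by simp only [hDb])]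
        _ ≤ P.real A * ε := mul_le_mul_of_nonneg_left (hD n (by omega)) hApos.le
    calc _ ≤ ∑ n ∈ Finset.range (n₀ + 1), P.real A * ε := Finset.sum_le_sum h1
      _ = P.real A * ((n₀ + 1) * ε) := by
        rw [Finset.sum_const, Finset.card_range, nsmul_eq_mul]; push_cast; ring
  -- choice of a sample point
  have hAne : P A ≠ 0 := by
    intro h
    rw [Measure.real, h] at hApos
    simp at hApos
  have hpos := measure_le_setAverage_pos (μ := P) (s := A) (f := g) hAne (measure_ne_top _ _)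
    ((hgint P).integrableOn)
  obtain ⟨y, hy, hys, hym⟩ : ∃ y ∈ {x ∈ A | g x ≤ ⨍ a in A, g a ∂P},
      (∀ (s : Species) (n : ℕ) (ls : Fin n → ℕ), ∑ c : Fin n → s.Cfg, Dl s ls y c = 1) ∧
      (∀ (s : Species) (n m : ℕ) (ls : Fin m → ℕ) (g : Fin n → Fin m)
        (θ : (Fin n → s.Cfg) → ℝ),
        Dθ s (ls ∘ g) θ y = Dθ s ls (fun c => θ (c ∘ g)) y) := by
    by_contra hcon
    push Not at hcon
    have h0 : P {x ∈ A | g x ≤ ⨍ a in A, g a ∂P} = 0 := by
      have h1 : ∀ᵐ x ∂P, ¬ (x ∈ {x ∈ A | g x ≤ ⨍ a in A, g a ∂P}) := by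
        filter_upwards [hP.simplex, hP.map] with x h1 h2 h3
        obtain ⟨s, n, m, ls, g, θ, h4⟩ := hcon x h3 h1
        exact h4 (h2 s n m ls g θ)
      rw [ae_iff] at h1
      simpa using h1
    rw [h0] at hpos
    exact lt_irrefl _ hpos
  have hgy : g y ≤ (n₀ + 1) * ε := by
    refine hy.2.trans ?_
    rw [setAverage_eq, smul_eq_mul]
    rw [inv_mul_le_iff₀ hApos]
    exact hgA
  -- the sites
  have hp1 : ∑ σ : Fin m → Bool, Dplain (rg m) y σ = 1 := by
    have := hys Species.plain m (rg m)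
    rw [TCh.sum_plain] at this
    exact this
  obtain ⟨M, s, hM, hs⟩ := TCh.exists_emp (fun σ : Fin m → Bool => Dplain (rg m) y σ)
    (fun σ => TCh.Dplain_nonneg _ _ _) hp1 hε
  refine ⟨M, fun i α w => s i (e (α, w)), hM, fun n hn => ?_⟩
  set S : Fin M → (Fin r → Fin K) → Fin L → Bool := fun i α w => s i (e (α, w)) with hS
  have hclose : ∀ C : Fin n → (Fin r → Fin K) × Fin L,
      l1 (tabEmp S C) (Dplain (fun l => ((e (C l) : Fin m) : ℕ)) y) ≤ ε := by
    intro C
    refine TCh.tabEmp_close e (fun σ => Dplain (rg m) y σ) s hs C _ ?_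
    exact TCh.Dplain_map (fun l => e (C l)) (fun θ => hym Species.plain n m (rg m) _ θ)
  have hN : (0 : ℝ) < (K : ℝ) ^ (n * r) * (L : ℝ) ^ n := by positivity
  let Φ : (ℕ → ℕ × ℕ) → ℝ := fun a => (∑ V : Fin n → Fin r → Fin K, ∑ w : Fin n → Fin L,
        if GoodVW a V w then
          l1 (tabEmp S (fun l => (pathV a V l, w l))) (Dbar n a) else 0) /
        ((K : ℝ) ^ (n * r) * (L : ℝ) ^ n)
  have hΦ : ∀ a, Φ a ≤ TCh.Fy e (Dbar n a) a y + ε := by
    intro a
    simp only [Φ, TCh.Fy]
    rw [div_add' _ _ _ hN.ne', div_le_div_iff_of_pos_right hN, ← TCh.card_VW n r K L,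
      Finset.mul_sum, ← Finset.sum_add_distrib]
    refine Finset.sum_le_sum fun V _ => ?_
    rw [Finset.mul_sum, ← Finset.sum_add_distrib]
    refine Finset.sum_le_sum fun w _ => ?_
    rw [mul_one]
    split_ifs with hgd
    · have h1 := hclose (fun l => (pathV a V l, w l))
      have h2 := TCh.l1_tri (tabEmp S (fun l => (pathV a V l, w l)))
        (Dplain (fun l => ((e (pathV a V l, w l) : Fin m) : ℕ)) y) (Dbar n a)
      linarith
    · linarith
  have hΦdep : ∀ a, Φ a = Φ (TCh.trunc n a) := by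
    intro a
    have hc := TCh.trunc_eq (n := n) a
    simp only [Φ, hDb, TCh.goodVW_congr hc, TCh.pathV_congr hc]
  calc ∫ x, Φ (gen q x) ∂P
      = ∑ a ∈ TCh.gset n r, ∫ x in {x | TCh.trunc n (gen q x) = a}, Φ a ∂P :=
        TCh.integral_split q n (TCh.gset n r)
              ((TCh.ae_gen hP q hq n).mono fun x hx => hx.2)
              (fun a _ => Φ a) (fun a _ => integrable_const _)
              (fun x => hΦdep _)
    _ = ∑ a ∈ TCh.gset n r, P.real {x | TCh.trunc n (gen q x) = a} * Φ a := by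
        refine Finset.sum_congr rfl fun a _ => ?_
        rw [setIntegral_const, smul_eq_mul]
    _ ≤ ∑ a ∈ TCh.gset n r, P.real {x | TCh.trunc n (gen q x) = a} *
          (TCh.Fy e (Dbar n a) a y + ε) :=
        Finset.sum_le_sum fun a _ => mul_le_mul_of_nonneg_left (hΦ a) measureReal_nonneg
    _ = (∑ a ∈ TCh.gset n r, P.real {x | TCh.trunc n (gen q x) = a} *
          TCh.Fy e (Dbar n a) a y) +
          (∑ a ∈ TCh.gset n r, P.real {x | TCh.trunc n (gen q x) = a}) * ε := by
        simp only [mul_add, Finset.sum_add_distrib, Finset.sum_mul]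
    _ ≤ g y + 1 * ε := by
        refine add_le_add ?_ (mul_le_mul_of_nonneg_right (le_of_eq ?_) hε.le)
        · exact Finset.single_le_sum (f := fun n => ∑ a ∈ TCh.gset n r,
            P.real {x | TCh.trunc n (gen q x) = a} * TCh.Fy e (Dbar n a) a y)
            (fun n _ => Finset.sum_nonneg fun a _ =>
              mul_nonneg measureReal_nonneg (TCh.Fy_nonneg _ _ _ _))
            (Finset.mem_range.2 (by omega))
        · have h1 := TCh.integral_split (P := P) q n (TCh.gset n r)
              ((TCh.ae_gen hP q hq n).mono fun x hx => hx.2)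
              (fun _ _ => (1 : ℝ)) (fun a _ => integrable_const _) (fun x => rfl)
          simp only [setIntegral_const, smul_eq_mul, mul_one] at h1
          rw [← h1]
          simp
    _ ≤ (n₀ + 2) * ε := by linarith

end Crest.Agent.MP
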