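import Crest.Agent.MP.TChoose

/-!
# T-CLOSE: a trial whose `D` is close to that of the limit model (§10)

`exists_thresholds` (with `ε/8`…), `exists_good_table` with `K, L` large, `exists_table_trial` with `η`
small.  `TabD S n att = avg_{(V,w)} tabEmp S (path, w)`; bad `(V,w)` contribute
`≤ 2 n²(1/K+1/L)` (`card_bad`, `l1 ≤ 2` for probability vectors; `Dbar` may be replaced by its
`l1`-distance: `l1 (tabEmp) (Dn) ≤ l1 (tabEmp) Dbar + l1 Dbar Dn`, for bad choices use `l1 ≤ 2`
between probability vectors `tabEmp` and `Dn n x` directly); triangle inequality.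
`gen q x` is `ValidAtt` a.s. (`genOf_valid`, `ultraOn_coal`).
-/

set_option autoImplicit false

namespace Crest.Agent.MP

open MeasureTheory Filter Topology
open Crest.ProbabilityR.Diluted

namespace TC

theorem l1_nonneg {n : ℕ} (f g : (Fin n → Bool) → ℝ) : 0 ≤ l1 f g :=
  Finset.sum_nonneg fun _ _ => abs_nonneg _

theorem l1_comm {n : ℕ} (f g : (Fin n → Bool) → ℝ) : l1 f g = l1 g f :=
  Finset.sum_congr rfl fun _ _ => abs_sub_comm _ _

theorem l1_triangle {n : ℕ} (f g h : (Fin n → Bool) → ℝ) : l1 f h ≤ l1 f g + l1 g h := by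
  unfold l1
  rw [← Finset.sum_add_distrib]
  exact Finset.sum_le_sum fun c _ => abs_sub_le _ _ _

theorem l1_le_two {n : ℕ} {f g : (Fin n → Bool) → ℝ} (hf : ∀ c, 0 ≤ f c) (hg : ∀ c, 0 ≤ g c)
    (hf1 : ∑ c, f c = 1) (hg1 : ∑ c, g c = 1) : l1 f g ≤ 2 := by
  unfold l1
  calc ∑ c, |f c - g c| ≤ ∑ c, (f c + g c) := by
        refine Finset.sum_le_sum fun c _ => ?_
        rw [abs_le]; constructor <;> linarith [hf c, hg c]
    _ = 2 := by rw [Finset.sum_add_distrib, hf1, hg1]; norm_num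

theorem Dn_nonneg (n : ℕ) (x : Obs) (c : Fin n → Bool) : 0 ≤ Dn n x c := Dl_nonneg _ _ _ _

theorem Dn_sum {P : Measure Obs} (hP : LimitModel P) :
    ∀ᵐ x ∂P, ∀ n : ℕ, ∑ c : Fin n → Bool, Dn n x c = 1 := by
  filter_upwards [hP.simplex] with x hx n
  rw [← hx Species.plain n (rg n)]
  have hb : Function.Bijective (fun (c : Fin n → Bool) => (fun j _ => c j : Fin n → Species.plain.Cfg)) := by
    constructor
    · intro c c' h
      funext j
      have := congrFun (congrFun h j) (0 : Fin 1)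
      exact this
    · intro c
      refine ⟨fun j => c j (0 : Fin 1), ?_⟩
      funext j i
      have : i = (0 : Fin 1) := Subsingleton.elim (α := Fin 1) _ _
      rw [this]
  exact Function.Bijective.sum_comp hb (fun c => Dl Species.plain (rg n) x c)

theorem tabEmp_nonneg {M r K L n : ℕ} (S : Fin M → (Fin r → Fin K) → Fin L → Bool)
    (C : Fin n → (Fin r → Fin K) × Fin L) (c : Fin n → Bool) : 0 ≤ tabEmp S C c := by
  unfold tabEmp; positivity

theorem tabEmp_eq {M r K L n : ℕ} (S : Fin M → (Fin r → Fin K) → Fin L → Bool)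
    (C : Fin n → (Fin r → Fin K) × Fin L) (c : Fin n → Bool) :
    tabEmp S C c = (∑ i : Fin M, if ∀ l, S i (C l).1 (C l).2 = c l then (1 : ℝ) else 0) / M := by
  unfold tabEmp
  rw [Finset.sum_boole]

theorem tabEmp_sum {M r K L n : ℕ} (hM : 0 < M) (S : Fin M → (Fin r → Fin K) → Fin L → Bool)
    (C : Fin n → (Fin r → Fin K) × Fin L) : ∑ c, tabEmp S C c = 1 := by
  have hM' : (M : ℝ) ≠ 0 := by exact_mod_cast hM.ne'
  simp only [tabEmp_eq]
  rw [← Finset.sum_div, Finset.sum_comm]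
  have : ∀ i : Fin M, ∑ c : Fin n → Bool, (if ∀ l, S i (C l).1 (C l).2 = c l then (1 : ℝ) else 0) = 1 := by
    intro i
    have h : ∀ c : Fin n → Bool, (∀ l, S i (C l).1 (C l).2 = c l) ↔
        c = fun l => S i (C l).1 (C l).2 := by
      intro c
      constructor
      · intro h; funext l; exact (h l).symm
      · rintro rfl l; rfl
    simp only [h]
    rw [Finset.sum_ite_eq' Finset.univ]
    simp
  rw [Finset.sum_congr rfl fun i _ => this i]
  simp [hM']

theorem TabD_eq {M r K L : ℕ} (S : Fin M → (Fin r → Fin K) → Fin L → Bool) (n : ℕ)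
    (att : ℕ → ℕ × ℕ) (c : Fin n → Bool) :
    TabD S n att c = (∑ p : (Fin n → Fin r → Fin K) × (Fin n → Fin L),
      tabEmp S (fun l => (pathV att p.1 l, p.2 l)) c) / ((K : ℝ) ^ (n * r) * (L : ℝ) ^ n) := by
  unfold TabD
  simp only [tabEmp_eq]
  rw [← Finset.sum_div, div_div, mul_assoc]
  have e0 : (∑ p : (Fin n → Fin r → Fin K) × (Fin n → Fin L), ∑ i : Fin M,
      if ∀ l, S i (pathV att p.1 l) (p.2 l) = c l then (1 : ℝ) else 0) =
      ∑ i : Fin M, ∑ V : Fin n → Fin r → Fin K, ∑ w : Fin n → Fin L,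
      if ∀ l, S i (pathV att V l) (w l) = c l then (1 : ℝ) else 0 := by
    rw [Finset.sum_comm]
    refine Finset.sum_congr rfl fun i _ => ?_
    rw [Fintype.sum_prod_type]
  rw [e0]

theorem card_VW (n r K L : ℕ) :
    ((Fintype.card ((Fin n → Fin r → Fin K) × (Fin n → Fin L)) : ℕ) : ℝ) =
      (K : ℝ) ^ (n * r) * (L : ℝ) ^ n := by
  simp only [Fintype.card_prod, Fintype.card_fun, Fintype.card_fin]
  push_cast
  rw [← pow_mul, mul_comm r n]

open Classical in
theorem l1_TabD_le {M r K L : ℕ} (hM : 0 < M) (hK : 0 < K) (hL : 0 < L)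
    (S : Fin M → (Fin r → Fin K) → Fin L → Bool) (n : ℕ)
    (att : ℕ → ℕ × ℕ) (hatt : ValidAtt r n att) (D Db : (Fin n → Bool) → ℝ)
    (hD : ∀ c, 0 ≤ D c) (hD1 : ∑ c, D c = 1) :
    l1 D (TabD S n att) ≤ (∑ V : Fin n → Fin r → Fin K, ∑ w : Fin n → Fin L,
        if GoodVW att V w then
          l1 (tabEmp S (fun l => (pathV att V l, w l))) Db else 0) /
        ((K : ℝ) ^ (n * r) * (L : ℝ) ^ n) + l1 D Db + 2 * ((n : ℝ) ^ 2 * (1 / K + 1 / L)) := by
  set N : ℝ := (K : ℝ) ^ (n * r) * (L : ℝ) ^ n with hN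
  have hN0 : 0 < N := by positivity
  set te : ((Fin n → Fin r → Fin K) × (Fin n → Fin L)) → (Fin n → Bool) → ℝ :=
    fun p => tabEmp S (fun l => (pathV att p.1 l, p.2 l)) with hte
  have h1 : l1 D (TabD S n att) ≤
      (∑ p : (Fin n → Fin r → Fin K) × (Fin n → Fin L), l1 D (te p)) / N := by
    unfold l1
    have e0 : (∑ p : (Fin n → Fin r → Fin K) × (Fin n → Fin L), ∑ c : Fin n → Bool,
        |D c - te p c|) = ∑ c : Fin n → Bool, ∑ p : (Fin n → Fin r → Fin K) × (Fin n → Fin L),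
        |D c - te p c| := Finset.sum_comm
    rw [e0, Finset.sum_div]
    refine Finset.sum_le_sum fun c _ => ?_
    rw [TabD_eq]
    have e1 : D c - (∑ p, te p c) / N = (∑ p, (D c - te p c)) / N := by
      rw [Finset.sum_sub_distrib, Finset.sum_const, Finset.card_univ, nsmul_eq_mul, card_VW,
        ← hN, sub_div, mul_div_cancel_left₀ _ hN0.ne']
    change |D c - (∑ p, te p c) / N| ≤ _
    rw [e1, abs_div, abs_of_pos hN0]
    exact div_le_div_of_nonneg_right (Finset.abs_sum_le_sum_abs _ _) hN0.le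
  have h2 : ∀ p, l1 D (te p) ≤ (if GoodVW att p.1 p.2 then l1 (te p) Db else 0) + l1 D Db +
      (if ¬ GoodVW att p.1 p.2 then 2 else 0) := by
    intro p
    by_cases hp : GoodVW att p.1 p.2
    · rw [if_pos hp, if_neg (not_not.mpr hp), add_zero, add_comm]
      refine (l1_triangle D Db (te p)).trans ?_
      rw [l1_comm Db (te p)]
    · rw [if_neg hp, if_pos hp, zero_add]
      have := l1_le_two hD (tabEmp_nonneg S (fun l => (pathV att p.1 l, p.2 l))) hD1
        (tabEmp_sum hM S _)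
      have h0 := l1_nonneg D Db
      change l1 D (te p) ≤ 2 at this
      linarith
  have h3 : ∑ p : (Fin n → Fin r → Fin K) × (Fin n → Fin L),
      (if ¬ GoodVW att p.1 p.2 then (2 : ℝ) else 0) ≤ 2 * ((n : ℝ) ^ 2 * (1 / K + 1 / L)) * N := by
    have e : ∑ p : (Fin n → Fin r → Fin K) × (Fin n → Fin L),
        (if ¬ GoodVW att p.1 p.2 then (2 : ℝ) else 0) =
        2 * (Nat.card {p : (Fin n → Fin r → Fin K) × (Fin n → Fin L) // ¬ GoodVW att p.1 p.2} : ℝ) := by
      rw [← Finset.sum_filter, Finset.sum_const, nsmul_eq_mul, mul_comm]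
      congr 2
      rw [Nat.card_eq_fintype_card, Fintype.card_subtype]
    rw [e]
    have := card_bad (r := r) hK hL att hatt
    rw [← hN] at this
    linarith
  calc l1 D (TabD S n att) ≤ (∑ p, l1 D (te p)) / N := h1
    _ ≤ (∑ p, ((if GoodVW att p.1 p.2 then l1 (te p) Db else 0) + l1 D Db +
      (if ¬ GoodVW att p.1 p.2 then 2 else 0))) / N :=
        div_le_div_of_nonneg_right (Finset.sum_le_sum fun p _ => h2 p) hN0.le
    _ = (∑ p : (Fin n → Fin r → Fin K) × (Fin n → Fin L),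
          (if GoodVW att p.1 p.2 then l1 (te p) Db else 0)) / N + l1 D Db +
        (∑ p : (Fin n → Fin r → Fin K) × (Fin n → Fin L),
          (if ¬ GoodVW att p.1 p.2 then (2 : ℝ) else 0)) / N := by
        rw [Finset.sum_add_distrib, Finset.sum_add_distrib, Finset.sum_const, Finset.card_univ,
          nsmul_eq_mul, card_VW, ← hN, add_div, add_div, mul_div_cancel_left₀ _ hN0.ne']
    _ ≤ (∑ p : (Fin n → Fin r → Fin K) × (Fin n → Fin L),
          (if GoodVW att p.1 p.2 then l1 (te p) Db else 0)) / N + l1 D Db +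
        2 * ((n : ℝ) ^ 2 * (1 / K + 1 / L)) := by
        have : (∑ p : (Fin n → Fin r → Fin K) × (Fin n → Fin L),
          (if ¬ GoodVW att p.1 p.2 then (2 : ℝ) else 0)) / N ≤ 2 * ((n : ℝ) ^ 2 * (1 / K + 1 / L)) := by
          rw [div_le_iff₀ hN0]; exact h3
        linarith
    _ = _ := by rw [Fintype.sum_prod_type]

/-- owners depend only on `att 1, …, att l` -/
theorem owner_dep {n : ℕ} {att att' : ℕ → ℕ × ℕ} (h : ∀ l, 1 ≤ l → l < n → att l = att' l)
    (j l : ℕ) (hl : l < n) : owner att l j = owner att' l j := by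
  induction l using Nat.strong_induction_on with
  | _ l ih =>
    rcases Nat.eq_zero_or_pos l with h1 | h1
    · subst h1
      rw [owner_zero_left, owner_zero_left]
    · have hatt := h l h1 hl
      by_cases hif : (att' l).1 < l ∧ j ≤ (att' l).2
      · rw [owner_of_le (att := att') hif.1 hif.2, ← ih _ hif.1 (hif.1.trans hl), ← hatt]
        exact owner_of_le (by rw [hatt]; exact hif.1) (by rw [hatt]; exact hif.2)
      · have h1 : owner att' l j = l := by rw [owner, dif_neg hif]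
        have h2 : owner att l j = l := by rw [owner, dif_neg (by rw [hatt]; exact hif)]
        rw [h1, h2]

theorem pathV_dep {r K n : ℕ} {att att' : ℕ → ℕ × ℕ} (h : ∀ l, 1 ≤ l → l < n → att l = att' l)
    (V : Fin n → Fin r → Fin K) (l : Fin n) : pathV att V l = pathV att' V l := by
  funext j
  unfold pathV
  have : (⟨min (owner att l (j + 1)) l, by omega⟩ : Fin n) = ⟨min (owner att' l (j + 1)) l, by omega⟩ := by
    apply Fin.ext
    simp only
    rw [owner_dep h _ _ l.2]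
  rw [this]

theorem coalA_dep {r n : ℕ} {att att' : ℕ → ℕ × ℕ} (h : ∀ l, 1 ≤ l → l < n → att l = att' l)
    {l l' : ℕ} (hl : l < n) (hl' : l' < n) : coalA r att l l' = coalA r att' l l' := by
  unfold coalA
  congr 1
  refine Finset.filter_congr ?_
  intro j _
  rw [owner_dep h j l hl, owner_dep h j l' hl']

theorem GoodVW_dep {r K L n : ℕ} {att att' : ℕ → ℕ × ℕ}
    (h : ∀ l, 1 ≤ l → l < n → att l = att' l)
    (V : Fin n → Fin r → Fin K) (w : Fin n → Fin L) : GoodVW att V w ↔ GoodVW att' V w := by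
  unfold GoodVW
  have e : ∀ l, pathV att V l = pathV att' V l := pathV_dep h V
  have e2 : ∀ l l' : Fin n, coalA r att l l' = coalA r att' l l' := fun l l' =>
    coalA_dep h l.2 l'.2
  simp only [e, e2]

/-- functions of valid genealogies are bounded -/
theorem bdd_of_dep {r n : ℕ} {f : (ℕ → ℕ × ℕ) → ℝ} (hf : DepAtt n f) :
    ∃ B : ℝ, 0 ≤ B ∧ ∀ att, ValidAtt r n att → |f att| ≤ B := by
  set g : (Fin n → Fin n × Fin (r + 1)) → ℝ := fun u =>
    f (fun l => if h : l < n then ((u ⟨l, h⟩).1, (u ⟨l, h⟩).2) else (0, 0)) with hg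
  refine ⟨∑ u, |g u|, Finset.sum_nonneg fun _ _ => abs_nonneg _, fun att hatt => ?_⟩
  have hv : ∀ l : Fin n, ∃ v : Fin n × Fin (r + 1), (1 ≤ (l : ℕ) → att l = ((v.1 : ℕ), (v.2 : ℕ))) := by
    intro l
    by_cases hl : 1 ≤ (l : ℕ)
    · have := hatt l hl l.2
      unfold nodes at this
      rw [Finset.mem_filter, Finset.mem_product, Finset.mem_range, Finset.mem_range] at this
      exact ⟨(⟨(att l).1, this.1.1.trans l.2⟩, ⟨(att l).2, this.1.2⟩), fun _ => rfl⟩
    · exact ⟨(l, 0), fun h => absurd h hl⟩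
  choose u hu using hv
  have : f att = g u := by
    refine hf _ _ fun l hl hl' => ?_
    rw [dif_pos hl']
    exact hu ⟨l, hl'⟩ hl
  rw [this]
  exact Finset.single_le_sum (f := fun u => |g u|) (fun _ _ => abs_nonneg _) (Finset.mem_univ u)

end TC

open TC

/-- Conclusion: a trial whose `D` is close to that of the limit model.
`TabD = avg_{(V,w)} tabEmp (path, w)`; bad `(V,w)` contribute `≤ 2 n²(1/K+1/L)` (`card_bad`). -/
theorem exists_trial_close {P : Measure Obs} (hP : LimitModel P) (n₀ : ℕ) {ε : ℝ} (hε : 0 < ε) :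
    ∃ (r : ℕ) (q : Fin r → ℝ) (t : FinTrial) (h : t.r = r),
      AdmissibleExponents (levP P q) ∧ (t.m = fun j => levP P q (Fin.cast h j)) ∧
      ∀ n ≤ n₀, ∫ x, l1 (Dn n x) (t.D n (gen q x)) ∂P ≤ ε := by
  classical
  have := hP.prob
  have hn₀ : (0 : ℝ) ≤ n₀ := Nat.cast_nonneg _
  set ε' : ℝ := ε / (4 * (n₀ + 3)) with hε'
  have hε'0 : 0 < ε' := by positivity
  obtain ⟨r, q, hq, Dbar, hdep, hD⟩ := exists_thresholds hP n₀ hε'0
  obtain ⟨K, hK⟩ := exists_nat_gt (16 * (n₀ : ℝ) ^ 2 / ε)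
  have hK0 : 0 < K + 1 := Nat.succ_pos K
  obtain ⟨M, S, hM, hS⟩ := exists_good_table hP q hq n₀ hε'0 Dbar hdep hD hK0 hK0
  set η : ℝ := min 1 (ε / (8 * (n₀ + 1))) with hη
  have hη0 : 0 < η := lt_min one_pos (by positivity)
  have hη1 : η ≤ 1 := min_le_left _ _
  obtain ⟨t, ht, htm, htD⟩ := exists_table_trial hM hK0 hK0 S (levP P q) hq hη0 hη1
  refine ⟨r, q, t, ht, hq, htm, fun n hn => ?_⟩
  have hnn : (n : ℝ) ≤ n₀ := by exact_mod_cast hn
  set N : ℝ := ((K + 1 : ℕ) : ℝ) ^ (n * r) * ((K + 1 : ℕ) : ℝ) ^ n with hN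
  set F : (ℕ → ℕ × ℕ) → ℝ := fun att => (∑ V : Fin n → Fin r → Fin (K + 1),
    ∑ w : Fin n → Fin (K + 1), if GoodVW att V w then
      l1 (tabEmp S (fun l => (pathV att V l, w l))) (Dbar n att) else 0) / N with hF
  have hFdep : DepAtt n F := by
    intro att att' h
    have e1 : Dbar n att = Dbar n att' := by
      funext c; exact hdep n c att att' h
    simp only [hF]
    congr 1
    refine Finset.sum_congr rfl fun V _ => Finset.sum_congr rfl fun w _ => ?_
    have e2 : (fun l => (pathV att V l, w l)) = fun l => (pathV att' V l, w l) := by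
      funext l; rw [pathV_dep h]
    rw [e1, e2]
    by_cases hg : GoodVW att V w
    · rw [if_pos hg, if_pos ((GoodVW_dep h V w).mp hg)]
    · rw [if_neg hg, if_neg (fun h' => hg ((GoodVW_dep h V w).mpr h'))]
  have hvalid : ∀ᵐ x ∂P, ValidAtt r n (gen q x) := by
    filter_upwards [ultraOn_coal hP q (strictMono_of_adm hP q hq)] with x hx
    exact genOf_valid (hx n)
  -- integrability
  have hFint : Integrable (fun x => F (gen q x)) P := by
    obtain ⟨B, _, hB⟩ := bdd_of_dep (r := r) hFdep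
    refine Integrable.of_bound
      (((measurable_gen q F hFdep).mono (Gσ_le n) le_rfl).aestronglyMeasurable) B ?_
    filter_upwards [hvalid] with x hx
    rw [Real.norm_eq_abs]; exact hB _ hx
  have hDmeas : ∀ c, Measurable (fun x => Dn n x c) := fun c => measurable_Dl _ _ _
  have hHint : Integrable (fun x => l1 (Dn n x) (Dbar n (gen q x))) P := by
    unfold l1
    refine integrable_finset_sum _ fun c _ => ?_
    obtain ⟨B, _, hB⟩ := bdd_of_dep (r := r) (hdep n c)
    have hm : Measurable (fun x => Dbar n (gen q x) c) :=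
      (measurable_gen q (fun att => Dbar n att c) (hdep n c)).mono (Gσ_le n) le_rfl
    refine Integrable.of_bound (((hDmeas c).sub hm).abs.aestronglyMeasurable) (1 + B) ?_
    filter_upwards [hvalid] with x hx
    rw [Real.norm_eq_abs, abs_abs]
    refine (abs_sub _ _).trans (add_le_add ?_ (hB _ hx))
    rw [abs_of_nonneg (Dn_nonneg n x c)]
    exact Dl_le_one _ _ _ _
  have hc0 : 2 * ((n : ℝ) ^ 2 * (1 / ((K + 1 : ℕ) : ℝ) + 1 / ((K + 1 : ℕ) : ℝ))) ≤ ε / 4 := by
    have hK1 : (0 : ℝ) < ((K + 1 : ℕ) : ℝ) := by positivity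
    have h1 : 16 * (n₀ : ℝ) ^ 2 / ε < ((K + 1 : ℕ) : ℝ) := by push_cast; linarith
    rw [div_lt_iff₀ hε] at h1
    have h2 : (n : ℝ) ^ 2 ≤ (n₀ : ℝ) ^ 2 := pow_le_pow_left₀ (Nat.cast_nonneg _) hnn 2
    have e : 2 * ((n : ℝ) ^ 2 * (1 / ((K + 1 : ℕ) : ℝ) + 1 / ((K + 1 : ℕ) : ℝ))) =
        4 * (n : ℝ) ^ 2 / ((K + 1 : ℕ) : ℝ) := by field_simp; ring
    rw [e, div_le_iff₀ hK1]
    nlinarith
  have hη2 : 2 * (n : ℝ) * η ≤ ε / 4 := by
    have h1 : η ≤ ε / (8 * (n₀ + 1)) := min_le_right _ _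
    have h2 : 2 * (n : ℝ) * η ≤ 2 * (n₀ : ℝ) * (ε / (8 * (n₀ + 1))) := by
      refine mul_le_mul (by linarith) h1 hη0.le (by positivity)
    refine h2.trans ?_
    rw [← mul_div_assoc, div_le_iff₀ (by positivity)]
    nlinarith
  have hpt : ∀ᵐ x ∂P, l1 (Dn n x) (t.D n (gen q x)) ≤
      F (gen q x) + l1 (Dn n x) (Dbar n (gen q x)) + (ε / 4 + ε / 4) := by
    filter_upwards [hvalid, Dn_sum hP] with x hx hs
    have h1 := l1_TabD_le hM hK0 hK0 S n (gen q x) hx (Dn n x) (Dbar n (gen q x))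
      (Dn_nonneg n x) (hs n)
    have h2 := htD n (gen q x) hx
    have h3 := l1_triangle (Dn n x) (TabD S n (gen q x)) (t.D n (gen q x))
    rw [l1_comm (TabD S n (gen q x))] at h3
    have h4 : F (gen q x) = (∑ V : Fin n → Fin r → Fin (K + 1),
      ∑ w : Fin n → Fin (K + 1), if GoodVW (gen q x) V w then
        l1 (tabEmp S (fun l => (pathV (gen q x) V l, w l))) (Dbar n (gen q x)) else 0) / N := rfl
    rw [h4]
    linarith
  calc ∫ x, l1 (Dn n x) (t.D n (gen q x)) ∂P
      ≤ ∫ x, (F (gen q x) + l1 (Dn n x) (Dbar n (gen q x)) + (ε / 4 + ε / 4)) ∂P := by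
        refine integral_mono_of_nonneg (Eventually.of_forall fun x => l1_nonneg _ _)
          ((hFint.add hHint).add (integrable_const _)) hpt
    _ = ∫ x, F (gen q x) ∂P + ∫ x, l1 (Dn n x) (Dbar n (gen q x)) ∂P + (ε / 4 + ε / 4) := by
        have e1 : ∫ x, (F (gen q x) + l1 (Dn n x) (Dbar n (gen q x)) + (ε / 4 + ε / 4)) ∂P =
            ∫ x, (F (gen q x) + l1 (Dn n x) (Dbar n (gen q x))) ∂P + ∫ _x, (ε / 4 + ε / 4) ∂P :=
          integral_add (hFint.add hHint) (integrable_const _)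
        have e2 : ∫ x, (F (gen q x) + l1 (Dn n x) (Dbar n (gen q x))) ∂P =
            ∫ x, F (gen q x) ∂P + ∫ x, l1 (Dn n x) (Dbar n (gen q x)) ∂P :=
          integral_add hFint hHint
        rw [e1, e2]
        simp
    _ ≤ (n₀ + 2) * ε' + ε' + (ε / 4 + ε / 4) := by
        have h1 := hS n hn
        have h2 := hD n hn
        have h1' : ∫ x, F (gen q x) ∂P ≤ (n₀ + 2) * ε' := h1
        linarith
    _ ≤ ε := by
        have : (n₀ + 2) * ε' + ε' = ε / 4 := by
          rw [hε']; field_simp; ring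
        linarith

end Crest.Agent.MP
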