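import Crest.Agent.MP.TCombA

/-!
# T-COMB-B: combinatorics of genealogies II (telescoping, Abel summation)
-/

set_option autoImplicit false

namespace Crest.Agent.MP


/-- The owner of the level-`j` node of `a` only depends on the class. -/
theorem owner_genOf_eq {r n : ℕ} {c : ℕ → ℕ → ℕ} (hc : UltraOn r n c) {a a' j : ℕ} (ha : a < n)
    (ha' : a' < n) (h : j ≤ c a a') : owner (genOf c) a j = owner (genOf c) a' j := by
  by_cases haa : a = a'
  · rw [haa]
  · exact (owner_genOf_eq_iff hc j ha ha' haa).mpr h

theorem UltraOn.mono {r n m : ℕ} {c : ℕ → ℕ → ℕ} (hc : UltraOn r n c) (hm : m ≤ n) :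
    UltraOn r m c :=
  ⟨fun i j hi hj => hc.1 i j (hi.trans_le hm) (hj.trans_le hm),
   fun i j hi hj => hc.2.1 i j (hi.trans_le hm) (hj.trans_le hm),
   fun i j k hi hj hk => hc.2.2 i j k (hi.trans_le hm) (hj.trans_le hm) (hk.trans_le hm)⟩

/-- The owner of the root is replica `0`. -/
theorem owner_genOf_zero (c : ℕ → ℕ → ℕ) (l : ℕ) : owner (genOf c) l 0 = 0 := by
  induction l using Nat.strong_induction_on with
  | _ l ih =>
    by_cases hl0 : l = 0
    · rw [hl0, owner_zero_left]
    · have hs := genOf_fst_spec (c := c) hl0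
      rw [owner_of_le hs.1 (Nat.zero_le _), ih _ hs.1]

theorem mem_cls {c : ℕ → ℕ → ℕ} {n j a l : ℕ} :
    l ∈ cls c n j a ↔ l < n ∧ (l = a ∨ j ≤ c a l) := by
  unfold cls
  rw [Finset.mem_filter, Finset.mem_range]

/-- The class is the fibre of the owner map. -/
theorem cls_eq_owner {r n : ℕ} {c : ℕ → ℕ → ℕ} (hc : UltraOn r n c) {a : ℕ} (j : ℕ) (ha : a < n) :
    cls c n j a = (Finset.range n).filter
      (fun l => owner (genOf c) l j = owner (genOf c) a j) := by
  ext l
  rw [mem_cls, Finset.mem_filter, Finset.mem_range]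
  refine and_congr_right (fun hl => ?_)
  by_cases hla : l = a
  · simp [hla]
  · rw [owner_genOf_eq_iff hc j hl ha hla, hc.1 a l ha hl]
    simp [hla]

/-- Deterministic telescoping: `f` of the genealogy of `n+1` replicas, written with the level-`j`
nodes containing the new replica `n`.
With `H a j = f (update (genOf c) n (owner (genOf c) a j, j))`:
`f (genOf c) = H 0 0 + Σ_{j=1}^r Σ_{a<n} 1(j ≤ c a n)/|cls j a| (H a j - H a (j-1))`
(the replicas `a` with `j ≤ c a n` form one class `cls j a` if `j ≤ J = max_a c a n`, none if `j > J`;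
`H a j` depends only on the class). -/
theorem genOf_telescope {r n : ℕ} (hn : 1 ≤ n) {c : ℕ → ℕ → ℕ} (hc : UltraOn r (n + 1) c)
    (f : (ℕ → ℕ × ℕ) → ℝ) (hf : DepAtt (n + 1) f) :
    f (genOf c) = f (Function.update (genOf c) n (0, 0)) +
      ∑ j ∈ Finset.Icc 1 r, ∑ a ∈ Finset.range n,
        (if j ≤ c a n then ((cls c n j a).card : ℝ)⁻¹ else 0) *
          (f (Function.update (genOf c) n (owner (genOf c) a j, j)) -
           f (Function.update (genOf c) n (owner (genOf c) a (j - 1), j - 1))) := by
  have hcn : UltraOn r n c := hc.mono (Nat.le_succ n)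
  have hn0 : n ≠ 0 := by omega
  have hs := genOf_fst_spec (c := c) hn0
  set a0 := (genOf c n).1 with ha0
  set J := (genOf c n).2 with hJ
  set H : ℕ → ℕ → ℝ := fun a j => f (Function.update (genOf c) n (owner (genOf c) a j, j)) with hH
  have hJr : J ≤ r := by
    rw [← hs.2]
    exact hc.2.1 n a0 (by omega) (by omega)
  -- value at the top
  have hown : owner (genOf c) a0 J = a0 := by
    have hv := genOf_valid hc n hn (by omega)
    unfold nodes at hv
    rw [Finset.mem_filter] at hv
    rcases hv.2 with h | h
    · rw [← ha0] at h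
      rw [h, owner_zero_left]
    · exact owner_of_lt h
  have htop : H a0 J = f (genOf c) := by
    rw [hH]
    simp only
    rw [hown]
    have : (a0, J) = genOf c n := rfl
    rw [this, Function.update_eq_self]
  have hbot : H a0 0 = f (Function.update (genOf c) n (0, 0)) := by
    rw [hH]
    simp only
    rw [owner_genOf_zero]
  have htel : ∀ K, H a0 K = H a0 0 + ∑ j ∈ Finset.Icc 1 K, (H a0 j - H a0 (j - 1)) := by
    intro K
    induction K with
    | zero => simp
    | succ K ih =>
      rw [Finset.sum_Icc_succ_top (by omega), ← add_assoc, ← ih]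
      simp
  -- each level
  have hlev : ∀ j ∈ Finset.Icc 1 r, ∑ a ∈ Finset.range n,
        (if j ≤ c a n then ((cls c n j a).card : ℝ)⁻¹ else 0) * (H a j - H a (j - 1)) =
        if j ≤ J then H a0 j - H a0 (j - 1) else 0 := by
    intro j hj
    rw [Finset.mem_Icc] at hj
    by_cases hjJ : j ≤ J
    · rw [if_pos hjJ]
      have hca0 : j ≤ c a0 n := by
        rw [hc.1 a0 n (by omega) (by omega), hs.2]; exact hjJ
      -- the set of replicas
      have hcls : ∀ a, a < n → j ≤ c a n → j ≤ c a0 a ∨ a = a0 := by
        intro a ha hja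
        by_cases haa : a = a0
        · exact Or.inr haa
        · left
          have := hc.2.2 a0 a n (by omega) (by omega) (by omega) (Ne.symm haa) (by omega)
            (by omega)
          exact (le_min hca0 hja).trans this
      have hcls' : ∀ a, a < n → a ∈ cls c n j a0 → j ≤ c a n := by
        intro a ha hja
        rw [mem_cls] at hja
        rcases hja.2 with h | h
        · rw [h]; exact hca0
        · by_cases haa : a = a0
          · rw [haa]; exact hca0
          · have := hc.2.2 a n a0 (by omega) (by omega) (by omega) (by omega) haa (by omega)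
            rw [hc.1 a a0 (by omega) (by omega), hc.1 n a0 (by omega) (by omega)] at this
            exact (le_min h hca0).trans this
      have hval : ∀ a ∈ Finset.range n,
          (if j ≤ c a n then ((cls c n j a).card : ℝ)⁻¹ else 0) * (H a j - H a (j - 1)) =
          if a ∈ cls c n j a0 then ((cls c n j a0).card : ℝ)⁻¹ * (H a0 j - H a0 (j - 1)) else 0 := by
        intro a ha
        rw [Finset.mem_range] at ha
        by_cases hja : j ≤ c a n
        · have hmem : a ∈ cls c n j a0 := by
            rw [mem_cls]
            refine ⟨ha, (hcls a ha hja).symm⟩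
          rw [if_pos hja, if_pos hmem]
          have hownj : owner (genOf c) a j = owner (genOf c) a0 j := by
            rcases hcls a ha hja with h | h
            · exact (owner_genOf_eq hcn (by omega) ha h).symm
            · rw [h]
          have hownj' : owner (genOf c) a (j - 1) = owner (genOf c) a0 (j - 1) :=
            owner_nested (Nat.sub_le j 1) hownj
          have hclseq : cls c n j a = cls c n j a0 := by
            rw [cls_eq_owner hcn j ha, cls_eq_owner hcn j (by omega), hownj]
          rw [hclseq, hH]
          simp only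
          rw [hownj, hownj']
        · have hmem : a ∉ cls c n j a0 := fun h => hja (hcls' a ha h)
          rw [if_neg hja, if_neg hmem, zero_mul]
      rw [Finset.sum_congr rfl hval, Finset.sum_ite_mem]
      have hinter : Finset.range n ∩ cls c n j a0 = cls c n j a0 := by
        apply Finset.inter_eq_right.mpr
        intro a ha
        rw [mem_cls] at ha
        exact Finset.mem_range.mpr ha.1
      rw [hinter, Finset.sum_const, nsmul_eq_mul, ← mul_assoc, mul_inv_cancel₀, one_mul]
      have hmem0 : a0 ∈ cls c n j a0 := by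
        rw [mem_cls]
        exact ⟨hs.1, Or.inl rfl⟩
      exact Nat.cast_ne_zero.mpr (Finset.card_pos.mpr ⟨a0, hmem0⟩).ne'
    · rw [if_neg hjJ]
      refine Finset.sum_eq_zero ?_
      intro a ha
      rw [Finset.mem_range] at ha
      have : ¬ j ≤ c a n := by
        intro h
        rw [hc.1 a n (by omega) (by omega)] at h
        exact hjJ (h.trans (le_genOf_snd ha))
      rw [if_neg this, zero_mul]
  rw [← htop, htel J, hbot]
  congr 1
  rw [Finset.sum_congr rfl hlev, ← Finset.sum_filter]
  refine Finset.sum_congr ?_ (fun _ _ => rfl)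
  ext j
  rw [Finset.mem_filter, Finset.mem_Icc, Finset.mem_Icc]
  omega

/-- Abel summation: in every class of level `j ≥ 1` exactly one replica `a` (the smallest) has
`(genOf c a).2 < j`. -/
theorem abel_classes {r n : ℕ} (hn : 1 ≤ n) {c : ℕ → ℕ → ℕ} (hc : UltraOn r n c) (x : ℕ → ℝ)
    (hx0 : x 0 = 0) (hx1 : x (r + 1) = 1) (f : (ℕ → ℕ × ℕ) → ℝ) :
    ∑ a ∈ Finset.range n, ∑ j ∈ Finset.range (r + 1),
        (x (j + 1) - x j) * f (attach (genOf c) n a j) =
      n * f (Function.update (genOf c) n (0, 0)) +
      ∑ a ∈ Finset.range n, ∑ j ∈ Finset.Icc 1 r, (1 - x j * ((cls c n j a).card : ℝ)⁻¹) *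
          (f (Function.update (genOf c) n (owner (genOf c) a j, j)) -
           f (Function.update (genOf c) n (owner (genOf c) a (j - 1), j - 1))) := by
  set H : ℕ → ℕ → ℝ := fun a j => f (Function.update (genOf c) n (owner (genOf c) a j, j)) with hH
  have hH0 : ∀ a, H a 0 = f (Function.update (genOf c) n (0, 0)) := by
    intro a
    rw [hH]
    simp only
    rw [owner_genOf_zero]
  -- Abel summation
  have habel : ∀ (G : ℕ → ℝ) (R : ℕ), ∑ j ∈ Finset.range (R + 1), (x (j + 1) - x j) * G j =
      x (R + 1) * G R - x 0 * G 0 - ∑ j ∈ Finset.Icc 1 R, x j * (G j - G (j - 1)) := by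
    intro G R
    induction R with
    | zero => simp; ring
    | succ R ih =>
      rw [Finset.sum_range_succ, ih, Finset.sum_Icc_succ_top (by omega)]
      simp only [Nat.add_sub_cancel]
      ring
  have htel : ∀ a K, H a K = H a 0 + ∑ j ∈ Finset.Icc 1 K, (H a j - H a (j - 1)) := by
    intro a K
    induction K with
    | zero => simp
    | succ K ih =>
      rw [Finset.sum_Icc_succ_top (by omega), ← add_assoc, ← ih]
      simp
  have hattach : ∀ a j, f (attach (genOf c) n a j) = H a (max j (genOf c a).2) := by
    intro a j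
    rfl
  have hL : ∀ a, a < n → (genOf c a).2 ≤ r := by
    intro a ha
    by_cases h0 : a = 0
    · rw [h0, genOf_zero]; exact Nat.zero_le _
    · have hs := genOf_fst_spec (c := c) h0
      rw [← hs.2]
      exact hc.2.1 a _ ha (hs.1.trans ha)
  have hrow : ∀ a ∈ Finset.range n, ∑ j ∈ Finset.range (r + 1),
        (x (j + 1) - x j) * f (attach (genOf c) n a j) =
      f (Function.update (genOf c) n (0, 0)) + (∑ j ∈ Finset.Icc 1 r, (H a j - H a (j - 1))
        - ∑ j ∈ Finset.Icc 1 r, if (genOf c a).2 < j then x j * (H a j - H a (j - 1)) else 0) := by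
    intro a ha
    rw [Finset.mem_range] at ha
    have h1 : ∑ j ∈ Finset.range (r + 1), (x (j + 1) - x j) * f (attach (genOf c) n a j) =
        ∑ j ∈ Finset.range (r + 1), (x (j + 1) - x j) * (fun j => H a (max j (genOf c a).2)) j := by
      refine Finset.sum_congr rfl (fun j _ => ?_)
      rw [hattach]
    rw [h1, habel]
    rw [hx0, hx1, max_eq_left (hL a ha), one_mul, zero_mul, sub_zero, htel a r, hH0, add_sub_assoc]
    congr 2
    refine Finset.sum_congr rfl (fun j hj => ?_)
    rw [Finset.mem_Icc] at hj
    by_cases hlt : (genOf c a).2 < j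
    · rw [if_pos hlt, max_eq_left hlt.le, max_eq_left (by omega)]
    · rw [if_neg hlt, max_eq_right (by omega), max_eq_right (by omega), sub_self, mul_zero]
  rw [Finset.sum_congr rfl hrow, Finset.sum_add_distrib, Finset.sum_const, Finset.card_range,
    nsmul_eq_mul]
  congr 1
  rw [Finset.sum_sub_distrib]
  have hR : ∑ a ∈ Finset.range n, ∑ j ∈ Finset.Icc 1 r, (1 - x j * ((cls c n j a).card : ℝ)⁻¹) *
          (H a j - H a (j - 1)) =
      ∑ a ∈ Finset.range n, ∑ j ∈ Finset.Icc 1 r, (H a j - H a (j - 1)) -
      ∑ a ∈ Finset.range n, ∑ j ∈ Finset.Icc 1 r,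
        x j * (((cls c n j a).card : ℝ)⁻¹ * (H a j - H a (j - 1))) := by
    rw [← Finset.sum_sub_distrib]
    refine Finset.sum_congr rfl (fun a _ => ?_)
    rw [← Finset.sum_sub_distrib]
    refine Finset.sum_congr rfl (fun j _ => ?_)
    ring
  change _ = ∑ a ∈ Finset.range n, ∑ j ∈ Finset.Icc 1 r, (1 - x j * ((cls c n j a).card : ℝ)⁻¹) *
          (H a j - H a (j - 1))
  rw [hR]
  congr 1
  rw [Finset.sum_comm, Finset.sum_comm (s := Finset.range n)]
  refine Finset.sum_congr rfl (fun j hj => ?_)
  rw [Finset.mem_Icc] at hj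
  rw [← Finset.mul_sum]
  have hfac : ∑ a ∈ Finset.range n, (if (genOf c a).2 < j then x j * (H a j - H a (j - 1)) else 0)
      = x j * ∑ a ∈ Finset.range n, (if (genOf c a).2 < j then (H a j - H a (j - 1)) else 0) := by
    rw [Finset.mul_sum]
    refine Finset.sum_congr rfl (fun a _ => ?_)
    split_ifs <;> simp
  rw [hfac]
  congr 1
  -- group by owners
  have hown : ∀ a, (genOf c a).2 < j ↔ owner (genOf c) a j = a := by
    intro a
    constructor
    · exact fun h => owner_of_lt h
    · intro h
      by_contra hlt
      by_cases h0 : a = 0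
      · subst h0
        rw [genOf_zero] at hlt
        simp at hlt
        omega
      · have hs := genOf_fst_spec (c := c) h0
        rw [owner_of_le hs.1 (by omega)] at h
        have := owner_le (genOf c) (genOf c a).1 j
        omega
  have hmaps : ∀ a ∈ Finset.range n, owner (genOf c) a j ∈
      (Finset.range n).filter (fun b => owner (genOf c) b j = b) := by
    intro a ha
    rw [Finset.mem_range] at ha
    rw [Finset.mem_filter, Finset.mem_range]
    exact ⟨(owner_le _ _ _).trans_lt ha, owner_owner (genOf c) a le_rfl⟩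
  rw [← Finset.sum_filter]
  rw [← Finset.sum_fiberwise_of_maps_to hmaps
    (fun a => ((cls c n j a).card : ℝ)⁻¹ * (H a j - H a (j - 1)))]
  have hfilt : (Finset.range n).filter (fun a => (genOf c a).2 < j) =
      (Finset.range n).filter (fun b => owner (genOf c) b j = b) := by
    refine Finset.filter_congr (fun a _ => hown a)
  rw [hfilt]
  refine Finset.sum_congr rfl (fun b hb => ?_)
  rw [Finset.mem_filter, Finset.mem_range] at hb
  have hval : ∀ a ∈ (Finset.range n).filter (fun a => owner (genOf c) a j = b),
      ((cls c n j a).card : ℝ)⁻¹ * (H a j - H a (j - 1)) =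
      (((Finset.range n).filter (fun a => owner (genOf c) a j = b)).card : ℝ)⁻¹ *
        (H b j - H b (j - 1)) := by
    intro a ha
    rw [Finset.mem_filter, Finset.mem_range] at ha
    have h1 : owner (genOf c) a j = owner (genOf c) b j := by rw [ha.2, hb.2]
    have h2 : owner (genOf c) a (j - 1) = owner (genOf c) b (j - 1) :=
      owner_nested (Nat.sub_le j 1) h1
    rw [cls_eq_owner hc j ha.1, ha.2, hH]
    simp only
    rw [h1, h2]
  rw [Finset.sum_congr rfl hval, Finset.sum_const, nsmul_eq_mul, ← mul_assoc, mul_inv_cancel₀,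
    one_mul]
  have hbm : b ∈ (Finset.range n).filter (fun a => owner (genOf c) a j = b) := by
    rw [Finset.mem_filter, Finset.mem_range]
    exact hb
  exact Nat.cast_ne_zero.mpr (Finset.card_pos.mpr ⟨b, hbm⟩).ne'

theorem mem_nodes {r n : ℕ} {att : ℕ → ℕ × ℕ} {v : ℕ × ℕ} :
    v ∈ nodes r n att ↔ (v.1 < n ∧ v.2 < r + 1) ∧ (v.1 = 0 ∨ (att v.1).2 < v.2) := by
  unfold nodes
  rw [Finset.mem_filter, Finset.mem_product, Finset.mem_range, Finset.mem_range]

/-- `nodes r l` only depends on the genealogy below `l`. -/
theorem nodes_congr {r l : ℕ} {att att' : ℕ → ℕ × ℕ} (h : ∀ i, i < l → att i = att' i) :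
    nodes r l att = nodes r l att' := by
  ext v
  rw [mem_nodes, mem_nodes]
  refine and_congr_right (fun hv => ?_)
  rw [h _ hv.1]

/-- `attach` produces valid genealogies. (`att 0 = (0,0)` is needed for `a = 0`.) -/
theorem attach_valid {r n : ℕ} (hn : 1 ≤ n) {att : ℕ → ℕ × ℕ} (h : ValidAtt r n att)
    (h0 : att 0 = (0, 0)) {a j : ℕ}
    (ha : a < n) (hj : j ≤ r) : ValidAtt r (n + 1) (attach att n a j) := by
  have hlow : ∀ i, i < n → attach att n a j i = att i := by
    intro i hi
    unfold attach
    exact Function.update_of_ne (by omega) _ _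
  intro l h1 h2
  rw [nodes_congr (fun i hi => hlow i (by omega))]
  by_cases hl : l = n
  · subst hl
    have hval : attach att l a j l = (owner att a (max j (att a).2), max j (att a).2) := by
      unfold attach
      exact Function.update_self _ _ _
    rw [hval, mem_nodes]
    have hatt : (att a).2 ≤ r := by
      by_cases ha0 : a = 0
      · rw [ha0, h0]; exact Nat.zero_le _
      · have := h a (by omega) ha
        rw [mem_nodes] at this
        omega
    have hb := owner_le att a (max j (att a).2)
    refine ⟨⟨hb.trans_lt ha, by simp only; omega⟩, ?_⟩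
    simp only
    by_cases hb0 : owner att a (max j (att a).2) = 0
    · exact Or.inl hb0
    · right
      have h3 := owner_owner att a (le_refl (max j (att a).2))
      by_contra hlt
      have hv := h (owner att a (max j (att a).2)) (by omega) (hb.trans_lt ha)
      rw [mem_nodes] at hv
      rw [owner_of_le hv.1.1 (by omega)] at h3
      have := owner_le att (att (owner att a (max j (att a).2))).1 (max j (att a).2)
      omega
  · rw [hlow l (by omega)]
    exact h l h1 (by omega)

/-- Every node is obtained from its owner. -/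
theorem attach_node {r n : ℕ} {att : ℕ → ℕ × ℕ} {v : ℕ × ℕ} (hv : v ∈ nodes r n att)
    (h0 : att 0 = (0, 0)) : attach att n v.1 v.2 = Function.update att n v := by
  rw [mem_nodes] at hv
  unfold attach
  have hmax : max v.2 (att v.1).2 = v.2 := by
    rcases hv.2 with h | h
    · rw [h, h0]; simp
    · exact max_eq_left h.le
  have hown : owner att v.1 v.2 = v.1 := by
    rcases hv.2 with h | h
    · rw [h, owner_zero_left]
    · exact owner_of_lt h
  rw [hmax, hown]


end Crest.Agent.MP
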