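import Crest.Agent.MP.TDefs

/-!
# T-COMB-A: combinatorics of genealogies I (purely deterministic)

For an ultrametric matrix `c`, `owner (genOf c) l j = min {l' ≤ l | l' = l ∨ j ≤ c l l'}` for
`j ≥ 1` (strong induction on `l`), and `= 0` for `j = 0`.
-/

set_option autoImplicit false

namespace Crest.Agent.MP


theorem owner_le (att : ℕ → ℕ × ℕ) (l j : ℕ) : owner att l j ≤ l := by
  induction l using Nat.strong_induction_on with
  | _ l ih =>
    rw [owner]
    split_ifs with h
    · exact (ih _ h.1).trans h.1.le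
    · exact le_rfl

theorem owner_of_le {att : ℕ → ℕ × ℕ} {l j : ℕ} (h1 : (att l).1 < l) (h2 : j ≤ (att l).2) :
    owner att l j = owner att (att l).1 j := by
  rw [owner, dif_pos ⟨h1, h2⟩]

theorem owner_of_lt {att : ℕ → ℕ × ℕ} {l j : ℕ} (h2 : (att l).2 < j) :
    owner att l j = l := by
  rw [owner, dif_neg]
  rintro ⟨_, h⟩
  omega

theorem owner_zero_left (att : ℕ → ℕ × ℕ) (j : ℕ) : owner att 0 j = 0 :=
  Nat.le_zero.mp (owner_le att 0 j)

/-- Owners of owners. -/
theorem owner_owner (att : ℕ → ℕ × ℕ) (l : ℕ) {j j' : ℕ} (hj : j' ≤ j) :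
    owner att (owner att l j) j' = owner att l j' := by
  induction l using Nat.strong_induction_on with
  | _ l ih =>
    by_cases h : (att l).1 < l ∧ j ≤ (att l).2
    · rw [owner_of_le h.1 h.2, ih _ h.1, ← owner_of_le h.1 (hj.trans h.2)]
    · have : owner att l j = l := by rw [owner, dif_neg h]
      rw [this]

/-- The owner relation is nested. -/
theorem owner_nested {att : ℕ → ℕ × ℕ} {l l' j j' : ℕ} (hj : j' ≤ j)
    (h : owner att l j = owner att l' j) : owner att l j' = owner att l' j' := by
  rw [← owner_owner att l hj, h, owner_owner att l' hj]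

/-- A down-closed predicate on `Icc 1 r`. -/
theorem card_filter_downclosed {r : ℕ} {p : ℕ → Prop} [DecidablePred p]
    (hp : ∀ j j', j' ≤ j → p j → p j') {j : ℕ} (h1 : 1 ≤ j) (h2 : j ≤ r) :
    j ≤ ((Finset.Icc 1 r).filter p).card ↔ p j := by
  constructor
  · intro h
    by_contra hn
    have hsub : (Finset.Icc 1 r).filter p ⊆ Finset.Icc 1 (j - 1) := by
      intro t ht
      rw [Finset.mem_filter, Finset.mem_Icc] at ht
      rw [Finset.mem_Icc]
      refine ⟨ht.1.1, ?_⟩
      by_contra hlt
      exact hn (hp t j (by omega) ht.2)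
    have := Finset.card_le_card hsub
    rw [Nat.card_Icc] at this
    omega
  · intro h
    have hsub : Finset.Icc 1 j ⊆ (Finset.Icc 1 r).filter p := by
      intro t ht
      rw [Finset.mem_Icc] at ht
      rw [Finset.mem_filter, Finset.mem_Icc]
      exact ⟨⟨ht.1, ht.2.trans h2⟩, hp j t ht.2 h⟩
    have := Finset.card_le_card hsub
    rw [Nat.card_Icc] at this
    omega

theorem le_coalA_iff {r : ℕ} {att : ℕ → ℕ × ℕ} {l l' j : ℕ} (h1 : 1 ≤ j) (h2 : j ≤ r) :
    j ≤ coalA r att l l' ↔ owner att l j = owner att l' j := by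
  unfold coalA
  exact card_filter_downclosed (p := fun j => owner att l j = owner att l' j)
    (fun j j' hj h => owner_nested hj h) h1 h2

theorem coalA_le (r : ℕ) (att : ℕ → ℕ × ℕ) (l l' : ℕ) : coalA r att l l' ≤ r := by
  unfold coalA
  refine (Finset.card_filter_le _ _).trans ?_
  rw [Nat.card_Icc]
  omega

theorem coalA_comm (r : ℕ) (att : ℕ → ℕ × ℕ) (l l' : ℕ) : coalA r att l l' = coalA r att l' l := by
  unfold coalA
  congr 1
  refine Finset.filter_congr ?_
  intro j _
  exact eq_comm

theorem genOf_zero (c : ℕ → ℕ → ℕ) : genOf c 0 = (0, 0) := by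
  simp [genOf]

theorem genOf_snd {c : ℕ → ℕ → ℕ} {l : ℕ} (hl : l ≠ 0) :
    (genOf c l).2 = (Finset.range l).sup (c l) := by
  simp [genOf, hl]

theorem genOf_fst {c : ℕ → ℕ → ℕ} {l : ℕ} (hl : l ≠ 0) :
    (genOf c l).1 = sInf {a | a < l ∧ c l a = (Finset.range l).sup (c l)} := by
  simp [genOf, hl]

theorem genOf_fst_spec {c : ℕ → ℕ → ℕ} {l : ℕ} (hl : l ≠ 0) :
    (genOf c l).1 < l ∧ c l (genOf c l).1 = (genOf c l).2 := by
  have hne : ({a | a < l ∧ c l a = (Finset.range l).sup (c l)} : Set ℕ).Nonempty := by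
    obtain ⟨a, ha, h⟩ := Finset.exists_mem_eq_sup (Finset.range l)
      ⟨0, Finset.mem_range.mpr (Nat.pos_of_ne_zero hl)⟩ (c l)
    exact ⟨a, Finset.mem_range.mp ha, h.symm⟩
  have := Nat.sInf_mem hne
  rw [← genOf_fst hl, ← genOf_snd hl] at this
  exact this

theorem genOf_fst_min {c : ℕ → ℕ → ℕ} {l a : ℕ} (hl : l ≠ 0) (ha : a < (genOf c l).1) :
    c l a < (genOf c l).2 := by
  have h1 := genOf_fst_spec (c := c) hl
  have h2 : c l a ≤ (genOf c l).2 := by
    rw [genOf_snd hl]
    exact Finset.le_sup (f := c l) (Finset.mem_range.mpr (ha.trans h1.1))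
  refine lt_of_le_of_ne h2 ?_
  intro h3
  rw [genOf_fst hl] at ha
  refine Nat.notMem_of_lt_sInf ha ⟨?_, ?_⟩
  · rw [← genOf_fst hl] at ha
    exact ha.trans h1.1
  · rw [h3, genOf_snd hl]

theorem le_genOf_snd {c : ℕ → ℕ → ℕ} {l a : ℕ} (ha : a < l) : c l a ≤ (genOf c l).2 := by
  rw [genOf_snd (by omega)]
  exact Finset.le_sup (f := c l) (Finset.mem_range.mpr ha)

/-- Uniqueness characterisation of `genOf`. -/
theorem genOf_eq {c : ℕ → ℕ → ℕ} {l a J : ℕ} (ha : a < l) (h1 : c l a = J)
    (h2 : ∀ b, b < l → c l b ≤ J) (h3 : ∀ b, b < a → c l b ≠ J) : genOf c l = (a, J) := by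
  have hl : l ≠ 0 := by omega
  have hs := genOf_fst_spec (c := c) hl
  have hJ : (genOf c l).2 = J := by
    apply le_antisymm
    · rw [← hs.2]
      exact h2 _ hs.1
    · rw [← h1]
      exact le_genOf_snd ha
  have hA : (genOf c l).1 = a := by
    rcases lt_trichotomy (genOf c l).1 a with h | h | h
    · exact absurd (hs.2.trans hJ) (h3 _ h)
    · exact h
    · have := genOf_fst_min hl h
      omega
  exact Prod.ext hA hJ

/-- The owner, characterised: the smallest replica of the class. -/
theorem owner_genOf_spec {r n : ℕ} {c : ℕ → ℕ → ℕ} (hc : UltraOn r n c) {l : ℕ} (j : ℕ)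
    (hl : l < n) : (owner (genOf c) l j = l ∨ j ≤ c l (owner (genOf c) l j)) ∧
      ∀ a, a < l → j ≤ c l a → owner (genOf c) l j ≤ a := by
  obtain ⟨hsym, hr, hu⟩ := hc
  induction l using Nat.strong_induction_on with
  | _ l ih =>
    by_cases hl0 : l = 0
    · subst hl0
      rw [owner_zero_left]
      exact ⟨Or.inl rfl, fun a ha => absurd ha (by omega)⟩
    have hs := genOf_fst_spec (c := c) hl0
    by_cases hj : j ≤ (genOf c l).2
    · rw [owner_of_le hs.1 hj]
      obtain ⟨ih1, ih2⟩ := ih _ hs.1 (hs.1.trans hl)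
      set a0 := (genOf c l).1 with ha0
      have ha0n : a0 < n := hs.1.trans hl
      have hm : owner (genOf c) a0 j ≤ a0 := owner_le _ _ _
      set m := owner (genOf c) a0 j with hmdef
      refine ⟨Or.inr ?_, ?_⟩
      · rcases ih1 with h | h
        · rw [h, hs.2]; exact hj
        · by_cases hma : m = a0
          · rw [hma, hs.2]; exact hj
          · have hm' : m < a0 := lt_of_le_of_ne hm hma
            have := hu l m a0 hl (hm'.trans ha0n) ha0n (by omega) (by omega) hma
            rw [hs.2, hsym m a0 (hm'.trans ha0n) ha0n] at this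
            exact (le_min hj h).trans this
      · intro a ha hja
        rcases lt_or_ge a a0 with h | h
        · refine ih2 a h ?_
          have := hu a0 a l ha0n (ha.trans hl) hl (by omega) (by omega) (by omega)
          rw [hsym a0 l ha0n hl, hsym a l (ha.trans hl) hl, hs.2] at this
          exact (le_min hj hja).trans this
        · exact hm.trans h
    · rw [owner_of_lt (by omega)]
      refine ⟨Or.inl rfl, ?_⟩
      intro a ha hja
      have := le_genOf_snd (c := c) ha
      omega

/-- Same owner iff same class. -/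
theorem owner_genOf_eq_iff {r n : ℕ} {c : ℕ → ℕ → ℕ} (hc : UltraOn r n c) {l l' : ℕ} (j : ℕ)
    (hl : l < n) (hl' : l' < n) (hne : l ≠ l') :
    owner (genOf c) l j = owner (genOf c) l' j ↔ j ≤ c l l' := by
  obtain ⟨hsym, hr, hu⟩ := id hc
  have key : ∀ a b, a < n → b < n → a ≠ b → j ≤ c a b →
      owner (genOf c) a j ≤ owner (genOf c) b j := by
    intro a b ha hb hab hj
    have hsa := owner_genOf_spec hc j ha
    have hsb := owner_genOf_spec hc j hb
    have hma : owner (genOf c) a j ≤ a := owner_le _ _ _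
    have hmb : owner (genOf c) b j ≤ b := owner_le _ _ _
    by_cases h : owner (genOf c) b j < a
    · refine hsa.2 _ h ?_
      rcases hsb.1 with h1 | h1
      · rw [h1]; exact hj
      · by_cases h2 : owner (genOf c) b j = b
        · rw [h2]; exact hj
        · have := hu a (owner (genOf c) b j) b ha (hmb.trans_lt hb) hb (by omega) hab h2
          rw [hsym (owner (genOf c) b j) b (hmb.trans_lt hb) hb] at this
          exact (le_min hj h1).trans this
    · omega
  constructor
  · intro h
    have hs := owner_genOf_spec hc j hl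
    have hs' := owner_genOf_spec hc j hl'
    rw [← h] at hs'
    have hml : owner (genOf c) l j ≤ l := owner_le _ _ _
    by_cases h1 : owner (genOf c) l j = l
    · rw [h1] at hs'
      rcases hs'.1 with h2 | h2
      · exact absurd h2 hne
      · rw [hsym l l' hl hl']; exact h2
    · have h1' := hs.1.resolve_left h1
      by_cases h2 : owner (genOf c) l j = l'
      · rw [h2] at h1'
        exact h1'
      · have h2' := hs'.1.resolve_left h2
        have := hu l l' (owner (genOf c) l j) hl hl' (hml.trans_lt hl) hne (Ne.symm h1)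
          (Ne.symm h2)
        exact (le_min h1' h2').trans this
  · intro h
    refine le_antisymm (key l l' hl hl' hne h) (key l' l hl' hl (Ne.symm hne) ?_)
    rw [hsym l' l hl' hl]; exact h

theorem coalA_genOf {r n : ℕ} {c : ℕ → ℕ → ℕ} (hc : UltraOn r n c) {l l' : ℕ} (hl : l < n)
    (hl' : l' < n) (hne : l ≠ l') : coalA r (genOf c) l l' = c l l' := by
  have hr := hc.2.1 l l' hl hl'
  apply le_antisymm
  · rcases Nat.eq_zero_or_pos (coalA r (genOf c) l l') with h | h
    · omega
    · have h1 := (le_coalA_iff (r := r) (att := genOf c) (l := l) (l' := l') h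
        (coalA_le _ _ _ _)).mp le_rfl
      exact (owner_genOf_eq_iff hc _ hl hl' hne).mp h1
  · rcases Nat.eq_zero_or_pos (c l l') with h | h
    · omega
    · exact (le_coalA_iff h hr).mpr ((owner_genOf_eq_iff hc _ hl hl' hne).mpr le_rfl)

theorem genOf_valid {r n : ℕ} {c : ℕ → ℕ → ℕ} (hc : UltraOn r n c) : ValidAtt r n (genOf c) := by
  obtain ⟨hsym, hr, hu⟩ := hc
  intro l h1 h2
  have hl0 : l ≠ 0 := by omega
  have hs := genOf_fst_spec (c := c) hl0
  unfold nodes
  rw [Finset.mem_filter, Finset.mem_product, Finset.mem_range, Finset.mem_range]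
  refine ⟨⟨hs.1, ?_⟩, ?_⟩
  · have := hr l (genOf c l).1 h2 (hs.1.trans h2)
    rw [hs.2] at this
    omega
  · by_cases h0 : (genOf c l).1 = 0
    · exact Or.inl h0
    · right
      have hs' := genOf_fst_spec (c := c) h0
      have h3 := genOf_fst_min (c := c) (l := l) hl0 hs'.1
      set a0 := (genOf c l).1 with ha0
      set b := (genOf c a0).1 with hb
      have hbn : b < n := (hs'.1.trans hs.1).trans h2
      have ha0n : a0 < n := hs.1.trans h2
      have := hu l b a0 h2 hbn ha0n (by omega) (by omega) (by omega)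
      rw [hs.2, hsym b a0 hbn ha0n, hs'.2] at this
      rcases min_le_iff.mp this with h4 | h4 <;> omega

theorem ultraOn_coalA {r n : ℕ} {att : ℕ → ℕ × ℕ} (h : ValidAtt r n att) :
    UltraOn r n (coalA r att) := by
  refine ⟨fun i j _ _ => coalA_comm r att i j, fun i j _ _ => coalA_le r att i j, ?_⟩
  intro i j k _ _ _ _ _ _
  rcases Nat.eq_zero_or_pos (min (coalA r att i k) (coalA r att j k)) with h0 | h0
  · omega
  · have hr : min (coalA r att i k) (coalA r att j k) ≤ r :=
      (min_le_left _ _).trans (coalA_le _ _ _ _)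
    have h1 := (le_coalA_iff (att := att) (l := i) (l' := k) h0 hr).mp (min_le_left _ _)
    have h2 := (le_coalA_iff (att := att) (l := j) (l' := k) h0 hr).mp (min_le_right _ _)
    exact (le_coalA_iff h0 hr).mpr (h1.trans h2.symm)

theorem genOf_coalA {r n : ℕ} {att : ℕ → ℕ × ℕ} (h : ValidAtt r n att) {l : ℕ} (hl : 1 ≤ l)
    (hl' : l < n) : genOf (coalA r att) l = att l := by
  have hv := h l hl hl'
  unfold nodes at hv
  rw [Finset.mem_filter, Finset.mem_product, Finset.mem_range, Finset.mem_range] at hv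
  obtain ⟨⟨ha, hJ⟩, hnode⟩ := hv
  have hup : ∀ b, b < l → coalA r att l b ≤ (att l).2 := by
    intro b hb
    by_contra hlt
    push Not at hlt
    have h1 := (le_coalA_iff (r := r) (att := att) (l := l) (l' := b) (j := coalA r att l b)
      (by omega) (coalA_le _ _ _ _)).mp le_rfl
    rw [owner_of_lt hlt] at h1
    have h2 := owner_le att b (coalA r att l b)
    omega
  refine genOf_eq ha ?_ hup ?_
  · apply le_antisymm (hup _ ha)
    rcases Nat.eq_zero_or_pos (att l).2 with h0 | h0
    · omega
    · exact (le_coalA_iff h0 (by omega)).mpr (owner_of_le ha le_rfl)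
  · intro b hb hbJ
    have hJ' : (att (att l).1).2 < (att l).2 := by
      rcases hnode with h0 | h0
      · omega
      · exact h0
    have h1 := (le_coalA_iff (r := r) (att := att) (l := l) (l' := b) (j := (att l).2)
      (by omega) (by omega)).mp (by omega)
    rw [owner_of_le ha le_rfl, owner_of_lt hJ'] at h1
    have h2 := owner_le att b (att l).2
    omega

/-- `genOf c` restricted to `< n` depends only on `c` on distinct indices `< n`. -/
theorem genOf_congr {n : ℕ} {c c' : ℕ → ℕ → ℕ}
    (h : ∀ i j, i < n → j < n → i ≠ j → c i j = c' i j) {l : ℕ} (hl : l < n) :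
    genOf c l = genOf c' l := by
  by_cases hl0 : l = 0
  · subst hl0
    rw [genOf_zero, genOf_zero]
  have hs := genOf_fst_spec (c := c') hl0
  have hcc : ∀ b, b < l → c l b = c' l b := fun b hb => h l b hl (hb.trans hl) (by omega)
  have h1 : c l (genOf c' l).1 = (genOf c' l).2 := by rw [hcc _ hs.1, hs.2]
  have h2 : ∀ b, b < l → c l b ≤ (genOf c' l).2 := by
    intro b hb
    rw [hcc _ hb]
    exact le_genOf_snd hb
  have h3 : ∀ b, b < (genOf c' l).1 → c l b ≠ (genOf c' l).2 := by
    intro b hb
    rw [hcc _ (hb.trans hs.1)]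
    exact (genOf_fst_min hl0 hb).ne
  exact genOf_eq hs.1 h1 h2 h3

theorem coalA_congr {r n : ℕ} {att att' : ℕ → ℕ × ℕ} (h : ∀ l, 1 ≤ l → l < n → att l = att' l)
    {l l' : ℕ} (hl : l < n) (hl' : l' < n) (h0 : (att 0) = (att' 0)) :
    coalA r att l l' = coalA r att' l l' := by
  have hown : ∀ (j l : ℕ), l < n → owner att l j = owner att' l j := by
    intro j l
    induction l using Nat.strong_induction_on with
    | _ l ih =>
      intro hln
      have hatt : att l = att' l := by
        rcases Nat.eq_zero_or_pos l with h1 | h1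
        · rw [h1, h0]
        · exact h l h1 hln
      by_cases hif : (att' l).1 < l ∧ j ≤ (att' l).2
      · rw [owner_of_le (att := att') hif.1 hif.2, ← ih _ hif.1 (hif.1.trans hln), ← hatt]
        exact owner_of_le (by rw [hatt]; exact hif.1) (by rw [hatt]; exact hif.2)
      · have h1 : owner att' l j = l := by rw [owner, dif_neg hif]
        have h2 : owner att l j = l := by rw [owner, dif_neg (by rw [hatt]; exact hif)]
        rw [h1, h2]
  unfold coalA
  congr 1
  refine Finset.filter_congr ?_
  intro j _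
  rw [hown j l hl, hown j l' hl']


end Crest.Agent.MP
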