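import Crest.Agent.MP.RDefs

/-!
# Module T (from the limit model to a finite trial), definitions (§6, §10)
-/

set_option autoImplicit false

namespace Crest.Agent.MP

open MeasureTheory Filter Topology
open Crest.ProbabilityR.Diluted

/-- Coalescence level of two replicas for the thresholds `q`. -/
noncomputable def coal {r : ℕ} (q : Fin r → ℝ) (x : Obs) (l l' : ℕ) : ℕ :=
  (Finset.univ.filter (fun j : Fin r => q j ≤ Rov x l l')).card

/-- The genealogy of a coalescence matrix: replica `l` attaches at `(a, j)`, `j = max_{l'<l} c l l'`,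
`a` the smallest `l' < l` with `c l l' = j`. -/
noncomputable def genOf (c : ℕ → ℕ → ℕ) (l : ℕ) : ℕ × ℕ :=
  if l = 0 then (0, 0) else
    (sInf {a | a < l ∧ c l a = (Finset.range l).sup (c l)}, (Finset.range l).sup (c l))

/-- Symmetric ultrametric coalescence matrix on `{0..n-1}` with values `≤ r`. -/
def UltraOn (r n : ℕ) (c : ℕ → ℕ → ℕ) : Prop :=
  (∀ i j, i < n → j < n → c i j = c j i) ∧ (∀ i j, i < n → j < n → c i j ≤ r) ∧
  ∀ i j k, i < n → j < n → k < n → i ≠ j → i ≠ k → j ≠ k → min (c i k) (c j k) ≤ c i j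

/-- Valid genealogy of `n` replicas. -/
def ValidAtt (r n : ℕ) (att : ℕ → ℕ × ℕ) : Prop := ∀ l, 1 ≤ l → l < n → att l ∈ nodes r l att

/-- Coalescence matrix of a genealogy: number of common levels. -/
def coalA (r : ℕ) (att : ℕ → ℕ × ℕ) (l l' : ℕ) : ℕ :=
  ((Finset.Icc 1 r).filter (fun j => owner att l j = owner att l' j)).card

/-- The genealogy of the replicas of `x`. -/
noncomputable def gen {r : ℕ} (q : Fin r → ℝ) (x : Obs) : ℕ → ℕ × ℕ := genOf (coal q x)

/-- The exponents `x_j = P(R_01 < q_j)`. -/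
noncomputable def levP (P : Measure Obs) {r : ℕ} (q : Fin r → ℝ) : Fin r → ℝ :=
  fun j => P.real {y | Rov y 0 1 < q j}

/-- `f` depends only on `att 1, …, att (n-1)`. -/
def DepAtt (n : ℕ) (f : (ℕ → ℕ × ℕ) → ℝ) : Prop :=
  ∀ att att' : ℕ → ℕ × ℕ, (∀ l, 1 ≤ l → l < n → att l = att' l) → f att = f att'

/-- Expectation over `k` further replicas, started from the genealogy `att` of `n` replicas. -/
noncomputable def genEfrom (x : ℕ → ℝ) (r : ℕ) : (n k : ℕ) → (ℕ → ℕ × ℕ) →
    ((ℕ → ℕ × ℕ) → ℝ) → ℝ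
  | _, 0, att, f => f att
  | n, k + 1, att, f => (∑ a ∈ Finset.range n, ∑ j ∈ Finset.range (r + 1),
      (x (j + 1) - x j) * genEfrom x r (n + 1) k (attach att n a j) f) / n

/-- Level-`j` class of replica `a` among the replicas `< n`. -/
def cls (c : ℕ → ℕ → ℕ) (n j a : ℕ) : Finset ℕ :=
  (Finset.range n).filter (fun l => l = a ∨ j ≤ c a l)

/-- The pattern event: the coalescence matrix of the replicas `ls` is `c`. -/
def patSet {r : ℕ} (q : Fin r → ℝ) {n : ℕ} (ls : Fin n → ℕ) (c : Fin n → Fin n → ℕ) : Set Obs :=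
  {x | ∀ i j, i ≠ j → coal q x (ls i) (ls j) = c i j}

/-- `L¹` distance of two functions on `Fin n → Bool`. -/
noncomputable def l1 {n : ℕ} (f g : (Fin n → Bool) → ℝ) : ℝ := ∑ c, |f c - g c|

end Crest.Agent.MP
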