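import Crest.Agent.MP.TFunB

/-!
# T-FUN-A: the trial's `D`, `mom_close` (§9)

`mom_close`: by `integral_gen`, `genE n (Σ_c Π t.D(c_ℓ) f(c)) = ∫ Σ_c Π t.D n (gen x) (c_ℓ) f(c)`, and
`|Σ_c (Π_ℓ D(c_ℓ) - Π_ℓ D'(c_ℓ)) f(c)| ≤ |f|_∞ Σ_ℓ l1 D D'` for probability vectors.
-/

set_option autoImplicit false

namespace Crest.Agent.MP

open MeasureTheory Filter Topology
open Crest.ProbabilityR.Diluted

/-- The trial's `D` is a probability vector, depends only on `att l`, `1 ≤ l < n`. -/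
theorem FinTrial.D_nonneg (t : FinTrial) (n : ℕ) (att : ℕ → ℕ × ℕ) (c : Fin n → Bool) :
    0 ≤ t.D n att c := D_nonneg_aux t n att c

theorem FinTrial.D_sum (t : FinTrial) (n : ℕ) (att : ℕ → ℕ × ℕ) : ∑ c, t.D n att c = 1 :=
  D_sum_aux t n att

theorem owner_dep {n : ℕ} {att att' : ℕ → ℕ × ℕ} (h : ∀ l, 1 ≤ l → l < n → att l = att' l)
    (l j : ℕ) (hl : l < n) : owner att l j = owner att' l j := by
  induction l using Nat.strong_induction_on with
  | _ l ih =>
    conv_lhs => rw [owner]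
    conv_rhs => rw [owner]
    rcases Nat.eq_zero_or_pos l with rfl | hpos
    · simp
    · rw [h l hpos hl]
      split_ifs with hc
      · exact ih _ hc.1 (hc.1.trans hl)
      · rfl

theorem FinTrial.D_dep (t : FinTrial) (n : ℕ) (c : Fin n → Bool) :
    DepAtt n (fun att => t.D n att c) := by
  intro att att' h
  simp only [FinTrial.D]
  congr 1
  refine Finset.sum_congr rfl fun U _ => Finset.prod_congr rfl fun l _ => ?_
  congr 2
  funext j
  congr 2
  rw [owner_dep h l j l.2]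

theorem prod_sub_prod_le {L : Type} [Fintype L] [DecidableEq L] {n : ℕ}
    (D D' : (Fin n → Bool) → ℝ) (h0 : ∀ c, 0 ≤ D c) (h1 : ∑ c, D c = 1)
    (h0' : ∀ c, 0 ≤ D' c) (h1' : ∑ c, D' c = 1) (S : Finset L) :
    ∑ c : L → Fin n → Bool, |∏ ℓ, (if ℓ ∈ S then D (c ℓ) else D' (c ℓ)) - ∏ ℓ, D' (c ℓ)| ≤
      S.card * l1 D D' := by
  induction S using Finset.induction_on with
  | empty => simp
  | insert a S ha ih =>
    have key : ∑ c : L → Fin n → Bool, |∏ ℓ, (if ℓ ∈ insert a S then D (c ℓ) else D' (c ℓ)) -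
        ∏ ℓ, (if ℓ ∈ S then D (c ℓ) else D' (c ℓ))| ≤ l1 D D' := by
      have e : ∀ c : L → Fin n → Bool, |∏ ℓ, (if ℓ ∈ insert a S then D (c ℓ) else D' (c ℓ)) -
        ∏ ℓ, (if ℓ ∈ S then D (c ℓ) else D' (c ℓ))| =
        ∏ ℓ, (if ℓ = a then |D (c ℓ) - D' (c ℓ)| else
          if ℓ ∈ S then D (c ℓ) else D' (c ℓ)) := by
        intro c
        rw [← Finset.mul_prod_erase Finset.univ _ (Finset.mem_univ a),
          ← Finset.mul_prod_erase Finset.univ (fun ℓ => if ℓ ∈ S then D (c ℓ) else D' (c ℓ))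
            (Finset.mem_univ a),
          ← Finset.mul_prod_erase Finset.univ (fun ℓ => if ℓ = a then |D (c ℓ) - D' (c ℓ)| else
          if ℓ ∈ S then D (c ℓ) else D' (c ℓ)) (Finset.mem_univ a)]
        have e1 : ∏ ℓ ∈ Finset.univ.erase a, (if ℓ ∈ insert a S then D (c ℓ) else D' (c ℓ)) =
            ∏ ℓ ∈ Finset.univ.erase a, (if ℓ ∈ S then D (c ℓ) else D' (c ℓ)) := by
          refine Finset.prod_congr rfl fun ℓ hℓ => ?_
          have : ℓ ≠ a := Finset.ne_of_mem_erase hℓ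
          simp [this]
        have e2 : ∏ ℓ ∈ Finset.univ.erase a, (if ℓ = a then |D (c ℓ) - D' (c ℓ)| else
          if ℓ ∈ S then D (c ℓ) else D' (c ℓ)) =
            ∏ ℓ ∈ Finset.univ.erase a, (if ℓ ∈ S then D (c ℓ) else D' (c ℓ)) := by
          refine Finset.prod_congr rfl fun ℓ hℓ => ?_
          have : ℓ ≠ a := Finset.ne_of_mem_erase hℓ
          simp [this]
        rw [e1, e2, if_pos (Finset.mem_insert_self _ _), if_neg ha, if_pos rfl, ← sub_mul, abs_mul]
        congr 1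
        apply abs_of_nonneg
        exact Finset.prod_nonneg fun ℓ _ => by split_ifs; exacts [h0 _, h0' _]
      rw [Finset.sum_congr rfl fun c _ => e c]
      have := Finset.prod_univ_sum (fun _ : L => (Finset.univ : Finset (Fin n → Bool)))
        (fun ℓ (d : Fin n → Bool) => (if ℓ = a then |D d - D' d| else if ℓ ∈ S then D d else D' d))
      rw [Fintype.piFinset_univ] at this
      rw [← this, ← Finset.mul_prod_erase Finset.univ _ (Finset.mem_univ a)]
      have e3 : ∏ ℓ ∈ Finset.univ.erase a, (∑ d : Fin n → Bool,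
          (if ℓ = a then |D d - D' d| else if ℓ ∈ S then D d else D' d)) = 1 := by
        apply Finset.prod_eq_one
        intro ℓ hℓ
        have : ℓ ≠ a := Finset.ne_of_mem_erase hℓ
        simp only [this, if_false]
        split_ifs
        · exact h1
        · exact h1'
      rw [e3, mul_one]
      simp [l1]
    calc ∑ c : L → Fin n → Bool, |∏ ℓ, (if ℓ ∈ insert a S then D (c ℓ) else D' (c ℓ)) - ∏ ℓ, D' (c ℓ)|
        ≤ ∑ c : L → Fin n → Bool, (|∏ ℓ, (if ℓ ∈ insert a S then D (c ℓ) else D' (c ℓ)) -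
        ∏ ℓ, (if ℓ ∈ S then D (c ℓ) else D' (c ℓ))| +
          |∏ ℓ, (if ℓ ∈ S then D (c ℓ) else D' (c ℓ)) - ∏ ℓ, D' (c ℓ)|) :=
          Finset.sum_le_sum fun c _ => abs_sub_le _ _ _
      _ ≤ l1 D D' + S.card * l1 D D' := by
          rw [Finset.sum_add_distrib]
          exact add_le_add key ih
      _ = (insert a S).card * l1 D D' := by
          rw [Finset.card_insert_of_notMem ha]
          push_cast
          ring

theorem integrand_close {L : Type} [Fintype L] [DecidableEq L] {n : ℕ}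
    (D D' : (Fin n → Bool) → ℝ) (h0 : ∀ c, 0 ≤ D c) (h1 : ∑ c, D c = 1)
    (h0' : ∀ c, 0 ≤ D' c) (h1' : ∑ c, D' c = 1) (f : (L → Fin n → Bool) → ℝ) (B : ℝ)
    (hf : ∀ c, |f c| ≤ B) :
    |∑ c : L → Fin n → Bool, (∏ ℓ, D (c ℓ)) * f c - ∑ c : L → Fin n → Bool, (∏ ℓ, D' (c ℓ)) * f c| ≤
      B * Fintype.card L * l1 D D' := by
  have hB : 0 ≤ B := (abs_nonneg _).trans (hf (fun _ _ => true))
  rw [← Finset.sum_sub_distrib]
  calc |∑ c : L → Fin n → Bool, ((∏ ℓ, D (c ℓ)) * f c - (∏ ℓ, D' (c ℓ)) * f c)|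
      ≤ ∑ c : L → Fin n → Bool, |∏ ℓ, D (c ℓ) - ∏ ℓ, D' (c ℓ)| * B := by
        refine (Finset.abs_sum_le_sum_abs _ _).trans (Finset.sum_le_sum fun c _ => ?_)
        rw [← sub_mul, abs_mul]
        exact mul_le_mul_of_nonneg_left (hf c) (abs_nonneg _)
    _ ≤ (Fintype.card L * l1 D D') * B := by
        rw [← Finset.sum_mul]
        apply mul_le_mul_of_nonneg_right _ hB
        have := prod_sub_prod_le D D' h0 h1 h0' h1' (Finset.univ : Finset L)
        simpa using this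
    _ = B * Fintype.card L * l1 D D' := by ring

theorem measurable_Dn (n : ℕ) (c : Fin n → Bool) : Measurable (fun x => Dn n x c) := by
  unfold Dn Dplain Dl
  fun_prop

theorem mom_close {P : Measure Obs} (hP : LimitModel P) {r : ℕ} (q : Fin r → ℝ)
    (hq : AdmissibleExponents (levP P q)) (t : FinTrial) (h : t.r = r)
    (ht : t.m = fun j => levP P q (Fin.cast h j)) (n : ℕ) (L : Type) [Fintype L] [DecidableEq L]
    (f : (L → Fin n → Bool) → ℝ) (B : ℝ) (hf : ∀ c, |f c| ≤ B) :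
    |mom (genE (lev t.m) t.r) t.D n L f - mom (fun _ g => ∫ x, g x ∂P) Dn n L f| ≤
      B * Fintype.card L * ∫ x, l1 (Dn n x) (t.D n (gen q x)) ∂P := by
  have := hP.prob
  obtain ⟨tr, tK, thK, tm, tadm, tX⟩ := t
  simp only at h ht ⊢
  subst h
  set t : FinTrial := ⟨tr, tK, thK, tm, tadm, tX⟩ with ht0
  have htm : tm = levP P q := by rw [ht]; rfl
  have hB : 0 ≤ B := (abs_nonneg _).trans (hf (fun _ _ => true))
  -- the trial's functional as an integral
  have hD1 : ∀ att (c : Fin n → Bool), |t.D n att c| ≤ 1 := by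
    intro att c
    rw [abs_of_nonneg (t.D_nonneg n att c), ← t.D_sum n att]
    exact Finset.single_le_sum (fun c _ => t.D_nonneg n att c) (Finset.mem_univ c)
  have hF1 : ∀ att, |∑ c : L → Fin n → Bool, (∏ ℓ, t.D n att (c ℓ)) * f c| ≤ B := by
    intro att
    calc |∑ c : L → Fin n → Bool, (∏ ℓ, t.D n att (c ℓ)) * f c|
        ≤ ∑ c : L → Fin n → Bool, (∏ ℓ, t.D n att (c ℓ)) * B := by
          refine (Finset.abs_sum_le_sum_abs _ _).trans (Finset.sum_le_sum fun c _ => ?_)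
          rw [abs_mul, abs_of_nonneg (Finset.prod_nonneg fun ℓ _ => t.D_nonneg n att (c ℓ))]
          exact mul_le_mul_of_nonneg_left (hf c) (Finset.prod_nonneg fun ℓ _ => t.D_nonneg n att (c ℓ))
      _ = B := by rw [← Finset.sum_mul, sum_prod_D _ (t.D_sum n att), one_mul]
  have e1 : mom (genE (lev tm) tr) t.D n L f =
      ∫ x, ∑ c : L → Fin n → Bool, (∏ ℓ, t.D n (gen q x) (c ℓ)) * f c ∂P := by
    unfold mom
    rw [htm]
    symm
    apply integral_gen hP q hq n (fun ω => ∑ c : L → Fin n → Bool, (∏ ℓ, t.D n ω (c ℓ)) * f c)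
    · intro att att' hatt
      simp only
      refine Finset.sum_congr rfl fun c _ => ?_
      congr 1
      exact Finset.prod_congr rfl fun ℓ _ => t.D_dep n (c ℓ) att att' hatt
    · exact ⟨B, hF1⟩
  have hmeas : ∀ c : Fin n → Bool, Measurable (fun x => t.D n (gen q x) c) := by
    intro c
    have := measurable_gen q (n := n) (fun att => t.D n att c) (t.D_dep n c)
    exact this.mono (Gσ_le n) le_rfl
  rw [e1]
  unfold mom
  have hm1 : Measurable (fun x => ∑ c : L → Fin n → Bool, (∏ ℓ, t.D n (gen q x) (c ℓ)) * f c) :=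
    Finset.measurable_sum _ fun c _ => (Finset.measurable_prod _ fun ℓ _ => hmeas (c ℓ)).mul_const _
  have hm2 : Measurable (fun x => ∑ c : L → Fin n → Bool, (∏ ℓ, Dn n x (c ℓ)) * f c) :=
    Finset.measurable_sum _ fun c _ =>
      (Finset.measurable_prod _ fun ℓ _ => measurable_Dn n (c ℓ)).mul_const _
  have hm3 : Measurable (fun x => l1 (Dn n x) (t.D n (gen q x))) := by
    unfold l1
    exact Finset.measurable_sum _ fun c _ => ((measurable_Dn n c).sub (hmeas c)).abs
  have hae : ∀ᵐ x ∂P, |∑ c : L → Fin n → Bool, (∏ ℓ, t.D n (gen q x) (c ℓ)) * f c -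
      ∑ c : L → Fin n → Bool, (∏ ℓ, Dn n x (c ℓ)) * f c| ≤
      B * Fintype.card L * l1 (Dn n x) (t.D n (gen q x)) := by
    filter_upwards [Dn_sum hP] with x hx
    have := integrand_close (L := L) (Dn n x) (t.D n (gen q x)) (Dn_nonneg' n x) (hx n)
      (t.D_nonneg n _) (t.D_sum n _) f B hf
    rw [abs_sub_comm]
    exact this
  have hDn1 : ∀ x (c : Fin n → Bool), |Dn n x c| ≤ 1 := by
    intro x c
    rw [abs_of_nonneg (Dn_nonneg' n x c)]
    unfold Dn Dplain Dl
    exact (x _).2.2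
  have hi1 : Integrable (fun x => ∑ c : L → Fin n → Bool, (∏ ℓ, t.D n (gen q x) (c ℓ)) * f c) P :=
    Integrable.of_bound hm1.aestronglyMeasurable B (ae_of_all _ fun x => hF1 _)
  have hi2 : Integrable (fun x => ∑ c : L → Fin n → Bool, (∏ ℓ, Dn n x (c ℓ)) * f c) P := by
    apply Integrable.of_bound hm2.aestronglyMeasurable B
    filter_upwards [Dn_sum hP] with x hx
    rw [Real.norm_eq_abs]
    calc |∑ c : L → Fin n → Bool, (∏ ℓ, Dn n x (c ℓ)) * f c|
        ≤ ∑ c : L → Fin n → Bool, (∏ ℓ, Dn n x (c ℓ)) * B := by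
          refine (Finset.abs_sum_le_sum_abs _ _).trans (Finset.sum_le_sum fun c _ => ?_)
          rw [abs_mul, abs_of_nonneg (Finset.prod_nonneg fun ℓ _ => Dn_nonneg' n x (c ℓ))]
          exact mul_le_mul_of_nonneg_left (hf c) (Finset.prod_nonneg fun ℓ _ => Dn_nonneg' n x (c ℓ))
      _ = B := by rw [← Finset.sum_mul, sum_prod_D _ (hx n), one_mul]
  have hi3 : Integrable (fun x => l1 (Dn n x) (t.D n (gen q x))) P := by
    apply Integrable.of_bound hm3.aestronglyMeasurable (∑ _c : Fin n → Bool, (2 : ℝ))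
    apply ae_of_all
    intro x
    rw [Real.norm_eq_abs]
    unfold l1
    refine (Finset.abs_sum_le_sum_abs _ _).trans (Finset.sum_le_sum fun c _ => ?_)
    rw [abs_abs]
    refine (abs_sub _ _).trans ?_
    linarith [hDn1 x c, hD1 (gen q x) c]
  rw [← integral_sub hi1 hi2]
  calc |∫ x, (∑ c : L → Fin n → Bool, (∏ ℓ, t.D n (gen q x) (c ℓ)) * f c -
      ∑ c : L → Fin n → Bool, (∏ ℓ, Dn n x (c ℓ)) * f c) ∂P|
      ≤ ∫ x, |∑ c : L → Fin n → Bool, (∏ ℓ, t.D n (gen q x) (c ℓ)) * f c -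
      ∑ c : L → Fin n → Bool, (∏ ℓ, Dn n x (c ℓ)) * f c| ∂P := abs_integral_le_integral_abs
    _ ≤ ∫ x, B * Fintype.card L * l1 (Dn n x) (t.D n (gen q x)) ∂P :=
        integral_mono_ae (hi1.sub hi2).abs (hi3.const_mul _) hae
    _ = B * Fintype.card L * ∫ x, l1 (Dn n x) (t.D n (gen q x)) ∂P := integral_const_mul _ _

end Crest.Agent.MP
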