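import Crest.Agent.MP.TPred

/-!
# T-PAT: patterns (§10)

* positivity: `P(pattern c) > 0` for ultrametric `c` (`ci_rule` with `n = 1`, `Φ = 1`,
  `f = 1(att l = genOf c l for 1 ≤ l < n)`, `coalA_genOf`; each step has probability
  `≥ (x_{j+1} - x_j)/n > 0`: choose `a = v.1`, `j = v.2`, `attach_node`, `genOf_valid`).
* `pat_cond` (`n ≥ 1`; `n = 0`: `D_0 = 1`): conditionally on the pattern of `m` replicas, the law of `D(ls)` depends only on the
  pattern of the replicas `ls`.  Proof: `ls : Fin n → Fin m` injective; take a permutation `π` of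
  `Fin m` with `π ∘ ls = (0,…,n-1)`; by exchangeability replace `x` by the array with permuted
  replicas: the event becomes `patSet q id (c ∘ π⁻¹)` and `Dplain ls` becomes `Dn n`.  Now
  `patSet q id (c∘π⁻¹) = {gen = genOf c' on [1,m)}` (`c' = c ∘ π⁻¹`) a.s. and `ci_rule` gives
  `∫ 1[gen=genOf c' on [1,m)] Ψ = ρ ∫ 1[gen = genOf c' on [1,n)] Ψ` for `Ψ ∈ Gσ n`, with the number
  `ρ = genEfrom … (1[att = genOf c' on [n,m)])` not depending on `Ψ`; apply it also with `Ψ = 1`.
-/

set_option autoImplicit false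

namespace Crest.Agent.MP

open MeasureTheory Filter Topology
open Crest.ProbabilityR.Diluted

/-- Ultrametric pattern on `Fin n`. -/
def UltraPat (r : ℕ) {n : ℕ} (c : Fin n → Fin n → ℕ) : Prop :=
  (∀ i j, c i j = c j i) ∧ (∀ i j, c i j ≤ r) ∧
  ∀ i j k, i ≠ j → i ≠ k → j ≠ k → min (c i k) (c j k) ≤ c i j

namespace TPat

/-! ### Permuting the replicas -/

/-- Permute the replicas. -/
def permRep (σ : Equiv.Perm ℕ) (x : Obs) : Obs :=
  fun i => x ⟨i.1, i.2.1, (fun j => σ (i.2.2.1 j)), i.2.2.2⟩

theorem permRep_swap_mul (a b : ℕ) (σ : Equiv.Perm ℕ) :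
    permRep (Equiv.swap a b * σ) = permRep σ ∘ swapRep a b := rfl

theorem Dl_permRep (s : Species) {n : ℕ} (ls : Fin n → ℕ) (σ : Equiv.Perm ℕ) (x : Obs)
    (c : Fin n → s.Cfg) : Dl s ls (permRep σ x) c = Dl s (fun j => σ (ls j)) x c := rfl

theorem Rov_permRep (σ : Equiv.Perm ℕ) (x : Obs) (l l' : ℕ) :
    Rov (permRep σ x) l l' = Rov x (σ l) (σ l') := by
  unfold Rov agrL
  have h : (fun j : Fin 2 => σ (![l, l'] j)) = ![σ l, σ l'] := by
    funext j
    fin_cases j <;> rfl
  refine tsum_congr fun s => ?_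
  congr 2
  refine Finset.sum_congr rfl fun c _ => ?_
  rw [Dl_permRep, h]

theorem coal_permRep {r : ℕ} (q : Fin r → ℝ) (σ : Equiv.Perm ℕ) (x : Obs) (l l' : ℕ) :
    coal q (permRep σ x) l l' = coal q x (σ l) (σ l') := by
  unfold coal
  simp only [Rov_permRep]

theorem Dplain_permRep {n : ℕ} (ls : Fin n → ℕ) (σ : Equiv.Perm ℕ) (x : Obs) :
    Dplain ls (permRep σ x) = Dplain (fun j => σ (ls j)) x := rfl

/-- A permutation moving `ls` to the front, under which `P` is invariant. -/
theorem exists_perm {P : Measure Obs} (hP : LimitModel P) {m : ℕ} : ∀ {n : ℕ} (ls : Fin n → Fin m),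
    Function.Injective ls → ∃ σ : Equiv.Perm ℕ, MeasurePreserving (permRep σ) P P ∧
      (∀ l, σ l < m ↔ l < m) ∧ ∀ j : Fin n, σ ((ls j : Fin m) : ℕ) = (j : ℕ) := by
  intro n
  induction n with
  | zero =>
    intro ls _
    refine ⟨1, ?_, fun l => Iff.rfl, fun j => j.elim0⟩
    have : permRep 1 = id := rfl
    rw [this]
    exact MeasurePreserving.id P
  | succ n ih =>
    intro ls hls
    obtain ⟨σ, h1, h2, h3⟩ := ih (fun j => ls j.castSucc)
      (fun i j h => Fin.castSucc_injective n (hls h))
    have hnm : n < m := by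
      have := Fintype.card_le_of_injective ls hls
      simpa using this
    set a := σ ((ls (Fin.last n) : Fin m) : ℕ) with ha
    have ham : a < m := (h2 _).2 (ls (Fin.last n)).2
    refine ⟨Equiv.swap a n * σ, ?_, fun l => ?_, fun j => ?_⟩
    · rw [permRep_swap_mul]
      exact h1.comp (hP.exch a n)
    · rw [Equiv.Perm.mul_apply]
      rw [← h2 l]
      rcases eq_or_ne (σ l) a with h | h
      · rw [h, Equiv.swap_apply_left]; omega
      rcases eq_or_ne (σ l) n with h' | h'
      · rw [h', Equiv.swap_apply_right]; omega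
      rw [Equiv.swap_apply_of_ne_of_ne h h']
    · rw [Equiv.Perm.mul_apply]
      refine Fin.lastCases ?_ (fun j => ?_) j
      · rw [← ha, Equiv.swap_apply_left]; simp
      · have h4 : σ ((ls j.castSucc : Fin m) : ℕ) = (j : ℕ) := h3 j
        rw [h4, Equiv.swap_apply_of_ne_of_ne]
        · simp
        · intro h5
          rw [ha, ← h4] at h5
          have h6 := hls (Fin.ext (σ.injective h5))
          exact absurd h6 (Fin.castSucc_lt_last j).ne
        · exact j.2.ne

/-! ### Patterns indexed by `ℕ` -/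

/-- pattern event for a matrix indexed by `ℕ` -/
def patN {r : ℕ} (q : Fin r → ℝ) (n : ℕ) (c : ℕ → ℕ → ℕ) : Set Obs :=
  {x | ∀ i j, i < n → j < n → i ≠ j → coal q x i j = c i j}

/-- extension of a pattern to `ℕ` -/
def extP {m : ℕ} (c : Fin m → Fin m → ℕ) (i j : ℕ) : ℕ :=
  if h : i < m ∧ j < m then c ⟨i, h.1⟩ ⟨j, h.2⟩ else 0

theorem extP_apply {m : ℕ} (c : Fin m → Fin m → ℕ) {i j : ℕ} (hi : i < m) (hj : j < m) :
    extP c i j = c ⟨i, hi⟩ ⟨j, hj⟩ := dif_pos ⟨hi, hj⟩

theorem patSet_eq_patN {r : ℕ} (q : Fin r → ℝ) {m : ℕ} (c : Fin m → Fin m → ℕ) :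
    patSet q (rg m) c = patN q m (extP c) := by
  ext x
  constructor
  · intro h i j hi hj hij
    rw [extP_apply c hi hj]
    exact h ⟨i, hi⟩ ⟨j, hj⟩ (by simpa [Fin.ext_iff] using hij)
  · intro h i j hij
    have := h i j i.2 j.2 (by simpa [Fin.ext_iff] using hij)
    rw [extP_apply c i.2 j.2] at this
    exact this

theorem ultraOn_extP {r m : ℕ} {c : Fin m → Fin m → ℕ} (hc : UltraPat r c) :
    UltraOn r m (extP c) := by
  refine ⟨fun i j hi hj => ?_, fun i j hi hj => ?_, fun i j k hi hj hk h1 h2 h3 => ?_⟩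
  · rw [extP_apply c hi hj, extP_apply c hj hi]; exact hc.1 _ _
  · rw [extP_apply c hi hj]; exact hc.2.1 _ _
  · rw [extP_apply c hi hj, extP_apply c hi hk, extP_apply c hj hk]
    exact hc.2.2 _ _ _ (by simpa [Fin.ext_iff] using h1) (by simpa [Fin.ext_iff] using h2)
      (by simpa [Fin.ext_iff] using h3)

theorem UltraOn.mono' {r m n : ℕ} {c : ℕ → ℕ → ℕ} (h : UltraOn r m c) (hnm : n ≤ m) :
    UltraOn r n c :=
  ⟨fun i j hi hj => h.1 i j (by omega) (by omega), fun i j hi hj => h.2.1 i j (by omega) (by omega),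
    fun i j k hi hj hk => h.2.2 i j k (by omega) (by omega) (by omega)⟩

theorem measurable_coal {r : ℕ} (q : Fin r → ℝ) {m l l' : ℕ} (hl : l < m) (hl' : l' < m) :
    Measurable[Gσ m] (fun x => coal q x l l') := by
  have h1 : (fun x => coal q x l l') =
      fun x => ∑ j : Fin r, if q j ≤ Rov x l l' then 1 else 0 := by
    funext x
    unfold coal
    rw [Finset.card_filter]
  rw [h1]
  refine Finset.measurable_sum (m := Gσ m) _ fun j _ => ?_
  refine Measurable.ite ?_ measurable_const measurable_const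
  have h2 : MeasurableSet[Gσ m] ((fun x => Rov x l l') ⁻¹' Set.Ici (q j)) :=
    Gσ_Rov hl hl' measurableSet_Ici
  exact h2

theorem measurableSet_patN {r : ℕ} (q : Fin r → ℝ) (n : ℕ) (c : ℕ → ℕ → ℕ) :
    MeasurableSet[Gσ n] (patN q n c) := by
  have h1 : patN q n c = ⋂ i : Fin n, ⋂ j : Fin n, ⋂ _ : (i : ℕ) ≠ j,
      {x | coal q x i j = c i j} := by
    ext x
    simp only [patN, Set.mem_ofPred_eq, Set.mem_iInter]
    exact ⟨fun h i j hij => h i j i.2 j.2 hij, fun h i j hi hj hij => h ⟨i, hi⟩ ⟨j, hj⟩ hij⟩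
  rw [h1]
  refine MeasurableSet.iInter fun i => MeasurableSet.iInter fun j => MeasurableSet.iInter fun _ => ?_
  exact measurable_coal q i.2 j.2 (measurableSet_singleton _)

/-- On ultrametric matrices the pattern event is the event that the genealogy is prescribed. -/
theorem mem_patN_iff {r n : ℕ} {q : Fin r → ℝ} {c : ℕ → ℕ → ℕ} {x : Obs}
    (hx : UltraOn r n (coal q x)) (hc : UltraOn r n c) :
    x ∈ patN q n c ↔ ∀ l, 1 ≤ l → l < n → gen q x l = genOf c l := by
  constructor
  · intro h l _ hl
    exact genOf_congr h hl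
  · intro h i j hi hj hij
    have h1 := coalA_genOf hx hi hj hij
    have h2 := coalA_genOf hc hi hj hij
    rw [← h1, ← h2]
    exact coalA_congr h hi hj rfl

/-! ### The expectation over further replicas -/

theorem owner_congr {n : ℕ} {att att' : ℕ → ℕ × ℕ} (h : ∀ l < n, att l = att' l) (j : ℕ) :
    ∀ l < n, owner att l j = owner att' l j := by
  intro l
  induction l using Nat.strong_induction_on with
  | _ l ih =>
    intro hl
    have e1 : owner att l j = if (att l).1 < l ∧ j ≤ (att l).2 then owner att (att l).1 j else l := by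
      rw [owner]; rfl
    have e2 : owner att' l j =
        if (att' l).1 < l ∧ j ≤ (att' l).2 then owner att' (att' l).1 j else l := by
      rw [owner]; rfl
    rw [e1, e2, ← h l hl]
    split_ifs with h1
    · exact ih _ h1.1 (by omega)
    · rfl

theorem attach_congr {n : ℕ} {att att' : ℕ → ℕ × ℕ} (h : ∀ l < n, att l = att' l) {a : ℕ}
    (ha : a < n) (j : ℕ) : ∀ l < n + 1, attach att n a j l = attach att' n a j l := by
  intro l hl
  unfold attach
  rcases eq_or_ne l n with rfl | hln
  · simp only [Function.update_self]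
    rw [h a ha, owner_congr h _ a ha]
  · rw [Function.update_of_ne hln, Function.update_of_ne hln]
    exact h l (by omega)

theorem genEfrom_congr (x : ℕ → ℝ) (r : ℕ) (k : ℕ) : ∀ (n : ℕ), 1 ≤ n → ∀ (att att' : ℕ → ℕ × ℕ),
    (∀ l < n, att l = att' l) → ∀ f : (ℕ → ℕ × ℕ) → ℝ, DepAtt (n + k) f →
    genEfrom x r n k att f = genEfrom x r n k att' f := by
  induction k with
  | zero =>
    intro n _ att att' h f hf
    exact hf _ _ fun l _ hl => h l (by omega)
  | succ k ih =>
    intro n hn att att' h f hf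
    rw [genEfrom, genEfrom]
    congr 1
    refine Finset.sum_congr rfl fun a ha => Finset.sum_congr rfl fun j _ => ?_
    rw [ih (n + 1) (by omega) _ _ (attach_congr h (Finset.mem_range.1 ha) j) f
      (by rwa [Nat.add_right_comm])]

theorem genEfrom_nonneg {x : ℕ → ℝ} {r : ℕ} (hx : ∀ j ≤ r, 0 < x (j + 1) - x j) (k : ℕ) :
    ∀ (n : ℕ) (att : ℕ → ℕ × ℕ) (f : (ℕ → ℕ × ℕ) → ℝ), (∀ a, 0 ≤ f a) →
      0 ≤ genEfrom x r n k att f := by
  induction k with
  | zero => intro n att f hf; exact hf _
  | succ k ih =>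
    intro n att f hf
    rw [genEfrom]
    refine div_nonneg (Finset.sum_nonneg fun a _ => Finset.sum_nonneg fun j hj => ?_)
      (Nat.cast_nonneg _)
    exact mul_nonneg (hx j (by simpa [Nat.lt_succ_iff] using hj)).le (ih _ _ _ hf)

theorem genEfrom_pos {x : ℕ → ℝ} {r : ℕ} (hx : ∀ j ≤ r, 0 < x (j + 1) - x j) (g : ℕ → ℕ × ℕ)
    (hg0 : g 0 = (0, 0)) (f : (ℕ → ℕ × ℕ) → ℝ) (hf : ∀ a, 0 ≤ f a) (hfg : 0 < f g) (k : ℕ) :
    ∀ n : ℕ, 1 ≤ n → ValidAtt r (n + k) g → 0 < genEfrom x r n k g f := by
  induction k with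
  | zero => intro n _ _; exact hfg
  | succ k ih =>
    intro n hn hv
    rw [genEfrom]
    have hn' : (0 : ℝ) < n := by exact_mod_cast hn
    refine div_pos ?_ hn'
    have hmem : g n ∈ nodes r n g := hv n hn (by omega)
    have h1 : (g n).1 ∈ Finset.range n := by
      simp only [nodes, Finset.mem_filter, Finset.mem_product] at hmem
      exact hmem.1.1
    have h2 : (g n).2 ∈ Finset.range (r + 1) := by
      simp only [nodes, Finset.mem_filter, Finset.mem_product] at hmem
      exact hmem.1.2
    have h3 : attach g n (g n).1 (g n).2 = g := by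
      rw [attach_node hmem hg0]
      exact Function.update_eq_self n g
    have hnn : ∀ a j, j ∈ Finset.range (r + 1) →
        0 ≤ (x (j + 1) - x j) * genEfrom x r (n + 1) k (attach g n a j) f := fun a j hj =>
      mul_nonneg (hx j (by simpa [Nat.lt_succ_iff] using hj)).le (genEfrom_nonneg hx _ _ _ _ hf)
    refine lt_of_lt_of_le ?_ (Finset.single_le_sum (fun a _ =>
      Finset.sum_nonneg fun j hj => hnn a j hj) h1)
    refine lt_of_lt_of_le ?_ (Finset.single_le_sum (fun j hj => hnn (g n).1 j hj) h2)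
    rw [h3]
    refine mul_pos (hx _ (by simpa [Nat.lt_succ_iff] using h2)) (ih (n + 1) (by omega) ?_)
    rwa [Nat.add_right_comm]

theorem lev_pos {r : ℕ} {m : Fin r → ℝ} (h : AdmissibleExponents m) :
    ∀ j ≤ r, 0 < lev m (j + 1) - lev m j := by
  intro j hj
  unfold lev
  rw [if_neg (by omega)]
  simp only [Nat.add_sub_cancel]
  rcases Nat.eq_zero_or_pos j with rfl | hj0
  · rw [if_pos rfl]
    split_ifs with h1
    · linarith [(h.2 ⟨0, h1⟩).1]
    · norm_num
  · rw [if_neg (by omega)]
    have h2 : j - 1 < r := by omega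
    rw [dif_pos h2]
    split_ifs with h1
    · have : m ⟨j - 1, h2⟩ < m ⟨j, h1⟩ := h.1 (by simp [Fin.lt_def]; omega)
      linarith
    · linarith [(h.2 ⟨j - 1, h2⟩).2]

/-! ### The main identity -/

open Classical in
theorem patN_rule {P : Measure Obs} (hP : LimitModel P) {r : ℕ} (q : Fin r → ℝ)
    (hq : AdmissibleExponents (levP P q)) {n m : ℕ} (hn : 1 ≤ n) (hnm : n ≤ m) {c : ℕ → ℕ → ℕ}
    (hc : UltraOn r m c) :
    ∃ ρ : ℝ, 0 < ρ ∧ ∀ Ψ : Obs → ℝ, Measurable[Gσ n] Ψ → (∃ B, ∀ x, |Ψ x| ≤ B) →
      ∫ x in patN q m c, Ψ x ∂P = ρ * ∫ x in patN q n c, Ψ x ∂P := by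
  obtain ⟨k, rfl⟩ := Nat.exists_eq_add_of_le hnm
  set g := genOf c with hg
  have hg0 : g 0 = (0, 0) := by rw [hg]; unfold genOf; rw [if_pos rfl]
  set f : (ℕ → ℕ × ℕ) → ℝ := fun att => if ∀ l, n ≤ l → l < n + k → att l = g l then 1 else 0
    with hf
  have hfdep : DepAtt (n + k) f := by
    intro att att' h
    simp only [hf]
    refine if_congr ?_ rfl rfl
    refine forall_congr' fun l => forall_congr' fun h1 => forall_congr' fun h2 => ?_
    rw [h l (by omega) h2]
  have hfnn : ∀ a, 0 ≤ f a := by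
    intro a; simp only [hf]; split_ifs <;> norm_num
  have hfb : ∃ B, ∀ a, |f a| ≤ B := ⟨1, fun a => by simp only [hf]; split_ifs <;> norm_num⟩
  have hfg : 0 < f g := by
    have : f g = 1 := if_pos (fun l _ _ => rfl)
    rw [this]
    norm_num
  refine ⟨genEfrom (lev (levP P q)) r n k g f,
    genEfrom_pos (lev_pos hq) g hg0 f hfnn hfg k n hn (genOf_valid hc), fun Ψ hΨ hΨb => ?_⟩
  have hSn : MeasurableSet[Gσ n] (patN q n c) := measurableSet_patN q n c
  have hSn' : MeasurableSet (patN q n c) := Gσ_le n _ hSn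
  have hSm' : MeasurableSet (patN q (n + k) c) := Gσ_le _ _ (measurableSet_patN q _ c)
  have hΦ : Measurable[Gσ n] ((patN q n c).indicator Ψ) := hΨ.indicator hSn
  have hΦb : ∃ B, ∀ x, |(patN q n c).indicator Ψ x| ≤ B := by
    obtain ⟨B, hB⟩ := hΨb
    refine ⟨B, fun x => ?_⟩
    by_cases hx : x ∈ patN q n c
    · rw [Set.indicator_of_mem hx]; exact hB x
    · rw [Set.indicator_of_notMem hx, abs_zero]
      exact (abs_nonneg _).trans (hB x)
  have h := ci_rule hP q hq hn k _ hΦ hΦb f hfdep hfb
  rw [← integral_indicator hSm', ← integral_indicator hSn', ← integral_const_mul]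
  have e1 : ∫ x, (patN q (n + k) c).indicator Ψ x ∂P =
      ∫ x, (patN q n c).indicator Ψ x * f (gen q x) ∂P := by
    refine integral_congr_ae ?_
    filter_upwards [ultraOn_coal hP q (strictMono_of_adm hP q hq)] with x hx
    have i1 := mem_patN_iff (hx (n + k)) hc
    have i2 := mem_patN_iff (hx n) (UltraOn.mono' hc hnm)
    by_cases hxm : x ∈ patN q (n + k) c
    · have h3 : x ∈ patN q n c := i2.2 fun l h1 h2 => i1.1 hxm l h1 (by omega)
      rw [Set.indicator_of_mem hxm, Set.indicator_of_mem h3]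
      simp only [hf]
      rw [if_pos (fun l h1 h2 => i1.1 hxm l (by omega) h2), mul_one]
    · rw [Set.indicator_of_notMem hxm]
      by_cases h3 : x ∈ patN q n c
      · simp only [hf]
        rw [if_neg, mul_zero]
        intro h4
        refine hxm (i1.2 fun l h1 h2 => ?_)
        rcases Nat.lt_or_ge l n with h5 | h5
        · exact i2.1 h3 l h1 h5
        · exact h4 l h5 h2
      · rw [Set.indicator_of_notMem h3, zero_mul]
  have e2 : ∫ x, (patN q n c).indicator Ψ x * genEfrom (lev (levP P q)) r n k (gen q x) f ∂P =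
      ∫ x, genEfrom (lev (levP P q)) r n k g f * (patN q n c).indicator Ψ x ∂P := by
    refine integral_congr_ae ?_
    filter_upwards [ultraOn_coal hP q (strictMono_of_adm hP q hq)] with x hx
    have i2 := mem_patN_iff (hx n) (UltraOn.mono' hc hnm)
    by_cases h3 : x ∈ patN q n c
    · rw [mul_comm]
      congr 1
      refine genEfrom_congr _ _ k n hn _ _ (fun l hl => ?_) f hfdep
      rcases Nat.eq_zero_or_pos l with rfl | hl0
      · rw [hg0]; unfold gen genOf; rw [if_pos rfl]
      · exact i2.1 h3 l hl0 hl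
    · rw [Set.indicator_of_notMem h3, zero_mul, mul_zero]
  rw [e1, h, e2]

end TPat

open TPat

theorem pat_pos {P : Measure Obs} (hP : LimitModel P) {r : ℕ} (q : Fin r → ℝ)
    (hq : AdmissibleExponents (levP P q)) {n : ℕ} (c : Fin n → Fin n → ℕ) (hc : UltraPat r c) :
    0 < P.real (patSet q (rg n) c) := by
  have hprob := hP.prob
  rw [patSet_eq_patN]
  rcases Nat.eq_zero_or_pos n with rfl | hn
  · have : patN q 0 (extP c) = Set.univ := by
      ext x; simp [patN]
    rw [this]; simp
  · obtain ⟨ρ, hρ, h⟩ := patN_rule hP q hq le_rfl hn (ultraOn_extP hc)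
    have h1 := h (fun _ => 1) measurable_const ⟨1, fun _ => by simp⟩
    have : patN q 1 (extP c) = Set.univ := by
      ext x
      simp only [patN, Set.mem_ofPred_eq, Set.mem_univ, iff_true]
      intro i j hi hj hij
      omega
    rw [this] at h1
    rw [setIntegral_const, setIntegral_const, smul_eq_mul, smul_eq_mul, mul_one, mul_one,
      probReal_univ, mul_one] at h1
    rw [h1]; exact hρ

theorem pat_cond {P : Measure Obs} (hP : LimitModel P) {r : ℕ} (q : Fin r → ℝ)
    (hq : AdmissibleExponents (levP P q)) {n m : ℕ} (ls : Fin n → Fin m)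
    (hls : Function.Injective ls) (c : Fin m → Fin m → ℕ) (hc : UltraPat r c)
    (β : (Fin n → Bool) → ℝ) :
    P.real (patSet q (rg n) (fun i j => c (ls i) (ls j))) *
        ∫ x in patSet q (rg m) c, l1 (Dplain (fun j => ((ls j : Fin m) : ℕ)) x) β ∂P =
      P.real (patSet q (rg m) c) *
        ∫ x in patSet q (rg n) (fun i j => c (ls i) (ls j)), l1 (Dn n x) β ∂P := by
  have hprob := hP.prob
  rcases Nat.eq_zero_or_pos n with rfl | hn
  · -- `n = 0`
    have h1 : patSet q (rg 0) (fun i j => c (ls i) (ls j)) = Set.univ := by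
      ext x
      simp only [patSet, Set.mem_ofPred_eq, Set.mem_univ, iff_true]
      intro i; exact i.elim0
    have h2 : ∀ᵐ x ∂P, ∀ ls' : Fin 0 → ℕ, l1 (Dplain ls' x) β = |1 - β default| := by
      filter_upwards [hP.simplex] with x hx
      intro ls'
      unfold l1
      rw [Fintype.sum_unique]
      congr 2
      have h3 := hx Species.plain 0 ls'
      rw [Fintype.sum_unique] at h3
      rw [← h3]
      unfold Dplain
      · congr 1
        exact Subsingleton.elim _ _
      · exact congrArg β (Subsingleton.elim _ _)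
    rw [h1]
    have e1 : ∫ x in patSet q (rg m) c, l1 (Dplain (fun j => ((ls j : Fin m) : ℕ)) x) β ∂P =
        ∫ _x in patSet q (rg m) c, |1 - β default| ∂P :=
      integral_congr_ae (ae_restrict_of_ae (h2.mono fun x hx => hx _))
    have e2 : ∫ x in Set.univ, l1 (Dn 0 x) β ∂P = ∫ _x in Set.univ, |1 - β default| ∂P :=
      integral_congr_ae (ae_restrict_of_ae (h2.mono fun x hx => hx _))
    rw [e1, e2, setIntegral_const, setIntegral_const, probReal_univ]
    simp only [smul_eq_mul]
    ring
  · have hnm : n ≤ m := by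
      have := Fintype.card_le_of_injective ls hls
      simpa using this
    obtain ⟨σ, hσ1, hσ2, hσ3⟩ := exists_perm hP ls hls
    have hσ4 : ∀ l, σ.symm l < m ↔ l < m := fun l => by
      rw [← hσ2, Equiv.apply_symm_apply]
    set c' : ℕ → ℕ → ℕ := fun i j => extP c (σ.symm i) (σ.symm j) with hc'
    have hU := ultraOn_extP hc
    have hU' : UltraOn r m c' := by
      refine ⟨fun i j hi hj => hU.1 _ _ ((hσ4 i).2 hi) ((hσ4 j).2 hj),
        fun i j hi hj => hU.2.1 _ _ ((hσ4 i).2 hi) ((hσ4 j).2 hj),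
        fun i j k hi hj hk h1 h2 h3 => hU.2.2 _ _ _ ((hσ4 i).2 hi) ((hσ4 j).2 hj) ((hσ4 k).2 hk)
          (fun h => h1 (σ.symm.injective h)) (fun h => h2 (σ.symm.injective h))
          (fun h => h3 (σ.symm.injective h))⟩
    have hpre : permRep σ ⁻¹' (patSet q (rg m) c) = patN q m c' := by
      rw [patSet_eq_patN]
      ext x
      simp only [patN, Set.mem_preimage, Set.mem_ofPred_eq]
      constructor
      · intro h i j hi hj hij
        have := h (σ.symm i) (σ.symm j) ((hσ4 i).2 hi) ((hσ4 j).2 hj)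
          (fun h => hij (σ.symm.injective h))
        rw [coal_permRep, Equiv.apply_symm_apply, Equiv.apply_symm_apply] at this
        exact this
      · intro h i j hi hj hij
        rw [coal_permRep]
        have := h (σ i) (σ j) ((hσ2 i).2 hi) ((hσ2 j).2 hj) (fun h => hij (σ.injective h))
        rw [this, hc']
        simp only [Equiv.symm_apply_apply]
    have hsmall : patSet q (rg n) (fun i j => c (ls i) (ls j)) = patN q n c' := by
      rw [patSet_eq_patN]
      have hsym : ∀ i (hi : i < n), σ.symm i = ((ls ⟨i, hi⟩ : Fin m) : ℕ) := fun i hi => by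
        rw [Equiv.symm_apply_eq]
        exact (hσ3 ⟨i, hi⟩).symm
      ext x
      simp only [patN, Set.mem_ofPred_eq]
      refine forall_congr' fun i => forall_congr' fun j => forall_congr' fun hi =>
        forall_congr' fun hj => forall_congr' fun hij => ?_
      have : extP (fun i j => c (ls i) (ls j)) i j = c' i j := by
        rw [extP_apply _ hi hj, hc']
        simp only
        rw [extP_apply c ((hσ4 i).2 (by omega)) ((hσ4 j).2 (by omega))]
        congr 1
        · exact Fin.ext (hsym i hi).symm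
        · exact Fin.ext (hsym j hj).symm
      rw [this]
    have hSm : MeasurableSet (patSet q (rg m) c) := by
      rw [patSet_eq_patN]
      exact Gσ_le _ _ (measurableSet_patN q _ _)
    have hSm' : MeasurableSet (patN q m c') := Gσ_le _ _ (measurableSet_patN q _ _)
    have hmeas : ∀ ls' : Fin n → ℕ, Measurable (fun x => l1 (Dplain ls' x) β) := by
      intro ls'
      unfold l1
      refine Finset.measurable_sum _ fun d _ => ?_
      exact ((measurable_Dl Species.plain ls' _).sub_const _).abs
    have hP1 : P.real (patSet q (rg m) c) = P.real (patN q m c') := by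
      rw [← hpre, measureReal_def, measureReal_def, hσ1.measure_preimage hSm.nullMeasurableSet]
    have hP2 : ∫ x in patSet q (rg m) c, l1 (Dplain (fun j => ((ls j : Fin m) : ℕ)) x) β ∂P =
        ∫ x in patN q m c', l1 (Dn n x) β ∂P := by
      rw [← integral_indicator hSm, ← integral_indicator hSm']
      conv_lhs => rw [← hσ1.map_eq]
      rw [integral_map hσ1.measurable.aemeasurable
        ((hmeas _).indicator hSm).aestronglyMeasurable]
      refine integral_congr_ae (Eventually.of_forall fun x => ?_)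
      simp only
      have h1 : l1 (Dplain (fun j => ((ls j : Fin m) : ℕ)) (permRep σ x)) β = l1 (Dn n x) β := by
        rw [Dplain_permRep]
        unfold Dn rg
        congr 2
        funext j
        exact hσ3 j
      by_cases hx : x ∈ patN q m c'
      · rw [Set.indicator_of_mem hx, Set.indicator_of_mem (by rw [← hpre] at hx; exact hx), h1]
      · rw [Set.indicator_of_notMem hx, Set.indicator_of_notMem (by rw [← hpre] at hx; exact hx)]
    obtain ⟨ρ, _, hρ⟩ := patN_rule hP q hq hn hnm hU'
    have h1 := hρ (fun _ => 1) measurable_const ⟨1, fun _ => by simp⟩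
    rw [setIntegral_const, setIntegral_const, smul_eq_mul, smul_eq_mul, mul_one, mul_one] at h1
    have h2 := hρ (fun x => l1 (Dn n x) β) ?_ ?_
    · rw [hP1, hP2, hsmall, h1, h2]
      ring
    · unfold l1
      refine Finset.measurable_sum (m := Gσ n) _ fun d _ => ?_
      have h3 : Measurable[Gσ n] (fun x => Dn n x d) :=
        Gσ_Dl Species.plain (rg n) (fun j => j.2) _
      exact continuous_abs.measurable.comp (h3.sub_const _)
    · refine ⟨∑ d, (1 + |β d|), fun x => ?_⟩
      unfold l1
      rw [abs_of_nonneg (Finset.sum_nonneg fun _ _ => abs_nonneg _)]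
      refine Finset.sum_le_sum fun d _ => ?_
      refine (abs_sub _ _).trans ?_
      have h3 := Dl_nonneg Species.plain (rg n) x (fun j _ => d j)
      have h4 := Dl_le_one Species.plain (rg n) x (fun j _ => d j)
      have h5 : |Dn n x d| ≤ 1 := abs_le.2 ⟨by unfold Dn Dplain; linarith, h4⟩
      linarith

end Crest.Agent.MP
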