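import Crest.Agent.MP.TComb
import Crest.Agent.MP.RMain

/-!
# T-PRED: the predictive rule of the genealogy (§6)

For `n ≥ 1`, `Φ ∈ Gσ n`: given everything about replicas `< n`, replica `n` chooses `a < n` uniformly
and `j` with probability `x_{j+1} - x_j` and is attached (`attach`).  Proof: `genOf_telescope` for
`c = coal q x` (ultrametric a.s.), then GG with `f = 1(· ≥ q_j)` (`q_j` = `q ⟨j-1,_⟩`, `j ≤ c a n` iff
`q_j ≤ R_{an}` as `q` is strictly increasing): the conditional probability of `j ≤ c a n` is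
`(#{l < n, l ≠ a, j ≤ c a l} + 1 - x_j)/n = (|cls j a| - x_j)/n` with `x_j = P(R_01 < q_j)`; the
coefficients `|cls j a|⁻¹ (H a j - H a (j-1))` are `Gσ n`-measurable and bounded; conclude with
`abel_classes`.  `ci_rule` is the iteration, `integral_gen` the case `Φ = 1` starting from `n = 1`.
-/

set_option autoImplicit false

namespace Crest.Agent.MP

open MeasureTheory Filter Topology
open Crest.ProbabilityR.Diluted

private theorem coal_le {r : ℕ} (q : Fin r → ℝ) (x : Obs) (l l' : ℕ) : coal q x l l' ≤ r := by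
  unfold coal
  exact (Finset.card_filter_le _ _).trans (by simp)

private theorem coal_mono {r : ℕ} (q : Fin r → ℝ) {R R' : ℝ} (h : R ≤ R') :
    (Finset.univ.filter (fun j : Fin r => q j ≤ R)).card ≤
      (Finset.univ.filter (fun j : Fin r => q j ≤ R')).card := by
  refine Finset.card_le_card fun j hj => ?_
  simp only [Finset.mem_filter, Finset.mem_univ, true_and] at hj ⊢
  exact hj.trans h

/-- The coalescence matrix is ultrametric a.s. -/
theorem ultraOn_coal {P : Measure Obs} (hP : LimitModel P) {r : ℕ} (q : Fin r → ℝ)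
    (hq : StrictMono q) : ∀ᵐ x ∂P, ∀ n, UltraOn r n (coal q x) := by
  filter_upwards [ultra hP (gg hP), Rov_symm hP] with x h1 h2 n
  refine ⟨fun i j _ _ => ?_, fun i j _ _ => coal_le q x i j, ?_⟩
  · unfold coal
    rw [h2 i j]
  · intro i j k _ _ _ hij hik hjk
    have h := h1 i j k hij hik hjk
    rcases le_total (Rov x i k) (Rov x j k) with h3 | h3
    · rw [min_eq_left h3] at h
      exact (min_le_left _ _).trans (coal_mono q h)
    · rw [min_eq_right h3] at h
      exact (min_le_right _ _).trans (coal_mono q h)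

theorem strictMono_of_adm {P : Measure Obs} (hP : LimitModel P) {r : ℕ} (q : Fin r → ℝ)
    (hq : AdmissibleExponents (levP P q)) : StrictMono q := by
  have := hP.prob
  intro i j hij
  by_contra hcon
  push Not at hcon
  have h1 := hq.1 hij
  have h2 : levP P q j ≤ levP P q i := by
    unfold levP
    exact measureReal_mono (fun y hy => lt_of_lt_of_le hy hcon)
  linarith

private theorem measurable_coal {r : ℕ} (q : Fin r → ℝ) {n : ℕ} (i j : ℕ) (hi : i < n)
    (hj : j < n) : Measurable[Gσ n] (fun x => coal q x i j) := by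
  have e : (fun x => coal q x i j) = fun x => ∑ k : Fin r, if q k ≤ Rov x i j then 1 else 0 := by
    funext x
    unfold coal
    rw [Finset.card_filter]
  rw [e]
  refine Finset.measurable_sum _ fun k _ => ?_
  refine Measurable.ite ?_ measurable_const measurable_const
  exact measurableSet_le measurable_const (Gσ_Rov hi hj)

/-- extension of a finite matrix -/
private def extM {n : ℕ} (M : Fin n → Fin n → ℕ) : ℕ → ℕ → ℕ :=
  fun i j => if h : i < n ∧ j < n then M ⟨i, h.1⟩ ⟨j, h.2⟩ else 0

private theorem measurable_fun_coal {r : ℕ} (q : Fin r → ℝ) {n : ℕ}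
    (F : (Fin n → Fin n → ℕ) → ℝ) :
    Measurable[Gσ n] (fun x => F (fun i j => coal q x i j)) := by
  have h1 : Measurable F := measurable_of_countable F
  have h2 : Measurable[Gσ n] (fun x => (fun i j : Fin n => coal q x i j)) := by
    refine @measurable_pi_lambda _ _ _ (Gσ n) _ _ fun i => ?_
    refine @measurable_pi_lambda _ _ _ (Gσ n) _ _ fun j => ?_
    exact measurable_coal q i j i.2 j.2
  exact @Measurable.comp _ _ _ (Gσ n) _ _ _ _ h1 h2

/-- `x ↦ f (gen x)` is `Gσ n`-measurable for `f` depending on `att l`, `l < n`. -/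
theorem measurable_gen {r : ℕ} (q : Fin r → ℝ) {n : ℕ} (f : (ℕ → ℕ × ℕ) → ℝ)
    (hf : DepAtt n f) : Measurable[Gσ n] (fun x => f (gen q x)) := by
  have e : (fun x => f (gen q x)) =
      fun x => (fun M : Fin n → Fin n → ℕ => f (genOf (extM M))) (fun i j => coal q x i j) := by
    funext x
    refine hf _ _ fun l _ hl => ?_
    unfold gen
    refine genOf_congr (n := n) (fun i j hi hj _ => ?_) hl
    simp [extM, hi, hj]
  rw [e]
  exact measurable_fun_coal q (fun M : Fin n → Fin n → ℕ => f (genOf (extM M)))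

private theorem owner_congr {n : ℕ} {att att' : ℕ → ℕ × ℕ}
    (h : ∀ l, 1 ≤ l → l < n → att l = att' l) (j : ℕ) :
    ∀ a, a < n → owner att a j = owner att' a j := by
  intro a
  induction a using Nat.strong_induction_on with
  | _ a ih =>
    intro ha
    conv_lhs => rw [owner]
    conv_rhs => rw [owner]
    rcases Nat.eq_zero_or_pos a with rfl | h0
    · simp
    · have e := h a h0 ha
      rw [e]
      by_cases h1 : (att' a).1 < a ∧ j ≤ (att' a).2
      · rw [dif_pos h1, dif_pos h1]
        exact ih _ h1.1 (h1.1.trans ha)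
      · rw [dif_neg h1, dif_neg h1]

private theorem dep_update {n : ℕ} {f : (ℕ → ℕ × ℕ) → ℝ} (hf : DepAtt (n + 1) f) {a : ℕ}
    (ha : a < n) (j : ℕ) : DepAtt n (fun att => f (Function.update att n (owner att a j, j))) := by
  intro att att' h
  refine hf _ _ fun l hl hl' => ?_
  rcases Nat.lt_succ_iff_lt_or_eq.1 hl' with h1 | h1
  · rw [Function.update_of_ne h1.ne, Function.update_of_ne h1.ne]
    exact h l hl h1
  · subst h1
    rw [Function.update_self, Function.update_self, owner_congr h j a ha]

private theorem dep_update0 {n : ℕ} {f : (ℕ → ℕ × ℕ) → ℝ} (hf : DepAtt (n + 1) f) :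
    DepAtt n (fun att => f (Function.update att n (0, 0))) := by
  intro att att' h
  refine hf _ _ fun l hl hl' => ?_
  rcases Nat.lt_succ_iff_lt_or_eq.1 hl' with h1 | h1
  · rw [Function.update_of_ne h1.ne, Function.update_of_ne h1.ne]
    exact h l hl h1
  · subst h1
    rw [Function.update_self, Function.update_self]

/-- `j ≤ coal` iff the `j`-th threshold is passed. -/
private theorem le_coal_iff {r : ℕ} {q : Fin r → ℝ} (hq : StrictMono q) {x : Obs} {l l' j : ℕ}
    (hj : 1 ≤ j) (hj' : j ≤ r) :
    j ≤ coal q x l l' ↔ q ⟨j - 1, by omega⟩ ≤ Rov x l l' := by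
  unfold coal
  constructor
  · intro h
    by_contra hcon
    push Not at hcon
    have hsub : (Finset.univ.filter (fun i : Fin r => q i ≤ Rov x l l')) ⊆
        Finset.univ.filter (fun i : Fin r => (i : ℕ) < j - 1) := by
      intro i hi
      simp only [Finset.mem_filter, Finset.mem_univ, true_and] at hi ⊢
      by_contra hi'
      push Not at hi'
      have : q ⟨j - 1, by omega⟩ ≤ q i := hq.monotone (by rw [Fin.le_def]; exact hi')
      linarith
    have h2 := Finset.card_le_card hsub
    have h3 : (Finset.univ.filter (fun i : Fin r => (i : ℕ) < j - 1)).card ≤ j - 1 := by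
      have : (Finset.univ.filter (fun i : Fin r => (i : ℕ) < j - 1)).card ≤
          (Finset.range (j - 1)).card := by
        refine Finset.card_le_card_of_injOn (fun i => (i : ℕ)) ?_ ?_
        · intro i hi
          simp only [Finset.coe_filter, Finset.mem_univ, true_and, Set.mem_ofPred_eq] at hi
          simpa using hi
        · intro i _ i' _ h
          exact Fin.ext h
      simpa using this
    omega
  · intro h
    have hsub : Finset.univ.filter (fun i : Fin r => (i : ℕ) < j) ⊆
        (Finset.univ.filter (fun i : Fin r => q i ≤ Rov x l l')) := by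
      intro i hi
      simp only [Finset.mem_filter, Finset.mem_univ, true_and] at hi ⊢
      refine le_trans (hq.monotone ?_) h
      rw [Fin.le_def]
      show (i : ℕ) ≤ j - 1
      omega
    have h2 := Finset.card_le_card hsub
    have h3 : j ≤ (Finset.univ.filter (fun i : Fin r => (i : ℕ) < j)).card := by
      have : (Finset.univ : Finset (Fin j)).card ≤
          (Finset.univ.filter (fun i : Fin r => (i : ℕ) < j)).card := by
        refine Finset.card_le_card_of_injOn (fun i : Fin j => (⟨i, by omega⟩ : Fin r)) ?_ ?_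
        · intro i _
          simp
        · intro i _ i' _ h
          simpa [Fin.ext_iff] using h
      simpa using this
    omega

/-- GG for the coalescence levels, bounded test functions. -/
private theorem gg_coal {P : Measure Obs} (hP : LimitModel P) {r : ℕ} (q : Fin r → ℝ)
    (hq : AdmissibleExponents (levP P q)) {n : ℕ} {a j : ℕ} (ha : a < n) (hj : 1 ≤ j)
    (hj' : j ≤ r) (Ψ : Obs → ℝ) (hΨ : Measurable[Gσ n] Ψ) {B : ℝ} (hB : ∀ x, |Ψ x| ≤ B) :
    (n : ℝ) * ∫ x, Ψ x * (if j ≤ coal q x a n then 1 else 0) ∂P =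
      ∫ x, Ψ x * (((cls (coal q x) n j a).card : ℝ) - lev (levP P q) j) ∂P := by
  have hprob := hP.prob
  have hqm := strictMono_of_adm hP q hq
  set t : ℝ := q ⟨j - 1, by omega⟩ with ht
  set B' : ℝ := max B 1 with hB'
  have hB'0 : 0 < B' := lt_of_lt_of_le one_pos (le_max_right _ _)
  have hBB' : ∀ x, |Ψ x| ≤ B' := fun x => (hB x).trans (le_max_left _ _)
  have hΨm : Measurable Ψ := hΨ.mono (Gσ_le n) le_rfl
  -- the indicator
  set f : ℝ → ℝ := fun y => if t ≤ y then 1 else 0 with hf
  have hfm : Measurable f :=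
    Measurable.ite (measurableSet_le measurable_const measurable_id) measurable_const
      measurable_const
  have hf1 : ∀ y, |f y| ≤ 1 := by
    intro y
    simp only [hf]
    split_ifs <;> simp
  have hind : ∀ x l l', (if j ≤ coal q x l l' then (1 : ℝ) else 0) = f (Rov x l l') := by
    intro x l l'
    simp only [hf]
    by_cases h : j ≤ coal q x l l'
    · rw [if_pos h, if_pos ((le_coal_iff hqm hj hj').1 h)]
    · rw [if_neg h, if_neg (fun h' => h ((le_coal_iff hqm hj hj').2 h'))]
  have hint : ∀ (g : Obs → ℝ), Measurable g → (∀ x, |g x| ≤ 1) →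
      Integrable (fun x => Ψ x * g x) P := by
    intro g hg hg1
    refine Integrable.of_bound (hΨm.mul hg).aestronglyMeasurable B' (ae_of_all _ fun x => ?_)
    rw [Real.norm_eq_abs, abs_mul]
    calc |Ψ x| * |g x| ≤ B' * 1 := mul_le_mul (hBB' x) (hg1 x) (abs_nonneg _) hB'0.le
      _ = B' := mul_one _
  have hGG := gg hP n a ha f hfm ⟨1, hf1⟩ (fun x => B'⁻¹ * Ψ x) (hΨ.const_mul _) (by
    intro x
    rw [abs_mul, abs_of_pos (inv_pos.2 hB'0), inv_mul_le_iff₀ hB'0, mul_one]
    exact hBB' x)
  have e1 : ∀ g : Obs → ℝ, ∫ x, B'⁻¹ * Ψ x * g x ∂P = B'⁻¹ * ∫ x, Ψ x * g x ∂P := by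
    intro g
    rw [← integral_const_mul]
    refine integral_congr_ae (ae_of_all _ fun x => ?_)
    simp only
    ring
  have e2 : ∫ x, B'⁻¹ * Ψ x ∂P = B'⁻¹ * ∫ x, Ψ x ∂P := integral_const_mul _ _
  rw [e1, e2, Finset.sum_congr rfl (fun l _ => e1 _), ← Finset.mul_sum] at hGG
  have h0 : (n : ℝ) * ∫ x, Ψ x * f (Rov x a n) ∂P =
      (∑ l ∈ (Finset.range n).erase a, ∫ x, Ψ x * f (Rov x a l) ∂P) +
        (∫ x, Ψ x ∂P) * ∫ x, f (Rov x 0 1) ∂P := by
    have h1 : B'⁻¹ ≠ 0 := (inv_pos.2 hB'0).ne'
    apply mul_left_cancel₀ h1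
    linarith
  -- the constant
  have hlev : ∫ x, f (Rov x 0 1) ∂P = 1 - lev (levP P q) j := by
    have h1 : lev (levP P q) j = P.real {y | Rov y 0 1 < t} := by
      unfold lev
      rw [if_neg (by omega), dif_pos (show j - 1 < r by omega)]
      rfl
    have hms : MeasurableSet {y | Rov y 0 1 < t} :=
      measurableSet_lt (measurable_Rov 0 1) measurable_const
    have h2 : ∀ x, f (Rov x 0 1) = 1 - ({y | Rov y 0 1 < t} : Set Obs).indicator 1 x := by
      intro x
      simp only [hf]
      by_cases h : t ≤ Rov x 0 1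
      · rw [if_pos h, Set.indicator_of_notMem (by simpa using h)]; simp
      · rw [if_neg h, Set.indicator_of_mem (by simpa using h)]; simp
    have h3 : Integrable (({y | Rov y 0 1 < t} : Set Obs).indicator (1 : Obs → ℝ)) P :=
      (integrable_const (1 : ℝ)).indicator hms
    rw [h1, integral_congr_ae (ae_of_all _ h2), integral_sub (integrable_const _) h3,
      integral_indicator_one hms]
    simp
  -- the class
  have hcls : ∀ x, ((cls (coal q x) n j a).card : ℝ) =
      1 + ∑ l ∈ (Finset.range n).erase a, f (Rov x a l) := by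
    intro x
    have h1 : cls (coal q x) n j a =
        insert a (((Finset.range n).erase a).filter (fun l => j ≤ coal q x a l)) := by
      ext l
      simp only [cls, Finset.mem_filter, Finset.mem_range, Finset.mem_insert, Finset.mem_erase]
      constructor
      · rintro ⟨h1, h2⟩
        by_cases h3 : l = a
        · exact Or.inl h3
        · exact Or.inr ⟨⟨h3, h1⟩, h2.resolve_left h3⟩
      · rintro (h1 | ⟨⟨h1, h2⟩, h3⟩)
        · exact ⟨h1 ▸ ha, Or.inl h1⟩
        · exact ⟨h2, Or.inr h3⟩
    rw [h1, Finset.card_insert_of_notMem (by simp), Finset.card_filter]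
    push_cast
    rw [add_comm]
    congr 1
    exact Finset.sum_congr rfl fun l _ => hind x a l
  have hRm : ∀ l, Measurable (fun x => f (Rov x a l)) := fun l => hfm.comp (measurable_Rov a l)
  have i1 : ∀ l, Integrable (fun x => Ψ x * f (Rov x a l)) P :=
    fun l => hint _ (hRm l) (fun x => hf1 _)
  have i2 : Integrable Ψ P := by
    have := hint (fun _ => 1) measurable_const (by simp)
    simpa using this
  have hleft : ∫ x, Ψ x * (if j ≤ coal q x a n then 1 else 0) ∂P =
      ∫ x, Ψ x * f (Rov x a n) ∂P :=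
    integral_congr_ae (ae_of_all _ fun x => by simp only [hind])
  rw [hleft, h0, hlev]
  have e3 : ∀ x, Ψ x * (((cls (coal q x) n j a).card : ℝ) - lev (levP P q) j) =
      (∑ l ∈ (Finset.range n).erase a, Ψ x * f (Rov x a l)) +
        Ψ x * (1 - lev (levP P q) j) := by
    intro x
    rw [hcls, ← Finset.mul_sum]
    ring
  rw [integral_congr_ae (ae_of_all _ e3), integral_add (integrable_finsetSum _ fun l _ => i1 l)
    (i2.mul_const _), integral_finsetSum _ (fun l _ => i1 l), integral_mul_const]

theorem pred_rule {P : Measure Obs} (hP : LimitModel P) {r : ℕ} (q : Fin r → ℝ)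
    (hq : AdmissibleExponents (levP P q)) {n : ℕ} (hn : 1 ≤ n) (Φ : Obs → ℝ)
    (hΦ : Measurable[Gσ n] Φ) (hb : ∃ B, ∀ x, |Φ x| ≤ B) (f : (ℕ → ℕ × ℕ) → ℝ)
    (hf : DepAtt (n + 1) f) (hfb : ∃ B, ∀ a, |f a| ≤ B) :
    ∫ x, Φ x * f (gen q x) ∂P =
      ∫ x, Φ x * ((∑ a ∈ Finset.range n, ∑ j ∈ Finset.range (r + 1),
        (lev (levP P q) (j + 1) - lev (levP P q) j) * f (attach (gen q x) n a j)) / n) ∂P := by
  have hprob := hP.prob
  obtain ⟨B, hB⟩ := hb
  obtain ⟨Bf, hBf⟩ := hfb
  have hqm := strictMono_of_adm hP q hq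
  have hn0 : (n : ℝ) ≠ 0 := by positivity
  have hB0 : 0 ≤ B := by
    obtain ⟨x⟩ : Nonempty Obs := inferInstance
    exact (abs_nonneg _).trans (hB x)
  have hBf0 : 0 ≤ Bf := (abs_nonneg _).trans (hBf (fun _ => (0, 0)))
  have hΦm : Measurable Φ := hΦ.mono (Gσ_le n) le_rfl
  set H : ℕ → ℕ → Obs → ℝ := fun a j x =>
    f (Function.update (gen q x) n (owner (gen q x) a j, j)) with hH
  set H0 : Obs → ℝ := fun x => f (Function.update (gen q x) n (0, 0)) with hH0
  have hHm : ∀ a j, a < n → Measurable[Gσ n] (H a j) := fun a j ha =>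
    measurable_gen q (fun att => f (Function.update att n (owner att a j, j)))
      (dep_update hf ha j)
  have hH0m : Measurable[Gσ n] H0 :=
    measurable_gen q (fun att => f (Function.update att n (0, 0))) (dep_update0 hf)
  set ci : ℕ → ℕ → Obs → ℝ := fun a j x => ((cls (coal q x) n j a).card : ℝ) with hci
  have hcim : ∀ a j, a < n → Measurable[Gσ n] (ci a j) := by
    intro a j ha
    have e : ci a j = fun x => (fun M : Fin n → Fin n → ℕ =>
        ((cls (extM M) n j a).card : ℝ)) (fun i j => coal q x i j) := by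
      funext x
      simp only [hci]
      congr 2
      ext l
      simp only [cls, Finset.mem_filter, Finset.mem_range]
      constructor
      · rintro ⟨h1, h2⟩
        refine ⟨h1, ?_⟩
        simpa [extM, h1, ha] using h2
      · rintro ⟨h1, h2⟩
        refine ⟨h1, ?_⟩
        simpa [extM, h1, ha] using h2
    rw [e]
    exact measurable_fun_coal q (fun M : Fin n → Fin n → ℕ => ((cls (extM M) n j a).card : ℝ))
  have hci1 : ∀ a j x, a < n → 1 ≤ ci a j x := by
    intro a j x ha
    simp only [hci]
    have : 0 < (cls (coal q x) n j a).card := by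
      refine Finset.card_pos.2 ⟨a, ?_⟩
      simp [cls, ha]
    exact_mod_cast this
  set Ψ : ℕ → ℕ → Obs → ℝ := fun a j x =>
    Φ x * ((ci a j x)⁻¹ * (H a j x - H a (j - 1) x)) with hΨ
  have hΨm : ∀ a j, a < n → Measurable[Gσ n] (Ψ a j) := fun a j ha =>
    hΦ.mul (((hcim a j ha).inv).mul ((hHm a j ha).sub (hHm a (j - 1) ha)))
  have hHb : ∀ a j x, |H a j x| ≤ Bf := fun a j x => hBf _
  have hdH : ∀ a j x, |H a j x - H a (j - 1) x| ≤ 2 * Bf := by
    intro a j x
    calc |H a j x - H a (j - 1) x| ≤ |H a j x| + |H a (j - 1) x| := abs_sub _ _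
      _ ≤ Bf + Bf := add_le_add (hHb _ _ _) (hHb _ _ _)
      _ = 2 * Bf := by ring
  have hΨb : ∀ a j, a < n → ∀ x, |Ψ a j x| ≤ B * (2 * Bf) := by
    intro a j ha x
    simp only [hΨ]
    rw [abs_mul, abs_mul]
    have h1 := hci1 a j x ha
    have h2 : |(ci a j x)⁻¹| ≤ 1 := by
      rw [abs_of_pos (inv_pos.2 (by linarith))]
      exact inv_le_one_of_one_le₀ h1
    calc |Φ x| * (|(ci a j x)⁻¹| * |H a j x - H a (j - 1) x|)
        ≤ B * (1 * (2 * Bf)) := by
          refine mul_le_mul (hB x) ?_ (by positivity) hB0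
          exact mul_le_mul h2 (hdH a j x) (abs_nonneg _) zero_le_one
      _ = _ := by ring
  have hbd : ∀ (g : Obs → ℝ) (C : ℝ), Measurable g → (∀ x, |g x| ≤ C) → Integrable g P := by
    intro g C hg hC
    exact Integrable.of_bound hg.aestronglyMeasurable C (ae_of_all _ fun x => by
      rw [Real.norm_eq_abs]; exact hC x)
  -- step 1: telescoping
  have s1 : ∫ x, Φ x * f (gen q x) ∂P = ∫ x, (Φ x * H0 x +
      ∑ j ∈ Finset.Icc 1 r, ∑ a ∈ Finset.range n,
        Ψ a j x * (if j ≤ coal q x a n then 1 else 0)) ∂P := by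
    refine integral_congr_ae ?_
    filter_upwards [ultraOn_coal hP q hqm] with x hx
    have h1 := genOf_telescope hn (hx (n + 1)) f hf
    have h2 : f (gen q x) = H0 x + ∑ j ∈ Finset.Icc 1 r, ∑ a ∈ Finset.range n,
        (if j ≤ coal q x a n then (ci a j x)⁻¹ else 0) * (H a j x - H a (j - 1) x) := h1
    rw [h2, mul_add, Finset.mul_sum]
    congr 1
    refine Finset.sum_congr rfl fun j _ => ?_
    rw [Finset.mul_sum]
    refine Finset.sum_congr rfl fun a _ => ?_
    simp only [hΨ]
    split_ifs <;> ring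
  have hcoalm : ∀ a j, Measurable (fun x => if j ≤ coal q x a n then (1 : ℝ) else 0) := by
    intro a j
    refine Measurable.ite ?_ measurable_const measurable_const
    have : Measurable (fun x => coal q x a n) :=
      (measurable_coal q (n := max a n + 1) a n (by omega) (by omega)).mono (Gσ_le _) le_rfl
    exact measurableSet_le measurable_const this
  have i0 : Integrable (fun x => Φ x * H0 x) P := by
    refine hbd _ (B * Bf) (hΦm.mul (hH0m.mono (Gσ_le n) le_rfl)) fun x => ?_
    rw [abs_mul]
    exact mul_le_mul (hB x) (hBf _) (abs_nonneg _) hB0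
  have i1 : ∀ a j, a < n →
      Integrable (fun x => Ψ a j x * (if j ≤ coal q x a n then 1 else 0)) P := by
    intro a j ha
    refine hbd _ (B * (2 * Bf)) (((hΨm a j ha).mono (Gσ_le n) le_rfl).mul (hcoalm a j))
      fun x => ?_
    rw [abs_mul]
    have h1 : |(if j ≤ coal q x a n then (1 : ℝ) else 0)| ≤ 1 := by split_ifs <;> simp
    calc _ ≤ B * (2 * Bf) * 1 := mul_le_mul (hΨb a j ha x) h1 (abs_nonneg _) (by positivity)
      _ = _ := mul_one _
  have i2 : ∀ a j, a < n →
      Integrable (fun x => Ψ a j x * (ci a j x - lev (levP P q) j)) P := by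
    intro a j ha
    refine hbd _ (B * (2 * Bf) * (n + |lev (levP P q) j|))
      (((hΨm a j ha).mono (Gσ_le n) le_rfl).mul
        (((hcim a j ha).mono (Gσ_le n) le_rfl).sub measurable_const)) fun x => ?_
    rw [abs_mul]
    refine mul_le_mul (hΨb a j ha x) ?_ (abs_nonneg _) (by positivity)
    refine (abs_sub _ _).trans (add_le_add ?_ le_rfl)
    simp only [hci]
    rw [abs_of_nonneg (Nat.cast_nonneg _)]
    have : (cls (coal q x) n j a).card ≤ n := by
      refine (Finset.card_filter_le _ _).trans ?_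
      simp
    exact_mod_cast this
  have s2 : ∫ x, (Φ x * H0 x + ∑ j ∈ Finset.Icc 1 r, ∑ a ∈ Finset.range n,
        Ψ a j x * (if j ≤ coal q x a n then 1 else 0)) ∂P =
      ∫ x, (Φ x * H0 x + ∑ j ∈ Finset.Icc 1 r, ∑ a ∈ Finset.range n,
        (n : ℝ)⁻¹ * (Ψ a j x * (ci a j x - lev (levP P q) j))) ∂P := by
    rw [integral_add i0 (integrable_finsetSum _ fun j _ => integrable_finsetSum _ fun a ha =>
        i1 a j (Finset.mem_range.1 ha)),
      integral_add i0 (integrable_finsetSum _ fun j _ => integrable_finsetSum _ fun a ha =>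
        (i2 a j (Finset.mem_range.1 ha)).const_mul _),
      integral_finsetSum _ (fun j _ => integrable_finsetSum _ fun a ha =>
        i1 a j (Finset.mem_range.1 ha)),
      integral_finsetSum _ (fun j _ => integrable_finsetSum _ fun a ha =>
        (i2 a j (Finset.mem_range.1 ha)).const_mul _)]
    congr 1
    refine Finset.sum_congr rfl fun j hj => ?_
    rw [integral_finsetSum _ (fun a ha => i1 a j (Finset.mem_range.1 ha)),
      integral_finsetSum _ (fun a ha => (i2 a j (Finset.mem_range.1 ha)).const_mul _)]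
    refine Finset.sum_congr rfl fun a ha => ?_
    have ha' := Finset.mem_range.1 ha
    rw [Finset.mem_Icc] at hj
    have h1 := gg_coal hP q hq ha' hj.1 hj.2 (Ψ a j) (hΨm a j ha') (hΨb a j ha')
    rw [integral_const_mul, ← h1, ← mul_assoc, inv_mul_cancel₀ hn0, one_mul]
  rw [s1, s2]
  refine integral_congr_ae ?_
  filter_upwards [ultraOn_coal hP q hqm] with x hx
  have hlev0 : lev (levP P q) 0 = 0 := by simp [lev]
  have hlev1 : lev (levP P q) (r + 1) = 1 := by simp [lev]
  have h1 := abel_classes hn (hx n) (lev (levP P q)) hlev0 hlev1 f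
  have h2 : ∑ a ∈ Finset.range n, ∑ j ∈ Finset.range (r + 1),
        (lev (levP P q) (j + 1) - lev (levP P q) j) * f (attach (gen q x) n a j) =
      n * H0 x + ∑ a ∈ Finset.range n, ∑ j ∈ Finset.Icc 1 r,
        (1 - lev (levP P q) j * (ci a j x)⁻¹) * (H a j x - H a (j - 1) x) := h1
  rw [h2, Finset.sum_comm, add_div, mul_div_cancel_left₀ _ hn0, mul_add]
  congr 1
  rw [Finset.sum_div, Finset.mul_sum]
  refine Finset.sum_congr rfl fun a ha => ?_
  have ha' := Finset.mem_range.1 ha
  rw [Finset.sum_div, Finset.mul_sum]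
  refine Finset.sum_congr rfl fun j _ => ?_
  have h3 := hci1 a j x ha'
  have h4 : ci a j x ≠ 0 := by linarith
  simp only [hΨ]
  field_simp

private theorem genEfrom_congr (x : ℕ → ℝ) (r : ℕ) {f : (ℕ → ℕ × ℕ) → ℝ} (k : ℕ) :
    ∀ (n : ℕ), DepAtt (n + k) f → ∀ att att' : ℕ → ℕ × ℕ, (∀ l < n, att l = att' l) →
      genEfrom x r n k att f = genEfrom x r n k att' f := by
  induction k with
  | zero =>
    intro n hf att att' h
    exact hf _ _ fun l _ hl => h l hl
  | succ k ih =>
    intro n hf att att' h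
    rw [genEfrom, genEfrom]
    congr 1
    refine Finset.sum_congr rfl fun a ha => Finset.sum_congr rfl fun j _ => ?_
    have ha' := Finset.mem_range.1 ha
    congr 1
    refine ih (n + 1) (by rwa [show n + 1 + k = n + (k + 1) by ring]) _ _ fun l hl => ?_
    unfold attach
    rw [h a ha', owner_congr (fun l _ hl => h l hl) _ a ha']
    rcases Nat.lt_succ_iff_lt_or_eq.1 hl with h1 | h1
    · rw [Function.update_of_ne h1.ne, Function.update_of_ne h1.ne]
      exact h l h1
    · subst h1
      rw [Function.update_self, Function.update_self]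

private theorem genEfrom_bound (x : ℕ → ℝ) (r : ℕ) {f : (ℕ → ℕ × ℕ) → ℝ}
    (hf : ∃ B, ∀ a, |f a| ≤ B) (k : ℕ) :
    ∀ (n : ℕ), ∃ B, ∀ att : ℕ → ℕ × ℕ, |genEfrom x r n k att f| ≤ B := by
  induction k with
  | zero =>
    intro n
    exact hf
  | succ k ih =>
    intro n
    obtain ⟨B, hB⟩ := ih (n + 1)
    refine ⟨(∑ a ∈ Finset.range n, ∑ j ∈ Finset.range (r + 1), |x (j + 1) - x j| * B) / n,
      fun att => ?_⟩
    rw [genEfrom, abs_div, abs_of_nonneg (show (0 : ℝ) ≤ (n : ℝ) from Nat.cast_nonneg n)]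
    refine div_le_div_of_nonneg_right ?_ (Nat.cast_nonneg n)
    refine (Finset.abs_sum_le_sum_abs _ _).trans (Finset.sum_le_sum fun a _ => ?_)
    refine (Finset.abs_sum_le_sum_abs _ _).trans (Finset.sum_le_sum fun j _ => ?_)
    rw [abs_mul]
    exact mul_le_mul_of_nonneg_left (hB _) (abs_nonneg _)

private theorem gen_zero {r : ℕ} (q : Fin r → ℝ) (x : Obs) : gen q x 0 = (0, 0) := by
  simp [gen, genOf]

/-- Iterated predictive rule (consequence (CI)). -/
theorem ci_rule {P : Measure Obs} (hP : LimitModel P) {r : ℕ} (q : Fin r → ℝ)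
    (hq : AdmissibleExponents (levP P q)) {n : ℕ} (hn : 1 ≤ n) (k : ℕ) (Φ : Obs → ℝ)
    (hΦ : Measurable[Gσ n] Φ) (hb : ∃ B, ∀ x, |Φ x| ≤ B) (f : (ℕ → ℕ × ℕ) → ℝ)
    (hf : DepAtt (n + k) f) (hfb : ∃ B, ∀ a, |f a| ≤ B) :
    ∫ x, Φ x * f (gen q x) ∂P =
      ∫ x, Φ x * genEfrom (lev (levP P q)) r n k (gen q x) f ∂P := by
  induction k generalizing n with
  | zero => rfl
  | succ k ih =>
    have hf' : DepAtt (n + 1 + k) f := by rwa [show n + 1 + k = n + (k + 1) by ring]
    rw [ih (n := n + 1) (by omega) (hΦ.mono (Gσ_mono (by omega)) le_rfl) hf']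
    set g : (ℕ → ℕ × ℕ) → ℝ := fun att =>
      genEfrom (lev (levP P q)) r (n + 1) k (Function.update att 0 (0, 0)) f with hg
    have hgd : DepAtt (n + 1) g := by
      intro att att' h
      refine genEfrom_congr _ _ k (n + 1) hf' _ _ fun l hl => ?_
      rcases Nat.eq_zero_or_pos l with rfl | h0
      · rw [Function.update_self, Function.update_self]
      · rw [Function.update_of_ne (by omega), Function.update_of_ne (by omega)]
        exact h l h0 hl
    have hgb : ∃ B, ∀ a, |g a| ≤ B := by
      obtain ⟨B, hB⟩ := genEfrom_bound (lev (levP P q)) r hfb k (n + 1)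
      exact ⟨B, fun a => hB _⟩
    have h1 := pred_rule hP q hq hn Φ hΦ hb g hgd hgb
    have e1 : ∀ x, genEfrom (lev (levP P q)) r (n + 1) k (gen q x) f = g (gen q x) := by
      intro x
      simp only [hg]
      congr 1
      rw [← gen_zero q x, Function.update_eq_self]
    simp only [e1]
    rw [h1]
    refine integral_congr_ae (ae_of_all _ fun x => ?_)
    simp only
    rw [genEfrom]
    congr 2
    refine Finset.sum_congr rfl fun a _ => Finset.sum_congr rfl fun j _ => ?_
    congr 1
    simp only [hg]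
    congr 1
    have : attach (gen q x) n a j 0 = (0, 0) := by
      unfold attach
      rw [Function.update_of_ne (by omega)]
      exact gen_zero q x
    rw [← this, Function.update_eq_self]

private theorem genE_eq_genEfrom (x : ℕ → ℝ) (r : ℕ) (f : (ℕ → ℕ × ℕ) → ℝ) (k : ℕ) :
    ∀ n : ℕ, genE x r (n + 1 + k) f = genE x r (n + 1) (fun att => genEfrom x r (n + 1) k att f) := by
  induction k with
  | zero => intro n; rfl
  | succ k ih =>
    intro n
    have h1 := ih (n + 1)
    rw [show n + 1 + (k + 1) = n + 1 + 1 + k by ring, h1]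
    show genE x r (n + 2) _ = _
    rw [genE]
    congr 1
    funext att
    rw [genEfrom]
    push_cast
    rfl

/-- The law of the genealogy. -/
theorem integral_gen {P : Measure Obs} (hP : LimitModel P) {r : ℕ} (q : Fin r → ℝ)
    (hq : AdmissibleExponents (levP P q)) (n : ℕ) (f : (ℕ → ℕ × ℕ) → ℝ) (hf : DepAtt n f)
    (hfb : ∃ B, ∀ a, |f a| ≤ B) :
    ∫ x, f (gen q x) ∂P = genE (lev (levP P q)) r n f := by
  have hprob := hP.prob
  rcases Nat.eq_zero_or_pos n with rfl | hn
  · have : ∀ x, f (gen q x) = f (fun _ => (0, 0)) := fun x => hf _ _ fun l _ hl => by omega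
    simp only [this, genE]
    simp
  · obtain ⟨k, rfl⟩ : ∃ k, n = 1 + k := ⟨n - 1, by omega⟩
    have h1 := ci_rule hP q hq le_rfl k (fun _ => 1) measurable_const ⟨1, by simp⟩ f hf hfb
    simp only [one_mul] at h1
    rw [h1]
    have h2 := genE_eq_genEfrom (lev (levP P q)) r f k 0
    rw [zero_add] at h2
    rw [h2]
    have h3 : ∀ x, genEfrom (lev (levP P q)) r 1 k (gen q x) f =
        genEfrom (lev (levP P q)) r 1 k (fun _ => (0, 0)) f := by
      intro x
      refine genEfrom_congr _ _ k 1 hf _ _ fun l hl => ?_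
      have : l = 0 := by omega
      subst this
      exact gen_zero q x
    simp only [h3, genE]
    simp

end Crest.Agent.MP
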