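import Crest.Agent.MP.TCombA

/-!
# T-TABLE: the trial of a table (§10), deterministic

A table `S : Fin M → (Fin r → Fin K) → Fin L → Bool` (site, leaf, replica in the leaf).  The trial
has `K' = M * K` values per level: level `0`: site `u / K ∈ [M]`, level `j ≥ 1`: child `u % K ∈ [K]`
(both uniform), and
`X = artanh ((1-η) avg_{l} (±1)(S site leaf l))`, so that
`tilt X s = (1-η) #{l : S site leaf l = s}/L + η/2` (`tanh (artanh y) = y`,
`tilt x s = (1 + spinVal s * tanh x)/2`).

`TabD n att c` is the average over a uniform site `i`, children `V : Fin n → Fin r → Fin K` and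
`w : Fin n → Fin L` of `1(∀ l, S i (path l) (w l) = c l)`, `path l = fun j => V (owner att l (j+1)) j`.
Then `l1 (t.D n att) (TabD n att) ≤ 2 n η`: both are averages of products of `n` factors in `[0,1]`,
`Σ_c |Π_l p_l(c_l) - Π_l p'_l(c_l)| ≤ Σ_l Σ_s |p_l(s) - p'_l(s)|`.
-/

set_option autoImplicit false

namespace Crest.Agent.MP

open MeasureTheory Filter Topology
open Crest.ProbabilityR.Diluted

/-- Path (leaf) of replica `l` for the choice `V` of children. -/
def pathV {r K n : ℕ} (att : ℕ → ℕ × ℕ) (V : Fin n → Fin r → Fin K) (l : Fin n) : Fin r → Fin K :=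
  fun j => V ⟨min (owner att l (j + 1)) l, by omega⟩ j

/-- Law of the spins of `n` replicas of genealogy `att` in the table. -/
noncomputable def TabD {M r K L : ℕ} (S : Fin M → (Fin r → Fin K) → Fin L → Bool) (n : ℕ)
    (att : ℕ → ℕ × ℕ) (c : Fin n → Bool) : ℝ :=
  (∑ i : Fin M, ∑ V : Fin n → Fin r → Fin K, ∑ w : Fin n → Fin L,
    if ∀ l, S i (pathV att V l) (w l) = c l then (1 : ℝ) else 0) /
      ((M : ℝ) * (K : ℝ) ^ (n * r) * (L : ℝ) ^ n)

namespace TTA

/-- Uniform average over a finite type. -/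
noncomputable def avg {α : Type} [Fintype α] (f : α → ℝ) : ℝ := (∑ x, f x) / (Fintype.card α : ℝ)

theorem avg_equiv {α β : Type} [Fintype α] [Fintype β] (e : α ≃ β) (f : β → ℝ) :
    avg (fun x => f (e x)) = avg f := by
  unfold avg
  rw [Equiv.sum_comp e f, Fintype.card_congr e]

theorem avg_prod {α β : Type} [Fintype α] [Fintype β] (f : α × β → ℝ) :
    avg f = avg (fun a => avg (fun b => f (a, b))) := by
  unfold avg
  rw [Fintype.sum_prod_type, Fintype.card_prod, ← Finset.sum_div, div_div]
  push_cast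
  rw [mul_comm]

theorem avg_const {α : Type} [Fintype α] [Nonempty α] (c : ℝ) : avg (fun _ : α => c) = c := by
  unfold avg
  rw [Finset.sum_const, nsmul_eq_mul, Finset.card_univ]
  have : (Fintype.card α : ℝ) ≠ 0 := by exact_mod_cast Fintype.card_ne_zero
  field_simp

theorem avg_eval {α β : Type} [Fintype α] [Fintype β] [DecidableEq α] [Nonempty β] (a : α)
    (f : β → ℝ) : avg (fun x : α → β => f (x a)) = avg f := by
  have h := avg_equiv (Equiv.funSplitAt a β) (fun p : β × ({j // j ≠ a} → β) => f p.1)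
  have h2 : (fun x : α → β => f ((Equiv.funSplitAt a β) x).1) = fun x => f (x a) := by
    ext x; simp [Equiv.funSplitAt]
  rw [h2] at h
  rw [h, avg_prod]
  simp [avg_const]

/-- Split off the level `0`. -/
def succEquiv (n r K : ℕ) :
    (Fin n → Fin (r + 1) → Fin K) ≃ (Fin n → Fin K) × (Fin n → Fin r → Fin K) where
  toFun := fun x => (fun a => x a 0, fun a j => x a j.succ)
  invFun := fun p a => Fin.cons (p.1 a) (p.2 a)
  left_inv := by
    intro x; funext a j
    refine Fin.cases ?_ (fun j => ?_) j <;> simp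
  right_inv := by
    intro p; ext <;> simp

theorem avg_succ {n r K : ℕ} (hK : 0 < K) (f : (Fin n → Fin r → Fin K) → ℝ) :
    avg (fun x : Fin n → Fin (r + 1) → Fin K => f (fun a j => x a j.succ)) = avg f := by
  have : Nonempty (Fin K) := ⟨⟨0, hK⟩⟩
  have h := avg_equiv (succEquiv n r K) (fun p => f p.2)
  have h2 : (fun x : Fin n → Fin (r + 1) → Fin K => f ((succEquiv n r K) x).2) =
      fun x => f (fun a j => x a j.succ) := by
    ext x; rfl
  rw [h2] at h
  rw [h, avg_prod]
  simp [avg_const]

/-- Split `Fin (M * K)` into quotient and remainder. -/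
def divEquiv (n r M K : ℕ) :
    (Fin n → Fin (r + 1) → Fin (M * K)) ≃
      (Fin n → Fin (r + 1) → Fin M) × (Fin n → Fin (r + 1) → Fin K) where
  toFun := fun x => (fun a j => (finProdFinEquiv.symm (x a j)).1,
    fun a j => (finProdFinEquiv.symm (x a j)).2)
  invFun := fun p a j => finProdFinEquiv (p.1 a j, p.2 a j)
  left_inv := by
    intro x; funext a j
    exact finProdFinEquiv.apply_symm_apply (x a j)
  right_inv := by
    intro p
    refine Prod.ext ?_ ?_ <;> funext a j <;>
      simp only [Equiv.symm_apply_apply]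

theorem avg_split {n r M K : ℕ} (hM : 0 < M) (hK : 0 < K) (a : Fin n)
    (f : Fin M → (Fin n → Fin r → Fin K) → ℝ) :
    avg (fun x : Fin n → Fin (r + 1) → Fin (M * K) =>
      f (finProdFinEquiv.symm (x a 0)).1 (fun a j => (finProdFinEquiv.symm (x a j.succ)).2)) =
    avg (fun i : Fin M => avg (fun V : Fin n → Fin r → Fin K => f i V)) := by
  have : Nonempty (Fin K) := ⟨⟨0, hK⟩⟩
  have : Nonempty (Fin M) := ⟨⟨0, hM⟩⟩
  have h := avg_equiv (divEquiv n r M K)
    (fun p => f (p.1 a 0) (fun a j => p.2 a j.succ))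
  have h2 : (fun x : Fin n → Fin (r + 1) → Fin (M * K) =>
      f (((divEquiv n r M K) x).1 a 0) (fun a j => ((divEquiv n r M K) x).2 a j.succ)) =
      (fun x : Fin n → Fin (r + 1) → Fin (M * K) =>
      f (finProdFinEquiv.symm (x a 0)).1 (fun a j => (finProdFinEquiv.symm (x a j.succ)).2)) := by
    ext x; rfl
  rw [h2] at h
  rw [h, avg_prod]
  have h3 : ∀ x : Fin n → Fin (r + 1) → Fin M,
      avg (fun b : Fin n → Fin (r + 1) → Fin K => f (x a 0) (fun a j => b a j.succ)) =
      avg (fun V : Fin n → Fin r → Fin K => f (x a 0) V) := fun x =>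
    avg_succ hK (fun V => f (x a 0) V)
  simp only [h3]
  rw [avg_eval (β := Fin (r + 1) → Fin M) a
    (fun y => avg (fun V : Fin n → Fin r → Fin K => f (y 0) V))]
  rw [avg_eval (0 : Fin (r + 1)) (fun i : Fin M => avg (fun V : Fin n → Fin r → Fin K => f i V))]

theorem avg_le_avg {α : Type} [Fintype α] {f g : α → ℝ} (h : ∀ x, f x ≤ g x) : avg f ≤ avg g := by
  unfold avg
  exact div_le_div_of_nonneg_right (Finset.sum_le_sum fun x _ => h x) (Nat.cast_nonneg _)

theorem avg_sub {α : Type} [Fintype α] (f g : α → ℝ) :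
    avg f - avg g = avg (fun x => f x - g x) := by
  unfold avg
  rw [← sub_div, Finset.sum_sub_distrib]

theorem abs_avg_le {α : Type} [Fintype α] (f : α → ℝ) : |avg f| ≤ avg (fun x => |f x|) := by
  unfold avg
  rw [abs_div, abs_of_nonneg (Nat.cast_nonneg (Fintype.card α) : (0 : ℝ) ≤ _)]
  exact div_le_div_of_nonneg_right (Finset.abs_sum_le_sum_abs _ _) (Nat.cast_nonneg _)

theorem sum_avg {α β : Type} [Fintype α] [Fintype β] (f : β → α → ℝ) :
    ∑ c, avg (f c) = avg (fun x => ∑ c, f c x) := by
  unfold avg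
  rw [← Finset.sum_div, Finset.sum_comm]

/-- The telescoping bound for products of two-point laws. -/
theorem sum_abs_prod_le (n : ℕ) (p p' : Fin n → Bool → ℝ) (hp : ∀ l s, 0 ≤ p l s)
    (hp' : ∀ l s, 0 ≤ p' l s) (hs : ∀ l, ∑ s, p l s = 1) (hs' : ∀ l, ∑ s, p' l s = 1) :
    ∑ c : Fin n → Bool, |(∏ l, p l (c l)) - ∏ l, p' l (c l)| ≤ ∑ l, ∑ s, |p l s - p' l s| := by
  induction n with
  | zero => simp
  | succ n ih =>
    have hone : ∀ q : Fin n → Bool → ℝ, (∀ l, ∑ s, q l s = 1) →
        ∑ c : Fin n → Bool, ∏ l, q l (c l) = 1 := by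
      intro q hq
      have := (Finset.prod_univ_sum (fun _ : Fin n => (Finset.univ : Finset Bool)) q).symm
      simp only [Fintype.piFinset_univ] at this
      rw [this]
      exact Finset.prod_eq_one fun l _ => hq l
    rw [← (Fin.consEquiv (fun _ : Fin (n + 1) => Bool)).sum_comp]
    rw [Fintype.sum_prod_type]
    have hterm : ∀ (s : Bool) (c : Fin n → Bool),
        |(∏ l, p l ((Fin.consEquiv (fun _ : Fin (n + 1) => Bool)) (s, c) l)) -
          ∏ l, p' l ((Fin.consEquiv (fun _ : Fin (n + 1) => Bool)) (s, c) l)| ≤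
        |p 0 s - p' 0 s| * (∏ l : Fin n, p l.succ (c l)) +
          p' 0 s * |(∏ l : Fin n, p l.succ (c l)) - ∏ l : Fin n, p' l.succ (c l)| := by
      intro s c
      rw [Fin.prod_univ_succ, Fin.prod_univ_succ]
      simp only [Fin.consEquiv_apply, Fin.cons_zero, Fin.cons_succ]
      have hnn : 0 ≤ ∏ l : Fin n, p l.succ (c l) := Finset.prod_nonneg fun l _ => hp _ _
      calc |p 0 s * (∏ l : Fin n, p l.succ (c l)) - p' 0 s * ∏ l : Fin n, p' l.succ (c l)|
          = |(p 0 s - p' 0 s) * (∏ l : Fin n, p l.succ (c l)) +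
            p' 0 s * ((∏ l : Fin n, p l.succ (c l)) - ∏ l : Fin n, p' l.succ (c l))| := by
              congr 1; ring
        _ ≤ |(p 0 s - p' 0 s) * (∏ l : Fin n, p l.succ (c l))| +
            |p' 0 s * ((∏ l : Fin n, p l.succ (c l)) - ∏ l : Fin n, p' l.succ (c l))| :=
              abs_add_le _ _
        _ = _ := by
              rw [abs_mul, abs_mul, abs_of_nonneg hnn, abs_of_nonneg (hp' 0 s)]
    calc ∑ s : Bool, ∑ c : Fin n → Bool, _
        ≤ ∑ s : Bool, ∑ c : Fin n → Bool, (|p 0 s - p' 0 s| * (∏ l : Fin n, p l.succ (c l)) +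
          p' 0 s * |(∏ l : Fin n, p l.succ (c l)) - ∏ l : Fin n, p' l.succ (c l)|) :=
          Finset.sum_le_sum fun s _ => Finset.sum_le_sum fun c _ => hterm s c
      _ = ∑ s : Bool, (|p 0 s - p' 0 s| * 1 + p' 0 s *
          ∑ c : Fin n → Bool, |(∏ l : Fin n, p l.succ (c l)) - ∏ l : Fin n, p' l.succ (c l)|) := by
          refine Finset.sum_congr rfl fun s _ => ?_
          rw [Finset.sum_add_distrib, ← Finset.mul_sum, ← Finset.mul_sum,
            hone (fun l => p l.succ) (fun l => hs _)]
      _ = ∑ s : Bool, |p 0 s - p' 0 s| +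
          ∑ c : Fin n → Bool, |(∏ l : Fin n, p l.succ (c l)) - ∏ l : Fin n, p' l.succ (c l)| := by
          rw [Finset.sum_add_distrib, ← Finset.sum_mul, ← Finset.sum_mul, hs' 0]
          simp
      _ ≤ _ := by
          rw [Fin.sum_univ_succ]
          have := ih (fun l => p l.succ) (fun l => p' l.succ) (fun _ _ => hp _ _)
            (fun _ _ => hp' _ _) (fun _ => hs _) (fun _ => hs' _)
          linarith

theorem owner_zero {r n : ℕ} {att : ℕ → ℕ × ℕ} (h : ValidAtt r n att) (l : ℕ) (hl : l < n) :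
    owner att l 0 = 0 := by
  induction l using Nat.strong_induction_on with
  | _ l ih =>
    rw [owner]
    split_ifs with h1
    · exact ih _ h1.1 (lt_trans h1.1 hl)
    · rcases Nat.eq_zero_or_pos l with h0 | h0
      · exact h0
      · exfalso
        have := h l h0 hl
        simp only [nodes, Finset.mem_filter, Finset.mem_product, Finset.mem_range] at this
        exact h1 ⟨this.1.1, Nat.zero_le _⟩

/-- The number of replicas of the leaf with spin `s`. -/
def cnt {L : ℕ} (g : Fin L → Bool) (s : Bool) : ℕ := (Finset.univ.filter (fun l => g l = s)).card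

theorem cnt_add {L : ℕ} (g : Fin L → Bool) : cnt g true + cnt g false = L := by
  unfold cnt
  have := Finset.card_filter_add_card_filter_not (s := (Finset.univ : Finset (Fin L)))
    (fun l => g l = true)
  simpa using this

/-- The tilted spin law of a leaf. -/
noncomputable def pe {L : ℕ} (η : ℝ) (g : Fin L → Bool) (s : Bool) : ℝ :=
  (1 - η) * (cnt g s / L) + η / 2

theorem pe_pos {L : ℕ} {η : ℝ} (hη : 0 < η) (hη1 : η ≤ 1) (g : Fin L → Bool) (s : Bool) :
    0 < pe η g s := by
  unfold pe
  have : (0 : ℝ) ≤ (cnt g s : ℝ) / L := by positivity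
  have : 0 ≤ (1 - η) * ((cnt g s : ℝ) / L) := mul_nonneg (by linarith) this
  linarith

theorem cnt_sum {L : ℕ} (hL : 0 < L) (g : Fin L → Bool) :
    (cnt g true : ℝ) / L + (cnt g false : ℝ) / L = 1 := by
  rw [← add_div]
  have h : ((cnt g true : ℝ) + cnt g false) = L := by exact_mod_cast cnt_add g
  rw [h]
  exact div_self (by exact_mod_cast hL.ne')

theorem pe_sum {L : ℕ} (hL : 0 < L) (η : ℝ) (g : Fin L → Bool) : pe η g true + pe η g false = 1 := by
  have := cnt_sum hL g
  unfold pe
  linear_combination (1 - η) * this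

theorem tilt_log {L : ℕ} (hL : 0 < L) {η : ℝ} (hη : 0 < η) (hη1 : η ≤ 1) (g : Fin L → Bool)
    (s : Bool) : tilt ((1 / 2) * Real.log (pe η g true / pe η g false)) s = pe η g s := by
  have h1 := pe_pos hη hη1 g true
  have h2 := pe_pos hη hη1 g false
  have h3 := pe_sum hL η g
  set X := (1 / 2) * Real.log (pe η g true / pe η g false) with hX
  have hE : Real.exp X * Real.exp X = pe η g true / pe η g false := by
    rw [← Real.exp_add, show X + X = Real.log (pe η g true / pe η g false) by rw [hX]; ring]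
    exact Real.exp_log (div_pos h1 h2)
  have hpos := Real.exp_pos X
  have hE' : Real.exp X * Real.exp X * pe η g false = pe η g true := by
    rw [hE]; field_simp
  unfold tilt
  rw [Real.cosh_eq, Real.exp_neg]
  have hd : Real.exp X + (Real.exp X)⁻¹ ≠ 0 := by positivity
  cases s
  · have hs : X * spinVal false = -X := by simp [spinVal]
    rw [hs, Real.exp_neg]
    rw [show 2 * ((Real.exp X + (Real.exp X)⁻¹) / 2) = Real.exp X + (Real.exp X)⁻¹ by ring]
    rw [div_eq_iff hd]
    field_simp
    nlinarith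
  · have hs : X * spinVal true = X := by simp [spinVal]
    rw [hs]
    rw [show 2 * ((Real.exp X + (Real.exp X)⁻¹) / 2) = Real.exp X + (Real.exp X)⁻¹ by ring]
    rw [div_eq_iff hd]
    field_simp
    nlinarith

theorem avg_prod_ite {n L : ℕ} (hL : 0 < L) (g : Fin n → Fin L → Bool) (c : Fin n → Bool) :
    (∑ w : Fin n → Fin L, if ∀ l, g l (w l) = c l then (1 : ℝ) else 0) / (L : ℝ) ^ n =
      ∏ l, ((cnt (g l) (c l) : ℝ) / L) := by
  have h1 : ∀ w : Fin n → Fin L, (if ∀ l, g l (w l) = c l then (1 : ℝ) else 0) =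
      ∏ l, (if g l (w l) = c l then (1 : ℝ) else 0) := by
    intro w
    by_cases h : ∀ l, g l (w l) = c l
    · simp [h]
    · rw [if_neg h]
      push Not at h
      obtain ⟨l, hl⟩ := h
      exact (Finset.prod_eq_zero (Finset.mem_univ l) (by simp [hl])).symm
  simp only [h1]
  have h2 := (Finset.prod_univ_sum (fun _ : Fin n => (Finset.univ : Finset (Fin L)))
    (fun l v => if g l v = c l then (1 : ℝ) else 0)).symm
  simp only [Fintype.piFinset_univ] at h2
  rw [h2, Finset.prod_div_distrib]
  simp only [Finset.prod_const, Finset.card_univ, Fintype.card_fin]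
  congr 1
  refine Finset.prod_congr rfl fun l _ => ?_
  rw [Finset.sum_ite]
  simp [cnt]

end TTA

open TTA in
theorem exists_table_trial {M r K L : ℕ} (hM : 0 < M) (hK : 0 < K) (hL : 0 < L)
    (S : Fin M → (Fin r → Fin K) → Fin L → Bool) (m : Fin r → ℝ) (hm : AdmissibleExponents m)
    {η : ℝ} (hη : 0 < η) (hη1 : η ≤ 1) :
    ∃ t : FinTrial, ∃ h : t.r = r, (t.m = fun j => m (Fin.cast h j)) ∧
      ∀ (n : ℕ) (att : ℕ → ℕ × ℕ), ValidAtt r n att → l1 (t.D n att) (TabD S n att) ≤ 2 * n * η := by
  refine ⟨⟨r, M * K, Nat.mul_pos hM hK, m, hm, fun U =>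
    (1 / 2) * Real.log (pe η (S (finProdFinEquiv.symm (U 0)).1
      (fun j => (finProdFinEquiv.symm (U j.succ)).2)) true /
      pe η (S (finProdFinEquiv.symm (U 0)).1
      (fun j => (finProdFinEquiv.symm (U j.succ)).2)) false)⟩, rfl, rfl, ?_⟩
  intro n att hatt
  have hKne : Nonempty (Fin K) := ⟨⟨0, hK⟩⟩
  have hMne : Nonempty (Fin M) := ⟨⟨0, hM⟩⟩
  -- the table law as an average
  have hTab : ∀ c : Fin n → Bool, TabD S n att c = avg (fun i : Fin M =>
      avg (fun V : Fin n → Fin r → Fin K =>
        ∏ l, ((cnt (S i (pathV att V l)) (c l) : ℝ) / L))) := by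
    intro c
    unfold TabD avg
    simp only [← avg_prod_ite hL]
    rw [Fintype.card_fun, Fintype.card_fun, Fintype.card_fin, Fintype.card_fin]
    simp only [← Finset.sum_div]
    rw [div_div, div_div]
    congr 1
    push_cast
    simp only [Fintype.card_fin]
    rw [← pow_mul, mul_comm r n]
    ring
  have hD : ∀ c : Fin n → Bool, FinTrial.D ⟨r, M * K, Nat.mul_pos hM hK, m, hm, fun U =>
    (1 / 2) * Real.log (pe η (S (finProdFinEquiv.symm (U 0)).1
      (fun j => (finProdFinEquiv.symm (U j.succ)).2)) true /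
      pe η (S (finProdFinEquiv.symm (U 0)).1
      (fun j => (finProdFinEquiv.symm (U j.succ)).2)) false)⟩ n att c = avg (fun i : Fin M =>
      avg (fun V : Fin n → Fin r → Fin K =>
        ∏ l, pe η (S i (pathV att V l)) (c l))) := by
    intro c
    unfold FinTrial.D
    rcases Nat.eq_zero_or_pos n with h0 | h0
    · subst h0
      simp [avg_const]
    · have key := avg_split hM hK (⟨0, h0⟩ : Fin n) (fun (i : Fin M) (V : Fin n → Fin r → Fin K) =>
        ∏ l, pe η (S i (pathV att V l)) (c l))
      rw [← key]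
      unfold avg
      rw [Fintype.card_fun, Fintype.card_fun, Fintype.card_fin, Fintype.card_fin, Fintype.card_fin,
        ← pow_mul, mul_comm (r + 1) n]
      push_cast
      congr 1
      refine Finset.sum_congr rfl fun U _ => ?_
      refine Finset.prod_congr rfl fun l _ => ?_
      rw [tilt_log hL hη hη1]
      congr 2
      have hz : (⟨min (owner att l ((0 : Fin (r + 1)) : ℕ)) l, by omega⟩ : Fin n) = ⟨0, h0⟩ := by
        apply Fin.ext
        simp [owner_zero hatt l l.2]
      rw [hz]
  -- the final estimate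
  unfold l1
  simp only [hD, hTab]
  have hone : ∀ (i : Fin M) (V : Fin n → Fin r → Fin K),
      ∑ c : Fin n → Bool, |(∏ l, pe η (S i (pathV att V l)) (c l)) -
        ∏ l, ((cnt (S i (pathV att V l)) (c l) : ℝ) / L)| ≤ n * η := by
    intro i V
    refine (sum_abs_prod_le n (fun l => pe η (S i (pathV att V l)))
      (fun l s => (cnt (S i (pathV att V l)) s : ℝ) / L) (fun _ _ => (pe_pos hη hη1 _ _).le)
      (fun _ _ => by positivity) (fun l => ?_) (fun l => ?_)).trans ?_
    · simp only [Fintype.sum_bool]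
      exact pe_sum hL η _
    · simp only [Fintype.sum_bool]
      exact cnt_sum hL _
    · have hb : ∀ (l : Fin n) (s : Bool),
          |pe η (S i (pathV att V l)) s - (cnt (S i (pathV att V l)) s : ℝ) / L| ≤ η / 2 := by
        intro l s
        have h0 : (0 : ℝ) ≤ (cnt (S i (pathV att V l)) s : ℝ) / L := by positivity
        have h1 : (cnt (S i (pathV att V l)) s : ℝ) / L ≤ 1 := by
          have h2 := cnt_sum hL (S i (pathV att V l))
          have h3 : (0 : ℝ) ≤ (cnt (S i (pathV att V l)) true : ℝ) / L := by positivity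
          have h4 : (0 : ℝ) ≤ (cnt (S i (pathV att V l)) false : ℝ) / L := by positivity
          cases s <;> linarith
        unfold pe
        rw [abs_le]
        constructor <;> nlinarith
      calc ∑ l : Fin n, ∑ s : Bool, _ ≤ ∑ _l : Fin n, ∑ _s : Bool, η / 2 :=
            Finset.sum_le_sum fun l _ => Finset.sum_le_sum fun s _ => hb l s
        _ = n * η := by
            simp only [Finset.sum_const, Finset.card_univ, Fintype.card_fin, Fintype.card_bool,
              nsmul_eq_mul]
            push_cast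
            ring
  calc ∑ c : Fin n → Bool, |avg (fun i : Fin M => avg (fun V : Fin n → Fin r → Fin K =>
        ∏ l, pe η (S i (pathV att V l)) (c l))) - avg (fun i : Fin M =>
      avg (fun V : Fin n → Fin r → Fin K =>
        ∏ l, ((cnt (S i (pathV att V l)) (c l) : ℝ) / L)))|
      ≤ ∑ c : Fin n → Bool, avg (fun i : Fin M => avg (fun V : Fin n → Fin r → Fin K =>
        |(∏ l, pe η (S i (pathV att V l)) (c l)) -
          ∏ l, ((cnt (S i (pathV att V l)) (c l) : ℝ) / L)|)) := by
        refine Finset.sum_le_sum fun c _ => ?_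
        rw [avg_sub]
        refine (abs_avg_le _).trans (avg_le_avg fun i => ?_)
        rw [avg_sub]
        exact abs_avg_le _
    _ = avg (fun i : Fin M => avg (fun V : Fin n → Fin r → Fin K => ∑ c : Fin n → Bool,
        |(∏ l, pe η (S i (pathV att V l)) (c l)) -
          ∏ l, ((cnt (S i (pathV att V l)) (c l) : ℝ) / L)|)) := by
        rw [sum_avg]
        congr 1
        funext i
        rw [sum_avg]
    _ ≤ avg (fun _ : Fin M => avg (fun _ : Fin n → Fin r → Fin K => (n : ℝ) * η)) :=
        avg_le_avg fun i => avg_le_avg fun V => hone i V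
    _ = n * η := by simp [avg_const]
    _ ≤ 2 * n * η := by nlinarith [Nat.cast_nonneg (α := ℝ) n]

end Crest.Agent.MP
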