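import Mathlib

/-!
# Tree calculus (rows 141/153, module U)

Paths are functions `ℕ → V` (only coordinates `0..R` matter), `V` a finite type with the uniform
average.  `x : ℕ → ℝ` are the exponents (`x 0 = 0`, `x 1 ≤ … ≤ x R`, `x (R+1) = 1`).

* `T x k j Z` is the nested power mean of `Z` over the levels `j+1, …, j+k` (outermost `j+1`).
* `K x k j Z Φ` is the expectation of `Φ` when the levels `j+1, …, j+k` are resampled from the
  kernels attached to `Z`.
-/

set_option autoImplicit false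
set_option linter.unusedSectionVars false
set_option linter.unusedVariables false

namespace Crest.Agent.MP

open Finset

variable {V : Type*} [Fintype V] [Nonempty V]

/-- Average over coordinate `j`. -/
noncomputable def avg (f : V → ℝ) : ℝ := (Fintype.card V : ℝ)⁻¹ * ∑ v : V, f v

theorem card_pos' : (0 : ℝ) < Fintype.card V := by exact_mod_cast Fintype.card_pos

theorem avg_const (c : ℝ) : avg (fun _ : V => c) = c := by
  unfold avg
  have := card_pos' (V := V)
  simp

theorem avg_add (f g : V → ℝ) : avg (fun v => f v + g v) = avg f + avg g := by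
  unfold avg
  rw [sum_add_distrib]; ring

theorem avg_sub (f g : V → ℝ) : avg (fun v => f v - g v) = avg f - avg g := by
  unfold avg
  rw [sum_sub_distrib]; ring

theorem avg_mul_left (c : ℝ) (f : V → ℝ) : avg (fun v => c * f v) = c * avg f := by
  unfold avg
  rw [← mul_sum]; ring

theorem avg_mul_right (c : ℝ) (f : V → ℝ) : avg (fun v => f v * c) = avg f * c := by
  unfold avg
  rw [← sum_mul]; ring

theorem avg_mono {f g : V → ℝ} (h : ∀ v, f v ≤ g v) : avg f ≤ avg g := by
  unfold avg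
  exact mul_le_mul_of_nonneg_left (sum_le_sum fun v _ => h v) (by positivity)

theorem avg_nonneg {f : V → ℝ} (h : ∀ v, 0 ≤ f v) : 0 ≤ avg f := by
  unfold avg
  exact mul_nonneg (by positivity) (sum_nonneg fun v _ => h v)

theorem avg_pos {f : V → ℝ} (h : ∀ v, 0 < f v) : 0 < avg f := by
  unfold avg
  have := card_pos' (V := V)
  exact mul_pos (by positivity) (sum_pos (fun v _ => h v) univ_nonempty)

/-- Nested power means over levels `j+1..j+k`. -/
noncomputable def T (x : ℕ → ℝ) : (k : ℕ) → (j : ℕ) → ((ℕ → V) → ℝ) → (ℕ → V) → ℝ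
  | 0, _, Z => Z
  | k + 1, j, Z => fun u =>
      (avg fun v => (T x k (j + 1) Z (Function.update u (j + 1) v)) ^ (x (j + 1)))
        ^ (1 / x (j + 1))

/-- The weight of the value `v` at level `j+1`. -/
noncomputable def w (x : ℕ → ℝ) (k j : ℕ) (Z : (ℕ → V) → ℝ) (u : ℕ → V) (v : V) : ℝ :=
  (T x k (j + 1) Z (Function.update u (j + 1) v)) ^ (x (j + 1)) /
    avg fun v' => (T x k (j + 1) Z (Function.update u (j + 1) v')) ^ (x (j + 1))

/-- Resampling the levels `j+1..j+k`. -/
noncomputable def K (x : ℕ → ℝ) : (k : ℕ) → (j : ℕ) → ((ℕ → V) → ℝ) → ((ℕ → V) → ℝ) →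
    (ℕ → V) → ℝ
  | 0, _, _, Φ => Φ
  | k + 1, j, Z, Φ => fun u =>
      avg fun v => w x k j Z u v * K x k (j + 1) Z Φ (Function.update u (j + 1) v)

/-- `g` does not depend on the coordinates `j+1..j+k`. -/
def Inv (k j : ℕ) (g : (ℕ → V) → ℝ) : Prop :=
  ∀ i v u, j < i → i ≤ j + k → g (Function.update u i v) = g u

theorem T_pos (x : ℕ → ℝ) (Z : (ℕ → V) → ℝ) (hZ : ∀ u, 0 < Z u) (k : ℕ) :
    ∀ j u, 0 < T x k j Z u := by
  induction k with
  | zero => intro j u; exact hZ u
  | succ k ih =>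
    intro j u
    exact Real.rpow_pos_of_pos (avg_pos fun v => Real.rpow_pos_of_pos (ih _ _) _) _

theorem T_inv (x : ℕ → ℝ) (Z : (ℕ → V) → ℝ) (k : ℕ) :
    ∀ j, Inv k j (T x k j Z) := by
  induction k with
  | zero => intro j i v u h1 h2; omega
  | succ k ih =>
    intro j i v u h1 h2
    simp only [T]
    congr 2
    funext v'
    by_cases hi : i = j + 1
    · subst hi
      rw [Function.update_idem]
    · rw [Function.update_comm (Ne.symm (Ne.intro fun h => hi h.symm) : (i) ≠ j + 1)]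
      rw [ih (j + 1) i v _ (by omega) (by omega)]

theorem w_pos (x : ℕ → ℝ) (Z : (ℕ → V) → ℝ) (hZ : ∀ u, 0 < Z u) (k j : ℕ) (u : ℕ → V) (v : V) :
    0 < w x k j Z u v :=
  div_pos (Real.rpow_pos_of_pos (T_pos x Z hZ _ _ _) _)
    (avg_pos fun v => Real.rpow_pos_of_pos (T_pos x Z hZ _ _ _) _)

theorem w_avg (x : ℕ → ℝ) (Z : (ℕ → V) → ℝ) (hZ : ∀ u, 0 < Z u) (k j : ℕ) (u : ℕ → V) :
    avg (w x k j Z u) = 1 := by
  have h : 0 < avg fun v' => (T x k (j + 1) Z (Function.update u (j + 1) v')) ^ (x (j + 1)) :=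
    avg_pos fun v => Real.rpow_pos_of_pos (T_pos x Z hZ _ _ _) _
  have : w x k j Z u = fun v => (T x k (j + 1) Z (Function.update u (j + 1) v)) ^ (x (j + 1)) *
      (avg fun v' => (T x k (j + 1) Z (Function.update u (j + 1) v')) ^ (x (j + 1)))⁻¹ := by
    funext v; unfold w; rw [div_eq_mul_inv]
  rw [this, avg_mul_right]
  exact mul_inv_cancel₀ h.ne'

theorem w_inv (x : ℕ → ℝ) (Z : (ℕ → V) → ℝ) (k j i : ℕ) (v' : V) (u : ℕ → V)
    (h1 : j < i) (h2 : i ≤ j + (k + 1)) (v : V) :
    w x k j Z (Function.update u i v') v = w x k j Z u v := by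
  have key : ∀ v, T x k (j + 1) Z (Function.update (Function.update u i v') (j + 1) v) =
      T x k (j + 1) Z (Function.update u (j + 1) v) := by
    intro v
    by_cases hi : i = j + 1
    · subst hi
      rw [Function.update_idem]
    · rw [Function.update_comm hi]
      rw [T_inv x Z k (j + 1) i v' _ (by omega) (by omega)]
  unfold w
  simp only [key]

theorem K_inv (x : ℕ → ℝ) (Z Φ : (ℕ → V) → ℝ) (k : ℕ) :
    ∀ j, Inv k j (K x k j Z Φ) := by
  induction k with
  | zero => intro j i v u h1 h2; omega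
  | succ k ih =>
    intro j i v' u h1 h2
    simp only [K]
    congr 1
    funext v
    rw [w_inv x Z k j i v' u h1 h2]
    congr 1
    by_cases hi : i = j + 1
    · subst hi
      rw [Function.update_idem]
    · rw [Function.update_comm hi]
      rw [ih (j + 1) i v' _ (by omega) (by omega)]

theorem K_add (x : ℕ → ℝ) (Z Φ Ψ : (ℕ → V) → ℝ) (k : ℕ) :
    ∀ j u, K x k j Z (fun u => Φ u + Ψ u) u = K x k j Z Φ u + K x k j Z Ψ u := by
  induction k with
  | zero => intro j u; rfl
  | succ k ih =>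
    intro j u
    simp only [K, ih, mul_add, avg_add]

theorem K_sub (x : ℕ → ℝ) (Z Φ Ψ : (ℕ → V) → ℝ) (k : ℕ) :
    ∀ j u, K x k j Z (fun u => Φ u - Ψ u) u = K x k j Z Φ u - K x k j Z Ψ u := by
  induction k with
  | zero => intro j u; rfl
  | succ k ih =>
    intro j u
    simp only [K, ih, mul_sub, avg_sub]

theorem K_const (x : ℕ → ℝ) (Z : (ℕ → V) → ℝ) (hZ : ∀ u, 0 < Z u) (c : ℝ) (k : ℕ) :
    ∀ j u, K x k j Z (fun _ => c) u = c := by
  induction k with
  | zero => intro j u; rfl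
  | succ k ih =>
    intro j u
    simp only [K, ih]
    rw [avg_mul_right, w_avg x Z hZ, one_mul]

theorem K_mono (x : ℕ → ℝ) (Z : (ℕ → V) → ℝ) (hZ : ∀ u, 0 < Z u) (k : ℕ) :
    ∀ (Φ Ψ : (ℕ → V) → ℝ), (∀ u, Φ u ≤ Ψ u) → ∀ j u, K x k j Z Φ u ≤ K x k j Z Ψ u := by
  induction k with
  | zero => intro Φ Ψ h j u; exact h u
  | succ k ih =>
    intro Φ Ψ h j u
    simp only [K]
    exact avg_mono fun v => mul_le_mul_of_nonneg_left (ih Φ Ψ h _ _) (w_pos x Z hZ k j u v).le

/-- Pull out what does not depend on the resampled coordinates. -/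
theorem K_mul_left (x : ℕ → ℝ) (Z Φ : (ℕ → V) → ℝ) (k : ℕ) :
    ∀ j (g : (ℕ → V) → ℝ), Inv k j g →
      ∀ u, K x k j Z (fun u => g u * Φ u) u = g u * K x k j Z Φ u := by
  induction k with
  | zero => intro j g _ u; rfl
  | succ k ih =>
    intro j g hg u
    simp only [K]
    rw [← avg_mul_left]
    congr 1
    funext v
    rw [ih (j + 1) g (fun i v u h1 h2 => hg i v u (by omega) (by omega)),
      hg (j + 1) v u (by omega) (by omega)]
    ring

theorem K_const_mul (x : ℕ → ℝ) (Z Φ : (ℕ → V) → ℝ) (k : ℕ) (c : ℝ) (j : ℕ) (u : ℕ → V) :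
    K x k j Z (fun u => c * Φ u) u = c * K x k j Z Φ u :=
  K_mul_left x Z Φ k j (fun _ => c) (fun _ _ _ _ _ => rfl) u

theorem K_sum {ι : Type*} (s : Finset ι) (x : ℕ → ℝ) (Z : (ℕ → V) → ℝ) (Φ : ι → (ℕ → V) → ℝ)
    (k j : ℕ) (u : ℕ → V) :
    K x k j Z (fun u => ∑ i ∈ s, Φ i u) u = ∑ i ∈ s, K x k j Z (Φ i) u := by
  classical
  induction s using Finset.induction_on with
  | empty =>
    simp only [sum_empty]
    have := K_const_mul x Z (fun _ => (0 : ℝ)) k 0 j u
    simpa using this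
  | insert a s ha ih =>
    simp only [sum_insert ha]
    rw [K_add, ih]

end Crest.Agent.MP
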