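import Crest.Agent.MP.Defs
import Crest.Agent.MP.UTree

/-!
# Bridge: `powerMeans` over unit intervals = finite power means `T`

For `F : (L → Fin (r+1) → Fin K) → ℝ` positive:
* `∫ v : L → unitInterval, g (fun ω => cell K (v ω)) ∂(Measure.pi fun _ => volume) = avg g`
  (`avg` over `L → Fin K`; the push-forward of `volume` under `cell K` is uniform on `Fin K`,
  `Measure.pi_map_pi`).
* hence `pmStep m lvl (F ∘ cells) u = (F' (cells u))` with
  `F' w = (avg fun v : L → Fin K => (F (fun ω j => if j = lvl then v ω else w ω j)) ^ m) ^ (1/m)`.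
* unfold `powerMeans` (`List.finRange`, foldr) by induction: the operator of the levels
  `j+1, …, r` applied to `F ∘ cells` is `T (lev m) (r-j) j F̃` with `F̃ u = F (fun ω j => u j ω)`
  evaluated at any `u : ℕ → (L → Fin K)` with `u j ω = cell (u' ω j)` for `j ≤ r`.
-/

set_option autoImplicit false

namespace Crest.Agent.MP

open MeasureTheory
open Crest.ProbabilityR.Diluted

namespace UBr

theorem measurable_cell (K : ℕ) (hK : 0 < K) : Measurable (cell K hK) := by
  refine measurable_to_countable' fun i => ?_
  have : cell K hK ⁻¹' {i} = {u : unitInterval | min ⌊(K : ℝ) * (u : ℝ)⌋₊ (K - 1) = (i : ℕ)} := by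
    ext u
    simp [cell, Fin.ext_iff]
  rw [this]
  have hm : Measurable (fun u : unitInterval => min ⌊(K : ℝ) * (u : ℝ)⌋₊ (K - 1)) := by
    refine Measurable.min ?_ measurable_const
    exact Nat.measurable_floor.comp (measurable_const.mul measurable_subtype_coe)
  exact hm (measurableSet_singleton _)

theorem volume_cell (K : ℕ) (hK : 0 < K) (i : Fin K) :
    (volume : Measure unitInterval) (cell K hK ⁻¹' {i}) = ENNReal.ofReal (1 / (K : ℝ)) := by
  have hKr : (0 : ℝ) < K := by exact_mod_cast hK
  have hi : ((i : ℕ) : ℝ) < K := by exact_mod_cast i.2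
  have hi1 : ((i : ℕ) : ℝ) + 1 ≤ K := by exact_mod_cast i.2
  have ha : ((i : ℕ) : ℝ) / K ∈ unitInterval := ⟨by positivity, by rw [div_le_one hKr]; linarith⟩
  have hb : (((i : ℕ) : ℝ) + 1) / K ∈ unitInterval := ⟨by positivity, by rw [div_le_one hKr]; linarith⟩
  by_cases h : (i : ℕ) < K - 1
  · have : cell K hK ⁻¹' {i} = Set.Ico (⟨_, ha⟩ : unitInterval) ⟨_, hb⟩ := by
      ext u
      simp only [cell, Set.mem_preimage, Set.mem_singleton_iff, Fin.ext_iff, Set.mem_Ico,
        ← Subtype.coe_le_coe, ← Subtype.coe_lt_coe]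
      have h0 : 0 ≤ (K : ℝ) * (u : ℝ) := mul_nonneg hKr.le u.2.1
      rw [div_le_iff₀ hKr, lt_div_iff₀ hKr]
      constructor
      · intro hu
        have hu' : ⌊(K : ℝ) * (u : ℝ)⌋₊ = (i : ℕ) := by omega
        rw [Nat.floor_eq_iff h0] at hu'
        constructor <;> nlinarith [hu'.1, hu'.2]
      · intro hu
        have hu' : ⌊(K : ℝ) * (u : ℝ)⌋₊ = (i : ℕ) := by
          rw [Nat.floor_eq_iff h0]
          constructor <;> nlinarith [hu.1, hu.2]
        omega
    rw [this, unitInterval.volume_Ico]
    congr 1
    simp only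
    ring
  · have hiK : (i : ℕ) = K - 1 := by omega
    have hiK' : ((i : ℕ) : ℝ) + 1 = K := by
      have : (i : ℕ) + 1 = K := by omega
      exact_mod_cast this
    have : cell K hK ⁻¹' {i} = Set.Ici (⟨_, ha⟩ : unitInterval) := by
      ext u
      simp only [cell, Set.mem_preimage, Set.mem_singleton_iff, Fin.ext_iff, Set.mem_Ici,
        ← Subtype.coe_le_coe]
      have h0 : 0 ≤ (K : ℝ) * (u : ℝ) := mul_nonneg hKr.le u.2.1
      rw [div_le_iff₀ hKr]
      constructor
      · intro hu
        have hu' : (i : ℕ) ≤ ⌊(K : ℝ) * (u : ℝ)⌋₊ := by omega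
        rw [Nat.le_floor_iff h0] at hu'
        nlinarith
      · intro hu
        have hu' : (i : ℕ) ≤ ⌊(K : ℝ) * (u : ℝ)⌋₊ := by
          rw [Nat.le_floor_iff h0]
          nlinarith
        omega
    rw [this, unitInterval.volume_Ici]
    congr 1
    simp only
    field_simp
    linarith

/-- Integrals of functions of independent uniform values. -/
theorem integral_uniform {E : Type} [MeasurableSpace E] (P : Measure E) [IsProbabilityMeasure P]
    {K : ℕ} (hK : 0 < K) (φ : E → Fin K) (hφ : Measurable φ)
    (hu : ∀ i, P (φ ⁻¹' {i}) = ENNReal.ofReal (1 / (K : ℝ)))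
    {L : Type} [Fintype L] [DecidableEq L] (g : (L → Fin K) → ℝ) :
    ∫ v : L → E, g (fun ω => φ (v ω)) ∂(Measure.pi fun _ : L => P) = avg g := by
  have hprob : IsProbabilityMeasure (P.map φ) := Measure.isProbabilityMeasure_map hφ.aemeasurable
  have hmap : (Measure.pi fun _ : L => P).map (fun v ω => φ (v ω)) =
      Measure.pi (fun _ : L => P.map φ) :=
    Measure.pi_map_pi (μ := fun _ : L => P) (f := fun _ => φ) (fun _ => hφ.aemeasurable)
  have hmeas : Measurable (fun (v : L → E) ω => φ (v ω)) :=
    measurable_pi_lambda _ fun ω => hφ.comp (measurable_pi_apply ω)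
  have h1 : ∫ v : L → E, g (fun ω => φ (v ω)) ∂(Measure.pi fun _ : L => P) =
      ∫ w, g w ∂((Measure.pi fun _ : L => P).map (fun v ω => φ (v ω))) := by
    rw [integral_map hmeas.aemeasurable]
    exact (measurable_of_countable g).aestronglyMeasurable
  rw [h1, hmap, integral_fintype _]
  unfold avg
  rw [Finset.mul_sum]
  refine Finset.sum_congr rfl fun w _ => ?_
  have hw : (Measure.pi fun _ : L => P.map φ).real {w} = (Fintype.card (L → Fin K) : ℝ)⁻¹ := by
    rw [Measure.real, Measure.pi_singleton]
    have : ∀ i : L, (P.map φ) {w i} = ENNReal.ofReal (1 / (K : ℝ)) := by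
      intro i
      rw [Measure.map_apply hφ (measurableSet_singleton _), hu]
    simp only [this, Finset.prod_const, Finset.card_univ, ENNReal.toReal_pow]
    rw [ENNReal.toReal_ofReal (by positivity), Fintype.card_fun, Fintype.card_fin]
    push_cast
    rw [one_div, inv_pow]
  rw [hw, smul_eq_mul]
  exact Integrable.of_finite

variable {r K : ℕ} {L : Type} [Fintype L] [DecidableEq L]

/-- Discrete power mean step. -/
noncomputable def pmD (m : ℝ) (lvl : Fin (r + 1)) (F : (L → Fin (r + 1) → Fin K) → ℝ)
    (w : L → Fin (r + 1) → Fin K) : ℝ :=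
  (avg fun v : L → Fin K => (F (fun ω j => if j = lvl then v ω else w ω j)) ^ m) ^ (1 / m)

theorem pmStep_cells (hK : 0 < K) (m : ℝ) (lvl : Fin (r + 1))
    (F : (L → Fin (r + 1) → Fin K) → ℝ) :
    pmStep m lvl (fun u' : L → Fin (r + 1) → unitInterval => F (fun ω j => cell K hK (u' ω j))) =
      fun u' => pmD m lvl F (fun ω j => cell K hK (u' ω j)) := by
  funext u
  unfold pmStep pmD
  congr 1
  rw [← integral_uniform (volume : Measure unitInterval) hK (cell K hK) (measurable_cell K hK)
    (volume_cell K hK) (fun v : L → Fin K =>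
      (F (fun ω j => if j = lvl then v ω else cell K hK (u ω j))) ^ m)]
  congr 1
  funext v
  congr 1
  show F _ = F _
  congr 1
  funext ω j
  by_cases h : j = lvl
  · simp only [h, if_true]
  · simp only [h, if_false]

theorem foldr_cells (hK : 0 < K) (m : Fin r → ℝ) (F : (L → Fin (r + 1) → Fin K) → ℝ)
    (l : List (Fin r)) :
    l.foldr (fun d acc => pmStep (m d) d.succ acc)
      (fun u' : L → Fin (r + 1) → unitInterval => F (fun ω j => cell K hK (u' ω j))) =
      fun u' => (l.foldr (fun d acc => pmD (m d) d.succ acc) F) (fun ω j => cell K hK (u' ω j)) := by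
  induction l with
  | nil => rfl
  | cons d l ih =>
    simp only [List.foldr_cons]
    rw [ih, pmStep_cells]

/-- The foldr over the levels `j+1..r` is `T`. -/
theorem foldr_T (m : Fin r → ℝ) (F : (L → Fin (r + 1) → Fin K) → ℝ) (k : ℕ) :
    ∀ j, j + k = r → ∀ (w : L → Fin (r + 1) → Fin K) (u : ℕ → (L → Fin K)),
      (∀ ω (i : Fin (r + 1)), u i ω = w ω i) →
      (((List.finRange r).drop j).foldr (fun d acc => pmD (m d) d.succ acc) F) w =
        T (lev m) k j (fun u : ℕ → (L → Fin K) => F (fun ω j => u (j : ℕ) ω)) u := by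
  induction k with
  | zero =>
    intro j hj w u hu
    rw [List.drop_eq_nil_of_le (by simp; omega)]
    simp only [List.foldr_nil, T]
    congr 1
    funext ω i
    exact (hu ω i).symm
  | succ k ih =>
    intro j hj w u hu
    have hjr : j < r := by omega
    rw [List.drop_eq_getElem_cons (by simpa using hjr)]
    simp only [List.foldr_cons, List.getElem_finRange, Fin.cast_mk, T]
    have hlev : lev m (j + 1) = m ⟨j, hjr⟩ := by
      unfold lev
      simp [hjr]
    rw [hlev]
    unfold pmD
    congr 2
    funext v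
    congr 1
    refine ih (j + 1) (by omega) _ _ ?_
    intro ω i
    by_cases hi : (i : ℕ) = j + 1
    · have : i = Fin.succ ⟨j, hjr⟩ := by
        apply Fin.ext; simp [hi]
      subst this
      simp
    · have : i ≠ Fin.succ ⟨j, hjr⟩ := by
        intro h; apply hi; rw [h]; simp
      rw [Function.update_of_ne hi, if_neg this]
      exact hu ω i

/-- `T x k j Z` depends only on the coordinates `≤ j` if `Z` depends on the coordinates
`≤ j + k`. -/
theorem T_dep {V : Type*} [Fintype V] (x : ℕ → ℝ) (Z : (ℕ → V) → ℝ) (k : ℕ) :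
    ∀ j, (∀ u u' : ℕ → V, (∀ i, i ≤ j + k → u i = u' i) → Z u = Z u') →
      ∀ u u' : ℕ → V, (∀ i, i ≤ j → u i = u' i) → T x k j Z u = T x k j Z u' := by
  induction k with
  | zero => intro j hZ u u' h; exact hZ u u' h
  | succ k ih =>
    intro j hZ u u' h
    simp only [T]
    congr 2
    funext v
    congr 1
    refine ih (j + 1) (fun u u' h' => hZ u u' fun i hi => h' i (by omega)) _ _ ?_
    intro i hi
    by_cases hij : i = j + 1
    · subst hij; simp
    · rw [Function.update_of_ne hij, Function.update_of_ne hij]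
      exact h i (by omega)

end UBr

open UBr in
theorem bridge (r K : ℕ) (hK : 0 < K) (m : Fin r → ℝ) (hm : AdmissibleExponents m)
    {L : Type} [Fintype L] [DecidableEq L]
    (F : (L → Fin (r + 1) → Fin K) → ℝ) (hF : ∀ c, 0 < F c) :
    ∫ u, Real.log (powerMeans m (fun u' : L → Fin (r + 1) → unitInterval =>
        F (fun ω j => cell K hK (u' ω j))) u) ∂(uniformArrays L r) =
      avg (fun v : L → Fin K =>
        Real.log (T (lev m) r 0 (fun u : ℕ → (L → Fin K) => F (fun ω j => u (j : ℕ) ω))
          (fun _ => v))) := by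
  have key : ∀ u : L → Fin (r + 1) → unitInterval,
      powerMeans m (fun u' : L → Fin (r + 1) → unitInterval =>
        F (fun ω j => cell K hK (u' ω j))) u =
      T (lev m) r 0 (fun u : ℕ → (L → Fin K) => F (fun ω j => u (j : ℕ) ω))
        (fun _ ω => cell K hK (u ω 0)) := by
    intro u
    unfold powerMeans
    rw [foldr_cells]
    show (List.foldr (fun d acc => pmD (m d) d.succ acc) F (List.finRange r))
      (fun ω j => cell K hK (u ω j)) = _
    have h1 := foldr_T m F r 0 (by omega) (fun ω j => cell K hK (u ω j))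
      (fun i ω => cell K hK (if h : i < r + 1 then u ω ⟨i, h⟩ else u ω 0))
      (by
        intro ω i
        have := i.2
        simp only [this, dif_pos])
    rw [List.drop_zero] at h1
    rw [h1]
    refine T_dep (lev m) _ r 0 ?_ _ _ ?_
    · intro u u' h
      congr 1
      funext ω i
      rw [h i (by omega)]
    · intro i hi
      have : i = 0 := by omega
      subst this
      funext ω
      simp
  simp only [key]
  unfold uniformArrays
  have hphi : Measurable (fun x : Fin (r + 1) → unitInterval => cell K hK (x 0)) :=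
    (measurable_cell K hK).comp (measurable_pi_apply 0)
  refine integral_uniform (Measure.pi fun _ : Fin (r + 1) => (volume : Measure unitInterval)) hK
    (fun x : Fin (r + 1) → unitInterval => cell K hK (x 0)) hphi ?_
    (fun v : L → Fin K => Real.log (T (lev m) r 0
      (fun u : ℕ → (L → Fin K) => F (fun ω j => u (j : ℕ) ω)) (fun _ => v)))
  intro i
  have := (measurePreserving_eval (fun _ : Fin (r + 1) => (volume : Measure unitInterval)) 0)
  have h2 := this.measure_preimage ((measurable_cell K hK) (measurableSet_singleton i)).nullMeasurableSet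
  rw [volume_cell] at h2
  rw [← h2]
  rfl

end Crest.Agent.MP
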