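import Crest.Agent.MP.Defs

/-!
# Module U (upper bound), interface definitions (§7, §8, §11)
-/

set_option autoImplicit false

namespace Crest.Agent.MP

open MeasureTheory Filter Topology
open Crest.ProbabilityR.Diluted

/-- Factorised finite interaction law: `e^θ = 1 + b Π_ℓ f_ℓ(s_ℓ)`. -/
structure FactLaw (p : ℕ) where
  b : FinLaw ℝ
  f : FinLaw (Bool → ℝ)
  δ : ℝ
  δ_pos : 0 < δ
  bound : ∀ (i : b.ι) (j : Fin p → f.ι) (s : Fin p → Bool),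
    |b.x i * ∏ ℓ, f.x (j ℓ) (s ℓ)| ≤ 1 - δ
  moment : ∀ n : ℕ, 1 ≤ n → 0 ≤ b.E (fun y => (-y) ^ n)

/-- The interaction law of a factorised law. -/
noncomputable def FactLaw.toLaw {p : ℕ} (φ : FactLaw p) : FinLaw (Inter p) where
  ι := φ.b.ι × (Fin p → φ.f.ι)
  fin := inferInstance
  w := fun i => φ.b.w i.1 * ∏ ℓ, φ.f.w (i.2 ℓ)
  x := fun i s => Real.log (1 + φ.b.x i.1 * ∏ ℓ, φ.f.x (i.2 ℓ) (s ℓ))
  w_nonneg := fun i => mul_nonneg (φ.b.w_nonneg _) (Finset.prod_nonneg fun ℓ _ => φ.f.w_nonneg _)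
  w_sum := by
    rw [Fintype.sum_prod_type]
    simp_rw [← Finset.mul_sum]
    have : ∑ j : Fin p → φ.f.ι, ∏ ℓ, φ.f.w (j ℓ) = 1 := by
      rw [← Fintype.piFinset_univ, ← Finset.prod_univ_sum]
      simp [φ.f.w_sum]
    rw [this]
    simp [φ.b.w_sum]

/-- A factorised law is symmetric in the `p` slots. -/
theorem FactLaw.sym {p : ℕ} (φ : FactLaw p) (π : Equiv.Perm (Fin p)) (f : Inter p → ℝ) :
    φ.toLaw.E (fun θ => f (fun c => θ (fun i => c (π i)))) = φ.toLaw.E f := by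
  classical
  unfold FinLaw.E
  refine Fintype.sum_equiv
    ((Equiv.refl φ.b.ι).prodCongr (Equiv.arrowCongr π (Equiv.refl φ.f.ι))) _ _ ?_
  rintro ⟨i, j⟩
  have hw : ∏ ℓ, φ.f.w (j ℓ) = ∏ ℓ, φ.f.w (j (π.symm ℓ)) :=
    (Equiv.prod_comp π.symm (fun ℓ => φ.f.w (j ℓ))).symm
  have hx : ∀ c : Fin p → Bool,
      ∏ ℓ, φ.f.x (j ℓ) (c (π ℓ)) = ∏ ℓ, φ.f.x (j (π.symm ℓ)) (c ℓ) := by
    intro c
    have := (Equiv.prod_comp π.symm (fun ℓ => φ.f.x (j ℓ) (c (π ℓ)))).symm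
    simpa using this
  simp only [FactLaw.toLaw, Equiv.prodCongr_apply, Prod.map, Equiv.refl_apply,
    Equiv.arrowCongr_apply, Function.comp, Equiv.coe_refl, id]
  rw [hw]
  simp only [hx]

end Crest.Agent.MP
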