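import Crest.Agent.MP.UTree

/-!
# Tree calculus: derivatives in the weight `Z`
-/

set_option autoImplicit false
set_option linter.unusedSectionVars false
set_option linter.unusedVariables false

namespace Crest.Agent.MP

open Finset

variable {V : Type*} [Fintype V] [Nonempty V]

theorem hasDerivAt_avg {F : ℝ → V → ℝ} {F' : V → ℝ} {t : ℝ}
    (h : ∀ v, HasDerivAt (fun t => F t v) (F' v) t) :
    HasDerivAt (fun t => avg (F t)) (avg F') t := by
  unfold avg
  exact (HasDerivAt.fun_sum fun v _ => h v).const_mul _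

/-- Logarithmic derivative of `T`. -/
theorem hasDerivAt_T (x : ℕ → ℝ) (hx : ∀ i, 0 < x (i + 1)) (Z : ℝ → (ℕ → V) → ℝ) (t : ℝ)
    (hZ : ∀ u, 0 < Z t u) (Y : (ℕ → V) → ℝ)
    (hY : ∀ u, HasDerivAt (fun t => Z t u) (Z t u * Y u) t) (k : ℕ) :
    ∀ j u, HasDerivAt (fun t => T x k j (Z t) u) (T x k j (Z t) u * K x k j (Z t) Y u) t := by
  induction k with
  | zero => intro j u; exact hY u
  | succ k ih =>
    intro j u
    set X := x (j + 1) with hX
    have hX0 : 0 < X := hx j
    have hpos : ∀ v, 0 < T x k (j + 1) (Z t) (Function.update u (j + 1) v) :=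
      fun v => T_pos x (Z t) hZ _ _ _
    set G : ℝ → ℝ := fun t => avg fun v =>
      (T x k (j + 1) (Z t) (Function.update u (j + 1) v)) ^ X with hG
    have hGpos : 0 < G t := avg_pos fun v => Real.rpow_pos_of_pos (hpos v) _
    have h1 : ∀ v, HasDerivAt (fun t => (T x k (j + 1) (Z t) (Function.update u (j + 1) v)) ^ X)
        (X * ((T x k (j + 1) (Z t) (Function.update u (j + 1) v)) ^ X *
          K x k (j + 1) (Z t) Y (Function.update u (j + 1) v))) t := by
      intro v
      have := (ih (j + 1) (Function.update u (j + 1) v)).rpow_const (p := X)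
        (Or.inl (hpos v).ne')
      refine this.congr_deriv ?_
      have hne := (hpos v).ne'
      rw [Real.rpow_sub (hpos v), Real.rpow_one]
      field_simp
    have h2 : HasDerivAt G (avg fun v => X * ((T x k (j + 1) (Z t) (Function.update u (j + 1) v)) ^ X *
          K x k (j + 1) (Z t) Y (Function.update u (j + 1) v))) t := hasDerivAt_avg h1
    have h3 := h2.rpow_const (p := 1 / X) (Or.inl hGpos.ne')
    have e1 : (fun t => T x (k + 1) j (Z t) u) = fun t => G t ^ (1 / X) := rfl
    rw [e1]
    refine h3.congr_deriv ?_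
    symm
    have e2 : K x (k + 1) j (Z t) Y u = (avg fun v =>
        (T x k (j + 1) (Z t) (Function.update u (j + 1) v)) ^ X *
          K x k (j + 1) (Z t) Y (Function.update u (j + 1) v)) / G t := by
      simp only [K, w]
      rw [div_eq_mul_inv, ← avg_mul_right]
      congr 1
      funext v
      rw [div_eq_mul_inv]
      ring
    have e3 : T x (k + 1) j (Z t) u = G t ^ (1 / X) := rfl
    rw [e2, e3, avg_mul_left, Real.rpow_sub hGpos, Real.rpow_one]
    field_simp

/-- Derivative of the weight `w`. -/
theorem hasDerivAt_w (x : ℕ → ℝ) (hx : ∀ i, 0 < x (i + 1)) (Z : ℝ → (ℕ → V) → ℝ) (t : ℝ)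
    (hZ : ∀ u, 0 < Z t u) (Y : (ℕ → V) → ℝ)
    (hY : ∀ u, HasDerivAt (fun t => Z t u) (Z t u * Y u) t) (k j : ℕ) (u : ℕ → V) (v : V) :
    HasDerivAt (fun t => w x k j (Z t) u v)
      (w x k j (Z t) u v * (x (j + 1) * (K x k (j + 1) (Z t) Y (Function.update u (j + 1) v) -
        K x (k + 1) j (Z t) Y u))) t := by
  set X := x (j + 1) with hX
  have hX0 : 0 < X := hx j
  have hpos : ∀ v, 0 < T x k (j + 1) (Z t) (Function.update u (j + 1) v) :=
    fun v => T_pos x (Z t) hZ _ _ _
  set G : ℝ → ℝ := fun t => avg fun v =>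
    (T x k (j + 1) (Z t) (Function.update u (j + 1) v)) ^ X with hG
  have hGpos : 0 < G t := avg_pos fun v => Real.rpow_pos_of_pos (hpos v) _
  have h1 : ∀ v, HasDerivAt (fun t => (T x k (j + 1) (Z t) (Function.update u (j + 1) v)) ^ X)
      (X * ((T x k (j + 1) (Z t) (Function.update u (j + 1) v)) ^ X *
        K x k (j + 1) (Z t) Y (Function.update u (j + 1) v))) t := by
    intro v
    have := (hasDerivAt_T x hx Z t hZ Y hY k (j + 1) (Function.update u (j + 1) v)).rpow_const
      (p := X) (Or.inl (hpos v).ne')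
    refine this.congr_deriv ?_
    have hne := (hpos v).ne'
    rw [Real.rpow_sub (hpos v), Real.rpow_one]
    field_simp
  have h2 : HasDerivAt G (avg fun v => X * ((T x k (j + 1) (Z t) (Function.update u (j + 1) v)) ^ X *
        K x k (j + 1) (Z t) Y (Function.update u (j + 1) v))) t := hasDerivAt_avg h1
  have h3 := (h1 v).div h2 hGpos.ne'
  have e2 : K x (k + 1) j (Z t) Y u = (avg fun v =>
      (T x k (j + 1) (Z t) (Function.update u (j + 1) v)) ^ X *
        K x k (j + 1) (Z t) Y (Function.update u (j + 1) v)) / G t := by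
    simp only [K, w]
    rw [div_eq_mul_inv, ← avg_mul_right]
    congr 1
    funext v
    rw [div_eq_mul_inv]
    ring
  have e4 : w x k j (Z t) u v = (T x k (j + 1) (Z t) (Function.update u (j + 1) v)) ^ X / G t := rfl
  have e5 : (fun t => w x k j (Z t) u v) =
    (fun t => (T x k (j + 1) (Z t) (Function.update u (j + 1) v)) ^ X) / G := rfl
  rw [e5]
  refine h3.congr_deriv ?_
  rw [e2, e4, avg_mul_left]
  have hne := hGpos.ne'
  field_simp

/-- Score of the levels `j+1..j+k`. -/
noncomputable def S (x : ℕ → ℝ) (Z Y : (ℕ → V) → ℝ) : (k : ℕ) → (j : ℕ) → (ℕ → V) → ℝ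
  | 0, _, _ => 0
  | k + 1, j, u => x (j + 1) * (K x k (j + 1) Z Y u - K x (k + 1) j Z Y u) + S x Z Y k (j + 1) u

theorem Inv.mono {k j k' j' : ℕ} {g : (ℕ → V) → ℝ} (h : Inv k j g) (h1 : j ≤ j')
    (h2 : j' + k' ≤ j + k) : Inv k' j' g :=
  fun i v u a b => h i v u (by omega) (by omega)

theorem hasDerivAt_K (x : ℕ → ℝ) (hx : ∀ i, 0 < x (i + 1)) (Z : ℝ → (ℕ → V) → ℝ) (t : ℝ)
    (hZ : ∀ u, 0 < Z t u) (Y : (ℕ → V) → ℝ)
    (hY : ∀ u, HasDerivAt (fun t => Z t u) (Z t u * Y u) t)
    (Φ : ℝ → (ℕ → V) → ℝ) (Φ' : (ℕ → V) → ℝ)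
    (hΦ : ∀ u, HasDerivAt (fun t => Φ t u) (Φ' u) t) (k : ℕ) :
    ∀ j u, HasDerivAt (fun t => K x k j (Z t) (Φ t) u)
      (K x k j (Z t) (fun u => Φ' u + S x (Z t) Y k j u * Φ t u) u) t := by
  induction k with
  | zero =>
    intro j u
    have : K x 0 j (Z t) (fun u => Φ' u + S x (Z t) Y 0 j u * Φ t u) u = Φ' u := by
      simp [K, S]
    rw [this]
    exact hΦ u
  | succ k ih =>
    intro j u
    have h1 : ∀ v, HasDerivAt (fun t => w x k j (Z t) u v *
        K x k (j + 1) (Z t) (Φ t) (Function.update u (j + 1) v))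
        (w x k j (Z t) u v * K x k (j + 1) (Z t)
          (fun u => Φ' u + S x (Z t) Y (k + 1) j u * Φ t u) (Function.update u (j + 1) v)) t := by
      intro v
      have h := (hasDerivAt_w x hx Z t hZ Y hY k j u v).mul (ih (j + 1) (Function.update u (j + 1) v))
      refine h.congr_deriv ?_
      symm
      set g : (ℕ → V) → ℝ := fun u => x (j + 1) * (K x k (j + 1) (Z t) Y u - K x (k + 1) j (Z t) Y u)
        with hg
      have hginv : Inv k (j + 1) g := by
        intro i v u a b
        simp only [hg]
        rw [K_inv x (Z t) Y k (j + 1) i v u a b, K_inv x (Z t) Y (k + 1) j i v u (by omega) (by omega)]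
      have e1 : (fun u => Φ' u + S x (Z t) Y (k + 1) j u * Φ t u) =
          fun u => g u * Φ t u + (Φ' u + S x (Z t) Y k (j + 1) u * Φ t u) := by
        funext u
        simp only [S, hg]
        ring
      rw [e1, K_add, K_mul_left x (Z t) (Φ t) k (j + 1) g hginv]
      have e2 : g (Function.update u (j + 1) v) = x (j + 1) *
          (K x k (j + 1) (Z t) Y (Function.update u (j + 1) v) - K x (k + 1) j (Z t) Y u) := by
        simp only [hg]
        rw [K_inv x (Z t) Y (k + 1) j (j + 1) v u (by omega) (by omega)]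
      rw [e2]
      ring
    exact hasDerivAt_avg h1

/-- The increments `c J = x (J+1) - x J`. -/
noncomputable def c (x : ℕ → ℝ) (J : ℕ) : ℝ := x (J + 1) - x J

/-- **Local score identity.** -/
theorem S_eq (x : ℕ → ℝ) (Z Y : (ℕ → V) → ℝ) (R : ℕ) (hx0 : x 0 = 0) (hx1 : x (R + 1) = 1)
    (k : ℕ) :
    ∀ j, j + k = R → ∀ u, S x Z Y k j u = Y u - ∑ J ∈ range (R + 1), c x J *
      K x (R - max J j) (max J j) Z Y u := by
  induction k with
  | zero =>
    intro j hj u
    have hj' : j = R := by omega
    subst hj'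
    have : ∀ J ∈ range (j + 1), c x J * K x (j - max J j) (max J j) Z Y u = c x J * Y u := by
      intro J hJ
      have : max J j = j := by have := mem_range.1 hJ; omega
      rw [this, Nat.sub_self]
      rfl
    rw [sum_congr rfl this, ← sum_mul]
    unfold c
    rw [sum_range_sub, hx0, hx1]
    simp [S]
  | succ k ih =>
    intro j hj u
    have hk : R - j = k + 1 := by omega
    have hk' : R - (j + 1) = k := by omega
    simp only [S]
    rw [ih (j + 1) (by omega) u]
    -- compare the two sums termwise
    have key : ∑ J ∈ range (R + 1), c x J * K x (R - max J j) (max J j) Z Y u =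
        ∑ J ∈ range (R + 1), c x J * K x (R - max J (j + 1)) (max J (j + 1)) Z Y u
        - x (j + 1) * (K x k (j + 1) Z Y u - K x (k + 1) j Z Y u) := by
      have hsplit : range (R + 1) = range (j + 1) ∪ (range (R + 1)).filter (fun J => j + 1 ≤ J) := by
        ext J
        simp only [mem_union, mem_range, mem_filter]
        omega
      have hdisj : Disjoint (range (j + 1)) ((range (R + 1)).filter (fun J => j + 1 ≤ J)) := by
        rw [Finset.disjoint_left]
        intro J h1 h2
        simp only [mem_range, mem_filter] at h1 h2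
        omega
      rw [hsplit, sum_union hdisj, sum_union hdisj]
      have h1 : ∑ J ∈ range (j + 1), c x J * K x (R - max J j) (max J j) Z Y u =
          x (j + 1) * K x (k + 1) j Z Y u := by
        have : ∀ J ∈ range (j + 1), c x J * K x (R - max J j) (max J j) Z Y u =
            c x J * K x (k + 1) j Z Y u := by
          intro J hJ
          have : max J j = j := by have := mem_range.1 hJ; omega
          rw [this, hk]
        rw [sum_congr rfl this, ← sum_mul]
        unfold c
        rw [sum_range_sub, hx0, sub_zero]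
      have h2 : ∑ J ∈ range (j + 1), c x J * K x (R - max J (j + 1)) (max J (j + 1)) Z Y u =
          x (j + 1) * K x k (j + 1) Z Y u := by
        have : ∀ J ∈ range (j + 1), c x J * K x (R - max J (j + 1)) (max J (j + 1)) Z Y u =
            c x J * K x k (j + 1) Z Y u := by
          intro J hJ
          have : max J (j + 1) = j + 1 := by have := mem_range.1 hJ; omega
          rw [this, hk']
        rw [sum_congr rfl this, ← sum_mul]
        unfold c
        rw [sum_range_sub, hx0, sub_zero]
      have h3 : ∑ J ∈ (range (R + 1)).filter (fun J => j + 1 ≤ J),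
            c x J * K x (R - max J j) (max J j) Z Y u =
          ∑ J ∈ (range (R + 1)).filter (fun J => j + 1 ≤ J),
            c x J * K x (R - max J (j + 1)) (max J (j + 1)) Z Y u := by
        apply sum_congr rfl
        intro J hJ
        simp only [mem_range, mem_filter] at hJ
        have a : max J j = J := by omega
        have b : max J (j + 1) = J := by omega
        rw [a, b]
      rw [h1, h2, h3]
      ring
    rw [key]
    ring

end Crest.Agent.MP
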