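import Mathlib
import Crest.Prelude.Def_DilutedSpinGlass

/-!
# Poisson thinning (abstract)

`u k m = ∑_{i ≤ k} C(k,i) (1-q)^(k-i) q^i u 0 (m+i)` by induction on `k` (Pascal), hence
`∑_k Pois_λ(k) u k 0 = ∑_i (∑_{k ≥ i} Pois_λ(k) C(k,i) (1-q)^(k-i) q^i) u 0 i = ∑_i Pois_{λ q}(i) u 0 i`
(absolutely convergent double series, `tsum_comm`-type argument; the inner sum is
`e^{-λ} (λ q)^i / i! * ∑_j (λ (1-q))^j / j!`).
-/

set_option autoImplicit false

namespace Crest.Agent.MP

open Crest.ProbabilityR.Diluted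

theorem uthin_hasSum_exp (x : ℝ) : HasSum (fun n : ℕ => x ^ n / (n.factorial : ℝ)) (Real.exp x) := by
  rw [Real.exp_eq_exp_ℝ]
  exact NormedSpace.expSeries_div_hasSum_exp x

theorem uthin_summable_aux (a : ℕ → ℝ) (C : ℝ) (ha : ∀ m : ℕ, |a m| ≤ C * (1 + m)) (x : ℝ)
    (hx : 0 ≤ x) : Summable (fun m : ℕ => ‖x ^ m / (m.factorial : ℝ) * a m‖) := by
  have hC : 0 ≤ C := by
    have := ha 0
    simp at this
    exact (abs_nonneg _).trans this
  have hs : Summable (fun m : ℕ => C * ((2 * x) ^ m / (m.factorial : ℝ))) :=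
    (uthin_hasSum_exp (2 * x)).summable.mul_left C
  refine hs.of_nonneg_of_le (fun m => norm_nonneg _) fun m => ?_
  have h1 : (1 + m : ℝ) ≤ 2 ^ m := by
    have : m + 1 ≤ 2 ^ m := Nat.lt_two_pow_self
    have h2 : ((m + 1 : ℕ) : ℝ) ≤ ((2 ^ m : ℕ) : ℝ) := by exact_mod_cast this
    push_cast at h2
    linarith
  have h3 : |a m| ≤ C * 2 ^ m := (ha m).trans (mul_le_mul_of_nonneg_left h1 hC)
  have hp : (0 : ℝ) ≤ x ^ m / (m.factorial : ℝ) := by positivity
  rw [norm_mul, Real.norm_eq_abs, Real.norm_eq_abs, abs_of_nonneg hp]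
  calc x ^ m / (m.factorial : ℝ) * |a m| ≤ x ^ m / (m.factorial : ℝ) * (C * 2 ^ m) :=
        mul_le_mul_of_nonneg_left h3 hp
    _ = C * ((2 * x) ^ m / (m.factorial : ℝ)) := by rw [mul_pow]; ring

theorem uthin_formula (u : ℕ → ℕ → ℝ) (q : ℝ)
    (rec : ∀ k m, u (k + 1) m = (1 - q) * u k m + q * u k (m + 1)) (k : ℕ) : ∀ m : ℕ,
    u k m = ∑ ij ∈ Finset.HasAntidiagonal.antidiagonal k,
      (k.choose ij.1 : ℝ) * (q ^ ij.1 * (1 - q) ^ ij.2 * u 0 (m + ij.1)) := by
  induction k with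
  | zero => intro m; simp
  | succ k ih =>
    intro m
    rw [Finset.sum_antidiagonal_choose_succ_mul
      (fun i j => q ^ i * (1 - q) ^ j * u 0 (m + i)), rec, ih m, ih (m + 1), Finset.mul_sum,
      Finset.mul_sum]
    congr 1
    · refine Finset.sum_congr rfl fun ij _ => ?_
      rw [pow_succ]; ring
    · refine Finset.sum_congr rfl fun ij hij => ?_
      have h : k.choose ij.2 = k.choose ij.1 := by
        rw [← Finset.HasAntidiagonal.mem_antidiagonal.1 hij, Nat.choose_symm_add]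
      rw [h, pow_succ, show m + (ij.1 + 1) = m + 1 + ij.1 by ring]
      ring

theorem poisson_thin (u : ℕ → ℕ → ℝ) (C : ℝ) (h0 : ∀ m : ℕ, |u 0 m| ≤ C * (1 + m)) (q lam : ℝ)
    (hq : 0 ≤ q) (hq1 : q ≤ 1) (hlam : 0 ≤ lam)
    (rec : ∀ k m, u (k + 1) m = (1 - q) * u k m + q * u k (m + 1)) :
    ∑' k : ℕ, poissonWeight lam k * u k 0 = ∑' m : ℕ, poissonWeight (lam * q) m * u 0 m := by
  have hf := uthin_summable_aux (u 0) C h0 (lam * q) (by positivity)
  have hg : Summable fun n : ℕ => ‖(lam * (1 - q)) ^ n / (n.factorial : ℝ)‖ := by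
    have := (uthin_hasSum_exp (lam * (1 - q))).summable
    have h1 : 0 ≤ lam * (1 - q) := mul_nonneg hlam (by linarith)
    refine this.congr fun n => ?_
    rw [Real.norm_eq_abs, abs_of_nonneg (by positivity)]
  have hprod := tsum_mul_tsum_eq_tsum_sum_antidiagonal_of_summable_norm hf hg
  rw [(uthin_hasSum_exp (lam * (1 - q))).tsum_eq] at hprod
  have hL : ∀ k : ℕ, poissonWeight lam k * u k 0 = Real.exp (-lam) *
      ∑ ij ∈ Finset.HasAntidiagonal.antidiagonal k, ((lam * q) ^ ij.1 / (ij.1.factorial : ℝ) * u 0 ij.1) *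
        ((lam * (1 - q)) ^ ij.2 / (ij.2.factorial : ℝ)) := by
    intro k
    unfold poissonWeight
    rw [uthin_formula u q rec k 0, mul_div_assoc, mul_assoc, Finset.mul_sum]
    congr 1
    refine Finset.sum_congr rfl fun ij hij => ?_
    have hk := Finset.HasAntidiagonal.mem_antidiagonal.1 hij
    have hfac : (k.choose ij.1 : ℝ) * (ij.1.factorial : ℝ) * (ij.2.factorial : ℝ) =
        (k.factorial : ℝ) := by
      have := Nat.choose_mul_factorial_mul_factorial (show ij.1 ≤ k by omega)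
      rw [show k - ij.1 = ij.2 by omega] at this
      exact_mod_cast this
    have h1 : (ij.1.factorial : ℝ) ≠ 0 := by exact_mod_cast Nat.factorial_ne_zero _
    have h2 : (ij.2.factorial : ℝ) ≠ 0 := by exact_mod_cast Nat.factorial_ne_zero _
    have h3 : (k.factorial : ℝ) ≠ 0 := by exact_mod_cast Nat.factorial_ne_zero _
    have h4 : lam ^ k = lam ^ ij.1 * lam ^ ij.2 := by rw [← pow_add, hk]
    rw [zero_add, h4, mul_pow, mul_pow]
    field_simp
    rw [← hfac]
    ring
  simp only [hL]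
  rw [tsum_mul_left, ← hprod, mul_comm (∑' n : ℕ, _), ← mul_assoc, ← Real.exp_add]
  have he : -lam + lam * (1 - q) = -(lam * q) := by ring
  rw [he, ← tsum_mul_left]
  refine tsum_congr fun m => ?_
  unfold poissonWeight
  ring

theorem summable_poisson (a : ℕ → ℝ) (C : ℝ) (ha : ∀ m : ℕ, |a m| ≤ C * (1 + m)) (lam : ℝ)
    (hlam : 0 ≤ lam) : Summable (fun m : ℕ => poissonWeight lam m * a m) := by
  have h := (uthin_summable_aux a C ha lam hlam).of_norm
  refine (h.mul_left (Real.exp (-lam))).congr fun m => ?_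
  unfold poissonWeight
  ring

theorem tsum_poissonWeight (lam : ℝ) : ∑' m : ℕ, poissonWeight lam m = 1 := by
  have h := (uthin_hasSum_exp lam).mul_left (Real.exp (-lam))
  rw [← Real.exp_add, neg_add_cancel, Real.exp_zero] at h
  rw [← h.tsum_eq]
  refine tsum_congr fun m => ?_
  unfold poissonWeight
  ring

theorem tsum_poissonWeight_mul (lam : ℝ) : ∑' m : ℕ, poissonWeight lam m * m = lam := by
  have h := (uthin_hasSum_exp lam).mul_left (lam * Real.exp (-lam))
  rw [mul_assoc, ← Real.exp_add, neg_add_cancel, Real.exp_zero, mul_one] at h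
  have h2 : HasSum (fun m : ℕ => poissonWeight lam (m + 1) * ((m + 1 : ℕ) : ℝ)) lam := by
    have e : (fun m : ℕ => poissonWeight lam (m + 1) * ((m + 1 : ℕ) : ℝ)) =
        fun i => lam * Real.exp (-lam) * (lam ^ i / (i.factorial : ℝ)) := by
      funext m
      unfold poissonWeight
      rw [Nat.factorial_succ, pow_succ]
      have h1 : (m.factorial : ℝ) ≠ 0 := by exact_mod_cast Nat.factorial_ne_zero _
      have h2 : ((m : ℝ) + 1) ≠ 0 := by positivity
      push_cast
      field_simp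
    rw [e]; exact h
  have h3 := (hasSum_nat_add_iff (f := fun m : ℕ => poissonWeight lam m * m) 1).1 h2
  rw [h3.tsum_eq]
  simp

end Crest.Agent.MP
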