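import Crest.Agent.MP.UG
import Crest.Agent.MP.UThin

/-!
# The endpoint `M = 0`: decoupling of the sites
-/

set_option autoImplicit false
set_option linter.unusedSectionVars false
set_option linter.unusedVariables false

namespace Crest.Agent.MP

open Finset
open Crest.ProbabilityR.Diluted

section

variable {ι : Type} [Fintype ι] [DecidableEq ι] [Nonempty ι]
  {W : Type} [Fintype W] [Nonempty W] (msg : (ℕ → W) → ℝ)

/-- One-site state with one more family of labels; the cavity field is present iff `flag`. -/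
noncomputable def St.addC1 {p : ℕ} (s : St Unit) (θ : Inter p) (flag : Prop) [Decidable flag] :
    St Unit where
  V := s.V × (Fin (p - 1) → W)
  fin := inferInstance
  ne := inferInstance
  Z := fun u => s.Z (fun l => (u l).1) * (if flag then
    Real.exp (siteMessage θ (fun ℓ => msg (fun l => (u l).2 ℓ)) (s.spin (fun l => (u l).1) ()))
    else 1)
  pos := fun u => mul_pos (s.pos _) (by split_ifs; exacts [Real.exp_pos _, one_pos])
  spin := fun u => s.spin (fun l => (u l).1)

/-- Invariance under uniform maps. -/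
def InvF (F : St Unit → ℝ) : Prop :=
  ∀ (s s' : St Unit) (π : s.V → s'.V), Unif π → (∀ u, s.Z u = s'.Z (fun l => π (u l))) →
    (∀ u, s.spin u = s'.spin (fun l => π (u l))) → F s = F s'

theorem invF_value (x : ℕ → ℝ) (R : ℕ) : InvF (St.value x R) := by
  intro s s' π hπ hZ _
  unfold St.value
  have e : s.Z = fun u => s'.Z (fun l => π (u l)) := funext hZ
  have : ∀ v : s.V, T x R 0 s.Z (fun _ => v) = T x R 0 s'.Z (fun _ => π v) := by
    intro v
    rw [e]
    exact T_map hπ x s'.Z R 0 (fun _ => v)
  simp only [this]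
  exact hπ (fun v => Real.log (T x R 0 s'.Z (fun _ => v)))

/-- Average over an added cavity field, one site. -/
noncomputable def opA {p : ℕ} (μ : FinLaw (Inter p)) (F : St Unit → ℝ) (s : St Unit) : ℝ :=
  μ.E fun θ => F (s.addC1 msg θ True)

theorem invF_opA {p : ℕ} (μ : FinLaw (Inter p)) (F : St Unit → ℝ) (hF : InvF F) :
    InvF (opA msg μ F) := by
  intro s s' π hπ hZ hs
  unfold opA
  congr 1
  funext θ
  refine hF _ _ (fun v : s.V × (Fin (p - 1) → W) => (π v.1, v.2)) ?_ ?_ ?_
  · exact Unif.prodMap (W := Fin (p - 1) → W) hπ Unif.id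
  · intro u
    simp only [St.addC1, if_true]
    rw [hZ, hs]
  · intro u
    simp only [St.addC1]
    rw [hs]

theorem F_addC1_false {p : ℕ} (F : St Unit → ℝ) (hF : InvF F) (s : St Unit) (θ : Inter p)
    (flag : Prop) [Decidable flag] (h : ¬ flag) : F (s.addC1 msg θ flag) = F s := by
  refine hF _ _ (fun v : s.V × (Fin (p - 1) → W) => v.1) Unif.fst ?_ ?_
  · intro u
    simp only [St.addC1, h, if_false, mul_one]
  · intro u
    simp only [St.addC1]

theorem F_addC1_true {p : ℕ} (F : St Unit → ℝ) (hF : InvF F) (s : St Unit) (θ : Inter p)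
    (flag : Prop) [Decidable flag] (h : flag) : F (s.addC1 msg θ flag) = F (s.addC1 msg θ True) := by
  refine hF _ _ (fun v : s.V × (Fin (p - 1) → W) => v) Unif.id ?_ ?_
  · intro u
    simp only [St.addC1, h, if_true]
  · intro u
    simp only [St.addC1]

/-- The decoupled iterates. -/
noncomputable def Uit {p : ℕ} (μ : FinLaw (Inter p)) (x : ℕ → ℝ) (R : ℕ) (c : ℝ) :
    ℕ → St Unit → ℝ
  | 0 => St.value x R
  | k + 1 => fun s => (1 - c) * Uit μ x R c k s + c * opA msg μ (Uit μ x R c k) s

theorem invF_Uit {p : ℕ} (μ : FinLaw (Inter p)) (x : ℕ → ℝ) (R : ℕ) (c : ℝ) (k : ℕ) :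
    InvF (Uit msg μ x R c k) := by
  induction k with
  | zero => exact invF_value x R
  | succ k ih =>
    intro s s' π hπ hZ hs
    simp only [Uit]
    rw [ih s s' π hπ hZ hs, invF_opA msg μ _ ih s s' π hπ hZ hs]

/-- Decomposition of a state into independent one-site states. -/
structure Dec (S : St ι) (s : ι → St Unit) : Prop where
  ex : ∃ π : (i : ι) → S.V → (s i).V, Unif (fun (v : S.V) (i : ι) => π i v) ∧
    (∀ u, S.Z u = ∏ i, (s i).Z (fun l => π i (u l))) ∧
    (∀ u i, S.spin u i = (s i).spin (fun l => π i (u l)) ())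

theorem Dec.value {S : St ι} {s : ι → St Unit} (h : Dec S s) (x : ℕ → ℝ) (R : ℕ) :
    S.value x R = ∑ i, (s i).value x R := by
  obtain ⟨π, hπ, hZ, -⟩ := h.ex
  have e : S.Z = fun u => ∏ i, (s i).Z (fun l => π i (u l)) := funext hZ
  have h1 : ∀ v : S.V, Real.log (T x R 0 S.Z (fun _ => v)) =
      ∑ i, Real.log (T x R 0 (s i).Z (fun _ => π i v)) := by
    intro v
    rw [e, T_pi (V := S.V) (V' := fun i => (s i).V) π hπ x (fun i => (s i).Z)
      (fun i u => (s i).pos u) R 0 (fun _ => v)]
    rw [Real.log_prod (fun i _ => (T_pos x _ (s i).pos R 0 _).ne')]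
  unfold St.value
  simp only [h1]
  have h2 : (avg fun v : S.V => ∑ i, Real.log (T x R 0 (s i).Z (fun _ => π i v))) =
      ∑ i, avg fun v : S.V => Real.log (T x R 0 (s i).Z (fun _ => π i v)) := by
    unfold avg
    rw [sum_comm, mul_sum]
  rw [h2]
  refine sum_congr rfl fun i _ => ?_
  have hi : Unif (π i) := Unif.comp (π := fun (v : S.V) (i : ι) => π i v)
    (π' := fun w : (i : ι) → (s i).V => w i) (Unif.eval (V := fun i => (s i).V) i) hπ
  exact hi (fun v => Real.log (T x R 0 (s i).Z (fun _ => v)))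

theorem Unif.pair {V : Type} [Fintype V] {A : Type} [Fintype A] {V' : ι → Type}
    [∀ i, Fintype (V' i)]
    {π : (i : ι) → V → V' i} (hπ : Unif (fun (v : V) (i : ι) => π i v)) :
    Unif (fun (v : V × (ι → A)) (i : ι) => (π i v.1, v.2 i)) := by
  have h1 : Unif (fun v : V × (ι → A) => ((fun i => π i v.1 : (i : ι) → V' i), v.2)) :=
    Unif.prodMap hπ Unif.id
  have h2 : Function.Bijective (fun (w : ((i : ι) → V' i) × (ι → A)) (i : ι) => (w.1 i, w.2 i)) := by
    constructor
    · rintro ⟨a, b⟩ ⟨a', b'⟩ h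
      have := fun i => congrFun h i
      simp only [Prod.mk.injEq] at this
      refine Prod.ext ?_ ?_
      · funext i; exact (this i).1
      · funext i; exact (this i).2
    · intro w
      exact ⟨(fun i => (w i).1, fun i => (w i).2), rfl⟩
  exact Unif.comp (Unif.of_bijective h2) h1

theorem Dec.addC {p : ℕ} {S : St ι} {s : ι → St Unit} (h : Dec S s) (θ : Inter p) (i₀ : ι) :
    Dec (S.addC msg θ i₀) (fun i => (s i).addC1 msg θ (i = i₀)) := by
  obtain ⟨π, hπ, hZ, hs⟩ := h.ex
  refine ⟨⟨fun i (v : S.V × (ι → Fin (p - 1) → W)) => (π i v.1, v.2 i), ?_, ?_, ?_⟩⟩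
  · exact Unif.pair (V := S.V) (A := Fin (p - 1) → W) (V' := fun i => (s i).V) hπ
  · intro u
    simp only [St.addC, St.addC1]
    rw [prod_mul_distrib, hZ, hs]
    congr 1
    rw [prod_eq_single i₀]
    · simp
    · intro i _ hi
      simp [hi]
    · simp
  · intro u i
    simp only [St.addC, St.addC1]
    rw [hs]

theorem opC_iter_dec {p : ℕ} (μ : FinLaw (Inter p)) (x : ℕ → ℝ) (R : ℕ) (k : ℕ) :
    ∀ (S : St ι) (s : ι → St Unit), Dec S s →
      (opC msg μ)^[k] (St.value x R) S =
        ∑ i, Uit msg μ x R ((Fintype.card ι : ℝ)⁻¹) k (s i) := by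
  induction k with
  | zero => intro S s h; exact h.value x R
  | succ k ih =>
    intro S s h
    rw [Function.iterate_succ_apply']
    have e1 : opC msg μ ((opC msg μ)^[k] (St.value x R)) S =
        μ.E fun θ => avg fun i₀ : ι => ∑ i,
          Uit msg μ x R ((Fintype.card ι : ℝ)⁻¹) k ((s i).addC1 msg θ (i = i₀)) := by
      unfold opC
      congr 1
      funext θ
      congr 1
      funext i₀
      exact ih _ _ (h.addC msg θ i₀)
    rw [e1]
    set c : ℝ := (Fintype.card ι : ℝ)⁻¹ with hc
    set U := Uit msg μ x R c k with hU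
    have hinv : InvF U := invF_Uit msg μ x R c k
    have hcard : (0 : ℝ) < Fintype.card ι := by exact_mod_cast Fintype.card_pos
    have e2 : ∀ θ : Inter p, (avg fun i₀ : ι => ∑ i, U ((s i).addC1 msg θ (i = i₀))) =
        ∑ i, ((1 - c) * U (s i) + c * U ((s i).addC1 msg θ True)) := by
      intro θ
      unfold avg
      rw [sum_comm, mul_sum]
      refine sum_congr rfl fun i _ => ?_
      have : ∀ i₀ ∈ (univ : Finset ι), U ((s i).addC1 msg θ (i = i₀)) =
          U (s i) + (if i = i₀ then (U ((s i).addC1 msg θ True) - U (s i)) else 0) := by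
        intro i₀ _
        by_cases hi : i = i₀
        · rw [F_addC1_true msg U hinv (s i) θ (i = i₀) hi, if_pos hi]; ring
        · rw [F_addC1_false msg U hinv (s i) θ (i = i₀) hi, if_neg hi]; ring
      rw [sum_congr rfl this, sum_add_distrib, sum_const, card_univ, nsmul_eq_mul, sum_ite_eq]
      simp only [mem_univ, if_true]
      rw [hc]
      field_simp
      ring
    simp only [e2]
    have e3 : (μ.E fun θ => ∑ i, ((1 - c) * U (s i) + c * U ((s i).addC1 msg θ True))) =
        ∑ i, μ.E fun θ => ((1 - c) * U (s i) + c * U ((s i).addC1 msg θ True)) := by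
      unfold FinLaw.E
      simp only [mul_sum]
      rw [sum_comm]
    rw [e3]
    refine sum_congr rfl fun i _ => ?_
    rw [FinLaw.E_add, FinLaw.E_const, FinLaw.E_const_mul]
    rfl

/-- The one-site initial state. -/
noncomputable def s0 (R : ℕ) (h : ℝ) : St Unit where
  V := Bool
  fin := inferInstance
  ne := inferInstance
  Z := fun u => Real.exp (h * spinVal (u R))
  pos := fun _ => Real.exp_pos _
  spin := fun u _ => u R

theorem dec_S0 (R : ℕ) {N : ℕ} (hs : Fin N → ℝ) : Dec (S0 R hs) (fun i => s0 R (hs i)) := by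
  refine ⟨⟨fun i (v : Fin N → Bool) => v i, ?_, ?_, ?_⟩⟩
  · exact Unif.id
  · intro u
    simp only [S0, s0]
    rw [Real.exp_sum]
  · intro u i
    rfl

/-- Linear version of the recursion. -/
theorem Uit_rec {p : ℕ} (μ : FinLaw (Inter p)) (x : ℕ → ℝ) (R : ℕ) (c : ℝ) (k m : ℕ)
    (s : St Unit) :
    (opA msg μ)^[m] (Uit msg μ x R c (k + 1)) s =
      (1 - c) * (opA msg μ)^[m] (Uit msg μ x R c k) s +
      c * (opA msg μ)^[m + 1] (Uit msg μ x R c k) s := by
  have key : ∀ (m : ℕ) (F G : St Unit → ℝ) (s : St Unit),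
      (opA msg μ)^[m] (fun s => (1 - c) * F s + c * G s) s =
      (1 - c) * (opA msg μ)^[m] F s + c * (opA msg μ)^[m] G s := by
    intro m
    induction m with
    | zero => intro F G s; rfl
    | succ m ih =>
      intro F G s
      rw [Function.iterate_succ_apply', Function.iterate_succ_apply', Function.iterate_succ_apply']
      unfold opA at ih ⊢
      simp only [ih, FinLaw.E_add, FinLaw.E_const_mul]
  rw [Function.iterate_succ_apply]
  exact key m (Uit msg μ x R c k) (opA msg μ (Uit msg μ x R c k)) s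

/-- Add `m` cavity fields at the site. -/
noncomputable def St.addCs {p m : ℕ} (s : St Unit) (θs : Fin m → Inter p) : St Unit where
  V := s.V × (Fin m → Fin (p - 1) → W)
  fin := inferInstance
  ne := inferInstance
  Z := fun u => s.Z (fun l => (u l).1) * Real.exp (∑ j, siteMessage (θs j)
    (fun ℓ => msg (fun l => (u l).2 j ℓ)) (s.spin (fun l => (u l).1) ()))
  pos := fun u => mul_pos (s.pos _) (Real.exp_pos _)
  spin := fun u => s.spin (fun l => (u l).1)

theorem opA_iter {p : ℕ} (μ : FinLaw (Inter p)) (F : St Unit → ℝ) (hF : InvF F) (m : ℕ) :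
    ∀ s : St Unit, (opA msg μ)^[m] F s = μ.Epow m fun θs => F (s.addCs msg θs) := by
  induction m with
  | zero =>
    intro s
    rw [FinLaw.Epow_zero]
    refine (hF _ _ (fun v : s.V × (Fin 0 → Fin (p - 1) → W) => v.1) Unif.fst ?_ ?_).symm
    · intro u
      simp only [St.addCs, univ_eq_empty, sum_empty, Real.exp_zero, mul_one]
    · intro u
      simp only [St.addCs]
  | succ m ih =>
    intro s
    rw [Function.iterate_succ_apply', FinLaw.Epow_succ]
    have : opA msg μ ((opA msg μ)^[m] F) s = μ.E fun θ => μ.Epow m fun θs =>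
        F ((s.addC1 msg θ True).addCs msg θs) := by
      show (μ.E fun θ => (opA msg μ)^[m] F (s.addC1 msg θ True)) = _
      simp only [ih]
    rw [this]
    congr 1
    funext θ
    congr 1
    funext θs
    refine hF _ _ (fun v : (s.V × (Fin (p - 1) → W)) × (Fin m → Fin (p - 1) → W) =>
      ((v.1.1, (Fin.cons v.1.2 v.2 : Fin (m + 1) → Fin (p - 1) → W)) :
        s.V × (Fin (m + 1) → Fin (p - 1) → W))) ?_ ?_ ?_
    · refine Unif.of_bijective ?_
      constructor
      · intro y y' hyy
        have h1 : y.1.1 = y'.1.1 := (Prod.ext_iff.1 hyy).1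
        have h2 : (Fin.cons y.1.2 y.2 : Fin (m + 1) → Fin (p - 1) → W) = Fin.cons y'.1.2 y'.2 :=
          (Prod.ext_iff.1 hyy).2
        have h3 := Fin.cons_injective2 h2
        exact Prod.ext (Prod.ext h1 h3.1) h3.2
      · intro y
        refine ⟨((y.1, y.2 0), fun i => y.2 i.succ), ?_⟩
        exact Prod.ext rfl (Fin.cons_self_tail y.2)
    · intro u
      simp only [St.addCs, St.addC1, if_true]
      rw [Fin.sum_univ_succ, Real.exp_add, mul_assoc]
      rfl
    · intro u
      simp only [St.addCs, St.addC1]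

/-- The site value. -/
theorem value_addCs {p m r : ℕ} (x : ℕ → ℝ) (h1 : x (r + 1) = 1) (h : ℝ)
    (θs : Fin m → Inter p)
    (hmsg : ∀ (u : ℕ → W) (w : W), msg (Function.update u (r + 1) w) = msg u) :
    ((s0 (r + 1) h).addCs msg θs).value x (r + 1) =
      avg fun v : Fin m × Fin (p - 1) → W => Real.log (T x r 0
        (fun u : ℕ → (Fin m × Fin (p - 1) → W) =>
          siteTerm h θs (fun j ℓ => msg (fun l => u l (j, ℓ)))) (fun _ => v)) := by
  -- the map to the relabelled labels
  set π : Bool × (Fin m → Fin (p - 1) → W) → (Fin m × Fin (p - 1) → W) :=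
    fun v a => v.2 a.1 a.2 with hπ
  have hU : Unif π := by
    have h2 : Function.Bijective (fun (w : Fin m → Fin (p - 1) → W) (a : Fin m × Fin (p - 1)) =>
        w a.1 a.2) := by
      constructor
      · intro a b hab
        funext i j
        exact congrFun hab (i, j)
      · intro w
        exact ⟨fun i j => w (i, j), rfl⟩
    exact Unif.comp (Unif.of_bijective h2) Unif.snd
  set Z' : (ℕ → (Fin m × Fin (p - 1) → W)) → ℝ := fun u =>
    siteTerm h θs (fun j ℓ => msg (fun l => u l (j, ℓ))) with hZ'
  have e1 : ∀ v : Bool × (Fin m → Fin (p - 1) → W),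
      T x (r + 1) 0 ((s0 (r + 1) h).addCs msg θs).Z (fun _ => v) = T x r 0 Z' (fun _ => π v) := by
    intro v
    refine (T_inner_one (V := Bool × (Fin m → Fin (p - 1) → W)) x _ r h1 _).trans ?_
    rw [← T_map (V := Bool × (Fin m → Fin (p - 1) → W)) hU x Z' r 0 (fun _ => v)]
    congr 1
    funext u
    rw [avg_prod]
    have e3 : ∀ (ε : Bool) (w : Fin m → Fin (p - 1) → W),
        ((s0 (r + 1) h).addCs msg θs).Z (Function.update u (r + 1) (ε, w)) =
        Real.exp (h * spinVal ε + ∑ j, siteMessage (θs j)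
          (fun ℓ => msg (fun l => (u l).2 j ℓ)) ε) := by
      intro ε w
      have a1 : (Function.update u (r + 1) (ε, w) (r + 1)).1 = ε := by rw [Function.update_self]
      have a2 : ∀ (j : Fin m) (ℓ : Fin (p - 1)),
          msg (fun l => (Function.update u (r + 1) (ε, w) l).2 j ℓ) =
          msg (fun l => (u l).2 j ℓ) := by
        intro j ℓ
        rw [← hmsg (fun l => (u l).2 j ℓ) (w j ℓ)]
        congr 1
        funext l
        by_cases hl : l = r + 1
        · subst hl; simp
        · simp [Function.update_of_ne hl]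
      show Real.exp (h * spinVal (Function.update u (r + 1) (ε, w) (r + 1)).1) *
        Real.exp (∑ j, siteMessage (θs j)
          (fun ℓ => msg (fun l => (Function.update u (r + 1) (ε, w) l).2 j ℓ))
          (Function.update u (r + 1) (ε, w) (r + 1)).1) = _
      rw [a1, ← Real.exp_add]
      simp only [a2]
    have e4 : (fun ε : Bool => avg fun w : Fin m → Fin (p - 1) → W =>
        ((s0 (r + 1) h).addCs msg θs).Z (Function.update u (r + 1) (ε, w))) =
        fun ε => Real.exp (h * spinVal ε + ∑ j, siteMessage (θs j)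
          (fun ℓ => msg (fun l => (u l).2 j ℓ)) ε) := by
      funext ε
      refine Eq.trans (congrArg avg (funext (e3 ε))) ?_
      exact avg_const _
    refine (congrArg avg e4).trans ?_
    show _ = siteTerm h θs (fun j ℓ => msg (fun l => (u l).2 j ℓ))
    unfold avg siteTerm
    simp
  unfold St.value
  show (avg fun v : Bool × (Fin m → Fin (p - 1) → W) =>
    Real.log (T x (r + 1) 0 ((s0 (r + 1) h).addCs msg θs).Z (fun _ => v))) = _
  simp only [e1]
  exact hU (fun v => Real.log (T x r 0 Z' (fun _ => v)))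

/-- The edge constant does not feel the spin level. -/
theorem edgeC_eq {p r : ℕ} (x : ℕ → ℝ) (h1 : x (r + 1) = 1) (μ : FinLaw (Inter p))
    (hmsg : ∀ (u : ℕ → W) (w : W), msg (Function.update u (r + 1) w) = msg u) :
    edgeC msg x (r + 1) μ = μ.E fun θ => avg fun v : Fin p → W =>
      Real.log (T x r 0 (fun u : ℕ → Fin p → W => edgeTerm θ (fun ℓ => msg (fun l => u l ℓ)))
        (fun _ => v)) := by
  unfold edgeC
  congr 1
  funext θ
  congr 1
  funext v
  rw [T_inner_one x _ r h1]
  congr 2
  funext u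
  have : ∀ (w : Fin p → W) (ℓ : Fin p), msg (fun l => Function.update u (r + 1) w l ℓ) =
      msg (fun l => u l ℓ) := by
    intro w ℓ
    rw [← hmsg (fun l => u l ℓ) (w ℓ), eval_update]
  simp only [this, avg_const]

end

end Crest.Agent.MP
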