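import Crest.Agent.MP.ULink

/-!
# Tree calculus: uniform maps, fresh labels, products
-/

set_option autoImplicit false
set_option linter.unusedSectionVars false
set_option linter.unusedVariables false

namespace Crest.Agent.MP

open Finset

/-- `π` maps the uniform average to the uniform average. -/
def Unif {V V' : Type*} [Fintype V] [Fintype V'] (π : V → V') : Prop :=
  ∀ f : V' → ℝ, avg (fun v => f (π v)) = avg f

theorem Unif.id {V : Type*} [Fintype V] : Unif (fun v : V => v) := fun _ => rfl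

theorem Unif.comp {V V' V'' : Type*} [Fintype V] [Fintype V'] [Fintype V''] {π : V → V'}
    {π' : V' → V''} (h' : Unif π') (h : Unif π) : Unif (fun v => π' (π v)) := by
  intro f
  rw [h (fun v => f (π' v)), h' f]

theorem Unif.of_bijective {V V' : Type*} [Fintype V] [Fintype V'] {π : V → V'}
    (h : Function.Bijective π) : Unif π := by
  intro f
  unfold avg
  rw [Fintype.card_of_bijective h]
  congr 1
  exact h.sum_comp f

theorem avg_prod {V W : Type*} [Fintype V] [Fintype W] (f : V × W → ℝ) :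
    avg f = avg (fun v => avg fun w => f (v, w)) := by
  unfold avg
  rw [Fintype.card_prod, Fintype.sum_prod_type, ← mul_sum, ← mul_assoc]
  push_cast
  rw [mul_inv]

theorem avg_comm {V W : Type*} [Fintype V] [Fintype W] (f : V → W → ℝ) :
    avg (fun v => avg fun w => f v w) = avg (fun w => avg fun v => f v w) := by
  unfold avg
  simp only [mul_sum]
  rw [sum_comm]
  refine sum_congr rfl fun w _ => sum_congr rfl fun v _ => ?_
  ring

theorem avg_mul_prod {V W : Type*} [Fintype V] [Fintype W] [Nonempty V] [Nonempty W] (f : V → ℝ) (g : W → ℝ) :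
    avg (fun v : V × W => f v.1 * g v.2) = avg f * avg g := by
  rw [avg_prod]
  simp only [avg_mul_left]
  rw [avg_mul_right]

theorem Unif.fst {V W : Type*} [Fintype V] [Fintype W] [Nonempty W] :
    Unif (fun v : V × W => v.1) := by
  intro f
  rw [avg_prod]
  simp only [avg_const]

theorem Unif.snd {V W : Type*} [Fintype V] [Fintype W] [Nonempty V] :
    Unif (fun v : V × W => v.2) := by
  intro f
  rw [avg_prod]
  simp only [avg_const]

theorem Unif.prodMap {V V' W W' : Type*} [Fintype V] [Fintype V'] [Fintype W] [Fintype W']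
    {π : V → V'} {π' : W → W'} (h : Unif π) (h' : Unif π') :
    Unif (fun v : V × W => (π v.1, π' v.2)) := by
  intro f
  rw [avg_prod]
  simp only
  have : ∀ v, avg (fun w => f (π v, π' w)) = avg (fun w => f (π v, w)) := fun v =>
    h' (fun w => f (π v, w))
  simp only [this]
  rw [h (fun v => avg fun w => f (v, w)), avg_prod]

/-- Average of a product over a dependent product. -/
theorem avg_pi {ι : Type*} [Fintype ι] [DecidableEq ι] {V : ι → Type*} [∀ i, Fintype (V i)]
    (f : (i : ι) → V i → ℝ) :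
    avg (fun v : (i : ι) → V i => ∏ i, f i (v i)) = ∏ i, avg (f i) := by
  unfold avg
  rw [prod_mul_distrib, Fintype.card_pi, prod_univ_sum, Fintype.piFinset_univ]
  push_cast
  rw [prod_inv_distrib]

theorem Unif.eval {ι : Type*} [Fintype ι] [DecidableEq ι] {V : ι → Type*} [∀ i, Fintype (V i)]
    [∀ i, Nonempty (V i)] (i : ι) : Unif (fun v : (i : ι) → V i => v i) := by
  intro f
  have := avg_pi (V := V) (fun j => if h : j = i then fun v => f (h ▸ v) else fun _ => 1)
  rw [prod_eq_single i] at this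
  · simp only [↓reduceDIte] at this
    rw [← this]
    congr 1
    funext v
    rw [prod_eq_single i]
    · simp
    · intro j _ hj
      simp [hj]
    · simp
  · intro j _ hj
    simp only [hj, ↓reduceDIte]
    exact avg_const 1
  · simp

section Map

variable {V V' : Type*} [Fintype V] [Nonempty V] [Fintype V'] [Nonempty V']

theorem comp_update (π : V → V') (u : ℕ → V) (i : ℕ) (v : V) :
    (fun l => π (Function.update u i v l)) = Function.update (fun l => π (u l)) i (π v) := by
  funext l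
  by_cases h : l = i
  · subst h; simp
  · simp [Function.update_of_ne h]

theorem T_map {π : V → V'} (hπ : Unif π) (x : ℕ → ℝ) (Z : (ℕ → V') → ℝ) (k : ℕ) :
    ∀ (j : ℕ) (u : ℕ → V), T x k j (fun u => Z (fun i => π (u i))) u =
      T x k j Z (fun i => π (u i)) := by
  induction k with
  | zero => intro j u; rfl
  | succ k ih =>
    intro j u
    simp only [T, ih, comp_update]
    rw [hπ (fun v' => T x k (j + 1) Z (Function.update (fun i => π (u i)) (j + 1) v') ^ x (j + 1))]

theorem w_map {π : V → V'} (hπ : Unif π) (x : ℕ → ℝ) (Z : (ℕ → V') → ℝ) (k : ℕ)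
    (j : ℕ) (u : ℕ → V) (v : V) : w x k j (fun u => Z (fun i => π (u i))) u v =
      w x k j Z (fun i => π (u i)) (π v) := by
  unfold w
  simp only [T_map hπ, comp_update]
  rw [hπ (fun v' => T x k (j + 1) Z (Function.update (fun i => π (u i)) (j + 1) v') ^ x (j + 1))]

theorem K_map {π : V → V'} (hπ : Unif π) (x : ℕ → ℝ) (Z Φ : (ℕ → V') → ℝ) (k : ℕ) :
    ∀ (j : ℕ) (u : ℕ → V), K x k j (fun u => Z (fun i => π (u i))) (fun u => Φ (fun i => π (u i))) u =
      K x k j Z Φ (fun i => π (u i)) := by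
  induction k with
  | zero => intro j u; rfl
  | succ k ih =>
    intro j u
    simp only [K, ih, comp_update, w_map hπ]
    rw [hπ (fun v' => w x k j Z (fun i => π (u i)) v' *
      K x k (j + 1) Z Φ (Function.update (fun i => π (u i)) (j + 1) v'))]

theorem comp_update' (π : V → V') (s : ℕ → ℕ → V) (n : ℕ) (u : ℕ → V) :
    (fun l i => π (Function.update s n u l i)) =
      Function.update (fun l i => π (s l i)) n (fun i => π (u i)) := by
  funext l
  by_cases h : l = n
  · subst h; simp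
  · simp [Function.update_of_ne h]

theorem Eh_map {π : V → V'} (hπ : Unif π) (x : ℕ → ℝ) (R : ℕ) (Z : (ℕ → V') → ℝ) (n : ℕ)
    (h : ℕ → ℕ × ℕ) (b : ℕ → V) : ∀ (Φ : (ℕ → ℕ → V') → ℝ),
    Eh x R (fun u => Z (fun i => π (u i))) n h (fun s => Φ (fun l i => π (s l i))) b =
      Eh x R Z n h Φ (fun i => π (b i)) := by
  induction n with
  | zero =>
    intro Φ
    exact K_map hπ x Z (fun u => Φ (fun _ => u)) R 0 b
  | succ n ih =>
    intro Φ
    simp only [Eh, comp_update']
    rw [← ih]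
    congr 1
    funext s
    exact K_map hπ x Z (fun u => Φ (Function.update (fun l i => π (s l i)) (n + 1) u)) _ _ _

theorem T_one (x : ℕ → ℝ) (k : ℕ) : ∀ (j : ℕ) (u : ℕ → V), T x k j (fun _ => 1) u = 1 := by
  induction k with
  | zero => intro j u; rfl
  | succ k ih =>
    intro j u
    simp only [T, ih, Real.one_rpow, avg_const]

theorem w_one (x : ℕ → ℝ) (k j : ℕ) (u : ℕ → V) (v : V) : w x k j (fun _ => 1) u v = 1 := by
  unfold w
  simp only [T_one, Real.one_rpow, avg_const, div_one]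

end Map

section Fresh

variable {V V₁ V₂ : Type*} [Fintype V] [Nonempty V] [Fintype V₁] [Nonempty V₁] [Fintype V₂]
  [Nonempty V₂]

theorem Unif.left {π₁ : V → V₁} {π₂ : V → V₂} (hπ : Unif (fun v => (π₁ v, π₂ v))) : Unif π₁ :=
  Unif.comp (π := fun v => (π₁ v, π₂ v)) Unif.fst hπ

theorem Unif.right {π₁ : V → V₁} {π₂ : V → V₂} (hπ : Unif (fun v => (π₁ v, π₂ v))) : Unif π₂ :=
  Unif.comp (π := fun v => (π₁ v, π₂ v)) Unif.snd hπ

theorem avg_joint {π₁ : V → V₁} {π₂ : V → V₂} (hπ : Unif (fun v => (π₁ v, π₂ v)))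
    (f : V₁ → ℝ) (g : V₂ → ℝ) : avg (fun v => f (π₁ v) * g (π₂ v)) = avg f * avg g := by
  rw [← avg_mul_prod]
  exact hπ (fun v => f v.1 * g v.2)

theorem K_prod {π₁ : V → V₁} {π₂ : V → V₂} (hπ : Unif (fun v => (π₁ v, π₂ v)))
    (x : ℕ → ℝ) (Z Φ : (ℕ → V₁) → ℝ) (Ψ : (ℕ → V₂) → ℝ) (k : ℕ) :
    ∀ (j : ℕ) (u : ℕ → V), K x k j (fun u => Z (fun i => π₁ (u i)))
        (fun u => Φ (fun i => π₁ (u i)) * Ψ (fun i => π₂ (u i))) u =
      K x k j Z Φ (fun i => π₁ (u i)) * K x k j (fun _ => 1) Ψ (fun i => π₂ (u i)) := by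
  induction k with
  | zero => intro j u; rfl
  | succ k ih =>
    intro j u
    simp only [K, ih, comp_update, w_map hπ.left, w_one, one_mul]
    rw [← avg_joint hπ]
    congr 1
    funext v
    ring

theorem Eh_prod {π₁ : V → V₁} {π₂ : V → V₂} (hπ : Unif (fun v => (π₁ v, π₂ v)))
    (x : ℕ → ℝ) (R : ℕ) (Z : (ℕ → V₁) → ℝ) (n : ℕ) (h : ℕ → ℕ × ℕ) (b : ℕ → V) :
    ∀ (Φ : (ℕ → ℕ → V₁) → ℝ) (Ψ : (ℕ → ℕ → V₂) → ℝ),
    Eh x R (fun u => Z (fun i => π₁ (u i))) n h
        (fun s => Φ (fun l i => π₁ (s l i)) * Ψ (fun l i => π₂ (s l i))) b =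
      Eh x R Z n h Φ (fun i => π₁ (b i)) * Eh x R (fun _ => 1) n h Ψ (fun i => π₂ (b i)) := by
  induction n with
  | zero =>
    intro Φ Ψ
    exact K_prod hπ x Z (fun u => Φ (fun _ => u)) (fun u => Ψ (fun _ => u)) R 0 b
  | succ n ih =>
    intro Φ Ψ
    simp only [Eh, comp_update']
    rw [← ih]
    congr 1
    funext s
    exact K_prod hπ x Z (fun u => Φ (Function.update (fun l i => π₁ (s l i)) (n + 1) u))
      (fun u => Ψ (Function.update (fun l i => π₂ (s l i)) (n + 1) u)) _ _ _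

theorem T_prod {π₁ : V → V₁} {π₂ : V → V₂} (hπ : Unif (fun v => (π₁ v, π₂ v)))
    (x : ℕ → ℝ) (hx : ∀ i, 0 < x (i + 1))
    (Z₁ : (ℕ → V₁) → ℝ) (Z₂ : (ℕ → V₂) → ℝ) (h1 : ∀ u, 0 < Z₁ u) (h2 : ∀ u, 0 < Z₂ u) (k : ℕ) :
    ∀ (j : ℕ) (u : ℕ → V), T x k j (fun u => Z₁ (fun i => π₁ (u i)) * Z₂ (fun i => π₂ (u i))) u =
      T x k j Z₁ (fun i => π₁ (u i)) * T x k j Z₂ (fun i => π₂ (u i)) := by
  induction k with
  | zero => intro j u; rfl
  | succ k ih =>
    intro j u
    simp only [T, ih, comp_update]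
    rw [← Real.mul_rpow]
    · congr 1
      rw [← avg_joint hπ]
      congr 1
      funext v
      rw [Real.mul_rpow (T_pos x Z₁ h1 _ _ _).le (T_pos x Z₂ h2 _ _ _).le]
    · exact (avg_pos fun v => Real.rpow_pos_of_pos (T_pos x Z₁ h1 _ _ _) _).le
    · exact (avg_pos fun v => Real.rpow_pos_of_pos (T_pos x Z₂ h2 _ _ _) _).le

end Fresh

section Pi

variable {ι : Type*} [Fintype ι] [DecidableEq ι] {W : Type*} [Fintype W] [Nonempty W]

theorem eval_update (u : ℕ → ι → W) (i : ℕ) (v : ι → W) (a : ι) :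
    (fun l => Function.update u i v l a) = Function.update (fun l => u l a) i (v a) := by
  funext l
  by_cases h : l = i
  · subst h; simp
  · simp [Function.update_of_ne h]

theorem eval_update' (s : ℕ → ℕ → ι → W) (n : ℕ) (u : ℕ → ι → W) (a : ι) :
    (fun l i => Function.update s n u l i a) =
      Function.update (fun l i => s l i a) n (fun i => u i a) := by
  funext l
  by_cases h : l = n
  · subst h; simp
  · simp [Function.update_of_ne h]

theorem K_pi (x : ℕ → ℝ) (Ψ : ι → (ℕ → W) → ℝ) (k : ℕ) :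
    ∀ (j : ℕ) (u : ℕ → ι → W), K x k j (fun _ => 1) (fun u : ℕ → ι → W => ∏ a, Ψ a (fun i => u i a)) u =
      ∏ a, K x k j (fun _ => 1) (Ψ a) (fun i => u i a) := by
  induction k with
  | zero => intro j u; rfl
  | succ k ih =>
    intro j u
    simp only [K, ih, eval_update, w_one, one_mul]
    exact avg_pi (V := fun _ : ι => W) (fun a v => K x k (j + 1) (fun _ => 1) (Ψ a)
      (Function.update (fun i => u i a) (j + 1) v))

theorem Eh_pi (x : ℕ → ℝ) (R : ℕ) (n : ℕ) (h : ℕ → ℕ × ℕ) (b : ℕ → ι → W) :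
    ∀ (Ψ : ι → (ℕ → ℕ → W) → ℝ),
    Eh x R (fun _ => 1) n h (fun s : ℕ → ℕ → ι → W => ∏ a, Ψ a (fun l i => s l i a)) b =
      ∏ a, Eh x R (fun _ => 1) n h (Ψ a) (fun i => b i a) := by
  induction n with
  | zero =>
    intro Ψ
    exact K_pi x (fun a u => Ψ a (fun _ => u)) R 0 b
  | succ n ih =>
    intro Ψ
    simp only [Eh, eval_update']
    rw [← ih]
    congr 1
    funext s
    exact K_pi x (fun a u => Ψ a (Function.update (fun l i => s l i a) (n + 1) u)) _ _ _

end Pi

end Crest.Agent.MP
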