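import Mathlib
import Crest.Prelude.Def_DilutedSpinGlass

/-!
# Poisson interpolation (abstract)

Proof (discrete interpolation, no calculus): for `u = lam / n`, `v = p lam / n` let
`D i j = E G (Bin (i, u)) (Bin (j, v))`. Then `D (i+1) j - D i (j+1) ≤ - u e` exactly, hence
`D n 0 ≤ D 0 n - lam e`, and `n → ∞` by the Poisson limit theorem and dominated convergence.
-/

set_option autoImplicit false

namespace Crest.Agent.MP

open Crest.ProbabilityR.Diluted Filter Topology

theorem upoissonWeight_nonneg {lam : ℝ} (h : 0 ≤ lam) (n : ℕ) : 0 ≤ poissonWeight lam n := by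
  unfold poissonWeight; positivity

/-- Binomial averages: `bnav y n a = E a (Bin (n, y))`. -/
noncomputable def bnav (y : ℝ) : ℕ → (ℕ → ℝ) → ℝ
  | 0, a => a 0
  | n + 1, a => (1 - y) * bnav y n a + y * bnav y n (fun j => a (j + 1))

theorem bnav_zero (y : ℝ) (a : ℕ → ℝ) : bnav y 0 a = a 0 := rfl

theorem bnav_succ (y : ℝ) (n : ℕ) (a : ℕ → ℝ) :
    bnav y (n + 1) a = (1 - y) * bnav y n a + y * bnav y n (fun j => a (j + 1)) := rfl

theorem bnav_lin (y : ℝ) (n : ℕ) (c d : ℝ) (a b : ℕ → ℝ) :
    bnav y n (fun j => c * a j + d * b j) = c * bnav y n a + d * bnav y n b := by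
  induction n generalizing a b with
  | zero => rfl
  | succ n ih =>
    rw [bnav_succ, bnav_succ, bnav_succ, ih, ih (fun j => a (j + 1)) (fun j => b (j + 1))]
    ring

theorem bnav_mono {y : ℝ} (h0 : 0 ≤ y) (h1 : y ≤ 1) (n : ℕ) {a b : ℕ → ℝ} (h : ∀ j, a j ≤ b j) :
    bnav y n a ≤ bnav y n b := by
  induction n generalizing a b with
  | zero => exact h 0
  | succ n ih =>
    rw [bnav_succ, bnav_succ]
    exact add_le_add (mul_le_mul_of_nonneg_left (ih h) (by linarith))
      (mul_le_mul_of_nonneg_left (ih fun j => h (j + 1)) h0)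

theorem bnav_const (y : ℝ) (n : ℕ) (c : ℝ) : bnav y n (fun _ => c) = c := by
  induction n with
  | zero => rfl
  | succ n ih => rw [bnav_succ, ih]; ring

theorem bnav_eq_sum (y : ℝ) (n : ℕ) (a : ℕ → ℝ) :
    bnav y n a =
      ∑ j ∈ Finset.range (n + 1), (n.choose j : ℝ) * y ^ j * (1 - y) ^ (n - j) * a j := by
  induction n generalizing a with
  | zero => simp [bnav]
  | succ n ih =>
    have h1 : (1 - y) * ∑ j ∈ Finset.range (n + 1),
        (n.choose j : ℝ) * y ^ j * (1 - y) ^ (n - j) * a j =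
        ∑ j ∈ Finset.range (n + 1),
          (n.choose (j + 1) : ℝ) * y ^ (j + 1) * (1 - y) ^ (n - j) * a (j + 1) +
          (1 - y) ^ (n + 1) * a 0 := by
      have h2 : ∑ j ∈ Finset.range (n + 2),
          (n.choose j : ℝ) * y ^ j * (1 - y) ^ (n + 1 - j) * a j =
          ∑ j ∈ Finset.range (n + 1),
          (n.choose j : ℝ) * y ^ j * (1 - y) ^ (n + 1 - j) * a j := by
        rw [Finset.sum_range_succ _ (n + 1)]
        simp
      have h3 : (1 - y) * ∑ j ∈ Finset.range (n + 1),
          (n.choose j : ℝ) * y ^ j * (1 - y) ^ (n - j) * a j =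
          ∑ j ∈ Finset.range (n + 1),
          (n.choose j : ℝ) * y ^ j * (1 - y) ^ (n + 1 - j) * a j := by
        rw [Finset.mul_sum]
        refine Finset.sum_congr rfl fun j hj => ?_
        have hj' : j ≤ n := Nat.lt_succ_iff.1 (Finset.mem_range.1 hj)
        rw [Nat.succ_sub hj', pow_succ]
        ring
      rw [h3, ← h2, Finset.sum_range_succ']
      simp
    rw [bnav_succ, ih, ih, h1, Finset.sum_range_succ' _ (n + 1), Finset.mul_sum]
    simp only [Nat.choose_zero_right, Nat.cast_one, pow_zero, mul_one, one_mul, Nat.sub_zero,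
      Nat.add_sub_add_right]
    rw [add_right_comm, ← Finset.sum_add_distrib]
    congr 1
    refine Finset.sum_congr rfl fun j _ => ?_
    rw [Nat.choose_succ_succ, Nat.cast_add, pow_succ]
    ring

theorem bnav_tendsto {x C : ℝ} (hx : 0 ≤ x) (a : ℕ → ℝ) (ha : ∀ j : ℕ, |a j| ≤ C * (1 + j)) :
    Tendsto (fun n : ℕ => bnav (x / n) n a) atTop (𝓝 (∑' j, poissonWeight x j * a j)) := by
  have hC : 0 ≤ C := by
    have := (abs_nonneg _).trans (ha 0)
    simpa using this
  have h1 : ∀ n : ℕ, bnav (x / n) n a =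
      ∑' j, (n.choose j : ℝ) * (x / n) ^ j * (1 - x / n) ^ (n - j) * a j := by
    intro n
    rw [bnav_eq_sum, tsum_eq_sum]
    intro j hj
    have : n < j := by
      by_contra hc
      exact hj (Finset.mem_range.2 (by omega))
    rw [Nat.choose_eq_zero_of_lt this]
    simp
  simp only [h1]
  refine tendsto_tsum_of_dominated_convergence (bound := fun j => C * ((2 * x) ^ j / j.factorial))
    ((Real.summable_pow_div_factorial (2 * x)).mul_left C) ?_ ?_
  · intro j
    refine Tendsto.mul_const _ ?_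
    have h2 : Tendsto (fun n : ℕ => (n : ℝ) * (x / n)) atTop (𝓝 x) := by
      refine tendsto_const_nhds.congr' ?_
      filter_upwards [eventually_ge_atTop 1] with n hn
      have : (n : ℝ) ≠ 0 := by positivity
      field_simp
    exact ProbabilityTheory.tendsto_choose_mul_pow_of_tendsto_mul_atTop j h2
  · filter_upwards [eventually_ge_atTop 1, eventually_ge_atTop ⌈x⌉₊] with n hn hn' j
    have hn0 : (0 : ℝ) < n := by exact_mod_cast hn
    have hxn : x ≤ n := (Nat.le_ceil x).trans (by exact_mod_cast hn')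
    have y0 : 0 ≤ x / n := by positivity
    have y1 : x / n ≤ 1 := (div_le_one hn0).2 hxn
    have e1 : (n.choose j : ℝ) * (x / n) ^ j ≤ x ^ j / j.factorial := by
      calc (n.choose j : ℝ) * (x / n) ^ j ≤ ((n : ℝ) ^ j / j.factorial) * (x / n) ^ j := by
            refine mul_le_mul_of_nonneg_right ?_ (by positivity)
            exact Nat.choose_le_pow_div j n
        _ = x ^ j / j.factorial := by
            rw [div_pow]
            field_simp
    have e2 : (1 - x / n) ^ (n - j) ≤ 1 := pow_le_one₀ (by linarith) (by linarith)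
    have e3 : 0 ≤ (1 - x / n) ^ (n - j) := pow_nonneg (by linarith) _
    have e4 : |a j| ≤ C * 2 ^ j := by
      refine (ha j).trans (mul_le_mul_of_nonneg_left ?_ hC)
      have : j + 1 ≤ 2 ^ j := Nat.lt_two_pow_self
      have h' : ((j + 1 : ℕ) : ℝ) ≤ ((2 ^ j : ℕ) : ℝ) := by exact_mod_cast this
      push_cast at h'
      linarith
    have e0 : 0 ≤ (n.choose j : ℝ) * (x / n) ^ j := by positivity
    rw [Real.norm_eq_abs, abs_mul, abs_mul, abs_of_nonneg e0, abs_of_nonneg e3]
    calc (n.choose j : ℝ) * (x / n) ^ j * (1 - x / n) ^ (n - j) * |a j|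
        ≤ x ^ j / j.factorial * 1 * (C * 2 ^ j) := by
          gcongr
      _ = C * ((2 * x) ^ j / j.factorial) := by
          rw [mul_pow]; ring

theorem bnav_swap {p u v e : ℝ} (hu0 : 0 ≤ u) (hu1 : u ≤ 1) (hv0 : 0 ≤ v) (hv1 : v ≤ 1)
    (huv : v = p * u) (G : ℕ → ℕ → ℝ)
    (step : ∀ M k, (G (M + 1) k - G M k) - p * (G M (k + 1) - G M k) ≤ -e) (i j : ℕ) :
    bnav u i (fun M => bnav v j (fun k => G M k)) ≤
      bnav v (i + j) (fun k => G 0 k) - i * u * e := by
  induction i generalizing j with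
  | zero => simp [bnav_zero]
  | succ i ih =>
    set D : (ℕ → ℕ → ℝ) → ℝ := fun G => bnav u i (fun M => bnav v j (fun k => G M k)) with hD
    have hDl : ∀ (c d : ℝ) (G H : ℕ → ℕ → ℝ),
        D (fun M k => c * G M k + d * H M k) = c * D G + d * D H := by
      intro c d G H
      simp only [hD]
      simp only [bnav_lin]
    have hDm : ∀ G H : ℕ → ℕ → ℝ, (∀ M k, G M k ≤ H M k) → D G ≤ D H := fun G H h =>
      bnav_mono hu0 hu1 _ fun M => bnav_mono hv0 hv1 _ fun k => h M k
    have hDc : ∀ c : ℝ, D (fun _ _ => c) = c := fun c => by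
      simp only [hD, bnav_const]
    have a1 : bnav u (i + 1) (fun M => bnav v j (fun k => G M k)) =
        (1 - u) * D G + u * D (fun M k => G (M + 1) k) := rfl
    have a2 : bnav u i (fun M => bnav v (j + 1) (fun k => G M k)) =
        (1 - v) * D G + v * D (fun M k => G M (k + 1)) := by
      simp only [bnav_succ, bnav_lin]
      rfl
    have a3 := ih (j + 1)
    have a4 : D (fun M k => 1 * (1 * G (M + 1) k + (-1) * G M k) +
        (-p) * (1 * G M (k + 1) + (-1) * G M k)) ≤ -e := by
      rw [← hDc (-e)]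
      refine hDm _ _ fun M k => ?_
      have := step M k
      linarith
    rw [hDl, hDl, hDl] at a4
    have a5 := mul_le_mul_of_nonneg_left a4 hu0
    rw [a1, show i + 1 + j = i + (j + 1) by ring]
    rw [a2] at a3
    push_cast
    rw [huv] at a3 ⊢
    nlinarith [a3, a5]

theorem poisson_interp (G : ℕ → ℕ → ℝ) (C : ℝ)
    (hG : ∀ M k : ℕ, |G M k| ≤ C * (1 + M + k)) (p lam e : ℝ) (hp : 0 ≤ p) (hlam : 0 ≤ lam)
    (step : ∀ M k, (G (M + 1) k - G M k) - p * (G M (k + 1) - G M k) ≤ -e) :
    (∑' M : ℕ, poissonWeight lam M * G M 0) ≤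
      (∑' k : ℕ, poissonWeight (p * lam) k * G 0 k) - lam * e := by
  have t1 : Tendsto (fun n : ℕ => bnav (lam / n) n (fun M => G M 0)) atTop
      (𝓝 (∑' M, poissonWeight lam M * G M 0)) := by
    refine bnav_tendsto (C := C) hlam _ fun j => ?_
    have := hG j 0
    simpa using this
  have t2 : Tendsto (fun n : ℕ => bnav (p * lam / n) n (fun k => G 0 k) - lam * e) atTop
      (𝓝 ((∑' k, poissonWeight (p * lam) k * G 0 k) - lam * e)) := by
    refine Tendsto.sub_const (bnav_tendsto (C := C) (mul_nonneg hp hlam) _ fun j => ?_) _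
    have := hG 0 j
    simpa using this
  refine le_of_tendsto_of_tendsto t1 t2 ?_
  filter_upwards [eventually_ge_atTop 1, eventually_ge_atTop ⌈lam⌉₊,
    eventually_ge_atTop ⌈p * lam⌉₊] with n hn h1 h2
  have hn0 : (0 : ℝ) < n := by exact_mod_cast hn
  have b1 : lam ≤ n := (Nat.le_ceil lam).trans (by exact_mod_cast h1)
  have b2 : p * lam ≤ n := (Nat.le_ceil _).trans (by exact_mod_cast h2)
  have := bnav_swap (p := p) (u := lam / n) (v := p * lam / n) (e := e) (by positivity)
    ((div_le_one hn0).2 b1) (by positivity) ((div_le_one hn0).2 b2) (by ring) G step n 0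
  simp only [bnav_zero, Nat.add_zero] at this
  refine this.trans (le_of_eq ?_)
  field_simp

end Crest.Agent.MP
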