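import Crest.Agent.MP.UIneq
import Crest.Agent.MP.UFinInt
import Crest.Agent.MP.UPoisson

/-!
# The interpolating array `G M k`, and its endpoint `k = 0`
-/

set_option autoImplicit false
set_option linter.unusedSectionVars false
set_option linter.unusedVariables false

namespace Crest.Agent.MP

open Finset
open Crest.ProbabilityR.Diluted

section

variable {q : ℕ} {ι : Type} [Fintype ι] [DecidableEq ι] [Nonempty ι]
  {W : Type} [Fintype W] [Nonempty W] (msg : (ℕ → W) → ℝ)

theorem abs_avg_le {V : Type*} [Fintype V] [Nonempty V] (f : V → ℝ) (C : ℝ) (h : ∀ v, |f v| ≤ C) :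
    |avg f| ≤ C := by
  rw [abs_le]
  constructor
  · rw [← avg_const (V := V) (-C)]
    exact avg_mono fun v => (abs_le.1 (h v)).1
  · rw [← avg_const (V := V) C]
    exact avg_mono fun v => (abs_le.1 (h v)).2

theorem FinLaw.uabs_E_le {E : Type} (μ : FinLaw E) (f : E → ℝ) (C : ℝ)
    (h : ∀ i, |f (μ.x i)| ≤ C) : |μ.E f| ≤ C := by
  rw [abs_le]
  constructor
  · rw [← μ.E_const (-C)]
    exact sum_le_sum fun i _ => mul_le_mul_of_nonneg_left (abs_le.1 (h i)).1 (μ.w_nonneg i)
  · rw [← μ.E_const C]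
    exact sum_le_sum fun i _ => mul_le_mul_of_nonneg_left (abs_le.1 (h i)).2 (μ.w_nonneg i)

theorem FinLaw.uabs_Epow_le {E : Type} (μ : FinLaw E) (k : ℕ) (f : (Fin k → E) → ℝ) (C : ℝ)
    (h : ∀ j : Fin k → μ.ι, |f (fun a => μ.x (j a))| ≤ C) : |μ.Epow k f| ≤ C := by
  have hw : ∀ j : Fin k → μ.ι, 0 ≤ ∏ a, μ.w (j a) := fun j => prod_nonneg fun a _ => μ.w_nonneg _
  rw [abs_le]
  constructor
  · rw [← μ.Epow_const k (-C)]
    exact sum_le_sum fun i _ => mul_le_mul_of_nonneg_left (abs_le.1 (h i)).1 (hw i)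
  · rw [← μ.Epow_const k C]
    exact sum_le_sum fun i _ => mul_le_mul_of_nonneg_left (abs_le.1 (h i)).2 (hw i)

/-- Bound of the interactions in the support. -/
noncomputable def suppC {p : ℕ} (μ : FinLaw (Inter p)) : ℝ := ∑ i, supNorm (μ.x i)

theorem suppC_nonneg {p : ℕ} (μ : FinLaw (Inter p)) : 0 ≤ suppC μ :=
  sum_nonneg fun _ _ => usupNorm_nonneg _

theorem le_suppC {p : ℕ} (μ : FinLaw (Inter p)) (i : μ.ι) : supNorm (μ.x i) ≤ suppC μ :=
  single_le_sum (f := fun i => supNorm (μ.x i)) (fun _ _ => usupNorm_nonneg _) (mem_univ i)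

theorem abs_opR_sub {p : ℕ} (μ : FinLaw (Inter p)) (x : ℕ → ℝ) (hx : ∀ i, 0 < x (i + 1)) (R : ℕ)
    (F : St ι → ℝ) (C : ℝ) (hF : ∀ S, |F S - S.value x R| ≤ C) (S : St ι) :
    |opR μ F S - S.value x R| ≤ C + suppC μ := by
  unfold opR
  rw [op_sub]
  refine FinLaw.uabs_E_le _ _ _ fun i => abs_avg_le _ _ fun idx => ?_
  have h1 := hF (S.addR (μ.x i) idx)
  have h2 := (abs_value_addR x hx R S (μ.x i) idx).trans (le_suppC μ i)
  have := abs_add_le (F (S.addR (μ.x i) idx) - (S.addR (μ.x i) idx).value x R)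
    ((S.addR (μ.x i) idx).value x R - S.value x R)
  rw [sub_add_sub_cancel] at this
  linarith

theorem abs_opC_sub {p : ℕ} (μ : FinLaw (Inter p)) (x : ℕ → ℝ) (hx : ∀ i, 0 < x (i + 1)) (R : ℕ)
    (F : St ι → ℝ) (C : ℝ) (hF : ∀ S, |F S - S.value x R| ≤ C) (S : St ι) :
    |opC msg μ F S - S.value x R| ≤ C + suppC μ := by
  unfold opC
  rw [op_sub]
  refine FinLaw.uabs_E_le _ _ _ fun i => abs_avg_le _ _ fun j => ?_
  have h1 := hF (S.addC msg (μ.x i) j)
  have h2 := (abs_value_addC msg x hx R S (μ.x i) j).trans (le_suppC μ i)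
  have := abs_add_le (F (S.addC msg (μ.x i) j) - (S.addC msg (μ.x i) j).value x R)
    ((S.addC msg (μ.x i) j).value x R - S.value x R)
  rw [sub_add_sub_cancel] at this
  linarith

theorem abs_iter_sub {p : ℕ} (μ : FinLaw (Inter p)) (x : ℕ → ℝ) (hx : ∀ i, 0 < x (i + 1)) (R : ℕ)
    (M k : ℕ) (S : St ι) :
    |(opR μ)^[M] ((opC msg μ)^[k] (St.value x R)) S - S.value x R| ≤ suppC μ * (M + k) := by
  have h1 : ∀ k : ℕ, ∀ S : St ι, |(opC msg μ)^[k] (St.value x R) S - S.value x R| ≤ suppC μ * k := by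
    intro k
    induction k with
    | zero => intro S; simp
    | succ k ih =>
      intro S
      rw [Function.iterate_succ_apply']
      refine (abs_opC_sub msg μ x hx R _ _ ih S).trans (le_of_eq ?_)
      push_cast; ring
  have h2 : ∀ M : ℕ, ∀ S : St ι,
      |(opR μ)^[M] ((opC msg μ)^[k] (St.value x R)) S - S.value x R| ≤ suppC μ * (M + k) := by
    intro M
    induction M with
    | zero => intro S; simpa using h1 k S
    | succ M ih =>
      intro S
      rw [Function.iterate_succ_apply']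
      refine (abs_opR_sub μ x hx R _ _ ih S).trans (le_of_eq ?_)
      push_cast; ring
  exact h2 M S

/-- Initial state: only external fields; the spins are the coordinate `R` of the path. -/
noncomputable def S0 (R : ℕ) {N : ℕ} (hs : Fin N → ℝ) : St (Fin N) where
  V := Fin N → Bool
  fin := inferInstance
  ne := inferInstance
  Z := fun u => Real.exp (∑ i, hs i * spinVal (u R i))
  pos := fun _ => Real.exp_pos _
  spin := fun u i => u R i

/-- The interpolating array. -/
noncomputable def Gar {p : ℕ} (x : ℕ → ℝ) (R : ℕ) (μ : FinLaw (Inter p)) (ν : FinLaw ℝ) (N : ℕ)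
    [NeZero N] (M k : ℕ) : ℝ :=
  ν.Epow N fun hs => (opR μ)^[M] ((opC msg μ)^[k] (St.value x R)) (S0 R hs)

theorem Gar_bound {p : ℕ} (x : ℕ → ℝ) (hx : ∀ i, 0 < x (i + 1)) (R : ℕ) (μ : FinLaw (Inter p))
    (ν : FinLaw ℝ) (N : ℕ) [NeZero N] :
    ∃ C : ℝ, ∀ M k : ℕ, |Gar msg x R μ ν N M k| ≤ C * (1 + M + k) := by
  set C₂ := ∑ j : Fin N → ν.ι, |(S0 R (fun a => ν.x (j a))).value x R| with hC₂
  have hC₂0 : 0 ≤ C₂ := sum_nonneg fun _ _ => abs_nonneg _
  refine ⟨suppC μ + C₂, fun M k => ?_⟩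
  have h0 := suppC_nonneg μ
  refine (FinLaw.uabs_Epow_le ν N _ (suppC μ * (M + k) + C₂) fun j => ?_).trans ?_
  · have h1 := abs_iter_sub msg μ x hx R M k (S0 R (fun a => ν.x (j a)))
    have h2 : |(S0 R (fun a => ν.x (j a))).value x R| ≤ C₂ :=
      single_le_sum (f := fun j : Fin N → ν.ι => |(S0 R (fun a => ν.x (j a))).value x R|)
        (fun _ _ => abs_nonneg _) (mem_univ j)
    have h3 := abs_add_le ((opR μ)^[M] ((opC msg μ)^[k] (St.value x R)) (S0 R (fun a => ν.x (j a))) -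
      (S0 R (fun a => ν.x (j a))).value x R) ((S0 R (fun a => ν.x (j a))).value x R)
    rw [sub_add_cancel] at h3
    linarith
  · have hM : (0 : ℝ) ≤ M := Nat.cast_nonneg M
    have hk : (0 : ℝ) ≤ k := Nat.cast_nonneg k
    nlinarith [mul_nonneg hC₂0 hM, mul_nonneg hC₂0 hk]

theorem Gar_step (φ : FactLaw (q + 1)) (x : ℕ → ℝ) (R : ℕ) (hx : Exps R x)
    (hpos : Even (q + 1) ∨ ∀ j s, 0 ≤ φ.f.x j s) (ν : FinLaw ℝ) (N : ℕ) [NeZero N] (M k : ℕ) :
    (Gar msg x R φ.toLaw ν N (M + 1) k - Gar msg x R φ.toLaw ν N M k) -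
      ((q : ℝ) + 1) * (Gar msg x R φ.toLaw ν N M (k + 1) - Gar msg x R φ.toLaw ν N M k) ≤
      -(q * edgeC msg x R φ.toLaw) := by
  unfold Gar
  set v : St (Fin N) → ℝ := St.value x R
  set Λ : (St (Fin N) → ℝ) → St (Fin N) → ℝ := fun F =>
    (opR φ.toLaw)^[M] ((opC msg φ.toLaw)^[k] F) with hΛ
  have hop : IsOp Λ := IsOp.comp ((isOp_opR φ.toLaw).iterate M) ((isOp_opC msg φ.toLaw).iterate k)
  have e1 : (opR φ.toLaw)^[M + 1] ((opC msg φ.toLaw)^[k] v) = Λ (opR φ.toLaw v) := by
    rw [Function.iterate_succ_apply, iterate_comm_op]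
  have e2 : (opR φ.toLaw)^[M] ((opC msg φ.toLaw)^[k + 1] v) = Λ (opC msg φ.toLaw v) := by
    rw [Function.iterate_succ_apply]
  have e0 : (opR φ.toLaw)^[M] ((opC msg φ.toLaw)^[k] v) = Λ v := rfl
  rw [e1, e2, e0]
  have key : ∀ S, Λ (opR φ.toLaw v) S + (q : ℝ) * Λ v S + -((q : ℝ) + 1) * Λ (opC msg φ.toLaw v) S ≤
      -(q * edgeC msg x R φ.toLaw) := by
    intro S
    have hm := hop.mono (opR φ.toLaw v)
      (fun S => (-(q : ℝ) * v S + ((q : ℝ) + 1) * opC msg φ.toLaw v S) +
        -(q * edgeC msg x R φ.toLaw))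
      (fun S => by
        have := St_ineq msg φ x R hx hpos S
        have h' : v S = S.value x R := rfl
        rw [h']
        linarith) S
    have e3 : Λ (fun S => (-(q : ℝ) * v S + ((q : ℝ) + 1) * opC msg φ.toLaw v S) +
        -(q * edgeC msg x R φ.toLaw)) S = (-(q : ℝ) * Λ v S + ((q : ℝ) + 1) *
          Λ (opC msg φ.toLaw v) S) + -(q * edgeC msg x R φ.toLaw) := by
      rw [hop.add (fun S => -(q : ℝ) * v S + ((q : ℝ) + 1) * opC msg φ.toLaw v S) (fun _ => _),
        hop.const, hop.add, hop.smul, hop.smul]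
    rw [e3] at hm
    linarith
  have h5 : (ν.Epow N fun hs => Λ (opR φ.toLaw v) (S0 R hs)) +
      ((q : ℝ) * (ν.Epow N fun hs => Λ v (S0 R hs)) + -((q : ℝ) + 1) *
        (ν.Epow N fun hs => Λ (opC msg φ.toLaw v) (S0 R hs))) ≤
      -(q * edgeC msg x R φ.toLaw) := by
    rw [← FinLaw.Epow_const_mul, ← FinLaw.Epow_const_mul, ← FinLaw.Epow_add, ← FinLaw.Epow_add]
    rw [← FinLaw.Epow_const ν N (-(q * edgeC msg x R φ.toLaw))]
    unfold FinLaw.Epow
    refine sum_le_sum fun j _ => mul_le_mul_of_nonneg_left ?_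
      (prod_nonneg fun a _ => ν.w_nonneg _)
    have := key (S0 R (fun a => ν.x (j a)))
    linarith
  linarith

/-! ### Real interactions, explicitly -/

/-- Add `M` real interactions. -/
noncomputable def St.addRs {p M : ℕ} (S : St ι) (θs : Fin M → Inter p) (idx : Fin M → Fin p → ι) :
    St ι where
  V := S.V
  fin := S.fin
  ne := S.ne
  Z := fun u => S.Z u * Real.exp (∑ k, θs k (fun ℓ => S.spin u (idx k ℓ)))
  pos := fun u => mul_pos (S.pos u) (Real.exp_pos _)
  spin := S.spin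

theorem avg_cons {A : Type} [Fintype A] (M : ℕ) (f : (Fin (M + 1) → A) → ℝ) :
    avg f = avg fun a => avg fun as : Fin M → A => f (Fin.cons a as) := by
  have h : Function.Bijective (fun p : A × (Fin M → A) => (Fin.cons p.1 p.2 : Fin (M + 1) → A)) :=
    (Fin.consEquiv (fun _ : Fin (M + 1) => A)).bijective
  rw [← (Unif.of_bijective h) f, avg_prod]

theorem opR_iter {p : ℕ} (μ : FinLaw (Inter p)) (F : St ι → ℝ) (M : ℕ) :
    ∀ S : St ι, (opR μ)^[M] F S = μ.Epow M fun θs => avg fun idx : Fin M → Fin p → ι =>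
      F (S.addRs θs idx) := by
  induction M with
  | zero =>
    intro S
    rw [FinLaw.Epow_zero]
    have : ∀ idx : Fin 0 → Fin p → ι, S.addRs (Fin.elim0 : Fin 0 → Inter p) idx = S := by
      intro idx
      unfold St.addRs
      simp
    simp only [this, avg_const]
    rfl
  | succ M ih =>
    intro S
    rw [Function.iterate_succ_apply', FinLaw.Epow_succ]
    unfold opR
    congr 1
    funext θ
    have ih' := fun idx₀ : Fin p → ι => ih (S.addR θ idx₀)
    unfold opR at ih'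
    simp only [ih']
    rw [← FinLaw.Epow_avg_comm]
    congr 1
    funext θs
    rw [avg_cons]
    congr 1
    funext idx₀
    congr 1
    funext idx
    congr 1
    unfold St.addR St.addRs
    congr 1
    funext u
    rw [Fin.sum_univ_succ, Real.exp_add, mul_assoc]
    rfl

theorem value_addRs {r N p M : ℕ} (x : ℕ → ℝ) (hx : ∀ i, 0 < x (i + 1)) (h1 : x (r + 1) = 1)
    (hs : Fin N → ℝ)
    (θs : Fin M → Inter p) (idx : Fin M → Fin p → Fin N) :
    ((S0 (r + 1) hs).addRs θs idx).value x (r + 1) =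
      logPartition N θs idx hs - N * Real.log 2 := by
  unfold St.value
  have e1 : ∀ v : Fin N → Bool, T x (r + 1) 0 ((S0 (r + 1) hs).addRs θs idx).Z (fun _ => v) =
      (2 : ℝ)⁻¹ ^ N * ∑ σ : Fin N → Bool, Real.exp ((∑ k : Fin M, θs k (fun ℓ => σ (idx k ℓ))) +
        ∑ i : Fin N, hs i * spinVal (σ i)) := by
    intro v
    have e2 : T x (r + 1) 0 ((S0 (r + 1) hs).addRs θs idx).Z (fun _ => v) =
        T x r 0 (fun _ : ℕ → (Fin N → Bool) => ((2 : ℝ)⁻¹ ^ N * ∑ σ : Fin N → Bool,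
          Real.exp ((∑ k : Fin M, θs k (fun ℓ => σ (idx k ℓ))) +
            ∑ i : Fin N, hs i * spinVal (σ i))) * 1) (fun _ => v) := by
      refine (T_inner_one (V := Fin N → Bool) x _ r h1 _).trans ?_
      congr 1
      funext u
      show (Fintype.card (Fin N → Bool) : ℝ)⁻¹ * _ = _
      rw [mul_one]
      congr 1
      · simp
      · refine sum_congr rfl fun σ _ => ?_
        simp only [St.addRs, S0, Function.update_self]
        rw [← Real.exp_add, add_comm]
    rw [e2]
    have hpos : 0 < ((2 : ℝ)⁻¹ ^ N * ∑ σ : Fin N → Bool,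
          Real.exp ((∑ k : Fin M, θs k (fun ℓ => σ (idx k ℓ))) +
            ∑ i : Fin N, hs i * spinVal (σ i))) :=
      mul_pos (by positivity) (sum_pos (fun _ _ => Real.exp_pos _) univ_nonempty)
    have := T_const_mul (V := Fin N → Bool) x hx (fun _ => 1) (fun _ => one_pos) _ hpos r 0
      (fun _ => v)
    rw [this, T_one, mul_one]
  have e3 : (avg fun v : ((S0 (r + 1) hs).addRs θs idx).V =>
      Real.log (T x (r + 1) 0 ((S0 (r + 1) hs).addRs θs idx).Z (fun _ => v))) =
      avg fun v : Fin N → Bool => (logPartition N θs idx hs - N * Real.log 2) := by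
    show (avg fun v : Fin N → Bool =>
      Real.log (T x (r + 1) 0 ((S0 (r + 1) hs).addRs θs idx).Z (fun _ => v))) = _
    congr 1
    funext v
    rw [e1 v]
    unfold logPartition
    rw [Real.log_mul (by positivity)
      (sum_pos (fun _ _ => Real.exp_pos _) univ_nonempty).ne', Real.log_pow, Real.log_inv]
    ring
  rw [e3, avg_const]

theorem Gar_zero_right {r N p : ℕ} [NeZero N] (x : ℕ → ℝ) (hx : ∀ i, 0 < x (i + 1))
    (h1 : x (r + 1) = 1) (μ : FinLaw (Inter p)) (ν : FinLaw ℝ) (M : ℕ) :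
    Gar msg x (r + 1) μ ν N M 0 =
      (μ.Epow M fun θs => ν.Epow N fun hs => avg fun idx : Fin M → Fin p → Fin N =>
        logPartition N θs idx hs) - N * Real.log 2 := by
  unfold Gar
  simp only [Function.iterate_zero, id]
  simp only [opR_iter, value_addRs x hx h1, avg_sub, avg_const]
  have e : ∀ (a : (Fin N → ℝ) → (Fin M → Inter p) → ℝ) (c : ℝ),
      (ν.Epow N fun hs => μ.Epow M fun θs => a hs θs - c) =
      (μ.Epow M fun θs => ν.Epow N fun hs => a hs θs) - c := by
    intro a c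
    have e1 : ∀ hs, (μ.Epow M fun θs => a hs θs - c) = (μ.Epow M fun θs => a hs θs) + (-1) * c := by
      intro hs
      have : (fun θs => a hs θs - c) = fun θs => a hs θs + (fun _ => -c) θs := by
        funext θs; ring
      rw [this, FinLaw.Epow_add, FinLaw.Epow_const]
      ring
    simp only [e1]
    rw [FinLaw.Epow_add, FinLaw.Epow_const]
    have : (ν.Epow N fun hs => μ.Epow M fun θs => a hs θs) =
        μ.Epow M fun θs => ν.Epow N fun hs => a hs θs := by
      unfold FinLaw.Epow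
      simp only [mul_sum]
      rw [sum_comm]
      refine sum_congr rfl fun i _ => sum_congr rfl fun j _ => ?_
      ring
    rw [this]
    ring
  exact e (fun hs θs => avg fun idx : Fin M → Fin p → Fin N => logPartition N θs idx hs) _

end

end Crest.Agent.MP
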