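import Crest.Agent.MP.USt

/-!
# The state inequality for states
-/

set_option autoImplicit false
set_option linter.unusedSectionVars false
set_option linter.unusedVariables false

namespace Crest.Agent.MP

open Finset
open Crest.ProbabilityR.Diluted

theorem FinLaw.E_congr {E : Type} (μ : FinLaw E) {f g : E → ℝ} (h : ∀ i, f (μ.x i) = g (μ.x i)) :
    μ.E f = μ.E g := by
  unfold FinLaw.E
  exact sum_congr rfl fun i _ => by rw [h]

theorem FinLaw.Epow_congr {E : Type} (μ : FinLaw E) (k : ℕ) {f g : (Fin k → E) → ℝ}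
    (h : ∀ j : Fin k → μ.ι, f (fun a => μ.x (j a)) = g (fun a => μ.x (j a))) :
    μ.Epow k f = μ.Epow k g := by
  unfold FinLaw.Epow
  exact sum_congr rfl fun i _ => by rw [h]

theorem FinLaw.Epow_avg_comm {E : Type} (μ : FinLaw E) (k : ℕ) {I : Type} [Fintype I]
    (f : (Fin k → E) → I → ℝ) :
    μ.Epow k (fun y => avg fun i => f y i) = avg fun i => μ.Epow k fun y => f y i := by
  unfold FinLaw.Epow avg
  simp only [mul_sum]
  rw [sum_comm]
  refine sum_congr rfl fun i _ => sum_congr rfl fun j _ => ?_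
  ring

theorem FactLaw.toLaw_E {p : ℕ} (φ : FactLaw p) (F : Inter p → ℝ) :
    φ.toLaw.E F = φ.b.E fun b => φ.f.Epow p fun fs =>
      F (fun s => Real.log (1 + b * ∏ ℓ, fs ℓ (s ℓ))) := by
  unfold FinLaw.E FinLaw.Epow FactLaw.toLaw
  rw [Fintype.sum_prod_type]
  refine sum_congr rfl fun i _ => ?_
  rw [mul_sum]
  refine sum_congr rfl fun j _ => ?_
  simp only
  ring

section

variable {q : ℕ} {ι : Type} [Fintype ι] [DecidableEq ι] [Nonempty ι]
  {W : Type} [Fintype W] [Nonempty W] (msg : (ℕ → W) → ℝ) (φ : FactLaw (q + 1))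

theorem one_add_fact_pos (i : φ.b.ι) (k : Fin (q + 1) → φ.f.ι) (s : Fin (q + 1) → Bool) :
    0 < 1 + φ.b.x i * ∏ ℓ, φ.f.x (k ℓ) (s ℓ) := by
  have := (abs_le.1 (φ.bound i k s)).1
  linarith [φ.δ_pos]

theorem edge_eq (i : φ.b.ι) (k : Fin (q + 1) → φ.f.ι) (u : ℕ → Fin (q + 1) → W) :
    edgeTerm (fun s => Real.log (1 + φ.b.x i * ∏ ℓ, φ.f.x (k ℓ) (s ℓ)))
      (fun ℓ => msg (fun l => u l ℓ)) =
    1 + Xe (fun u s => tilt (msg u) s) (φ.b.x i) (fun ℓ => φ.f.x (k ℓ)) u := by
  unfold edgeTerm Xe br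
  simp only [Real.exp_log (one_add_fact_pos φ i k _), add_mul, one_mul, sum_add_distrib,
    prod_tilt_sum]
  congr 1
  rw [prod_univ_sum, Fintype.piFinset_univ, mul_sum]
  refine sum_congr rfl fun s _ => ?_
  rw [prod_mul_distrib]
  ring

theorem site_eq (i : φ.b.ι) (k : Fin (q + 1) → φ.f.ι) (y : Fin q → ℝ) (ε : Bool) :
    Real.exp (siteMessage (p := q + 1) (fun s => Real.log (1 + φ.b.x i * ∏ ℓ, φ.f.x (k ℓ) (s ℓ)))
      y ε) =
    1 + φ.b.x i * (φ.f.x (k (Fin.last q)) ε * ∏ ℓ : Fin q, ∑ s, φ.f.x (k ℓ.castSucc) s *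
      tilt (y ℓ) s) := by
  unfold siteMessage
  have h1 : ∑ s' : Fin (q + 1 - 1) → Bool,
      Real.exp (Real.log (1 + φ.b.x i * ∏ ℓ : Fin (q + 1), φ.f.x (k ℓ)
        (if h : ℓ.val < q + 1 - 1 then s' ⟨ℓ.val, h⟩ else ε))) * ∏ ℓ, tilt (y ℓ) (s' ℓ) =
      1 + φ.b.x i * (φ.f.x (k (Fin.last q)) ε * ∏ ℓ : Fin q, ∑ s, φ.f.x (k ℓ.castSucc) s *
      tilt (y ℓ) s) := by
    simp only [Real.exp_log (one_add_fact_pos φ i k _), add_mul, one_mul, sum_add_distrib]
    have e0 : ∑ s' : Fin (q + 1 - 1) → Bool, ∏ ℓ, tilt (y ℓ) (s' ℓ) = 1 :=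
      prod_tilt_sum (L := Fin q) y
    rw [e0]
    congr 1
    rw [prod_univ_sum, Fintype.piFinset_univ, mul_sum, mul_sum]
    refine sum_congr rfl fun s _ => ?_
    rw [Fin.prod_univ_castSucc, prod_mul_distrib]
    have e1 : ∀ ℓ : Fin q, (if h : (ℓ.castSucc : Fin (q + 1)).val < q + 1 - 1 then
        s ⟨(ℓ.castSucc : Fin (q + 1)).val, h⟩ else ε) = s ℓ := by
      intro ℓ
      rw [dif_pos (by simp)]
      rfl
    have e2 : (if h : (Fin.last q).val < q + 1 - 1 then s ⟨(Fin.last q).val, h⟩ else ε) = ε := by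
      rw [dif_neg (by simp)]
    simp only [e1, e2]
    ring
  have h2 := (exp_avg_bounds (L := Fin q) y
      (fun s' => Real.log (1 + φ.b.x i * ∏ ℓ : Fin (q + 1), φ.f.x (k ℓ)
        (if h : ℓ.val < q + 1 - 1 then s' ⟨ℓ.val, h⟩ else ε)))
      (supNorm (fun s : Fin (q + 1) → Bool => Real.log (1 + φ.b.x i * ∏ ℓ, φ.f.x (k ℓ) (s ℓ))))
      (fun s => uabs_le_supNorm (fun s : Fin (q + 1) → Bool =>
        Real.log (1 + φ.b.x i * ∏ ℓ, φ.f.x (k ℓ) (s ℓ))) _)).1
  have h3 := lt_of_lt_of_le (Real.exp_pos _) h2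
  rw [Real.exp_log]
  · exact h1
  · exact h3

/-- The edge constant. -/
noncomputable def edgeC {p : ℕ} (x : ℕ → ℝ) (R : ℕ) (μ : FinLaw (Inter p)) : ℝ :=
  μ.E fun θ => avg fun v : Fin p → W =>
    Real.log (T x R 0 (fun u : ℕ → Fin p → W => edgeTerm θ (fun ℓ => msg (fun l => u l ℓ)))
      (fun _ => v))

theorem value_addR_sub {p : ℕ} (x : ℕ → ℝ) (R : ℕ) (S : St ι) (θ : Inter p) (idx : Fin p → ι) :
    (S.addR θ idx).value x R - S.value x R = avg fun v : S.V =>
      (Real.log (T x R 0 (fun u => S.Z u * Real.exp (θ (fun ℓ => S.spin u (idx ℓ))))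
        (fun _ => v)) - Real.log (T x R 0 S.Z (fun _ => v))) := by
  unfold St.value
  rw [avg_sub]
  rfl

theorem value_addC_sub {p : ℕ} (x : ℕ → ℝ) (R : ℕ) (S : St ι) (θ : Inter p) (i : ι) :
    (S.addC msg θ i).value x R - S.value x R = avg fun v : S.V =>
      avg fun w : ι → Fin (p - 1) → W =>
      (Real.log (T x R 0 (fun u : ℕ → S.V × (ι → Fin (p - 1) → W) => S.Z (fun l => (u l).1) *
        Real.exp (siteMessage θ (fun ℓ => msg (fun l => (u l).2 i ℓ))
          (S.spin (fun l => (u l).1) i)))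
        (fun _ => (v, w))) - Real.log (T x R 0 S.Z (fun _ => v))) := by
  simp only [avg_sub, avg_const]
  unfold St.value
  congr 1
  exact avg_prod (V := S.V) (W := ι → Fin (p - 1) → W)
    (fun v => Real.log (T x R 0 (S.addC msg θ i).Z (fun _ => v)))

theorem op_sub {p : ℕ} (μ : FinLaw (Inter p)) {I : Type} [Fintype I] [Nonempty I]
    (F : Inter p → I → ℝ) (c : ℝ) :
    (μ.E fun θ => avg fun i => F θ i) - c = μ.E fun θ => avg fun i => (F θ i - c) := by
  have : ∀ θ, (avg fun i => (F θ i - c)) = (avg fun i => F θ i) + (-1) * c := by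
    intro θ; rw [avg_sub, avg_const]; ring
  simp only [this, FinLaw.E_add, FinLaw.E_const]
  ring

theorem St_ineq (x : ℕ → ℝ) (R : ℕ) (hx : Exps R x) (hpos : Even (q + 1) ∨ ∀ j s, 0 ≤ φ.f.x j s)
    (S : St ι) :
    (opR φ.toLaw (St.value x R) S - S.value x R) -
      ((q : ℝ) + 1) * (opC msg φ.toLaw (St.value x R) S - S.value x R) ≤
      -(q * edgeC msg x R φ.toLaw) := by
  have main := fun v : S.V => state_ineq φ S.spin (fun u s => tilt (msg u) s) hx S.pos
    (fun u s => (utilt_pos _ _).le) (fun u => utilt_sum _) hpos (fun _ => v)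
  have main2 := avg_mono main
  rw [avg_const, avg_add, avg_sub, avg_mul_left, avg_const] at main2
  -- real part
  have eR : opR φ.toLaw (St.value x R) S - S.value x R =
      avg fun v : S.V => φ.b.E fun b => φ.f.Epow (q + 1) fun fs =>
        avg fun idx : Fin (q + 1) → ι =>
        (Real.log (T x R 0 (fun u => S.Z u * (1 + Xr S.spin b fs idx u)) (fun _ => v)) -
          Real.log (T x R 0 S.Z (fun _ => v))) := by
    rw [← FinLaw.E_avg_comm]
    simp only [← FinLaw.Epow_avg_comm]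
    unfold opR
    rw [op_sub, FactLaw.toLaw_E]
    refine FinLaw.E_congr _ fun i => FinLaw.Epow_congr _ _ fun k => ?_
    rw [avg_comm (V := S.V)]
    congr 1
    funext idx
    rw [value_addR_sub]
    congr 1
    funext v
    simp only [Real.exp_log (one_add_fact_pos φ i k _)]
    rfl
  have eC : opC msg φ.toLaw (St.value x R) S - S.value x R =
      avg fun v : S.V => φ.b.E fun b => φ.f.Epow (q + 1) fun fs => avg fun i : ι =>
        avg fun w : ι → Fin q → W =>
        (Real.log (T x R 0 (fun u : ℕ → S.V × (ι → Fin q → W) => S.Z (fun l => (u l).1) *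
          (1 + Xc S.spin (fun u s => tilt (msg u) s) b fs i u)) (fun l => (v, w))) -
            Real.log (T x R 0 S.Z (fun _ => v))) := by
    rw [← FinLaw.E_avg_comm]
    simp only [← FinLaw.Epow_avg_comm]
    unfold opC
    rw [op_sub, FactLaw.toLaw_E]
    refine FinLaw.E_congr _ fun i => FinLaw.Epow_congr _ _ fun k => ?_
    rw [avg_comm (V := S.V)]
    congr 1
    funext j
    rw [value_addC_sub]
    congr 1
    funext v
    have e := fun (u : ℕ → S.V × (ι → Fin q → W)) => site_eq φ i k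
      (fun ℓ => msg (fun l => (u l).2 j ℓ)) (S.spin (fun l => (u l).1) j)
    have e' : (fun u : ℕ → S.V × (ι → Fin q → W) => S.Z (fun l => (u l).1) *
        Real.exp (siteMessage (p := q + 1)
          (fun s => Real.log (1 + φ.b.x i * ∏ ℓ, φ.f.x (k ℓ) (s ℓ)))
          (fun ℓ => msg (fun l => (u l).2 j ℓ)) (S.spin (fun l => (u l).1) j))) =
        fun u => S.Z (fun l => (u l).1) *
          (1 + Xc S.spin (fun u s => tilt (msg u) s) (φ.b.x i) (fun ℓ => φ.f.x (k ℓ)) j u) := by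
      funext u
      exact congrArg (S.Z (fun l => (u l).1) * ·) (e u)
    rw [← e']
    rfl
  have eE : edgeC msg x R φ.toLaw = φ.b.E fun b => φ.f.Epow (q + 1) fun fs =>
      avg fun v : Fin (q + 1) → W =>
        Real.log (T x R 0 (fun u => 1 + Xe (fun u s => tilt (msg u) s) b fs u) (fun _ => v)) := by
    unfold edgeC
    rw [FactLaw.toLaw_E]
    refine FinLaw.E_congr _ fun i => FinLaw.Epow_congr _ _ fun k => ?_
    simp only [edge_eq]
  rw [eR, eC, eE]
  linarith [main2]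

end

end Crest.Agent.MP
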