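import Crest.Agent.MP.URep

/-!
# Tree calculus: the expansion of `log T₀ (Z (1+X)) - log T₀ Z` (LINK)
-/

set_option autoImplicit false
set_option linter.unusedSectionVars false
set_option linter.unusedVariables false

namespace Crest.Agent.MP

open Finset

variable {V : Type*} [Fintype V] [Nonempty V]

/-- Admissible exponents (with conventions `x 0 = 0`, `x (R+1) = 1`). -/
structure Exps (R : ℕ) (x : ℕ → ℝ) : Prop where
  zero : x 0 = 0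
  one : x (R + 1) = 1
  mono : Monotone x
  pos : ∀ i, 0 < x (i + 1)

theorem E_mono {x : ℕ → ℝ} {R : ℕ} (hx : Exps R x) {Z : (ℕ → V) → ℝ} (hZ : ∀ u, 0 < Z u) (n : ℕ)
    {Φ Ψ : (ℕ → ℕ → V) → ℝ} (h : ∀ s, Φ s ≤ Ψ s) (b : ℕ → V) :
    E x R Z n Φ b ≤ E x R Z n Ψ b :=
  PE_mono x hx.mono R n _ _ fun h' _ => Eh_mono x R Z hZ n h' b _ _ h

theorem E_const {x : ℕ → ℝ} {R : ℕ} (hx : Exps R x) {Z : (ℕ → V) → ℝ} (hZ : ∀ u, 0 < Z u) (n : ℕ)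
    (k : ℝ) (b : ℕ → V) : E x R Z n (fun _ => k) b = k := by
  unfold E
  simp only [Eh_const x R Z hZ]
  exact PE_const x R hx.zero hx.one n k

theorem E_add (x : ℕ → ℝ) (R : ℕ) (Z : (ℕ → V) → ℝ) (n : ℕ)
    (Φ Ψ : (ℕ → ℕ → V) → ℝ) (b : ℕ → V) :
    E x R Z n (fun s => Φ s + Ψ s) b = E x R Z n Φ b + E x R Z n Ψ b := by
  unfold E
  simp only [Eh_add, PE_add]

theorem E_const_mul (x : ℕ → ℝ) (R : ℕ) (Z : (ℕ → V) → ℝ) (n : ℕ)
    (k : ℝ) (Φ : (ℕ → ℕ → V) → ℝ) (b : ℕ → V) :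
    E x R Z n (fun s => k * Φ s) b = k * E x R Z n Φ b := by
  unfold E
  simp only [Eh_const_mul, PE_const_mul]

theorem abs_E_le {x : ℕ → ℝ} {R : ℕ} (hx : Exps R x) {Z : (ℕ → V) → ℝ} (hZ : ∀ u, 0 < Z u) (n : ℕ)
    {Φ : (ℕ → ℕ → V) → ℝ} {M : ℝ} (h : ∀ s, |Φ s| ≤ M) (b : ℕ → V) :
    |E x R Z n Φ b| ≤ M := by
  rw [abs_le]
  constructor
  · have := E_mono hx hZ n (Φ := fun _ => -M) (Ψ := Φ) (fun s => (abs_le.1 (h s)).1) b
    rwa [E_const hx hZ] at this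
  · have := E_mono hx hZ n (Φ := Φ) (Ψ := fun _ => M) (fun s => (abs_le.1 (h s)).2) b
    rwa [E_const hx hZ] at this

section Link

variable (x : ℕ → ℝ) (R : ℕ) (Z X : (ℕ → V) → ℝ)

/-- `Z (1 + t X)`. -/
noncomputable def Zt (t : ℝ) (u : ℕ → V) : ℝ := Z u * (1 + t * X u)

/-- `X / (1 + t X)`. -/
noncomputable def Yt (t : ℝ) (u : ℕ → V) : ℝ := X u / (1 + t * X u)

/-- `g n t = E_{n+1}^{Z_t}[∏ Y_t]`. -/
noncomputable def gl (n : ℕ) (b : ℕ → V) (t : ℝ) : ℝ :=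
  E x R (Zt Z X t) n (fun s => ∏ l ∈ range (n + 1), Yt X t (s l)) b

variable {x R Z X}

theorem one_add_pos {ρ : ℝ} (hX : ∀ u, |X u| ≤ ρ) (hρ : ρ < 1) {t : ℝ} (ht0 : 0 ≤ t)
    (ht1 : t ≤ 1) (u : ℕ → V) : 0 < 1 - t * ρ ∧ 1 - t * ρ ≤ 1 + t * X u := by
  have h1 := (abs_le.1 (hX u)).1
  have hρ0 : 0 ≤ ρ := (abs_nonneg _).trans (hX u)
  constructor
  · nlinarith
  · nlinarith

theorem Zt_pos (hZ : ∀ u, 0 < Z u) {ρ : ℝ} (hX : ∀ u, |X u| ≤ ρ) (hρ : ρ < 1) {t : ℝ}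
    (ht0 : 0 ≤ t) (ht1 : t ≤ 1) (u : ℕ → V) : 0 < Zt Z X t u :=
  mul_pos (hZ u) (lt_of_lt_of_le (one_add_pos hX hρ ht0 ht1 u).1 (one_add_pos hX hρ ht0 ht1 u).2)

theorem hasDerivAt_Zt {ρ : ℝ} (hX : ∀ u, |X u| ≤ ρ) (hρ : ρ < 1) {t : ℝ}
    (ht0 : 0 ≤ t) (ht1 : t ≤ 1) (u : ℕ → V) :
    HasDerivAt (fun t => Zt Z X t u) (Zt Z X t u * Yt X t u) t := by
  have hp : 0 < 1 + t * X u :=
    lt_of_lt_of_le (one_add_pos hX hρ ht0 ht1 u).1 (one_add_pos hX hρ ht0 ht1 u).2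
  have h1 : HasDerivAt (fun t : ℝ => Z u * (1 + t * X u)) (Z u * (1 * X u)) t :=
    (((hasDerivAt_id t).mul_const (X u)).const_add 1).const_mul (Z u)
  refine h1.congr_deriv ?_
  unfold Zt Yt
  have hne := hp.ne'
  rw [one_mul, mul_assoc, mul_div_cancel₀ _ hne]

theorem hasDerivAt_Yt {ρ : ℝ} (hX : ∀ u, |X u| ≤ ρ) (hρ : ρ < 1) {t : ℝ}
    (ht0 : 0 ≤ t) (ht1 : t ≤ 1) (u : ℕ → V) :
    HasDerivAt (fun t => Yt X t u) (-(Yt X t u * Yt X t u)) t := by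
  have hp : 0 < 1 + t * X u :=
    lt_of_lt_of_le (one_add_pos hX hρ ht0 ht1 u).1 (one_add_pos hX hρ ht0 ht1 u).2
  have h1 : HasDerivAt (fun t : ℝ => 1 + t * X u) (1 * X u) t :=
    (((hasDerivAt_id t).mul_const (X u)).const_add 1)
  have h2 := (hasDerivAt_const t (X u)).div h1 hp.ne'
  have e : (fun t => Yt X t u) = (fun _ => X u) / (fun t : ℝ => 1 + t * X u) := rfl
  rw [e]
  refine h2.congr_deriv ?_
  unfold Yt
  field_simp
  ring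

theorem abs_Yt_le {ρ : ℝ} (hX : ∀ u, |X u| ≤ ρ) (hρ : ρ < 1) {t : ℝ}
    (ht0 : 0 ≤ t) (ht1 : t ≤ 1) (u : ℕ → V) : |Yt X t u| ≤ ρ / (1 - t * ρ) := by
  obtain ⟨h1, h2⟩ := one_add_pos hX hρ ht0 ht1 u
  unfold Yt
  rw [abs_div, abs_of_pos (lt_of_lt_of_le h1 h2)]
  exact div_le_div₀ ((abs_nonneg _).trans (hX u)) (hX u) h1 h2

theorem hasDerivAt_prod_Yt {ρ : ℝ} (hX : ∀ u, |X u| ≤ ρ) (hρ : ρ < 1) {t : ℝ}
    (ht0 : 0 ≤ t) (ht1 : t ≤ 1) (n : ℕ) (s : ℕ → ℕ → V) :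
    HasDerivAt (fun t => ∏ l ∈ range n, Yt X t (s l))
      (-((∑ l ∈ range n, Yt X t (s l)) * ∏ l ∈ range n, Yt X t (s l))) t := by
  induction n with
  | zero => simpa using hasDerivAt_const t (1 : ℝ)
  | succ n ih =>
    simp only [prod_range_succ, sum_range_succ]
    refine (ih.mul (hasDerivAt_Yt hX hρ ht0 ht1 (s n))).congr_deriv ?_
    ring

theorem hasDerivAt_gl (hx : Exps R x) (hZ : ∀ u, 0 < Z u) {ρ : ℝ} (hX : ∀ u, |X u| ≤ ρ)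
    (hρ : ρ < 1) {t : ℝ} (ht0 : 0 ≤ t) (ht1 : t ≤ 1) (n : ℕ) (b : ℕ → V) :
    HasDerivAt (gl x R Z X n b) (-(((n : ℝ) + 1) * gl x R Z X (n + 1) b t)) t := by
  have h := hasDerivAt_E x hx.pos R hx.zero hx.one (Zt Z X) t (Zt_pos hZ hX hρ ht0 ht1) (Yt X t)
    (hasDerivAt_Zt hX hρ ht0 ht1) n b (fun t s => ∏ l ∈ range (n + 1), Yt X t (s l))
    (fun s => -((∑ l ∈ range (n + 1), Yt X t (s l)) * ∏ l ∈ range (n + 1), Yt X t (s l)))
    (fun s => hasDerivAt_prod_Yt hX hρ ht0 ht1 (n + 1) s) (by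
      intro s u
      refine prod_congr rfl fun l hl => ?_
      rw [Function.update_of_ne (by have := mem_range.1 hl; omega)])
  refine h.congr_deriv ?_
  have e1 : (fun s : ℕ → ℕ → V => -((∑ l ∈ range (n + 1), Yt X t (s l)) *
      ∏ l ∈ range (n + 1), Yt X t (s l)) +
      (∑ a ∈ range (n + 1), Yt X t (s a)) * ∏ l ∈ range (n + 1), Yt X t (s l)) = fun _ => 0 := by
    funext s; ring
  rw [e1, E_const hx (Zt_pos hZ hX hρ ht0 ht1)]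
  unfold gl
  simp only [prod_range_succ _ (n + 1)]
  ring

theorem abs_gl_le (hx : Exps R x) (hZ : ∀ u, 0 < Z u) {ρ : ℝ} (hX : ∀ u, |X u| ≤ ρ)
    (hρ : ρ < 1) {t : ℝ} (ht0 : 0 ≤ t) (ht1 : t ≤ 1) (n : ℕ) (b : ℕ → V) :
    |gl x R Z X n b t| ≤ (ρ / (1 - t * ρ)) ^ (n + 1) := by
  refine abs_E_le hx (Zt_pos hZ hX hρ ht0 ht1) n (fun s => ?_) b
  rw [abs_prod]
  calc ∏ l ∈ range (n + 1), |Yt X t (s l)| ≤ ∏ l ∈ range (n + 1), (ρ / (1 - t * ρ)) :=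
        prod_le_prod (fun _ _ => abs_nonneg _) fun l _ => abs_Yt_le hX hρ ht0 ht1 (s l)
    _ = _ := by rw [prod_const, card_range]

theorem hasDerivAt_logT (hx : Exps R x) (hZ : ∀ u, 0 < Z u) {ρ : ℝ} (hX : ∀ u, |X u| ≤ ρ)
    (hρ : ρ < 1) {t : ℝ} (ht0 : 0 ≤ t) (ht1 : t ≤ 1) (b : ℕ → V) :
    HasDerivAt (fun t => Real.log (T x R 0 (Zt Z X t) b)) (gl x R Z X 0 b t) t := by
  have h := hasDerivAt_T x hx.pos (Zt Z X) t (Zt_pos hZ hX hρ ht0 ht1) (Yt X t)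
    (hasDerivAt_Zt hX hρ ht0 ht1) R 0 b
  have hp := T_pos x _ (Zt_pos hZ hX hρ ht0 ht1) R 0 b
  refine (h.log hp.ne').congr_deriv ?_
  have e : gl x R Z X 0 b t = K x R 0 (Zt Z X t) (Yt X t) b := by
    simp [gl, E, PE, Eh]
  rw [e]
  field_simp

/-- The interpolating Taylor function. -/
noncomputable def HN (x : ℕ → ℝ) (R : ℕ) (Z X : (ℕ → V) → ℝ) (b : ℕ → V) (N : ℕ) (t : ℝ) : ℝ :=
  Real.log (T x R 0 (Zt Z X t) b) +
    ∑ k ∈ range N, ((-1) ^ k / ((k : ℝ) + 1)) * (gl x R Z X k b t * (1 - t) ^ (k + 1))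

theorem hasDerivAt_HN (hx : Exps R x) (hZ : ∀ u, 0 < Z u) {ρ : ℝ} (hX : ∀ u, |X u| ≤ ρ)
    (hρ : ρ < 1) {t : ℝ} (ht0 : 0 ≤ t) (ht1 : t ≤ 1) (b : ℕ → V) (N : ℕ) :
    HasDerivAt (HN x R Z X b N) ((-1) ^ N * (gl x R Z X N b t * (1 - t) ^ N)) t := by
  have h1 : ∀ k ∈ range N, HasDerivAt
      (fun t => ((-1 : ℝ) ^ k / ((k : ℝ) + 1)) * (gl x R Z X k b t * (1 - t) ^ (k + 1)))
      ((-1) ^ (k + 1) * (gl x R Z X (k + 1) b t * (1 - t) ^ (k + 1)) -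
        (-1) ^ k * (gl x R Z X k b t * (1 - t) ^ k)) t := by
    intro k _
    have ha := hasDerivAt_gl hx hZ hX hρ ht0 ht1 k b
    have hb : HasDerivAt (fun t : ℝ => (1 - t) ^ (k + 1))
        (((k + 1 : ℕ) : ℝ) * (1 - t) ^ k * (-1)) t := by
      exact (((hasDerivAt_id t).const_sub 1).pow (k + 1)).congr_deriv (by simp)
    refine ((ha.mul hb).const_mul _).congr_deriv ?_
    have : (k : ℝ) + 1 ≠ 0 := by positivity
    push_cast
    field_simp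
    ring
  refine ((hasDerivAt_logT hx hZ hX hρ ht0 ht1 b).add (HasDerivAt.fun_sum h1)).congr_deriv ?_
  rw [sum_range_sub (fun k => (-1 : ℝ) ^ k * (gl x R Z X k b t * (1 - t) ^ k))]
  simp

theorem HN_bound (hx : Exps R x) (hZ : ∀ u, 0 < Z u) {ρ : ℝ} (hX : ∀ u, |X u| ≤ ρ)
    (hρ : ρ < 1) (b : ℕ → V) (N : ℕ) :
    |HN x R Z X b N 1 - HN x R Z X b N 0| ≤ ρ ^ (N + 1) / (1 - ρ) := by
  have hρ0 : 0 ≤ ρ := (abs_nonneg _).trans (hX b)
  have h1ρ : 0 < 1 - ρ := by linarith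
  have hd : ∀ t ∈ Set.Icc (0 : ℝ) 1, HasDerivWithinAt (HN x R Z X b N)
      ((-1) ^ N * (gl x R Z X N b t * (1 - t) ^ N)) (Set.Icc 0 1) t := fun t ht =>
    (hasDerivAt_HN hx hZ hX hρ ht.1 ht.2 b N).hasDerivWithinAt
  have hb : ∀ t ∈ Set.Icc (0 : ℝ) 1,
      ‖(-1 : ℝ) ^ N * (gl x R Z X N b t * (1 - t) ^ N)‖ ≤ ρ ^ (N + 1) / (1 - ρ) := by
    intro t ht
    have ht0 := ht.1
    have ht1 := ht.2
    rw [Real.norm_eq_abs, abs_mul, abs_mul, abs_pow, abs_neg, abs_one, one_pow, one_mul,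
      abs_of_nonneg (pow_nonneg (sub_nonneg.2 ht1) N)]
    have hpos : 0 < 1 - t * ρ := by nlinarith
    have h2 := abs_gl_le hx hZ hX hρ ht0 ht1 N b
    calc |gl x R Z X N b t| * (1 - t) ^ N ≤ (ρ / (1 - t * ρ)) ^ (N + 1) * (1 - t) ^ N :=
          mul_le_mul_of_nonneg_right h2 (pow_nonneg (sub_nonneg.2 ht1) N)
      _ = ρ ^ (N + 1) / (1 - t * ρ) * ((1 - t) / (1 - t * ρ)) ^ N := by
          rw [div_pow, div_pow, pow_succ (1 - t * ρ)]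
          field_simp
      _ ≤ ρ ^ (N + 1) / (1 - ρ) * 1 := by
          apply mul_le_mul
          · exact div_le_div_of_nonneg_left (by positivity) h1ρ (by nlinarith)
          · exact pow_le_one₀ (div_nonneg (by linarith) hpos.le)
              ((div_le_one hpos).2 (by nlinarith))
          · exact pow_nonneg (div_nonneg (by linarith) hpos.le) N
          · positivity
      _ = _ := by ring
  have := (convex_Icc (0 : ℝ) 1).norm_image_sub_le_of_norm_hasDerivWithin_le hd hb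
    (Set.left_mem_Icc.2 zero_le_one) (Set.right_mem_Icc.2 zero_le_one)
  simpa [Real.norm_eq_abs] using this

/-- **LINK**: `log T₀(Z(1+X)) - log T₀(Z) = ∑ₙ (-1)ⁿ/(n+1) E_{n+1}^Z[∏ X]`. -/
theorem link (hx : Exps R x) (hZ : ∀ u, 0 < Z u) {ρ : ℝ} (hX : ∀ u, |X u| ≤ ρ)
    (hρ : ρ < 1) (b : ℕ → V) :
    HasSum (fun n : ℕ => ((-1) ^ n / ((n : ℝ) + 1)) *
      E x R Z n (fun s => ∏ l ∈ range (n + 1), X (s l)) b)
      (Real.log (T x R 0 (fun u => Z u * (1 + X u)) b) - Real.log (T x R 0 Z b)) := by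
  have hρ0 : 0 ≤ ρ := (abs_nonneg _).trans (hX b)
  have h1ρ : 0 < 1 - ρ := by linarith
  have eZ0 : Zt Z X 0 = Z := by funext u; simp [Zt]
  have eY0 : Yt X 0 = X := by funext u; simp [Yt]
  have eZ1 : Zt Z X 1 = fun u => Z u * (1 + X u) := by funext u; simp [Zt]
  have egl : ∀ n : ℕ, gl x R Z X n b 0 = E x R Z n (fun s => ∏ l ∈ range (n + 1), X (s l)) b := by
    intro n; unfold gl; rw [eZ0, eY0]
  have habs : ∀ n : ℕ, |((-1 : ℝ) ^ n / ((n : ℝ) + 1)) *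
      E x R Z n (fun s => ∏ l ∈ range (n + 1), X (s l)) b| ≤ ρ ^ n := by
    intro n
    rw [abs_mul, abs_div, abs_pow, abs_neg, abs_one, one_pow,
      abs_of_pos (by positivity : (0 : ℝ) < (n : ℝ) + 1), ← egl]
    have h := abs_gl_le hx hZ hX hρ le_rfl zero_le_one n b
    simp only [zero_mul, sub_zero, div_one] at h
    calc 1 / ((n : ℝ) + 1) * |gl x R Z X n b 0| ≤ 1 * ρ ^ n := by
          apply mul_le_mul
          · rw [div_le_one (by positivity)]; linarith [(Nat.cast_nonneg n : (0 : ℝ) ≤ n)]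
          · exact h.trans (by rw [pow_succ]; nlinarith [pow_nonneg hρ0 n])
          · exact abs_nonneg _
          · exact zero_le_one
      _ = ρ ^ n := one_mul _
  have hsum : Summable (fun n : ℕ => ((-1) ^ n / ((n : ℝ) + 1)) *
      E x R Z n (fun s => ∏ l ∈ range (n + 1), X (s l)) b) :=
    Summable.of_norm_bounded (summable_geometric_of_lt_one hρ0 hρ) fun n => habs n
  rw [hsum.hasSum_iff_tendsto_nat]
  rw [← tendsto_sub_nhds_zero_iff]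
  refine squeeze_zero_norm (a := fun N : ℕ => ρ ^ (N + 1) / (1 - ρ)) (fun N => ?_) ?_
  · have h := HN_bound hx hZ hX hρ b N
    have e1 : HN x R Z X b N 1 = Real.log (T x R 0 (fun u => Z u * (1 + X u)) b) := by
      unfold HN
      rw [eZ1]
      simp
    have e0 : HN x R Z X b N 0 = Real.log (T x R 0 Z b) +
        ∑ k ∈ range N, ((-1) ^ k / ((k : ℝ) + 1)) *
          E x R Z k (fun s => ∏ l ∈ range (k + 1), X (s l)) b := by
      unfold HN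
      rw [eZ0]
      simp only [egl, sub_zero, one_pow, mul_one]
    rw [e1, e0] at h
    rw [Real.norm_eq_abs, abs_sub_comm]
    convert h using 2
    ring
  · have := (tendsto_pow_atTop_nhds_zero_of_lt_one hρ0 hρ)
    have h2 := (this.comp (Filter.tendsto_add_atTop_nat 1)).div_const (1 - ρ)
    simpa using h2

end Link

end Crest.Agent.MP
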