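import Crest.Agent.MP.UEnd
import Crest.Agent.MP.UBridge

/-!
# Upper bound: assembly
-/

set_option autoImplicit false
set_option linter.unusedSectionVars false
set_option linter.unusedVariables false

namespace Crest.Agent.MP

open Finset MeasureTheory
open Crest.ProbabilityR.Diluted

section

variable {W : Type} [Fintype W] [Nonempty W] (msg : (ℕ → W) → ℝ)

theorem abs_value_addC1 {p : ℕ} (x : ℕ → ℝ) (hx : ∀ i, 0 < x (i + 1)) (R : ℕ) (s : St Unit)
    (θ : Inter p) : |(s.addC1 msg θ True).value x R - s.value x R| ≤ supNorm θ := by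
  unfold St.value
  have e0 : (avg fun v : s.V => Real.log (T x R 0 s.Z (fun _ => v))) =
      avg fun v : s.V × (Fin (p - 1) → W) =>
        Real.log (T x R 0 (fun u : ℕ → s.V × (Fin (p - 1) → W) => s.Z (fun l => (u l).1))
          (fun _ => v)) := by
    rw [← (Unif.fst (V := s.V) (W := Fin (p - 1) → W))
      (fun v => Real.log (T x R 0 s.Z (fun _ => v)))]
    congr 1
    funext v
    rw [T_map (V := s.V × (Fin (p - 1) → W)) (π := Prod.fst) Unif.fst x s.Z R 0 (fun _ => v)]
  have : (avg fun v : (s.addC1 msg θ True).V =>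
        Real.log (T x R 0 (s.addC1 msg θ True).Z (fun _ => v))) -
      (avg fun v : s.V => Real.log (T x R 0 s.Z (fun _ => v))) =
      avg fun v : s.V × (Fin (p - 1) → W) =>
        (Real.log (T x R 0 (fun u : ℕ → s.V × (Fin (p - 1) → W) => s.Z (fun l => (u l).1) *
          Real.exp (siteMessage θ (fun ℓ => msg (fun l => (u l).2 ℓ))
            (s.spin (fun l => (u l).1) ()))) (fun _ => v)) -
        Real.log (T x R 0 (fun u : ℕ → s.V × (Fin (p - 1) → W) => s.Z (fun l => (u l).1))
          (fun _ => v))) := by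
    rw [e0, avg_sub]
    congr 1
  rw [this]
  refine abs_avg_le _ _ fun v => ?_
  exact abs_logT_sub_le x hx
    (fun u : ℕ → s.V × (Fin (p - 1) → W) => s.Z (fun l => (u l).1))
    (fun u => siteMessage θ (fun ℓ => msg (fun l => (u l).2 ℓ)) (s.spin (fun l => (u l).1) ()))
    (fun u => s.pos _)
    (supNorm θ) (fun u => abs_siteMessage_le θ _ _) R 0 (fun _ => v)

theorem abs_opA_iter {p : ℕ} (μ : FinLaw (Inter p)) (x : ℕ → ℝ) (hx : ∀ i, 0 < x (i + 1)) (R : ℕ)
    (m : ℕ) : ∀ s : St Unit, |(opA msg μ)^[m] (St.value x R) s - s.value x R| ≤ suppC μ * m := by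
  induction m with
  | zero => intro s; simp
  | succ m ih =>
    intro s
    rw [Function.iterate_succ_apply']
    have e : opA msg μ ((opA msg μ)^[m] (St.value x R)) s - s.value x R =
        μ.E fun θ => ((opA msg μ)^[m] (St.value x R) (s.addC1 msg θ True) - s.value x R) := by
      have : ∀ θ : Inter p, ((opA msg μ)^[m] (St.value x R) (s.addC1 msg θ True) - s.value x R) =
          (opA msg μ)^[m] (St.value x R) (s.addC1 msg θ True) + (-1) * s.value x R := by
        intro θ; ring
      simp only [this, FinLaw.E_add, FinLaw.E_const]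
      unfold opA
      ring
    rw [e]
    refine FinLaw.uabs_E_le _ _ _ fun i => ?_
    have h1 := ih (s.addC1 msg (μ.x i) True)
    have h2 := (abs_value_addC1 msg x hx R s (μ.x i)).trans (le_suppC μ i)
    have := abs_add_le ((opA msg μ)^[m] (St.value x R) (s.addC1 msg (μ.x i) True) -
      (s.addC1 msg (μ.x i) True).value x R) ((s.addC1 msg (μ.x i) True).value x R - s.value x R)
    rw [sub_add_sub_cancel] at this
    push_cast
    linarith

theorem FinLaw.Epow_marginal {E : Type} (ν : FinLaw E) (N : ℕ) (f : E → ℝ) :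
    (ν.Epow N fun hs => ∑ i, f (hs i)) = N * ν.E f := by
  have h1 : (ν.Epow N fun hs => ∑ i, f (hs i)) = ∑ i, ν.Epow N fun hs => f (hs i) := by
    unfold FinLaw.Epow
    simp only [mul_sum]
    rw [sum_comm]
  rw [h1]
  have h2 : ∀ i : Fin N, (ν.Epow N fun hs => f (hs i)) = ν.E f := by
    intro i
    have h := ν.Epow_prod N (fun j y => if j = i then f y else 1)
    have e1 : (fun y : Fin N → E => ∏ a, (if a = i then f (y a) else 1)) = fun y => f (y i) := by
      funext y
      rw [prod_eq_single i]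
      · simp
      · intro b _ hb; simp [hb]
      · simp
    rw [e1] at h
    rw [h, prod_eq_single i]
    · simp
    · intro b _ hb
      simp only [hb, if_false]
      exact ν.E_const 1
    · simp
  simp only [h2, sum_const, card_univ, Fintype.card_fin, nsmul_eq_mul]

/-- The site part of the trial functional. -/
noncomputable def siteVal {p : ℕ} (x : ℕ → ℝ) (r : ℕ) (μ : FinLaw (Inter p)) (ν : FinLaw ℝ)
    (m : ℕ) : ℝ :=
  μ.Epow m fun θs => ν.E fun h => avg fun v : Fin m × Fin (p - 1) → W => Real.log (T x r 0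
        (fun u : ℕ → (Fin m × Fin (p - 1) → W) =>
          siteTerm h θs (fun j ℓ => msg (fun l => u l (j, ℓ)))) (fun _ => v))

theorem Epow_E_comm {E E' : Type} (μ : FinLaw E) (ν : FinLaw E') (k : ℕ)
    (f : (Fin k → E) → E' → ℝ) :
    (ν.E fun h => μ.Epow k fun θs => f θs h) = μ.Epow k fun θs => ν.E fun h => f θs h := by
  unfold FinLaw.Epow FinLaw.E
  simp only [mul_sum]
  rw [sum_comm]
  refine sum_congr rfl fun i _ => sum_congr rfl fun j _ => ?_
  ring

theorem Gar_zero_left {p : ℕ} (x : ℕ → ℝ) (r : ℕ) (hx : ∀ i, 0 < x (i + 1)) (h1 : x (r + 1) = 1)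
    (hmsg : ∀ (u : ℕ → W) (w : W), msg (Function.update u (r + 1) w) = msg u)
    (μ : FinLaw (Inter p)) (ν : FinLaw ℝ) (N : ℕ) [NeZero N] (lam : ℝ) (hlam : 0 ≤ lam) :
    ∑' k : ℕ, poissonWeight (lam * N) k * Gar msg x (r + 1) μ ν N 0 k =
      N * ∑' m : ℕ, poissonWeight lam m * siteVal msg x r μ ν m := by
  have hN : (N : ℝ) ≠ 0 := Nat.cast_ne_zero.2 (NeZero.ne N)
  have hNpos : (0 : ℝ) < N := lt_of_le_of_ne (Nat.cast_nonneg N) (Ne.symm hN)
  set c : ℝ := (N : ℝ)⁻¹ with hc
  set U : ℕ → ℕ → ℝ := fun k m => ν.E fun h =>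
    (opA msg μ)^[m] (Uit msg μ x (r + 1) c k) (s0 (r + 1) h) with hU
  have e1 : ∀ k, Gar msg x (r + 1) μ ν N 0 k = N * U k 0 := by
    intro k
    unfold Gar
    simp only [Function.iterate_zero, id]
    have : ∀ hs : Fin N → ℝ, (opC msg μ)^[k] (St.value x (r + 1)) (S0 (r + 1) hs) =
        ∑ i, Uit msg μ x (r + 1) c k (s0 (r + 1) (hs i)) := by
      intro hs
      have := opC_iter_dec msg μ x (r + 1) k _ _ (dec_S0 (r + 1) hs)
      rw [this, Fintype.card_fin]
    simp only [this]
    rw [FinLaw.Epow_marginal ν N (fun h => Uit msg μ x (r + 1) c k (s0 (r + 1) h))]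
    rfl
  have e2 : ∀ m, U 0 m = siteVal msg x r μ ν m := by
    intro m
    simp only [hU, siteVal]
    have : ∀ h : ℝ, (opA msg μ)^[m] (Uit msg μ x (r + 1) c 0) (s0 (r + 1) h) =
        μ.Epow m fun θs => avg fun v : Fin m × Fin (p - 1) → W => Real.log (T x r 0
        (fun u : ℕ → (Fin m × Fin (p - 1) → W) =>
          siteTerm h θs (fun j ℓ => msg (fun l => u l (j, ℓ)))) (fun _ => v)) := by
      intro h
      have := opA_iter msg μ (St.value x (r + 1)) (invF_value x (r + 1)) m (s0 (r + 1) h)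
      show (opA msg μ)^[m] (St.value x (r + 1)) (s0 (r + 1) h) = _
      rw [this]
      congr 1
      funext θs
      exact value_addCs msg x h1 h θs hmsg
    simp only [this]
    exact Epow_E_comm μ ν m _
  have hrec : ∀ k m, U (k + 1) m = (1 - c) * U k m + c * U k (m + 1) := by
    intro k m
    simp only [hU]
    rw [← FinLaw.E_const_mul, ← FinLaw.E_const_mul, ← FinLaw.E_add]
    congr 1
    funext h
    exact Uit_rec msg μ x (r + 1) c k m _
  set C₂ := ∑ i, |(s0 (r + 1) (ν.x i)).value x (r + 1)| with hC₂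
  have hC₂0 : 0 ≤ C₂ := sum_nonneg fun _ _ => abs_nonneg _
  have hbound : ∀ m : ℕ, |U 0 m| ≤ (suppC μ + C₂) * (1 + m) := by
    intro m
    have hm : (0 : ℝ) ≤ m := Nat.cast_nonneg m
    have h0 := suppC_nonneg μ
    refine (FinLaw.uabs_E_le ν _ (suppC μ * m + C₂) fun i => ?_).trans ?_
    · have h1 := abs_opA_iter msg μ x hx (r + 1) m (s0 (r + 1) (ν.x i))
      have h2 : |(s0 (r + 1) (ν.x i)).value x (r + 1)| ≤ C₂ :=
        single_le_sum (f := fun i => |(s0 (r + 1) (ν.x i)).value x (r + 1)|)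
          (fun _ _ => abs_nonneg _) (mem_univ i)
      have h3 := abs_add_le ((opA msg μ)^[m] (St.value x (r + 1)) (s0 (r + 1) (ν.x i)) -
        (s0 (r + 1) (ν.x i)).value x (r + 1)) ((s0 (r + 1) (ν.x i)).value x (r + 1))
      rw [sub_add_cancel] at h3
      show |(opA msg μ)^[m] (St.value x (r + 1)) (s0 (r + 1) (ν.x i))| ≤ _
      linarith
    · nlinarith [mul_nonneg hC₂0 hm]
  have hc0 : 0 ≤ c := by rw [hc]; positivity
  have hc1 : c ≤ 1 := by
    rw [hc]
    exact inv_le_one_of_one_le₀ (by exact_mod_cast NeZero.one_le)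
  have thin := poisson_thin U (suppC μ + C₂) hbound c (lam * N) hc0 hc1
    (mul_nonneg hlam hNpos.le) hrec
  have e3 : lam * N * c = lam := by rw [hc]; field_simp
  rw [e3] at thin
  simp only [e1]
  simp only [e2] at thin
  rw [← thin, ← tsum_mul_left]
  congr 1
  funext k
  ring

end

section Final

theorem trial_msg_update (t : FinTrial) (u : ℕ → Fin t.K) (w : Fin t.K) :
    t.X (fun j : Fin (t.r + 1) => Function.update u (t.r + 1) w j) =
      t.X (fun j : Fin (t.r + 1) => u j) := by
  congr 1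
  funext j
  rw [Function.update_of_ne (by have := j.isLt; omega)]

/-- The trial functional of a finite trial with finite laws, in terms of `T`. -/
theorem trialFunctional_eq (p : ℕ) (α : ℝ) (μ : FinLaw (Inter p)) (ν : FinLaw ℝ) (t : FinTrial) :
    haveI : Nonempty (Fin t.K) := ⟨⟨0, t.hK⟩⟩
    trialFunctional p α μ.toMeasure ν.toMeasure t.r t.m t.Xu =
      Real.log 2 + (∑' k : ℕ, poissonWeight (α * p) k *
        siteVal (fun u : ℕ → Fin t.K => t.X (fun j : Fin (t.r + 1) => u j)) (lev t.m) t.r μ ν k) -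
      α * (p - 1 : ℝ) * (μ.E fun θ => avg fun v : Fin p → Fin t.K =>
        Real.log (T (lev t.m) t.r 0 (fun u : ℕ → Fin p → Fin t.K =>
          edgeTerm θ (fun ℓ => t.X (fun j : Fin (t.r + 1) => u j ℓ))) (fun _ => v))) := by
  have : Nonempty (Fin t.K) := ⟨⟨0, t.hK⟩⟩
  unfold trialFunctional siteVal
  simp only [FinLaw.integral_pi, FinLaw.integral]
  have e1 : ∀ (k : ℕ) (θs : Fin k → Inter p) (h : ℝ),
      ∫ u, Real.log (powerMeans t.m
          (fun u' : (Fin k × Fin (p - 1)) → Fin (t.r + 1) → unitInterval =>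
            siteTerm h θs (fun j ℓ => t.Xu (u' (j, ℓ)))) u)
        ∂(uniformArrays (Fin k × Fin (p - 1)) t.r) =
      avg fun v : Fin k × Fin (p - 1) → Fin t.K => Real.log (T (lev t.m) t.r 0
        (fun u : ℕ → (Fin k × Fin (p - 1) → Fin t.K) =>
          siteTerm h θs (fun j ℓ => t.X (fun i : Fin (t.r + 1) => u i (j, ℓ)))) (fun _ => v)) := by
    intro k θs h
    exact bridge t.r t.K t.hK t.m t.adm (L := Fin k × Fin (p - 1))
      (fun c => siteTerm h θs (fun j ℓ => t.X (c (j, ℓ))))
      (fun c => by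
        unfold siteTerm
        exact mul_pos (by norm_num) (sum_pos (fun _ _ => Real.exp_pos _) univ_nonempty))
  have e2 : ∀ (θ : Inter p),
      ∫ u, Real.log (powerMeans t.m
          (fun u' : Fin p → Fin (t.r + 1) → unitInterval => edgeTerm θ (fun ℓ => t.Xu (u' ℓ))) u)
        ∂(uniformArrays (Fin p) t.r) =
      avg fun v : Fin p → Fin t.K => Real.log (T (lev t.m) t.r 0
        (fun u : ℕ → (Fin p → Fin t.K) =>
          edgeTerm θ (fun ℓ => t.X (fun i : Fin (t.r + 1) => u i ℓ))) (fun _ => v)) := by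
    intro θ
    exact bridge t.r t.K t.hK t.m t.adm (L := Fin p)
      (fun c => edgeTerm θ (fun ℓ => t.X (c ℓ)))
      (fun c => lt_of_lt_of_le (Real.exp_pos _) (edgeTerm_bounds θ _).1)
  simp only [e1, e2]

/-- The pressure with finite laws. -/
theorem upressure_eq (p : ℕ) (α : ℝ) (μ : FinLaw (Inter p)) (ν : FinLaw ℝ) (N : ℕ) :
    pressure p α μ.toMeasure ν.toMeasure N = (1 / (N : ℝ)) * ∑' M : ℕ, poissonWeight (α * N) M *
      μ.Epow M fun θs => ν.Epow N fun hs => avg fun idx : Fin M → Fin p → Fin N =>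
        logPartition N θs idx hs := by
  unfold pressure
  simp only [FinLaw.integral_pi]
  rfl

/-- Upper bound (Franz-Leone, Panchenko-Talagrand). -/
theorem upper_bound (p : ℕ) (hp : 2 ≤ p) (α : ℝ) (hα : 0 < α) (φ : FactLaw p)
    (hpos : Even p ∨ ∀ j s, 0 ≤ φ.f.x j s) (ν : FinLaw ℝ) (t : FinTrial) (N : ℕ) (hN : 1 ≤ N) :
    pressure p α φ.toLaw.toMeasure ν.toMeasure N ≤
      trialFunctional p α φ.toLaw.toMeasure ν.toMeasure t.r t.m t.Xu := by
  obtain ⟨q, rfl⟩ : ∃ q, p = q + 1 := ⟨p - 1, by omega⟩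
  haveI : Nonempty (Fin t.K) := ⟨⟨0, t.hK⟩⟩
  haveI : NeZero N := ⟨by omega⟩
  set msg : (ℕ → Fin t.K) → ℝ := fun u => t.X (fun j : Fin (t.r + 1) => u j) with hmsgd
  have hmsg : ∀ (u : ℕ → Fin t.K) (w : Fin t.K), msg (Function.update u (t.r + 1) w) = msg u :=
    trial_msg_update t
  set x := lev t.m with hx
  have hE : Exps (t.r + 1) x := exps_lev t.adm (by omega)
  have h1 : x (t.r + 1) = 1 := ulev_top t.m (by omega)
  set μ := φ.toLaw with hμ
  set G := Gar msg x (t.r + 1) μ ν N with hG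
  have hNpos : (0 : ℝ) < N := by exact_mod_cast hN
  obtain ⟨C, hC⟩ := Gar_bound msg x hE.pos (t.r + 1) μ ν N
  have interp := poisson_interp G C hC ((q : ℝ) + 1) (α * N) (q * edgeC msg x (t.r + 1) μ)
    (by positivity) (by positivity) (fun M k => Gar_step msg φ x (t.r + 1) hE hpos ν N M k)
  have left : (∑' M : ℕ, poissonWeight (α * N) M * G M 0) =
      N * pressure (q + 1) α μ.toMeasure ν.toMeasure N - N * Real.log 2 := by
    rw [upressure_eq]
    have e : ∀ M, poissonWeight (α * N) M *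
        (μ.Epow M fun θs => ν.Epow N fun hs => avg fun idx : Fin M → Fin (q + 1) → Fin N =>
        logPartition N θs idx hs) =
        poissonWeight (α * N) M * G M 0 + poissonWeight (α * N) M * (N * Real.log 2) := by
      intro M
      rw [hG, Gar_zero_right msg x hE.pos h1 μ ν M]
      ring
    have hs1 : Summable (fun M : ℕ => poissonWeight (α * N) M * G M 0) := by
      refine summable_poisson (fun M => G M 0) C (fun m => ?_) _ (by positivity)
      have := hC m 0
      simpa using this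
    have hs2 : Summable (fun M : ℕ => poissonWeight (α * N) M * (N * Real.log 2)) := by
      refine summable_poisson (fun _ => N * Real.log 2) (N * Real.log 2) (fun m => ?_) _
        (by positivity)
      have hl : 0 ≤ N * Real.log 2 := mul_nonneg hNpos.le (Real.log_nonneg (by norm_num))
      rw [abs_of_nonneg hl]
      have hm : (0 : ℝ) ≤ m := Nat.cast_nonneg m
      nlinarith [mul_nonneg hl hm]
    simp only [e]
    rw [hs1.tsum_add hs2, tsum_mul_right, tsum_poissonWeight]
    field_simp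
    ring
  have right : ∑' k : ℕ, poissonWeight (((q : ℝ) + 1) * (α * N)) k * G 0 k =
      N * ∑' m : ℕ, poissonWeight (α * ((q : ℝ) + 1)) m * siteVal msg x t.r μ ν m := by
    have := Gar_zero_left msg x t.r hE.pos h1 hmsg μ ν N (α * ((q : ℝ) + 1)) (by positivity)
    rw [← this]
    have e : ((q : ℝ) + 1) * (α * N) = α * ((q : ℝ) + 1) * N := by ring
    rw [e]
  rw [left, right, edgeC_eq msg x h1 μ hmsg] at interp
  have htf := trialFunctional_eq (q + 1) α μ ν t
  rw [htf]
  push_cast
  have hq : (q : ℝ) + 1 - 1 = q := by ring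
  rw [hq]
  set S := ∑' m : ℕ, poissonWeight (α * ((q : ℝ) + 1)) m * siteVal msg x t.r μ ν m with hS
  set eC := μ.E fun θ => avg fun v : Fin (q + 1) → Fin t.K =>
      Real.log (T x t.r 0 (fun u : ℕ → Fin (q + 1) → Fin t.K =>
        edgeTerm θ (fun ℓ => msg (fun l => u l ℓ))) (fun _ => v)) with heC
  have h2 : N * pressure (q + 1) α μ.toMeasure ν.toMeasure N ≤
      N * (Real.log 2 + S - α * q * eC) := by
    linarith
  exact le_of_mul_le_mul_left h2 hNpos

end Final

end Crest.Agent.MP
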