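import Crest.Agent.MP.UMom
import Crest.Agent.MP.UUpper
import Crest.Agent.MP.TFunB

/-!
# Module U: value of the trial functional (LINK applied)
-/

set_option autoImplicit false

namespace Crest.Agent.MP

open Finset
open Crest.ProbabilityR.Diluted

namespace TVal

variable {W : Type} [Fintype W] [Nonempty W]

/-- One label: weighted sum of `ψ` with the tilts of the messages. -/
noncomputable def bar {L : Type} [Fintype L] [DecidableEq L] (msg : (ℕ → W) → ℝ) (ψ : (L → Bool) → ℝ)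
    (u : ℕ → L → W) : ℝ :=
  ∑ c : L → Bool, (∏ l, tilt (msg (fun j => u j l)) (c l)) * ψ c

theorem tilt_pos (x : ℝ) (s : Bool) : 0 < tilt x s := by
  unfold tilt
  have := Real.cosh_pos x
  positivity

theorem tilt_sum (x : ℝ) : ∑ s : Bool, tilt x s = 1 := by
  have h := Real.cosh_pos x
  have h1 : tilt x true = Real.exp x / (2 * Real.cosh x) := by simp [tilt, spinVal]
  have h2 : tilt x false = Real.exp (-x) / (2 * Real.cosh x) := by simp [tilt, spinVal]
  rw [Fintype.sum_bool, h1, h2, ← add_div, Real.cosh_eq]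
  have h3 : 0 < Real.exp x + Real.exp (-x) := by positivity
  field_simp

theorem tilt_prod_sum {L : Type} [Fintype L] [DecidableEq L] (y : L → ℝ) :
    ∑ c : L → Bool, ∏ l, tilt (y l) (c l) = 1 := by
  rw [← Fintype.piFinset_univ, ← Finset.prod_univ_sum,
    Finset.prod_congr rfl fun l _ => tilt_sum (y l)]
  simp

theorem bar_bounds {L : Type} [Fintype L] [DecidableEq L] (msg : (ℕ → W) → ℝ)
    {ψ : (L → Bool) → ℝ} {κ : ℝ} (hψ : ∀ c, κ ≤ ψ c ∧ ψ c ≤ 1) (u : ℕ → L → W) :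
    κ ≤ bar msg ψ u ∧ bar msg ψ u ≤ 1 := by
  have h0 : ∀ c : L → Bool, 0 ≤ ∏ l, tilt (msg (fun j => u j l)) (c l) := fun c =>
    Finset.prod_nonneg fun l _ => (tilt_pos _ _).le
  have h1 := tilt_prod_sum (L := L) (fun l => msg (fun j => u j l))
  constructor
  · calc κ = ∑ c : L → Bool, (∏ l, tilt (msg (fun j => u j l)) (c l)) * κ := by
          rw [← Finset.sum_mul, h1, one_mul]
      _ ≤ _ := Finset.sum_le_sum fun c _ => mul_le_mul_of_nonneg_left (hψ c).1 (h0 c)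
  · calc _ ≤ ∑ c : L → Bool, (∏ l, tilt (msg (fun j => u j l)) (c l)) * 1 :=
          Finset.sum_le_sum fun c _ => mul_le_mul_of_nonneg_left (hψ c).2 (h0 c)
      _ = 1 := by rw [← Finset.sum_mul, h1, one_mul]

/-- LINK for `Lfun`. -/
theorem Lfun_eq (t : FinTrial) {L : Type} [Fintype L] [DecidableEq L] (ψ : (L → Bool) → ℝ) {κ : ℝ}
    (hκ : 0 < κ) (hψ : ∀ c, κ ≤ ψ c ∧ ψ c ≤ 1) :
    haveI : Nonempty (Fin t.K) := ⟨⟨0, t.hK⟩⟩
    Lfun (genE (lev t.m) t.r) t.D L ψ = avg (V := L → Fin t.K) (fun v =>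
      Real.log (T (lev t.m) t.r 0 (fun u : ℕ → L → Fin t.K =>
        bar (fun u => t.X (fun j : Fin (t.r + 1) => u j)) ψ u) (fun _ => v))) := by
  haveI : Nonempty (Fin t.K) := ⟨⟨0, t.hK⟩⟩
  have hE : Exps t.r (lev t.m) := exps_lev t.adm le_rfl
  set msg : (ℕ → Fin t.K) → ℝ := fun u => t.X (fun j : Fin (t.r + 1) => u j) with hmsg
  have hb := bar_bounds (W := Fin t.K) msg hψ
  have hκ1 : κ ≤ 1 := (hb (fun _ _ => Classical.arbitrary _)).1.trans
    (hb (fun _ _ => Classical.arbitrary _)).2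
  have key : ∀ v : L → Fin t.K, HasSum (fun n : ℕ => ((-1 : ℝ) ^ n / ((n : ℝ) + 1)) *
      E (lev t.m) t.r (fun _ => 1) n (fun s => ∏ l ∈ range (n + 1), (bar msg ψ (s l) - 1))
        (fun _ => v)) (Real.log (T (lev t.m) t.r 0 (fun u : ℕ → L → Fin t.K => bar msg ψ u)
          (fun _ => v))) := by
    intro v
    have h := link hE (Z := fun _ : ℕ → L → Fin t.K => (1 : ℝ)) (X := fun u => bar msg ψ u - 1)
      (fun _ => one_pos) (ρ := 1 - κ) (fun u => by
        rw [abs_le]; constructor <;> linarith [(hb u).1, (hb u).2]) (by linarith) (fun _ => v)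
    have e1 : (fun u : ℕ → L → Fin t.K => (1 : ℝ) * (1 + (bar msg ψ u - 1))) =
        fun u => bar msg ψ u := by
      funext u; ring
    rw [e1, T_one, Real.log_one, sub_zero] at h
    exact h
  have h2 := hasSum_avg key
  have h3 : ∀ n : ℕ, avg (fun v : L → Fin t.K => ((-1 : ℝ) ^ n / ((n : ℝ) + 1)) *
      E (lev t.m) t.r (fun _ => 1) n (fun s => ∏ l ∈ range (n + 1), (bar msg ψ (s l) - 1))
        (fun _ => v)) = -((1 / ((n : ℝ) + 1)) * mom (genE (lev t.m) t.r) t.D (n + 1) L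
          (fun c => ∏ l : Fin (n + 1), (1 - ψ (fun ℓ => c ℓ l)))) := by
    intro n
    have hneg : ∀ f : (L → Fin t.K) → ℝ, -(avg f) = avg (fun v => -f v) := by
      intro f
      unfold avg
      rw [Finset.sum_neg_distrib]
      ring
    rw [mom_eq_E t ψ n, ← avg_mul_left, hneg]
    congr 1
    funext v
    have e : (fun s : ℕ → ℕ → L → Fin t.K => ∏ l ∈ range (n + 1), (bar msg ψ (s l) - 1)) =
        fun s => (-1) ^ (n + 1) * ∏ a ∈ range (n + 1), (1 - ∑ c : L → Bool,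
          (∏ l, tilt (t.X (fun j => s a j l)) (c l)) * ψ c) := by
      funext s
      have h4 : ((-1 : ℝ)) ^ (n + 1) = ∏ _a ∈ range (n + 1), (-1 : ℝ) := by simp
      rw [h4, ← Finset.prod_mul_distrib]
      refine Finset.prod_congr rfl fun a _ => ?_
      unfold bar
      ring
    rw [e, E_const_mul]
    have h5 : ((-1 : ℝ)) ^ n * (-1) ^ (n + 1) = -1 := by
      rw [pow_succ, ← mul_assoc, ← mul_pow]
      simp
    rw [div_mul_eq_mul_div, ← mul_assoc, h5]
    ring
  unfold Lfun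
  rw [← h2.tsum_eq, ← tsum_neg]
  exact tsum_congr fun n => (h3 n).symm

/-- The edge term. -/
theorem edgeTerm_eq {p : ℕ} (msg : (ℕ → W) → ℝ) (θ : Inter p) (u : ℕ → Fin p → W) :
    edgeTerm θ (fun ℓ => msg (fun j => u j ℓ)) =
      Real.exp (supNorm θ) * bar msg (edgeψ θ) u := by
  unfold edgeTerm bar edgeψ
  rw [Finset.mul_sum]
  refine Finset.sum_congr rfl fun c _ => ?_
  rw [Real.exp_sub]
  have := (Real.exp_pos (supNorm θ)).ne'
  field_simp

/-- The site term. -/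
theorem siteTerm_eq {p k : ℕ} (msg : (ℕ → W) → ℝ) (h : ℝ) (θs : Fin k → Inter p)
    (u : ℕ → Fin k × Fin (p - 1) → W) :
    siteTerm h θs (fun j ℓ => msg (fun i => u i (j, ℓ))) =
      Real.exp (siteC h θs) * bar msg (siteψ h θs) u := by
  have hmsg : ∀ (j : Fin k) (ε : Bool), Real.exp (siteMessage (θs j)
      (fun ℓ => msg (fun i => u i (j, ℓ))) ε) = ∑ s' : Fin (p - 1) → Bool,
        Real.exp (θs j (fun ℓ => if h : ℓ.val < p - 1 then s' ⟨ℓ.val, h⟩ else ε)) *
          ∏ ℓ, tilt (msg (fun i => u i (j, ℓ))) (s' ℓ) := by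
    intro j ε
    unfold siteMessage
    refine Real.exp_log ?_
    exact Finset.sum_pos (fun s' _ => mul_pos (Real.exp_pos _)
      (Finset.prod_pos fun ℓ _ => tilt_pos _ _)) Finset.univ_nonempty
  have hprod : ∀ ε : Bool, ∏ j : Fin k, (∑ s' : Fin (p - 1) → Bool,
        Real.exp (θs j (fun ℓ => if h : ℓ.val < p - 1 then s' ⟨ℓ.val, h⟩ else ε)) *
          ∏ ℓ, tilt (msg (fun i => u i (j, ℓ))) (s' ℓ)) =
      ∑ c : Fin k × Fin (p - 1) → Bool, (∏ l, tilt (msg (fun i => u i l)) (c l)) *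
        Real.exp (∑ j : Fin k, θs j (fun ℓ => if hℓ : ℓ.val < p - 1 then c (j, ⟨ℓ.val, hℓ⟩)
          else ε)) := by
    intro ε
    rw [Finset.prod_univ_sum, Fintype.piFinset_univ]
    refine Fintype.sum_equiv (Equiv.curry (Fin k) (Fin (p - 1)) Bool).symm _ _ fun s => ?_
    rw [Finset.prod_mul_distrib, Real.exp_sum, mul_comm, Fintype.prod_prod_type]
    rfl
  unfold siteTerm bar siteψ
  have h1 : ∀ ε : Bool, Real.exp (h * spinVal ε + ∑ j : Fin k, siteMessage (θs j)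
      (fun ℓ => msg (fun i => u i (j, ℓ))) ε) = Real.exp (h * spinVal ε) *
      ∑ c : Fin k × Fin (p - 1) → Bool, (∏ l, tilt (msg (fun i => u i l)) (c l)) *
        Real.exp (∑ j : Fin k, θs j (fun ℓ => if hℓ : ℓ.val < p - 1 then c (j, ⟨ℓ.val, hℓ⟩)
          else ε)) := by
    intro ε
    rw [Real.exp_add, Real.exp_sum, Finset.prod_congr rfl fun j _ => hmsg j ε, hprod ε]
  simp only [h1]
  rw [Finset.mul_sum, Finset.mul_sum]
  have h2 : ∀ c : Fin k × Fin (p - 1) → Bool, Real.exp (siteC h θs) *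
      ((∏ l, tilt (msg (fun i => u i l)) (c l)) * (1 / 2 * ∑ ε : Bool, Real.exp (h * spinVal ε +
    (∑ j : Fin k, θs j (fun ℓ => if hℓ : ℓ.val < p - 1 then c (j, ⟨ℓ.val, hℓ⟩) else ε)) -
    siteC h θs))) = ∑ ε : Bool, 1 / 2 * (Real.exp (h * spinVal ε) *
      ((∏ l, tilt (msg (fun i => u i l)) (c l)) *
        Real.exp (∑ j : Fin k, θs j (fun ℓ => if hℓ : ℓ.val < p - 1 then c (j, ⟨ℓ.val, hℓ⟩)
          else ε)))) := by
    intro c
    rw [Finset.mul_sum, Finset.mul_sum, Finset.mul_sum]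
    refine Finset.sum_congr rfl fun ε _ => ?_
    rw [Real.exp_sub, Real.exp_add]
    have := (Real.exp_pos (siteC h θs)).ne'
    field_simp
  rw [Finset.sum_congr rfl fun c _ => h2 c, Finset.sum_comm]
  refine Finset.sum_congr rfl fun ε _ => ?_
  rw [Finset.mul_sum, Finset.mul_sum]

theorem logT_avg (t : FinTrial) {L : Type} [Fintype L] [DecidableEq L] (ψ : (L → Bool) → ℝ) {κ : ℝ}
    (hκ : 0 < κ) (hψ : ∀ c, κ ≤ ψ c ∧ ψ c ≤ 1) (C : ℝ) :
    haveI : Nonempty (Fin t.K) := ⟨⟨0, t.hK⟩⟩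
    avg (V := L → Fin t.K) (fun v =>
      Real.log (T (lev t.m) t.r 0 (fun u : ℕ → L → Fin t.K =>
        Real.exp C * bar (fun u => t.X (fun j : Fin (t.r + 1) => u j)) ψ u) (fun _ => v))) =
      C + Lfun (genE (lev t.m) t.r) t.D L ψ := by
  haveI : Nonempty (Fin t.K) := ⟨⟨0, t.hK⟩⟩
  have hE : Exps t.r (lev t.m) := exps_lev t.adm le_rfl
  have hb := bar_bounds (W := Fin t.K) (fun u => t.X (fun j : Fin (t.r + 1) => u j)) hψ
  have hpos : ∀ u, 0 < bar (fun u => t.X (fun j : Fin (t.r + 1) => u j)) ψ u := fun u =>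
    hκ.trans_le (hb u).1
  rw [Lfun_eq t ψ hκ hψ]
  conv_rhs => rw [← avg_const (V := L → Fin t.K) C, ← avg_add]
  congr 1
  funext v
  rw [T_const_mul (lev t.m) hE.pos _ hpos _ (Real.exp_pos C),
    Real.log_mul (Real.exp_pos C).ne' (T_pos _ _ hpos _ _ _).ne', Real.log_exp]

end TVal

/-- (LINK) applied to the trial functional. -/
theorem trial_value (p : ℕ) (hp : 2 ≤ p) (α : ℝ) (hα : 0 < α) (μ : FinLaw (Inter p))
    (ν : FinLaw ℝ) (t : FinTrial) :
    trialFunctional p α μ.toMeasure ν.toMeasure t.r t.m t.Xu = t.A p α μ ν := by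
  haveI : Nonempty (Fin t.K) := ⟨⟨0, t.hK⟩⟩
  rw [trialFunctional_eq]
  unfold FinTrial.A Afun siteVal
  congr 1
  · congr 1
    refine tsum_congr fun k => ?_
    congr 1
    congr 1
    funext θs
    congr 1
    funext h
    have hb := siteψ_bounds h θs
    rw [← TVal.logT_avg t (siteψ h θs) (Real.exp_pos _) hb (siteC h θs)]
    congr 1
    funext v
    congr 2
    funext u
    exact TVal.siteTerm_eq (fun u => t.X (fun j : Fin (t.r + 1) => u j)) h θs u
  · congr 1
    congr 1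
    funext θ
    have hb := edgeψ_bounds θ
    rw [← TVal.logT_avg t (edgeψ θ) (Real.exp_pos _) hb (supNorm θ)]
    congr 1
    funext v
    congr 2
    funext u
    exact TVal.edgeTerm_eq (fun u => t.X (fun j : Fin (t.r + 1) => u j)) θ u

end Crest.Agent.MP
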