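import Crest.Agent.MP.UUpper
import Crest.Agent.MP.UTrialValue

/-!
# Module U, main theorems (owner: helper70)

`upper_bound` is proved in `UUpper.lean`, `trial_value` in `UTrialValue.lean`.
-/
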