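import Crest.Agent.MP.UUpper

/-!
# `genE`/`FinTrial.D` versus `PE`/`Eh`
-/

set_option autoImplicit false
set_option linter.unusedSectionVars false
set_option linter.unusedVariables false

namespace Crest.Agent.MP

open Finset
open Crest.ProbabilityR.Diluted

/-! ### Owners -/

theorem uowner_le (att : ℕ → ℕ × ℕ) (l j : ℕ) : owner att l j ≤ l := by
  induction l using Nat.strong_induction_on with
  | _ l ih =>
    rw [owner]
    split_ifs with h
    · exact (ih _ h.1).trans h.1.le
    · exact le_rfl

theorem uowner_of_lt (att : ℕ → ℕ × ℕ) (l j : ℕ) (h : (att l).2 < j) : owner att l j = l := by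
  rw [owner, dif_neg]
  rintro ⟨_, h2⟩
  omega

theorem uowner_of_le (att : ℕ → ℕ × ℕ) (l j : ℕ) (h1 : (att l).1 < l) (h2 : j ≤ (att l).2) :
    owner att l j = owner att (att l).1 j := by
  rw [owner, dif_pos ⟨h1, h2⟩]

theorem uowner_zero (att : ℕ → ℕ × ℕ) (j : ℕ) : owner att 0 j = 0 :=
  Nat.le_zero.1 (uowner_le att 0 j)

/-- Owners only look at the history below. -/
theorem uowner_congr (att att' : ℕ → ℕ × ℕ) (l j : ℕ) (h : ∀ i ≤ l, att i = att' i) :
    owner att l j = owner att' l j := by
  induction l using Nat.strong_induction_on with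
  | _ l ih =>
    by_cases h1 : (att' l).1 < l ∧ j ≤ (att' l).2
    · have h2 : (att l).1 < l ∧ j ≤ (att l).2 := by rw [h l le_rfl]; exact h1
      rw [uowner_of_le att l j h2.1 h2.2, uowner_of_le att' l j h1.1 h1.2, h l le_rfl]
      exact ih _ h1.1 fun i hi => h i (by omega)
    · have h2 : ¬ ((att l).1 < l ∧ j ≤ (att l).2) := by rw [h l le_rfl]; exact h1
      rw [owner, dif_neg h2, owner, dif_neg h1]

theorem uowner_owner (att : ℕ → ℕ × ℕ) (l j j' : ℕ) (hj : j' ≤ j) :
    owner att (owner att l j) j' = owner att l j' := by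
  induction l using Nat.strong_induction_on with
  | _ l ih =>
    by_cases h : (att l).1 < l ∧ j ≤ (att l).2
    · have e1 : owner att l j = owner att (att l).1 j := uowner_of_le att l j h.1 h.2
      have e2 : owner att l j' = owner att (att l).1 j' := uowner_of_le att l j' h.1 (hj.trans h.2)
      rw [e1, e2]
      exact ih _ h.1
    · have e1 : owner att l j = l := by rw [owner, dif_neg h]
      rw [e1]

/-- Two histories of replicas `0..n` with the same levels and the same owners. -/
def SameGen (n : ℕ) (h h' : ℕ → ℕ × ℕ) : Prop :=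
  (∀ l ≤ n, (h l).2 = (h' l).2) ∧ ∀ l ≤ n, ∀ j, owner h l j = owner h' l j

theorem SameGen.refl (n : ℕ) (h : ℕ → ℕ × ℕ) : SameGen n h h := ⟨fun _ _ => rfl, fun _ _ _ => rfl⟩

theorem SameGen.trans {n : ℕ} {h h' h'' : ℕ → ℕ × ℕ} (a : SameGen n h h') (b : SameGen n h' h'') :
    SameGen n h h'' :=
  ⟨fun l hl => (a.1 l hl).trans (b.1 l hl), fun l hl j => (a.2 l hl j).trans (b.2 l hl j)⟩

theorem owner_update_of_le (h : ℕ → ℕ × ℕ) (n l j : ℕ) (v : ℕ × ℕ) (hl : l ≤ n) :
    owner (Function.update h (n + 1) v) l j = owner h l j :=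
  uowner_congr _ _ l j fun i hi => Function.update_of_ne (by omega) _ _

/-- Attaching. -/
theorem SameGen.update {n : ℕ} {h h' : ℕ → ℕ × ℕ} (H : SameGen n h h') {a a' J : ℕ} (ha : a ≤ n)
    (ha' : a' ≤ n) (hJ : ∀ j ≤ J, owner h a j = owner h' a' j) :
    SameGen (n + 1) (Function.update h (n + 1) (a, J)) (Function.update h' (n + 1) (a', J)) := by
  constructor
  · intro l hl
    by_cases e : l = n + 1
    · subst e; simp
    · rw [Function.update_of_ne e, Function.update_of_ne e]
      exact H.1 l (by omega)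
  · intro l hl j
    by_cases e : l = n + 1
    · subst e
      by_cases hj : j ≤ J
      · rw [uowner_of_le _ _ _ (by simp; omega) (by simpa using hj),
          uowner_of_le (Function.update h' (n + 1) (a', J)) _ _ (by simp; omega) (by simpa using hj)]
        simp only [Function.update_self]
        rw [owner_update_of_le _ _ _ _ _ ha, owner_update_of_le _ _ _ _ _ ha']
        exact hJ j hj
      · rw [uowner_of_lt _ _ _ (by simp; omega), uowner_of_lt _ _ _ (by simp; omega)]
    · rw [owner_update_of_le _ _ _ _ _ (by omega), owner_update_of_le _ _ _ _ _ (by omega)]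
      exact H.2 l (by omega) j

/-- `f` depends only on the genealogy of the replicas `0..n`. -/
def GenInv (n : ℕ) (f : (ℕ → ℕ × ℕ) → ℝ) : Prop := ∀ h h', SameGen n h h' → f h = f h'

theorem genE_congr (x : ℕ → ℝ) (r : ℕ) (n : ℕ) : ∀ f g : (ℕ → ℕ × ℕ) → ℝ, (∀ h, f h = g h) →
    genE x r n f = genE x r n g := by
  intro f g h
  have : f = g := funext h
  rw [this]

/-- Unfolding `genE` without generating its equation lemmas here (they are also generated in
`MP/TPred`). -/
theorem genE_succ_succ_UMom (x : ℕ → ℝ) (r n : ℕ) (f : (ℕ → ℕ × ℕ) → ℝ) :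
    genE x r (n + 2) f = genE x r (n + 1) (fun att =>
      (∑ a ∈ Finset.range (n + 1), ∑ j ∈ Finset.range (r + 1),
        (x (j + 1) - x j) * f (attach att (n + 1) a j)) / ((n : ℝ) + 1)) := rfl

/-- `PE = genE` on functions of the genealogy. -/
theorem PE_eq_genE (x : ℕ → ℝ) (r : ℕ) (n : ℕ) : ∀ f : (ℕ → ℕ × ℕ) → ℝ, GenInv n f →
    PE x r n f = genE x r (n + 1) f := by
  induction n with
  | zero => intro f hf; rfl
  | succ n ih =>
    intro f hf
    simp only [PE, genE_succ_succ_UMom]
    rw [← ih]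
    · refine PE_congr x r n _ _ fun h hv => ?_
      rw [div_eq_inv_mul]
      congr 1
      refine sum_congr rfl fun a ha => sum_congr rfl fun J hJ => ?_
      have ha' : a ≤ n := by have := mem_range.1 ha; omega
      congr 1
      unfold attach
      refine hf _ _ ?_
      refine (SameGen.refl n h).update ha' ((uowner_le h a _).trans ha') fun j hj => ?_
      exact (uowner_owner h a _ j hj).symm
    · intro h h' H
      beta_reduce
      congr 1
      refine sum_congr rfl fun a ha => ?_
      refine sum_congr rfl fun J hJ => ?_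
      have ha' : a ≤ n := by have := mem_range.1 ha; omega
      congr 1
      unfold attach
      rw [H.1 a ha', H.2 a ha']
      refine hf _ _ ?_
      refine H.update ((uowner_le h' a _).trans ha') ((uowner_le h' a _).trans ha') fun j hj => ?_
      exact H.2 _ ((uowner_le h' a _).trans ha') j

/-! ### Paths from independent node variables -/

section Paths

variable {W : Type} [Fintype W] [Nonempty W]

theorem avg_update {κ : Type} [Fintype κ] [DecidableEq κ] (i : κ) (G : (κ → W) → ℝ) :
    (avg fun v : W => avg fun w : κ → W => G (Function.update w i v)) = avg G := by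
  set τ : W × (κ → W) → W × (κ → W) := fun p => (p.2 i, Function.update p.2 i p.1) with hτ
  have hinv : Function.Involutive τ := by
    rintro ⟨v, w⟩
    simp [hτ]
  have hU : Unif (fun p : W × (κ → W) => (τ p).2) := Unif.comp Unif.snd
    (Unif.of_bijective hinv.bijective)
  rw [← hU G, avg_prod]

theorem avg_snoc {A : Type} [Fintype A] (M : ℕ) (f : (Fin (M + 1) → A) → ℝ) :
    avg f = avg fun as : Fin M → A => avg fun a => f (Fin.snoc as a) := by
  have h : Function.Bijective (fun p : A × (Fin M → A) =>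
      (Fin.snoc p.2 p.1 : Fin (M + 1) → A)) :=
    (Fin.snocEquiv (fun _ : Fin (M + 1) => A)).bijective
  rw [← (Unif.of_bijective h) f, avg_prod, avg_comm]

/-- Overwrite the coordinates in `(J, R]` of `u` by `w`. -/
def merge (R J : ℕ) (u : ℕ → W) (w : Fin (R + 1) → W) (i : ℕ) : W :=
  if h : J < i ∧ i ≤ R then w ⟨i, by omega⟩ else u i

theorem K_one (x : ℕ → ℝ) (R : ℕ) (k : ℕ) : ∀ (J : ℕ), J + k = R → ∀ (Φ : (ℕ → W) → ℝ) (u : ℕ → W),
    K x k J (fun _ => 1) Φ u = avg fun w : Fin (R + 1) → W => Φ (merge R J u w) := by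
  induction k with
  | zero =>
    intro J hJ Φ u
    have : ∀ w : Fin (R + 1) → W, merge R J u w = u := by
      intro w
      funext i
      unfold merge
      rw [dif_neg (by omega)]
    simp only [this, avg_const]
    rfl
  | succ k ih =>
    intro J hJ Φ u
    simp only [K, w_one, one_mul]
    have e := fun v => ih (J + 1) (by omega) Φ (Function.update u (J + 1) v)
    simp only [e]
    rw [← avg_update (W := W) (⟨J + 1, by omega⟩ : Fin (R + 1))
      (fun w => Φ (merge R J u w))]
    congr 1
    funext v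
    congr 1
    funext w
    congr 1
    funext i
    unfold merge
    by_cases h1 : i = J + 1
    · subst h1
      rw [dif_neg (by omega), dif_pos (by omega)]
      simp
    · by_cases h2 : J + 1 < i ∧ i ≤ R
      · rw [dif_pos h2, dif_pos (by omega), Function.update_of_ne]
        intro h3
        exact h1 (congrArg Fin.val h3)
      · rw [dif_neg h2, dif_neg (by omega), Function.update_of_ne h1]

/-- Dependence on the replicas `≤ n` and the levels `≤ R` only. -/
def DepR (R n : ℕ) (Φ : (ℕ → ℕ → W) → ℝ) : Prop :=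
  ∀ s s' : ℕ → ℕ → W, (∀ l ≤ n, ∀ j ≤ R, s l j = s' l j) → Φ s = Φ s'

/-- Paths built from independent node variables. -/
def ext (R n : ℕ) (h : ℕ → ℕ × ℕ) (U : Fin (n + 1) → Fin (R + 1) → W) (l j : ℕ) : W :=
  U ⟨min (owner h l j) n, by omega⟩ ⟨min j R, by omega⟩

theorem avg_Eh (x : ℕ → ℝ) (R : ℕ) (n : ℕ) (h : ℕ → ℕ × ℕ) (hv : Valid R n h) :
    ∀ (Φ : (ℕ → ℕ → W) → ℝ), DepR R n Φ →
    (avg fun v : W => Eh x R (fun _ => 1) n h Φ (fun _ => v)) =
      avg fun U : Fin (n + 1) → Fin (R + 1) → W => Φ (ext R n h U) := by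
  induction n with
  | zero =>
    intro Φ hΦ
    have e1 : ∀ v : W, Eh x R (fun _ => 1) 0 h Φ (fun _ => v) =
        avg fun w : Fin (R + 1) → W => Φ (fun _ => merge R 0 (fun _ => v) w) := fun v =>
      K_one x R R 0 (by omega) (fun u => Φ (fun _ => u)) (fun _ => v)
    simp only [e1]
    have e2 : (avg fun U : Fin (0 + 1) → Fin (R + 1) → W => Φ (ext R 0 h U)) =
        avg fun w : Fin (R + 1) → W => Φ (fun _ j => w ⟨min j R, by omega⟩) := by
      have hb : Function.Bijective (fun U : Fin (0 + 1) → Fin (R + 1) → W => U 0) := by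
        constructor
        · intro a b hab
          funext i
          have : i = 0 := Fin.ext (by have := i.isLt; simp)
          subst this
          exact hab
        · intro w
          exact ⟨fun _ => w, rfl⟩
      rw [← (Unif.of_bijective hb) (fun w : Fin (R + 1) → W => Φ (fun _ j => w ⟨min j R, by omega⟩))]
      congr 1
      funext U
      congr 1
      funext l j
      unfold ext
      congr 1
      exact Fin.ext (by simp)
    rw [e2, ← avg_update (W := W) (0 : Fin (R + 1))]
    congr 1
    funext v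
    congr 1
    funext w
    refine hΦ _ _ fun l _ j hj => ?_
    unfold merge
    by_cases h0 : j = 0
    · subst h0
      rw [dif_neg (by omega)]
      have : (⟨min 0 R, by omega⟩ : Fin (R + 1)) = 0 := Fin.ext (by simp)
      rw [this, Function.update_self]
    · rw [dif_pos (by omega)]
      have : (⟨min j R, by omega⟩ : Fin (R + 1)) = ⟨j, by omega⟩ := by
        ext; simp; omega
      rw [this, Function.update_of_ne]
      intro h3
      exact h0 (congrArg Fin.val h3)
  | succ n ih =>
    intro Φ hΦ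
    have hv' := hv.mono (Nat.le_succ n)
    set J := (h (n + 1)).2 with hJ
    set a := (h (n + 1)).1 with ha
    have haJ := hv.2 (n + 1) (by omega) le_rfl
    have hJR : J ≤ R := haJ.2
    have han : a ≤ n := by have := haJ.1; omega
    -- the one-step average
    have e1 : ∀ s : ℕ → ℕ → W, K x (R - J) J (fun _ => 1) (fun u => Φ (Function.update s (n + 1) u))
        (s a) = avg fun w : Fin (R + 1) → W =>
          Φ (Function.update s (n + 1) (merge R J (s a) w)) := fun s =>
      K_one x R (R - J) J (by omega) _ _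
    have e2 : ∀ v : W, Eh x R (fun _ => 1) (n + 1) h Φ (fun _ => v) =
        avg fun w : Fin (R + 1) → W => Eh x R (fun _ => 1) n h
          (fun s => Φ (Function.update s (n + 1) (merge R J (s a) w))) (fun _ => v) := by
      intro v
      rw [← Eh_avg]
      simp only [Eh]
      congr 1
      funext s
      exact e1 s
    simp only [e2]
    rw [avg_comm]
    have e3 : ∀ w : Fin (R + 1) → W, (avg fun v : W => Eh x R (fun _ => 1) n h
          (fun s => Φ (Function.update s (n + 1) (merge R J (s a) w))) (fun _ => v)) =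
        avg fun U : Fin (n + 1) → Fin (R + 1) → W =>
          Φ (Function.update (ext R n h U) (n + 1) (merge R J (ext R n h U a) w)) := by
      intro w
      refine ih hv' _ ?_
      intro s s' hs
      refine hΦ _ _ fun l hl j hj => ?_
      by_cases hl' : l = n + 1
      · subst hl'
        rw [Function.update_self, Function.update_self]
        unfold merge
        split_ifs
        · rfl
        · exact hs a han j hj
      · rw [Function.update_of_ne hl', Function.update_of_ne hl']
        exact hs l (by omega) j hj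
    simp only [e3]
    rw [avg_comm]
    refine Eq.trans ?_ (avg_snoc (n + 1) _).symm
    congr 1
    funext U
    congr 1
    funext w
    refine hΦ _ _ fun l hl j hj => ?_
    have hUs : ∀ (i : ℕ) (hi : i ≤ n) (y : Fin (R + 1)),
        (Fin.snoc U w : Fin (n + 1 + 1) → Fin (R + 1) → W) ⟨min i (n + 1), by omega⟩ y =
          U ⟨min i n, by omega⟩ y := by
      intro i hi y
      have : (⟨min i (n + 1), by omega⟩ : Fin (n + 1 + 1)) =
          Fin.castSucc ⟨min i n, by omega⟩ := by
        ext; simp; omega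
      rw [this, Fin.snoc_castSucc]
    by_cases hl' : l = n + 1
    · subst hl'
      rw [Function.update_self]
      by_cases hj' : j ≤ J
      · have ho : owner h (n + 1) j = owner h a j := uowner_of_le h (n + 1) j haJ.1 hj'
        have hle : owner h a j ≤ n := (uowner_le h a j).trans han
        unfold merge ext
        rw [dif_neg (by omega)]
        simp only [ho]
        exact (hUs _ hle _).symm
      · have ho : owner h (n + 1) j = n + 1 := uowner_of_lt h (n + 1) j (by omega)
        unfold merge ext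
        rw [dif_pos (by omega)]
        simp only [ho]
        have : (⟨min (n + 1) (n + 1), by omega⟩ : Fin (n + 1 + 1)) = Fin.last (n + 1) := by
          ext; simp
        rw [this, Fin.snoc_last]
        congr 1
        ext; simp; omega
    · rw [Function.update_of_ne hl']
      have hle : owner h l j ≤ n := (uowner_le h l j).trans (by omega)
      unfold ext
      exact (hUs _ hle _).symm

end Paths

section Mom

/-- `FinTrial.D` as an average over node variables. -/
theorem D_eq_avg (t : FinTrial) (n : ℕ) (h : ℕ → ℕ × ℕ) (c : Fin (n + 1) → Bool) :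
    t.D (n + 1) h c = avg fun U : Fin (n + 1) → Fin (t.r + 1) → Fin t.K =>
      ∏ l : Fin (n + 1), tilt (t.X (fun j : Fin (t.r + 1) => ext t.r n h U l j)) (c l) := by
  unfold FinTrial.D avg
  rw [div_eq_inv_mul]
  congr 1
  · congr 1
    simp only [Fintype.card_pi, Finset.prod_const, Finset.card_univ, Fintype.card_fin]
    push_cast
    rw [← pow_mul, mul_comm]
  · refine sum_congr rfl fun U _ => prod_congr rfl fun l _ => ?_
    congr 2
    funext j
    unfold ext
    have hle := uowner_le h l j
    have hl := l.isLt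
    have hj := j.isLt
    have e1 : (⟨min (owner h l j) l, by omega⟩ : Fin (n + 1)) = ⟨min (owner h l j) n, by omega⟩ :=
      Fin.ext (by simp only; omega)
    have e2 : (⟨min (j : ℕ) t.r, by omega⟩ : Fin (t.r + 1)) = j := Fin.ext (by simp only; omega)
    rw [e1, e2]

theorem D_genInv (t : FinTrial) (n : ℕ) (c : Fin (n + 1) → Bool) :
    GenInv n (fun h => t.D (n + 1) h c) := by
  intro h h' H
  unfold FinTrial.D
  beta_reduce
  congr 1
  refine sum_congr rfl fun U _ => ?_
  refine prod_congr rfl fun l _ => ?_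
  congr 2
  funext j
  have hl := l.isLt
  simp only [H.2 l (by omega) j]

theorem mom_eq_E (t : FinTrial) {L : Type} [Fintype L] [DecidableEq L] (ψ : (L → Bool) → ℝ)
    (n : ℕ) :
    mom (genE (lev t.m) t.r) t.D (n + 1) L (fun c => ∏ l : Fin (n + 1), (1 - ψ (fun ℓ => c ℓ l))) =
      avg (fun v : L → Fin t.K => E (lev t.m) t.r (fun _ => 1) n
        (fun s : ℕ → ℕ → L → Fin t.K => ∏ a ∈ range (n + 1), (1 - ∑ c : L → Bool,
          (∏ ℓ, tilt (t.X (fun j => s a j ℓ)) (c ℓ)) * ψ c)) (fun _ => v)) := by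
  have : Nonempty (Fin t.K) := ⟨⟨0, t.hK⟩⟩
  set f : (ℕ → ℕ × ℕ) → ℝ := fun h => ∑ c : L → Fin (n + 1) → Bool,
    (∏ ℓ, t.D (n + 1) h (c ℓ)) * ∏ l : Fin (n + 1), (1 - ψ (fun ℓ => c ℓ l)) with hf
  have hinv : GenInv n f := by
    intro h h' H
    simp only [hf]
    refine sum_congr rfl fun c _ => ?_
    congr 1
    exact prod_congr rfl fun ℓ _ => D_genInv t n (c ℓ) h h' H
  have e0 : mom (genE (lev t.m) t.r) t.D (n + 1) L
      (fun c => ∏ l : Fin (n + 1), (1 - ψ (fun ℓ => c ℓ l))) = genE (lev t.m) t.r (n + 1) f := rfl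
  rw [e0, ← PE_eq_genE _ _ _ f hinv]
  unfold E
  rw [← PE_avg]
  refine PE_congr _ _ _ _ _ fun h hv => ?_
  -- expand the product over replicas
  have e1 : (fun s : ℕ → ℕ → L → Fin t.K => ∏ a ∈ range (n + 1), (1 - ∑ c : L → Bool,
      (∏ ℓ, tilt (t.X (fun j => s a j ℓ)) (c ℓ)) * ψ c)) =
      fun s => ∑ C : Fin (n + 1) → L → Bool, (∏ a, (1 - ψ (C a))) *
        ∏ ℓ, ∏ a : Fin (n + 1), tilt (t.X (fun j => s a j ℓ)) (C a ℓ) := by
    funext s
    have h1 : ∀ a : ℕ, (1 - ∑ c : L → Bool, (∏ ℓ, tilt (t.X (fun j => s a j ℓ)) (c ℓ)) * ψ c) =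
        ∑ c : L → Bool, (1 - ψ c) * ∏ ℓ, tilt (t.X (fun j => s a j ℓ)) (c ℓ) := by
      intro a
      have h2 : ∀ c : L → Bool, (1 - ψ c) * ∏ ℓ, tilt (t.X (fun j => s a j ℓ)) (c ℓ) =
          ∏ ℓ, tilt (t.X (fun j => s a j ℓ)) (c ℓ) -
            (∏ ℓ, tilt (t.X (fun j => s a j ℓ)) (c ℓ)) * ψ c := by
        intro c; ring
      simp only [h2]
      rw [sum_sub_distrib, prod_tilt_sum (fun ℓ : L => t.X (fun j => s a j ℓ))]
    simp only [h1]
    rw [Finset.prod_range (fun a => ∑ c : L → Bool, (1 - ψ c) *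
      ∏ ℓ, tilt (t.X (fun j => s a j ℓ)) (c ℓ)), prod_univ_sum, Fintype.piFinset_univ]
    refine sum_congr rfl fun C _ => ?_
    rw [prod_mul_distrib]
    congr 1
    rw [prod_comm]
  rw [e1]
  simp only [Eh_lin]
  have e2 : ∀ (v : L → Fin t.K) (C : Fin (n + 1) → L → Bool),
      Eh (lev t.m) t.r (fun _ => 1) n h (fun s : ℕ → ℕ → L → Fin t.K =>
        ∏ ℓ, ∏ a : Fin (n + 1), tilt (t.X (fun j => s a j ℓ)) (C a ℓ)) (fun _ => v) =
      ∏ ℓ, Eh (lev t.m) t.r (fun _ => 1) n h (fun s : ℕ → ℕ → Fin t.K =>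
        ∏ a : Fin (n + 1), tilt (t.X (fun j => s a j)) (C a ℓ)) (fun _ => v ℓ) := by
    intro v C
    exact Eh_pi (ι := L) (W := Fin t.K) (lev t.m) t.r n h (fun _ => v)
      (fun ℓ s => ∏ a : Fin (n + 1), tilt (t.X (fun j => s a j)) (C a ℓ))
  simp only [e2]
  have e3 : (avg fun v : L → Fin t.K => ∑ C : Fin (n + 1) → L → Bool, (∏ a, (1 - ψ (C a))) *
      ∏ ℓ, Eh (lev t.m) t.r (fun _ => 1) n h (fun s : ℕ → ℕ → Fin t.K =>
        ∏ a : Fin (n + 1), tilt (t.X (fun j => s a j)) (C a ℓ)) (fun _ => v ℓ)) =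
      ∑ C : Fin (n + 1) → L → Bool, (∏ a, (1 - ψ (C a))) *
        ∏ ℓ, t.D (n + 1) h (fun a => C a ℓ) := by
    have h1 : (avg fun v : L → Fin t.K => ∑ C : Fin (n + 1) → L → Bool, (∏ a, (1 - ψ (C a))) *
      ∏ ℓ, Eh (lev t.m) t.r (fun _ => 1) n h (fun s : ℕ → ℕ → Fin t.K =>
        ∏ a : Fin (n + 1), tilt (t.X (fun j => s a j)) (C a ℓ)) (fun _ => v ℓ)) =
        ∑ C : Fin (n + 1) → L → Bool, avg fun v : L → Fin t.K => (∏ a, (1 - ψ (C a))) *
      ∏ ℓ, Eh (lev t.m) t.r (fun _ => 1) n h (fun s : ℕ → ℕ → Fin t.K =>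
        ∏ a : Fin (n + 1), tilt (t.X (fun j => s a j)) (C a ℓ)) (fun _ => v ℓ) := by
      unfold avg
      rw [sum_comm, mul_sum]
    rw [h1]
    refine sum_congr rfl fun C _ => ?_
    rw [avg_mul_left]
    congr 1
    rw [avg_pi (V := fun _ : L => Fin t.K) (fun ℓ v => Eh (lev t.m) t.r (fun _ => 1) n h
      (fun s : ℕ → ℕ → Fin t.K => ∏ a : Fin (n + 1), tilt (t.X (fun j => s a j)) (C a ℓ))
      (fun _ => v))]
    refine prod_congr rfl fun ℓ _ => ?_
    rw [D_eq_avg]
    refine avg_Eh (lev t.m) t.r n h hv _ ?_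
    intro s s' hs
    refine prod_congr rfl fun a _ => ?_
    have ha := a.isLt
    congr 2
    funext j
    have hj := j.isLt
    exact hs a (by omega) j (by omega)
  rw [e3]
  simp only [hf]
  refine Fintype.sum_equiv (Equiv.piComm fun _ _ => Bool) _ _ fun c => ?_
  rw [mul_comm]
  rfl

end Mom

end Crest.Agent.MP
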