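import Crest.Agent.MP.UDeriv

/-!
# Tree calculus: replicas

`h : ℕ → ℕ × ℕ` is the history: replica `l ≥ 1` is attached to the replica `(h l).1 < l` and shares
with it exactly the levels `≤ (h l).2`; `h 0 = (0,0)`.

* `Eh x R Z n h Φ b` : expectation of `Φ` over the paths of the replicas `0..n`, given the
  history `h`, with base path `b` (only the coordinate `0` of `b` matters).
* `PE x R n f` : expectation of a function of the history of the replicas `0..n`.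
-/

set_option autoImplicit false
set_option linter.unusedSectionVars false
set_option linter.unusedVariables false

namespace Crest.Agent.MP

open Finset

variable {V : Type*} [Fintype V] [Nonempty V]

/-- Expectation over the paths of replicas `0..n` given the history. -/
noncomputable def Eh (x : ℕ → ℝ) (R : ℕ) (Z : (ℕ → V) → ℝ) :
    (n : ℕ) → (ℕ → ℕ × ℕ) → ((ℕ → ℕ → V) → ℝ) → (ℕ → V) → ℝ
  | 0, _, Φ, b => K x R 0 Z (fun u => Φ (fun _ => u)) b
  | n + 1, h, Φ, b => Eh x R Z n h (fun s =>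
      K x (R - (h (n + 1)).2) (h (n + 1)).2 Z (fun u => Φ (Function.update s (n + 1) u))
        (s (h (n + 1)).1)) b

/-- Expectation over the histories of replicas `0..n`. -/
noncomputable def PE (x : ℕ → ℝ) (R : ℕ) : (n : ℕ) → ((ℕ → ℕ × ℕ) → ℝ) → ℝ
  | 0, f => f (fun _ => (0, 0))
  | n + 1, f => PE x R n fun h => ((n : ℝ) + 1)⁻¹ * ∑ a ∈ range (n + 1), ∑ J ∈ range (R + 1),
      c x J * f (Function.update h (n + 1) (a, max J (h a).2))

/-- Valid histories of replicas `0..n`. -/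
def Valid (R n : ℕ) (h : ℕ → ℕ × ℕ) : Prop :=
  h 0 = (0, 0) ∧ ∀ l, 1 ≤ l → l ≤ n → (h l).1 < l ∧ (h l).2 ≤ R

theorem Valid.le {R n : ℕ} {h : ℕ → ℕ × ℕ} (hv : Valid R n h) {l : ℕ} (hl : l ≤ n) :
    (h l).2 ≤ R := by
  rcases Nat.eq_zero_or_pos l with rfl | h0
  · rw [hv.1]; exact Nat.zero_le _
  · exact (hv.2 l h0 hl).2

theorem Valid.mono {R n m : ℕ} {h : ℕ → ℕ × ℕ} (hv : Valid R n h) (hm : m ≤ n) : Valid R m h :=
  ⟨hv.1, fun l h1 h2 => hv.2 l h1 (h2.trans hm)⟩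

theorem Valid.update {R n : ℕ} {h : ℕ → ℕ × ℕ} (hv : Valid R n h) {a J : ℕ} (ha : a ≤ n)
    (hJ : J ≤ R) : Valid R (n + 1) (Function.update h (n + 1) (a, max J (h a).2)) := by
  refine ⟨?_, fun l h1 h2 => ?_⟩
  · rw [Function.update_of_ne (by omega)]; exact hv.1
  · by_cases hl : l = n + 1
    · subst hl
      rw [Function.update_self]
      exact ⟨by simp; omega, max_le hJ (hv.le ha)⟩
    · rw [Function.update_of_ne hl]
      exact hv.2 l h1 (by omega)

theorem PE_congr (x : ℕ → ℝ) (R n : ℕ) : ∀ (f g : (ℕ → ℕ × ℕ) → ℝ),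
    (∀ h, Valid R n h → f h = g h) → PE x R n f = PE x R n g := by
  induction n with
  | zero => intro f g H; exact H _ ⟨rfl, fun l h1 h2 => by omega⟩
  | succ n ih =>
    intro f g H
    refine ih _ _ fun h hv => ?_
    congr 1
    refine sum_congr rfl fun a ha => sum_congr rfl fun J hJ => ?_
    rw [H _ (hv.update (by have := mem_range.1 ha; omega) (by have := mem_range.1 hJ; omega))]

theorem PE_add (x : ℕ → ℝ) (R n : ℕ) : ∀ (f g : (ℕ → ℕ × ℕ) → ℝ),
    PE x R n (fun h => f h + g h) = PE x R n f + PE x R n g := by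
  induction n with
  | zero => intro f g; rfl
  | succ n ih =>
    intro f g
    simp only [PE, mul_add, sum_add_distrib]
    rw [← ih]

theorem PE_const_mul (x : ℕ → ℝ) (R n : ℕ) : ∀ (k : ℝ) (f : (ℕ → ℕ × ℕ) → ℝ),
    PE x R n (fun h => k * f h) = k * PE x R n f := by
  induction n with
  | zero => intro k f; rfl
  | succ n ih =>
    intro k f
    simp only [PE]
    rw [← ih]
    congr 1
    funext h
    rw [mul_left_comm]
    congr 1
    rw [mul_sum]
    refine sum_congr rfl fun a _ => ?_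
    rw [mul_sum]
    refine sum_congr rfl fun J _ => ?_
    ring

theorem PE_sub (x : ℕ → ℝ) (R n : ℕ) (f g : (ℕ → ℕ × ℕ) → ℝ) :
    PE x R n (fun h => f h - g h) = PE x R n f - PE x R n g := by
  have : (fun h => f h - g h) = fun h => f h + (-1) * g h := by funext h; ring
  rw [this, PE_add, PE_const_mul]
  ring

theorem PE_zero (x : ℕ → ℝ) (R n : ℕ) : PE x R n (fun _ => 0) = 0 := by
  have := PE_const_mul x R n 0 (fun _ => 0)
  simpa using this

theorem PE_sum {ι : Type*} (s : Finset ι) (x : ℕ → ℝ) (R n : ℕ) (f : ι → (ℕ → ℕ × ℕ) → ℝ) :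
    PE x R n (fun h => ∑ i ∈ s, f i h) = ∑ i ∈ s, PE x R n (f i) := by
  classical
  induction s using Finset.induction_on with
  | empty => simpa using PE_zero x R n
  | insert a s ha ih =>
    simp only [sum_insert ha]
    rw [PE_add, ih]

theorem c_sum (x : ℕ → ℝ) (R : ℕ) (hx0 : x 0 = 0) (hx1 : x (R + 1) = 1) :
    ∑ J ∈ range (R + 1), c x J = 1 := by
  unfold c
  rw [sum_range_sub, hx0, hx1, sub_zero]

theorem PE_const (x : ℕ → ℝ) (R : ℕ) (hx0 : x 0 = 0) (hx1 : x (R + 1) = 1) (n : ℕ) :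
    ∀ k : ℝ, PE x R n (fun _ => k) = k := by
  induction n with
  | zero => intro k; rfl
  | succ n ih =>
    intro k
    simp only [PE]
    have : ((n : ℝ) + 1)⁻¹ * ∑ a ∈ range (n + 1), ∑ J ∈ range (R + 1), c x J * k = k := by
      rw [← sum_mul, c_sum x R hx0 hx1]
      simp only [one_mul, sum_const, card_range, nsmul_eq_mul]
      push_cast
      have : (n : ℝ) + 1 ≠ 0 := by positivity
      field_simp
    rw [this]
    exact ih k

theorem PE_mono (x : ℕ → ℝ) (hxm : Monotone x) (R n : ℕ) : ∀ (f g : (ℕ → ℕ × ℕ) → ℝ),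
    (∀ h, Valid R n h → f h ≤ g h) → PE x R n f ≤ PE x R n g := by
  induction n with
  | zero => intro f g H; exact H _ ⟨rfl, fun l h1 h2 => by omega⟩
  | succ n ih =>
    intro f g H
    refine ih _ _ fun h hv => ?_
    refine mul_le_mul_of_nonneg_left ?_ (by positivity)
    refine sum_le_sum fun a ha => sum_le_sum fun J hJ => ?_
    exact mul_le_mul_of_nonneg_left
      (H _ (hv.update (by have := mem_range.1 ha; omega) (by have := mem_range.1 hJ; omega)))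
      (sub_nonneg.2 (hxm (Nat.le_succ J)))

theorem hasDerivAt_PE (x : ℕ → ℝ) (R n : ℕ) (t : ℝ) :
    ∀ (F : ℝ → (ℕ → ℕ × ℕ) → ℝ) (F' : (ℕ → ℕ × ℕ) → ℝ),
      (∀ h, Valid R n h → HasDerivAt (fun t => F t h) (F' h) t) →
      HasDerivAt (fun t => PE x R n (F t)) (PE x R n F') t := by
  induction n with
  | zero => intro F F' H; exact H _ ⟨rfl, fun l h1 h2 => by omega⟩
  | succ n ih =>
    intro F F' H
    refine ih _ _ fun h hv => ?_
    refine HasDerivAt.const_mul _ ?_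
    refine HasDerivAt.fun_sum fun a ha => HasDerivAt.fun_sum fun J hJ => ?_
    exact (H _ (hv.update (by have := mem_range.1 ha; omega)
      (by have := mem_range.1 hJ; omega))).const_mul _

theorem Eh_add (x : ℕ → ℝ) (R : ℕ) (Z : (ℕ → V) → ℝ) (n : ℕ) (h : ℕ → ℕ × ℕ) (b : ℕ → V) :
    ∀ (Φ Ψ : (ℕ → ℕ → V) → ℝ),
    Eh x R Z n h (fun s => Φ s + Ψ s) b = Eh x R Z n h Φ b + Eh x R Z n h Ψ b := by
  induction n with
  | zero => intro Φ Ψ; simp only [Eh, K_add]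
  | succ n ih => intro Φ Ψ; simp only [Eh, K_add, ih]

theorem Eh_const_mul (x : ℕ → ℝ) (R : ℕ) (Z : (ℕ → V) → ℝ) (n : ℕ) (h : ℕ → ℕ × ℕ) (b : ℕ → V) :
    ∀ (k : ℝ) (Φ : (ℕ → ℕ → V) → ℝ),
    Eh x R Z n h (fun s => k * Φ s) b = k * Eh x R Z n h Φ b := by
  induction n with
  | zero => intro k Φ; simp only [Eh, K_const_mul]
  | succ n ih => intro k Φ; simp only [Eh, K_const_mul, ih]

theorem Eh_sub (x : ℕ → ℝ) (R : ℕ) (Z : (ℕ → V) → ℝ) (n : ℕ) (h : ℕ → ℕ × ℕ) (b : ℕ → V)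
    (Φ Ψ : (ℕ → ℕ → V) → ℝ) :
    Eh x R Z n h (fun s => Φ s - Ψ s) b = Eh x R Z n h Φ b - Eh x R Z n h Ψ b := by
  have : (fun s => Φ s - Ψ s) = fun s => Φ s + (-1) * Ψ s := by funext h; ring
  rw [this, Eh_add, Eh_const_mul]
  ring

theorem Eh_sum {ι : Type*} (I : Finset ι) (x : ℕ → ℝ) (R : ℕ) (Z : (ℕ → V) → ℝ) (n : ℕ)
    (h : ℕ → ℕ × ℕ) (b : ℕ → V) (Φ : ι → (ℕ → ℕ → V) → ℝ) :
    Eh x R Z n h (fun s => ∑ i ∈ I, Φ i s) b = ∑ i ∈ I, Eh x R Z n h (Φ i) b := by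
  classical
  induction I using Finset.induction_on with
  | empty =>
    have := Eh_const_mul x R Z n h b 0 (fun _ => 0)
    simpa using this
  | insert a s ha ih =>
    simp only [sum_insert ha]
    rw [Eh_add, ih]

theorem Eh_const (x : ℕ → ℝ) (R : ℕ) (Z : (ℕ → V) → ℝ) (hZ : ∀ u, 0 < Z u) (n : ℕ)
    (h : ℕ → ℕ × ℕ) (b : ℕ → V) (k : ℝ) : Eh x R Z n h (fun _ => k) b = k := by
  induction n with
  | zero => simp only [Eh, K_const x Z hZ]
  | succ n ih => simp only [Eh, K_const x Z hZ, ih]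

theorem Eh_mono (x : ℕ → ℝ) (R : ℕ) (Z : (ℕ → V) → ℝ) (hZ : ∀ u, 0 < Z u) (n : ℕ)
    (h : ℕ → ℕ × ℕ) (b : ℕ → V) :
    ∀ (Φ Ψ : (ℕ → ℕ → V) → ℝ), (∀ s, Φ s ≤ Ψ s) → Eh x R Z n h Φ b ≤ Eh x R Z n h Ψ b := by
  induction n with
  | zero => intro Φ Ψ H; exact K_mono x Z hZ R _ _ (fun u => H _) _ _
  | succ n ih => intro Φ Ψ H; exact ih _ _ fun s => K_mono x Z hZ _ _ _ (fun u => H _) _ _

/-- `Eh n` ignores the history beyond `n`. -/
theorem Eh_congr_h (x : ℕ → ℝ) (R : ℕ) (Z : (ℕ → V) → ℝ) (n : ℕ) (b : ℕ → V) :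
    ∀ (Φ : (ℕ → ℕ → V) → ℝ) (h h' : ℕ → ℕ × ℕ), (∀ l ≤ n, h l = h' l) →
    Eh x R Z n h Φ b = Eh x R Z n h' Φ b := by
  induction n with
  | zero => intro Φ h h' H; rfl
  | succ n ih =>
    intro Φ h h' H
    simp only [Eh]
    rw [H (n + 1) le_rfl]
    exact ih _ h h' fun l hl => H l (by omega)

/-- The total score of replicas `0..n`. -/
noncomputable def score (x : ℕ → ℝ) (R : ℕ) (Z Y : (ℕ → V) → ℝ) (n : ℕ) (h : ℕ → ℕ × ℕ)
    (s : ℕ → ℕ → V) : ℝ :=
  ∑ a ∈ range (n + 1), S x Z Y (R - (h a).2) (h a).2 (s a)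

theorem hasDerivAt_Eh (x : ℕ → ℝ) (hx : ∀ i, 0 < x (i + 1)) (R : ℕ) (Z : ℝ → (ℕ → V) → ℝ) (t : ℝ)
    (hZ : ∀ u, 0 < Z t u) (Y : (ℕ → V) → ℝ)
    (hY : ∀ u, HasDerivAt (fun t => Z t u) (Z t u * Y u) t) (n : ℕ) (h : ℕ → ℕ × ℕ)
    (h0 : h 0 = (0, 0)) (b : ℕ → V) :
    ∀ (Φ : ℝ → (ℕ → ℕ → V) → ℝ) (Φ' : (ℕ → ℕ → V) → ℝ),
    (∀ s, HasDerivAt (fun t => Φ t s) (Φ' s) t) →
    (∀ l, 1 ≤ l → l ≤ n → (h l).1 < l) →
    HasDerivAt (fun t => Eh x R (Z t) n h (Φ t) b)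
      (Eh x R (Z t) n h (fun s => Φ' s + score x R (Z t) Y n h s * Φ t s) b) t := by
  induction n with
  | zero =>
    intro Φ Φ' hΦ hh
    have := hasDerivAt_K x hx Z t hZ Y hY (fun t u => Φ t (fun _ => u)) (fun u => Φ' (fun _ => u))
      (fun u => hΦ _) R 0 b
    refine this.congr_deriv ?_
    simp only [Eh, score, zero_add, range_one, sum_singleton, h0, Nat.sub_zero]
  | succ n ih =>
    intro Φ Φ' hΦ hh
    simp only [Eh]
    have h1 : ∀ s : ℕ → ℕ → V, HasDerivAt (fun t =>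
        K x (R - (h (n + 1)).2) (h (n + 1)).2 (Z t) (fun u => Φ t (Function.update s (n + 1) u))
        (s (h (n + 1)).1))
        (K x (R - (h (n + 1)).2) (h (n + 1)).2 (Z t) (fun u => Φ' (Function.update s (n + 1) u) +
          S x (Z t) Y (R - (h (n + 1)).2) (h (n + 1)).2 u * Φ t (Function.update s (n + 1) u))
        (s (h (n + 1)).1)) t := by
      intro s
      exact hasDerivAt_K x hx Z t hZ Y hY (fun t u => Φ t (Function.update s (n + 1) u))
        (fun u => Φ' (Function.update s (n + 1) u)) (fun u => hΦ _) _ _ _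
    refine (ih _ _ h1 (fun l a b => hh l a (by omega))).congr_deriv ?_
    congr 1
    funext s
    rw [← K_const_mul, ← K_add]
    congr 1
    funext u
    unfold score
    rw [sum_range_succ _ (n + 1), Function.update_self]
    have : ∑ a ∈ range (n + 1), S x (Z t) Y (R - (h a).2) (h a).2 (Function.update s (n + 1) u a) =
        ∑ a ∈ range (n + 1), S x (Z t) Y (R - (h a).2) (h a).2 (s a) := by
      refine sum_congr rfl fun a ha => ?_
      rw [Function.update_of_ne (by have := mem_range.1 ha; omega)]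
    rw [this]
    ring

/-- The full `n+1`-replica functional. -/
noncomputable def E (x : ℕ → ℝ) (R : ℕ) (Z : (ℕ → V) → ℝ) (n : ℕ)
    (Φ : (ℕ → ℕ → V) → ℝ) (b : ℕ → V) : ℝ :=
  PE x R n fun h => Eh x R Z n h Φ b

/-- `Φ` depends only on the replicas `0..n`. -/
def Dep (n : ℕ) (Φ : (ℕ → ℕ → V) → ℝ) : Prop := ∀ s u, Φ (Function.update s (n + 1) u) = Φ s

theorem E_succ_mul (x : ℕ → ℝ) (R : ℕ) (Z Y : (ℕ → V) → ℝ) (n : ℕ) (Φ : (ℕ → ℕ → V) → ℝ)
    (hΦ : Dep n Φ) (b : ℕ → V) :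
    ((n : ℝ) + 1) * E x R Z (n + 1) (fun s => Φ s * Y (s (n + 1))) b =
    PE x R n fun h => Eh x R Z n h (fun s => Φ s * ∑ a ∈ range (n + 1), ∑ J ∈ range (R + 1),
      c x J * K x (R - max J (h a).2) (max J (h a).2) Z Y (s a)) b := by
  unfold E
  simp only [PE]
  rw [← PE_const_mul]
  congr 1
  funext h
  rw [← mul_assoc, mul_inv_cancel₀ (by positivity), one_mul]
  simp only [mul_sum]
  rw [Eh_sum]
  refine sum_congr rfl fun a ha => ?_
  rw [Eh_sum]
  refine sum_congr rfl fun J hJ => ?_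
  simp only [Eh]
  rw [Eh_congr_h x R Z n b _ _ h (fun l hl => by rw [Function.update_of_ne (by omega)])]
  rw [← Eh_const_mul]
  congr 1
  funext s
  simp only [Function.update_self]
  have : (fun u => Φ (Function.update s (n + 1) u) * Y u) = fun u => Φ s * Y u := by
    funext u; rw [hΦ]
  rw [this, K_const_mul]
  ring

/-- **Derivative formula (D).** -/
theorem hasDerivAt_E (x : ℕ → ℝ) (hx : ∀ i, 0 < x (i + 1)) (R : ℕ) (hx0 : x 0 = 0)
    (hx1 : x (R + 1) = 1) (Z : ℝ → (ℕ → V) → ℝ) (t : ℝ)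
    (hZ : ∀ u, 0 < Z t u) (Y : (ℕ → V) → ℝ)
    (hY : ∀ u, HasDerivAt (fun t => Z t u) (Z t u * Y u) t) (n : ℕ) (b : ℕ → V)
    (Φ : ℝ → (ℕ → ℕ → V) → ℝ) (Φ' : (ℕ → ℕ → V) → ℝ)
    (hΦ : ∀ s, HasDerivAt (fun t => Φ t s) (Φ' s) t) (hdep : Dep n (Φ t)) :
    HasDerivAt (fun t => E x R (Z t) n (Φ t) b)
      (E x R (Z t) n (fun s => Φ' s + (∑ a ∈ range (n + 1), Y (s a)) * Φ t s) b -
        ((n : ℝ) + 1) * E x R (Z t) (n + 1) (fun s => Φ t s * Y (s (n + 1))) b) t := by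
  rw [E_succ_mul x R (Z t) Y n (Φ t) hdep b]
  unfold E
  rw [← PE_sub]
  refine hasDerivAt_PE x R n t _ _ fun h hv => ?_
  refine (hasDerivAt_Eh x hx R Z t hZ Y hY n h hv.1 b Φ Φ' hΦ
    (fun l a b => (hv.2 l a b).1)).congr_deriv ?_
  rw [← Eh_sub]
  congr 1
  funext s
  have : score x R (Z t) Y n h s = ∑ a ∈ range (n + 1), Y (s a) -
      ∑ a ∈ range (n + 1), ∑ J ∈ range (R + 1),
        c x J * K x (R - max J (h a).2) (max J (h a).2) (Z t) Y (s a) := by
    unfold score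
    rw [← sum_sub_distrib]
    refine sum_congr rfl fun a ha => ?_
    have hle := hv.le (l := a) (by have := mem_range.1 ha; omega)
    rw [S_eq x (Z t) Y R hx0 hx1 (R - (h a).2) (h a).2 (by omega)]
  rw [this]
  ring

end Crest.Agent.MP
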