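import Crest.Agent.MP.UT

/-!
# States and operators (§8): adding real interactions and cavity fields
-/

set_option autoImplicit false
set_option linter.unusedSectionVars false
set_option linter.unusedVariables false

namespace Crest.Agent.MP

open Finset
open Crest.ProbabilityR.Diluted

/-- A state: a finite alphabet, a positive weight on paths and spins at the sites `ι`. -/
structure St (ι : Type) where
  V : Type
  fin : Fintype V
  ne : Nonempty V
  Z : (ℕ → V) → ℝ
  pos : ∀ u, 0 < Z u
  spin : (ℕ → V) → ι → Bool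

attribute [instance] St.fin St.ne

section

variable {ι : Type} [Fintype ι] [DecidableEq ι] [Nonempty ι]

/-- The value `E log T₀`. -/
noncomputable def St.value (x : ℕ → ℝ) (R : ℕ) (S : St ι) : ℝ :=
  avg fun v : S.V => Real.log (T x R 0 S.Z (fun _ => v))

/-- Add a real interaction. -/
noncomputable def St.addR {p : ℕ} (S : St ι) (θ : Inter p) (idx : Fin p → ι) : St ι where
  V := S.V
  fin := S.fin
  ne := S.ne
  Z := fun u => S.Z u * Real.exp (θ (fun ℓ => S.spin u (idx ℓ)))
  pos := fun u => mul_pos (S.pos u) (Real.exp_pos _)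
  spin := S.spin

/-- Add a cavity field at the site `i` (with one fresh family of labels for every site). -/
noncomputable def St.addC {p : ℕ} {W : Type} [Fintype W] [Nonempty W] (msg : (ℕ → W) → ℝ)
    (S : St ι) (θ : Inter p) (i : ι) : St ι where
  V := S.V × (ι → Fin (p - 1) → W)
  fin := inferInstance
  ne := inferInstance
  Z := fun u => S.Z (fun l => (u l).1) *
    Real.exp (siteMessage θ (fun ℓ => msg (fun l => (u l).2 i ℓ)) (S.spin (fun l => (u l).1) i))
  pos := fun u => mul_pos (S.pos _) (Real.exp_pos _)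
  spin := fun u => S.spin (fun l => (u l).1)

theorem St.addR_addC {p : ℕ} {W : Type} [Fintype W] [Nonempty W] (msg : (ℕ → W) → ℝ)
    (S : St ι) (θ θ' : Inter p) (i : ι) (idx : Fin p → ι) :
    (S.addR θ idx).addC msg θ' i = (S.addC msg θ' i).addR θ idx := by
  unfold St.addR St.addC
  congr 1
  funext u
  ring

variable {p : ℕ} {W : Type} [Fintype W] [Nonempty W] (msg : (ℕ → W) → ℝ) (μ : FinLaw (Inter p))

/-- Average over an added real interaction. -/
noncomputable def opR (F : St ι → ℝ) (S : St ι) : ℝ :=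
  μ.E fun θ => avg fun idx : Fin p → ι => F (S.addR θ idx)

/-- Average over an added cavity field. -/
noncomputable def opC (F : St ι → ℝ) (S : St ι) : ℝ :=
  μ.E fun θ => avg fun i : ι => F (S.addC msg θ i)

theorem FinLaw.E_avg_comm {E : Type} (μ : FinLaw E) {I : Type} [Fintype I] (f : E → I → ℝ) :
    μ.E (fun y => avg fun i => f y i) = avg fun i => μ.E fun y => f y i := by
  unfold FinLaw.E avg
  simp only [mul_sum]
  rw [sum_comm]
  refine sum_congr rfl fun i _ => sum_congr rfl fun j _ => ?_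
  ring

theorem FinLaw.E_comm {E E' : Type} (μ : FinLaw E) (ν : FinLaw E') (f : E → E' → ℝ) :
    μ.E (fun y => ν.E fun i => f y i) = ν.E fun i => μ.E fun y => f y i := by
  unfold FinLaw.E
  simp only [mul_sum]
  rw [sum_comm]
  refine sum_congr rfl fun i _ => sum_congr rfl fun j _ => ?_
  ring

theorem opR_opC (F : St ι → ℝ) : opR μ (opC msg μ F) = opC msg μ (opR μ F) := by
  funext S
  unfold opR opC
  simp only [St.addR_addC]
  have e1 : ∀ θ : Inter p, (avg fun idx : Fin p → ι => μ.E fun θ' => avg fun i : ι =>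
      F ((S.addC msg θ' i).addR θ idx)) = μ.E fun θ' => avg fun idx : Fin p → ι => avg fun i : ι =>
      F ((S.addC msg θ' i).addR θ idx) := fun θ => (FinLaw.E_avg_comm μ _).symm
  simp only [e1]
  rw [FinLaw.E_comm]
  congr 1
  funext θ'
  have e2 : ∀ θ : Inter p, (avg fun idx : Fin p → ι => avg fun i : ι =>
      F ((S.addC msg θ' i).addR θ idx)) = avg fun i : ι => avg fun idx : Fin p → ι =>
      F ((S.addC msg θ' i).addR θ idx) := fun θ => avg_comm _
  simp only [e2]
  exact FinLaw.E_avg_comm μ _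

/-- Linear monotone operators on functions of states preserving constants. -/
structure IsOp (Q : (St ι → ℝ) → (St ι → ℝ)) : Prop where
  add : ∀ F G, Q (fun S => F S + G S) = fun S => Q F S + Q G S
  smul : ∀ (c : ℝ) F, Q (fun S => c * F S) = fun S => c * Q F S
  const : ∀ c : ℝ, Q (fun _ => c) = fun _ => c
  mono : ∀ F G, (∀ S, F S ≤ G S) → ∀ S, Q F S ≤ Q G S

theorem isOp_opR : IsOp (opR (ι := ι) μ) where
  add F G := by funext S; simp only [opR, avg_add, FinLaw.E_add]
  smul c F := by funext S; simp only [opR, avg_mul_left, FinLaw.E_const_mul]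
  const c := by funext S; simp only [opR, avg_const, FinLaw.E_const]
  mono F G h S := by
    unfold opR FinLaw.E
    exact sum_le_sum fun i _ => mul_le_mul_of_nonneg_left (avg_mono fun _ => h _) (μ.w_nonneg i)

theorem isOp_opC : IsOp (opC (ι := ι) msg μ) where
  add F G := by funext S; simp only [opC, avg_add, FinLaw.E_add]
  smul c F := by funext S; simp only [opC, avg_mul_left, FinLaw.E_const_mul]
  const c := by funext S; simp only [opC, avg_const, FinLaw.E_const]
  mono F G h S := by
    unfold opC FinLaw.E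
    exact sum_le_sum fun i _ => mul_le_mul_of_nonneg_left (avg_mono fun _ => h _) (μ.w_nonneg i)

theorem IsOp.id : IsOp (ι := ι) id := ⟨fun _ _ => rfl, fun _ _ => rfl, fun _ => rfl, fun _ _ h => h⟩

theorem IsOp.comp {Q Q' : (St ι → ℝ) → (St ι → ℝ)} (h : IsOp Q) (h' : IsOp Q') :
    IsOp (fun F => Q (Q' F)) where
  add F G := by rw [h'.add, h.add]
  smul c F := by rw [h'.smul, h.smul]
  const c := by rw [h'.const, h.const]
  mono F G hFG := h.mono _ _ (h'.mono _ _ hFG)

theorem IsOp.iterate {Q : (St ι → ℝ) → (St ι → ℝ)} (h : IsOp Q) (n : ℕ) : IsOp (Q^[n]) := by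
  induction n with
  | zero => exact IsOp.id
  | succ n ih =>
    rw [Function.iterate_succ]
    exact (IsOp.comp ih h : IsOp (fun F => Q^[n] (Q F)))

theorem iterate_comm_op (F : St ι → ℝ) (k : ℕ) :
    opR μ ((opC msg μ)^[k] F) = (opC msg μ)^[k] (opR μ F) := by
  induction k generalizing F with
  | zero => rfl
  | succ k ih => rw [Function.iterate_succ_apply, Function.iterate_succ_apply, ih, opR_opC]

/-- `|θ|` bounds. -/
theorem uabs_le_supNorm {p : ℕ} (θ : Inter p) (s : Fin p → Bool) : |θ s| ≤ supNorm θ :=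
  le_ciSup (f := fun s => |θ s|) (Set.finite_range _).bddAbove s

theorem usupNorm_nonneg {p : ℕ} (θ : Inter p) : 0 ≤ supNorm θ :=
  (abs_nonneg _).trans (uabs_le_supNorm θ (fun _ => true))

theorem utilt_pos (y : ℝ) (s : Bool) : 0 < tilt y s := by
  unfold tilt
  have := Real.cosh_pos y
  positivity

theorem utilt_sum (y : ℝ) : ∑ s, tilt y s = 1 := by
  have h := Real.cosh_pos y
  simp only [Fintype.sum_bool, tilt, spinVal, if_true, Bool.false_eq_true, if_false]
  rw [← add_div, div_eq_one_iff_eq (by positivity), Real.cosh_eq]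
  simp only [mul_one, mul_neg]
  ring

theorem prod_tilt_sum {L : Type} [Fintype L] [DecidableEq L] (y : L → ℝ) :
    ∑ s : L → Bool, ∏ ℓ, tilt (y ℓ) (s ℓ) = 1 := by
  rw [← Fintype.piFinset_univ, ← prod_univ_sum]
  simp only [utilt_sum, prod_const_one]

/-- Averages of exponentials against product tilts. -/
theorem exp_avg_bounds {L : Type} [Fintype L] [DecidableEq L] (y : L → ℝ) (g : (L → Bool) → ℝ)
    (C : ℝ) (hg : ∀ s, |g s| ≤ C) :
    Real.exp (-C) ≤ ∑ s : L → Bool, Real.exp (g s) * ∏ ℓ, tilt (y ℓ) (s ℓ) ∧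
      ∑ s : L → Bool, Real.exp (g s) * ∏ ℓ, tilt (y ℓ) (s ℓ) ≤ Real.exp C := by
  have hnn : ∀ s : L → Bool, 0 ≤ ∏ ℓ, tilt (y ℓ) (s ℓ) := fun s =>
    prod_nonneg fun ℓ _ => (utilt_pos _ _).le
  constructor
  · calc Real.exp (-C) = ∑ s : L → Bool, Real.exp (-C) * ∏ ℓ, tilt (y ℓ) (s ℓ) := by
          rw [← mul_sum, prod_tilt_sum, mul_one]
      _ ≤ _ := sum_le_sum fun s _ => mul_le_mul_of_nonneg_right
          (Real.exp_le_exp.2 (abs_le.1 (hg s)).1) (hnn s)
  · calc _ ≤ ∑ s : L → Bool, Real.exp C * ∏ ℓ, tilt (y ℓ) (s ℓ) :=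
          sum_le_sum fun s _ => mul_le_mul_of_nonneg_right
          (Real.exp_le_exp.2 (abs_le.1 (hg s)).2) (hnn s)
      _ = Real.exp C := by rw [← mul_sum, prod_tilt_sum, mul_one]

theorem abs_siteMessage_le {p : ℕ} (θ : Inter p) (y : Fin (p - 1) → ℝ) (ε : Bool) :
    |siteMessage θ y ε| ≤ supNorm θ := by
  unfold siteMessage
  obtain ⟨h1, h2⟩ := exp_avg_bounds y
    (fun s' => θ (fun ℓ => if h : ℓ.val < p - 1 then s' ⟨ℓ.val, h⟩ else ε)) (supNorm θ)
    (fun s => uabs_le_supNorm θ _)
  have hp := lt_of_lt_of_le (Real.exp_pos _) h1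
  rw [abs_le]
  constructor
  · rw [Real.le_log_iff_exp_le hp]; exact h1
  · rw [Real.log_le_iff_le_exp hp]; exact h2

theorem edgeTerm_bounds {p : ℕ} (θ : Inter p) (y : Fin p → ℝ) :
    Real.exp (-supNorm θ) ≤ edgeTerm θ y ∧ edgeTerm θ y ≤ Real.exp (supNorm θ) :=
  exp_avg_bounds y θ (supNorm θ) (uabs_le_supNorm θ)

theorem abs_value_addR (x : ℕ → ℝ) (hx : ∀ i, 0 < x (i + 1)) (R : ℕ) (S : St ι) (θ : Inter p)
    (idx : Fin p → ι) :
    |(S.addR θ idx).value x R - S.value x R| ≤ supNorm θ := by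
  unfold St.value
  have : (avg fun v : (S.addR θ idx).V => Real.log (T x R 0 (S.addR θ idx).Z (fun _ => v))) -
      (avg fun v : S.V => Real.log (T x R 0 S.Z (fun _ => v))) =
      avg fun v : S.V => (Real.log (T x R 0 (S.addR θ idx).Z (fun _ => v)) -
        Real.log (T x R 0 S.Z (fun _ => v))) := by
    rw [avg_sub]; rfl
  rw [this, abs_le]
  have h := fun v : S.V => abs_logT_sub_le x hx S.Z (fun u => θ (fun ℓ => S.spin u (idx ℓ))) S.pos
    (supNorm θ) (fun u => uabs_le_supNorm θ _) R 0 (fun _ => v)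
  constructor
  · rw [← avg_const (V := S.V) (-supNorm θ)]
    exact avg_mono fun v => (abs_le.1 (h v)).1
  · rw [← avg_const (V := S.V) (supNorm θ)]
    exact avg_mono fun v => (abs_le.1 (h v)).2

theorem abs_value_addC (x : ℕ → ℝ) (hx : ∀ i, 0 < x (i + 1)) (R : ℕ) (S : St ι) (θ : Inter p)
    (i : ι) :
    |(S.addC msg θ i).value x R - S.value x R| ≤ supNorm θ := by
  unfold St.value
  have e0 : (avg fun v : S.V => Real.log (T x R 0 S.Z (fun _ => v))) =
      avg fun v : S.V × (ι → Fin (p - 1) → W) =>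
        Real.log (T x R 0 (fun u : ℕ → S.V × (ι → Fin (p - 1) → W) => S.Z (fun l => (u l).1))
          (fun _ => v)) := by
    rw [← (Unif.fst (V := S.V) (W := ι → Fin (p - 1) → W))
      (fun v => Real.log (T x R 0 S.Z (fun _ => v)))]
    congr 1
    funext v
    rw [T_map (V := S.V × (ι → Fin (p - 1) → W)) (π := Prod.fst) Unif.fst x S.Z R 0 (fun _ => v)]
  have : (avg fun v : (S.addC msg θ i).V => Real.log (T x R 0 (S.addC msg θ i).Z (fun _ => v))) -
      (avg fun v : S.V => Real.log (T x R 0 S.Z (fun _ => v))) =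
      avg fun v : S.V × (ι → Fin (p - 1) → W) =>
        (Real.log (T x R 0 (S.addC msg θ i).Z (fun _ => v)) -
        Real.log (T x R 0 (fun u : ℕ → S.V × (ι → Fin (p - 1) → W) => S.Z (fun l => (u l).1))
          (fun _ => v))) := by
    rw [e0, avg_sub]; rfl
  rw [this, abs_le]
  have h := fun v : S.V × (ι → Fin (p - 1) → W) => abs_logT_sub_le x hx
    (fun u : ℕ → S.V × (ι → Fin (p - 1) → W) => S.Z (fun l => (u l).1))
    (fun u => siteMessage θ (fun ℓ => msg (fun l => (u l).2 i ℓ)) (S.spin (fun l => (u l).1) i))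
    (fun u => S.pos _)
    (supNorm θ) (fun u => abs_siteMessage_le θ _ _) R 0 (fun _ => v)
  constructor
  · rw [← avg_const (V := S.V × (ι → Fin (p - 1) → W)) (-supNorm θ)]
    exact avg_mono fun v => (abs_le.1 (h v)).1
  · rw [← avg_const (V := S.V × (ι → Fin (p - 1) → W)) (supNorm θ)]
    exact avg_mono fun v => (abs_le.1 (h v)).2

end

end Crest.Agent.MP
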