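import Crest.Agent.MP.UFresh
import Crest.Agent.MP.UDefs

/-!
# The state inequality (§8) in the form `1 + X`
-/

set_option autoImplicit false
set_option linter.unusedSectionVars false
set_option linter.unusedVariables false

namespace Crest.Agent.MP

open Finset

/-! ### Finite averages and series -/

theorem hasSum_avg {V : Type*} [Fintype V] {F : ℕ → V → ℝ} {S : V → ℝ}
    (h : ∀ v, HasSum (fun n => F n v) (S v)) : HasSum (fun n => avg (F n)) (avg S) := by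
  unfold avg
  exact (hasSum_sum fun v _ => h v).mul_left _

theorem FinLaw.hasSum_E {E : Type} (μ : FinLaw E) {F : ℕ → E → ℝ} {S : E → ℝ}
    (h : ∀ i, HasSum (fun n => F n (μ.x i)) (S (μ.x i))) :
    HasSum (fun n => μ.E (F n)) (μ.E S) := by
  unfold FinLaw.E
  exact hasSum_sum fun v _ => (h v).mul_left _

theorem FinLaw.hasSum_Epow {E : Type} (μ : FinLaw E) (k : ℕ) {F : ℕ → (Fin k → E) → ℝ}
    {S : (Fin k → E) → ℝ}
    (h : ∀ j : Fin k → μ.ι, HasSum (fun n => F n (fun a => μ.x (j a))) (S (fun a => μ.x (j a)))) :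
    HasSum (fun n => μ.Epow k (F n)) (μ.Epow k S) := by
  unfold FinLaw.Epow
  exact hasSum_sum fun v _ => (h v).mul_left _

theorem FinLaw.Epow_prod {E : Type} (μ : FinLaw E) (k : ℕ) (g : Fin k → E → ℝ) :
    μ.Epow k (fun y => ∏ a, g a (y a)) = ∏ a, μ.E (g a) := by
  unfold FinLaw.Epow FinLaw.E
  simp only [← prod_mul_distrib]
  rw [prod_univ_sum, Fintype.piFinset_univ]

theorem FinLaw.E_const_mul {E : Type} (μ : FinLaw E) (c : ℝ) (f : E → ℝ) :
    μ.E (fun y => c * f y) = c * μ.E f := by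
  unfold FinLaw.E
  rw [mul_sum]
  exact sum_congr rfl fun i _ => by ring

theorem FinLaw.E_mul_const {E : Type} (μ : FinLaw E) (c : ℝ) (f : E → ℝ) :
    μ.E (fun y => f y * c) = μ.E f * c := by
  unfold FinLaw.E
  rw [sum_mul]
  exact sum_congr rfl fun i _ => by ring

theorem FinLaw.E_const {E : Type} (μ : FinLaw E) (c : ℝ) : μ.E (fun _ => c) = c := by
  unfold FinLaw.E
  rw [← sum_mul, μ.w_sum, one_mul]

theorem FinLaw.Epow_const_mul {E : Type} (μ : FinLaw E) (k : ℕ) (c : ℝ) (f : (Fin k → E) → ℝ) :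
    μ.Epow k (fun y => c * f y) = c * μ.Epow k f := by
  unfold FinLaw.Epow
  rw [mul_sum]
  exact sum_congr rfl fun i _ => by ring

theorem FinLaw.Epow_const {E : Type} (μ : FinLaw E) (k : ℕ) (c : ℝ) :
    μ.Epow k (fun _ => c) = c := by
  have h := μ.Epow_prod k (fun _ _ => 1)
  simp only [prod_const_one, FinLaw.E_const] at h
  have := μ.Epow_const_mul k c (fun _ => 1)
  simp only [mul_one] at this
  rw [this, h, mul_one]

theorem FinLaw.E_nonneg {E : Type} (μ : FinLaw E) (f : E → ℝ) (h : ∀ i, 0 ≤ f (μ.x i)) :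
    0 ≤ μ.E f :=
  sum_nonneg fun i _ => mul_nonneg (μ.w_nonneg i) (h i)

theorem FinLaw.Epow_nonneg {E : Type} (μ : FinLaw E) (k : ℕ) (f : (Fin k → E) → ℝ)
    (h : ∀ j : Fin k → μ.ι, 0 ≤ f (fun a => μ.x (j a))) : 0 ≤ μ.Epow k f :=
  sum_nonneg fun i _ => mul_nonneg (prod_nonneg fun a _ => μ.w_nonneg _) (h i)

theorem FinLaw.E_add {E : Type} (μ : FinLaw E) (f g : E → ℝ) :
    μ.E (fun y => f y + g y) = μ.E f + μ.E g := by
  unfold FinLaw.E
  rw [← sum_add_distrib]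
  exact sum_congr rfl fun i _ => by ring

theorem FinLaw.Epow_add {E : Type} (μ : FinLaw E) (k : ℕ) (f g : (Fin k → E) → ℝ) :
    μ.Epow k (fun y => f y + g y) = μ.Epow k f + μ.Epow k g := by
  unfold FinLaw.Epow
  rw [← sum_add_distrib]
  exact sum_congr rfl fun i _ => by ring

section Ops

variable {V : Type*} [Fintype V] [Nonempty V]

theorem E_lin {I : Type*} [Fintype I] (x : ℕ → ℝ) (R : ℕ) (Z : (ℕ → V) → ℝ) (n : ℕ)
    (c : I → ℝ) (Φ : I → (ℕ → ℕ → V) → ℝ) (b : ℕ → V) :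
    E x R Z n (fun s => ∑ i, c i * Φ i s) b = ∑ i, c i * E x R Z n (Φ i) b := by
  unfold E
  simp only [Eh_sum, PE_sum, Eh_const_mul, PE_const_mul]

theorem Eh_lin {I : Type*} [Fintype I] (x : ℕ → ℝ) (R : ℕ) (Z : (ℕ → V) → ℝ) (n : ℕ)
    (h : ℕ → ℕ × ℕ)
    (c : I → ℝ) (Φ : I → (ℕ → ℕ → V) → ℝ) (b : ℕ → V) :
    Eh x R Z n h (fun s => ∑ i, c i * Φ i s) b = ∑ i, c i * Eh x R Z n h (Φ i) b := by
  simp only [Eh_sum, Eh_const_mul]

theorem Eh_avg {I : Type*} [Fintype I] (x : ℕ → ℝ) (R : ℕ) (Z : (ℕ → V) → ℝ) (n : ℕ)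
    (h : ℕ → ℕ × ℕ) (Φ : I → (ℕ → ℕ → V) → ℝ) (b : ℕ → V) :
    Eh x R Z n h (fun s => avg fun i => Φ i s) b = avg fun i => Eh x R Z n h (Φ i) b := by
  unfold avg
  rw [Eh_const_mul, Eh_sum]

theorem Eh_FE {I : Type} (μ : FinLaw I) (x : ℕ → ℝ) (R : ℕ) (Z : (ℕ → V) → ℝ) (n : ℕ)
    (h : ℕ → ℕ × ℕ) (Φ : I → (ℕ → ℕ → V) → ℝ) (b : ℕ → V) :
    Eh x R Z n h (fun s => μ.E fun i => Φ i s) b = μ.E fun i => Eh x R Z n h (Φ i) b := by
  unfold FinLaw.E
  rw [Eh_lin]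

theorem Eh_Epow {I : Type} (μ : FinLaw I) (k : ℕ) (x : ℕ → ℝ) (R : ℕ) (Z : (ℕ → V) → ℝ) (n : ℕ)
    (h : ℕ → ℕ × ℕ) (Φ : (Fin k → I) → (ℕ → ℕ → V) → ℝ) (b : ℕ → V) :
    Eh x R Z n h (fun s => μ.Epow k fun i => Φ i s) b = μ.Epow k fun i => Eh x R Z n h (Φ i) b := by
  unfold FinLaw.Epow
  rw [Eh_lin]

theorem PE_avg {I : Type*} [Fintype I] (x : ℕ → ℝ) (R n : ℕ) (f : I → (ℕ → ℕ × ℕ) → ℝ) :
    PE x R n (fun h => avg fun i => f i h) = avg fun i => PE x R n (f i) := by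
  unfold avg
  rw [PE_const_mul, PE_sum]

theorem PE_FE {I : Type} (μ : FinLaw I) (x : ℕ → ℝ) (R n : ℕ) (f : I → (ℕ → ℕ × ℕ) → ℝ) :
    PE x R n (fun h => μ.E fun i => f i h) = μ.E fun i => PE x R n (f i) := by
  unfold FinLaw.E
  rw [PE_sum]
  simp only [PE_const_mul]

theorem PE_Epow {I : Type} (μ : FinLaw I) (k : ℕ) (x : ℕ → ℝ) (R n : ℕ)
    (f : (Fin k → I) → (ℕ → ℕ × ℕ) → ℝ) :
    PE x R n (fun h => μ.Epow k fun i => f i h) = μ.Epow k fun i => PE x R n (f i) := by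
  unfold FinLaw.Epow
  rw [PE_sum]
  simp only [PE_const_mul]

end Ops

/-- The scalar inequality. -/
theorem scalar_ineq (q : ℕ) (A B : ℝ) (h : Even (q + 1) ∨ (0 ≤ A ∧ 0 ≤ B)) :
    0 ≤ A ^ (q + 1) - ((q : ℝ) + 1) * (A * B ^ q) + q * B ^ (q + 1) := by
  by_cases hB : B = 0
  · subst hB
    rcases Nat.eq_zero_or_pos q with rfl | hq
    · simp
    · rw [zero_pow (by omega : q ≠ 0), zero_pow (by omega : q + 1 ≠ 0)]
      simp only [mul_zero, sub_zero, add_zero]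
      rcases h with h | h
      · exact h.pow_nonneg A
      · exact pow_nonneg h.1 _
  · have hBp : 0 < B ^ (q + 1) := by
      rcases h with h | h
      · exact h.pow_pos hB
      · exact pow_pos (lt_of_le_of_ne h.2 (Ne.symm hB)) _
    set a := A / B - 1 with ha
    have hA : A = B * (1 + a) := by rw [ha]; field_simp; ring
    have key : 1 + ((q : ℝ) + 1) * a ≤ (1 + a) ^ (q + 1) := by
      by_cases h2 : -2 ≤ a
      · have := one_add_mul_le_pow h2 (q + 1)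
        push_cast at this
        exact this
      · rcases h with h | h
        · have h3 := h.pow_nonneg (1 + a)
          have : 1 + ((q : ℝ) + 1) * a ≤ 0 := by
            have hq0 : (0 : ℝ) ≤ q := Nat.cast_nonneg q
            nlinarith [not_le.1 h2]
          linarith
        · exfalso
          have : 0 ≤ A / B := div_nonneg h.1 h.2
          linarith [not_le.1 h2]
    have e : A ^ (q + 1) - ((q : ℝ) + 1) * (A * B ^ q) + q * B ^ (q + 1) =
        B ^ (q + 1) * ((1 + a) ^ (q + 1) - (1 + ((q : ℝ) + 1) * a)) := by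
      rw [hA, mul_pow]; ring
    rw [e]
    exact mul_nonneg hBp.le (by linarith)

section State

variable {q : ℕ} (φ : FactLaw (q + 1)) (x : ℕ → ℝ) (R : ℕ)
  {V₁ : Type} [Fintype V₁] [Nonempty V₁] (Z₁ : (ℕ → V₁) → ℝ)
  {ι : Type} [Fintype ι] [DecidableEq ι] [Nonempty ι] (spin : (ℕ → V₁) → ι → Bool)
  {W : Type} [Fintype W] [Nonempty W] (tl : (ℕ → W) → Bool → ℝ)

/-- `⟨f⟩` under the message of the label path `u`. -/
noncomputable def br (f : Bool → ℝ) (u : ℕ → W) : ℝ := ∑ s, f s * tl u s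

/-- Adding a real interaction. -/
noncomputable def Xr (b : ℝ) (fs : Fin (q + 1) → Bool → ℝ) (idx : Fin (q + 1) → ι)
    (u : ℕ → V₁) : ℝ := b * ∏ ℓ, fs ℓ (spin u (idx ℓ))

/-- Adding a cavity field at the site `i`. -/
noncomputable def Xc (b : ℝ) (fs : Fin (q + 1) → Bool → ℝ) (i : ι)
    (u : ℕ → V₁ × (ι → Fin q → W)) : ℝ :=
  b * (fs (Fin.last q) (spin (fun l => (u l).1) i) *
    ∏ ℓ : Fin q, br tl (fs ℓ.castSucc) (fun l => (u l).2 i ℓ))

/-- An edge factor. -/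
noncomputable def Xe (b : ℝ) (fs : Fin (q + 1) → Bool → ℝ) (u : ℕ → Fin (q + 1) → W) : ℝ :=
  b * ∏ ℓ, br tl (fs ℓ) (fun l => u l ℓ)

/-- `A_n`. -/
noncomputable def An (n : ℕ) (s : ℕ → ℕ → V₁) : ℝ :=
  φ.f.E fun f => avg fun i : ι => ∏ l ∈ range (n + 1), f (spin (s l) i)

/-- `B_n(h)`. -/
noncomputable def Bn (n : ℕ) (h : ℕ → ℕ × ℕ) : ℝ :=
  φ.f.E fun f => avg fun v : W =>
    Eh x R (fun _ => 1) n h (fun s => ∏ l ∈ range (n + 1), br tl f (s l)) (fun _ => v)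

/-- The common coefficient. -/
noncomputable def cn (n : ℕ) : ℝ := (-1 : ℝ) ^ n / ((n : ℝ) + 1)

variable {Z₁ x R}

theorem An_pow (n : ℕ) (s : ℕ → ℕ → V₁) : An φ spin n s ^ (q + 1) =
    φ.f.Epow (q + 1) fun fs => avg fun idx : Fin (q + 1) → ι =>
      ∏ l ∈ range (n + 1), ∏ ℓ, fs ℓ (spin (s l) (idx ℓ)) := by
  have h1 : An φ spin n s ^ (q + 1) = ∏ ℓ : Fin (q + 1), An φ spin n s := by
    rw [prod_const, card_univ, Fintype.card_fin]
  rw [h1]
  unfold An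
  rw [← FinLaw.Epow_prod φ.f (q + 1) (fun _ f => avg fun i : ι => ∏ l ∈ range (n + 1), f (spin (s l) i))]
  congr 1
  funext fs
  rw [← avg_pi (V := fun _ : Fin (q + 1) => ι) (fun ℓ i => ∏ l ∈ range (n + 1), fs ℓ (spin (s l) i))]
  congr 1
  funext idx
  rw [prod_comm]

theorem real_term (n : ℕ) (b₁ : ℕ → V₁) :
    (φ.b.E fun b => φ.f.Epow (q + 1) fun fs => avg fun idx : Fin (q + 1) → ι =>
      cn n * E x R Z₁ n (fun s => ∏ l ∈ range (n + 1), Xr spin b fs idx (s l)) b₁) =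
    (cn n * (φ.b.E fun b => b ^ (n + 1))) *
      PE x R n fun h => Eh x R Z₁ n h (fun s => An φ spin n s ^ (q + 1)) b₁ := by
  have h1 : ∀ (b : ℝ) (fs : Fin (q + 1) → Bool → ℝ) (idx : Fin (q + 1) → ι),
      cn n * E x R Z₁ n (fun s => ∏ l ∈ range (n + 1), Xr spin b fs idx (s l)) b₁ =
      (cn n * b ^ (n + 1)) * PE x R n fun h => Eh x R Z₁ n h
        (fun s => ∏ l ∈ range (n + 1), ∏ ℓ, fs ℓ (spin (s l) (idx ℓ))) b₁ := by
    intro b fs idx
    have : (fun s : ℕ → ℕ → V₁ => ∏ l ∈ range (n + 1), Xr spin b fs idx (s l)) =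
        fun s => b ^ (n + 1) * ∏ l ∈ range (n + 1), ∏ ℓ, fs ℓ (spin (s l) (idx ℓ)) := by
      funext s
      unfold Xr
      rw [prod_mul_distrib, prod_const, card_range]
    rw [this, E_const_mul, mul_assoc]
    rfl
  simp only [h1, avg_mul_left, FinLaw.Epow_const_mul, FinLaw.E_mul_const, FinLaw.E_const_mul,
    An_pow, Eh_Epow, Eh_avg, PE_Epow, PE_avg]

theorem Eh_bn (n : ℕ) (h : ℕ → ℕ × ℕ) (fs : Fin q → Bool → ℝ) (i : ι) :
    (avg fun v : ι → Fin q → W => Eh x R (fun _ => 1) n h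
      (fun s : ℕ → ℕ → ι → Fin q → W => ∏ l ∈ range (n + 1), ∏ ℓ : Fin q,
        br tl (fs ℓ) (fun k => s l k i ℓ)) (fun _ => v)) =
    ∏ ℓ : Fin q, avg fun v : W =>
      Eh x R (fun _ => 1) n h (fun s => ∏ l ∈ range (n + 1), br tl (fs ℓ) (s l)) (fun _ => v) := by
  have h1 : ∀ v : ι → Fin q → W, Eh x R (fun _ => 1) n h
      (fun s : ℕ → ℕ → ι → Fin q → W => ∏ l ∈ range (n + 1), ∏ ℓ : Fin q,
        br tl (fs ℓ) (fun k => s l k i ℓ)) (fun _ => v) =
      ∏ ℓ : Fin q, Eh x R (fun _ => 1) n h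
        (fun s => ∏ l ∈ range (n + 1), br tl (fs ℓ) (s l)) (fun _ => v i ℓ) := by
    intro v
    have e1 := Eh_map (V := ι → Fin q → W) (V' := Fin q → W) (π := fun v => v i)
      (Unif.eval (V := fun _ : ι => Fin q → W) i) x R (fun _ => 1) n h (fun _ => v)
      (fun s => ∏ l ∈ range (n + 1), ∏ ℓ : Fin q, br tl (fs ℓ) (fun k => s l k ℓ))
    have e2 := Eh_pi (ι := Fin q) (W := W) x R n h (fun _ => v i)
      (fun ℓ s => ∏ l ∈ range (n + 1), br tl (fs ℓ) (s l))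
    rw [← e2]
    refine e1.trans ?_
    congr 1
    funext s
    rw [prod_comm]
  simp only [h1]
  rw [← avg_pi (V := fun _ : Fin q => W) (fun ℓ v => Eh x R (fun _ => 1) n h
    (fun s => ∏ l ∈ range (n + 1), br tl (fs ℓ) (s l)) (fun _ => v))]
  exact Unif.eval (V := fun _ : ι => Fin q → W) i (fun w => ∏ ℓ : Fin q, Eh x R (fun _ => 1) n h
    (fun s => ∏ l ∈ range (n + 1), br tl (fs ℓ) (s l)) (fun _ => w ℓ))

theorem _root_.Crest.Agent.MP.FinLaw.Epow_last {E : Type} (μ : FinLaw E) (q : ℕ) (G H : E → ℝ) :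
    μ.Epow (q + 1) (fun fs => G (fs (Fin.last q)) * ∏ ℓ : Fin q, H (fs ℓ.castSucc)) =
      μ.E G * μ.E H ^ q := by
  have h := μ.Epow_prod (q + 1) (Fin.snoc (α := fun _ => E → ℝ) (fun _ : Fin q => H) G)
  simp only [Fin.prod_univ_castSucc, Fin.snoc_castSucc, Fin.snoc_last, prod_const, card_univ,
    Fintype.card_fin] at h
  rw [mul_comm (μ.E G), ← h]
  congr 1
  funext fs
  rw [mul_comm]

theorem cav_term (n : ℕ) (b₁ : ℕ → V₁) :
    (φ.b.E fun b => φ.f.Epow (q + 1) fun fs => avg fun i : ι => avg fun v : ι → Fin q → W =>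
      cn n * E x R (fun u : ℕ → V₁ × (ι → Fin q → W) => Z₁ (fun l => (u l).1)) n
        (fun s => ∏ l ∈ range (n + 1), Xc spin tl b fs i (s l)) (fun l => (b₁ l, v))) =
    (cn n * (φ.b.E fun b => b ^ (n + 1))) *
      PE x R n fun h => Eh x R Z₁ n h (fun s => An φ spin n s) b₁ *
        Bn φ (x := x) (R := R) tl n h ^ q := by
  have h1 : ∀ (b : ℝ) (fs : Fin (q + 1) → Bool → ℝ) (i : ι) (v : ι → Fin q → W),
      cn n * E x R (fun u : ℕ → V₁ × (ι → Fin q → W) => Z₁ (fun l => (u l).1)) n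
        (fun s => ∏ l ∈ range (n + 1), Xc spin tl b fs i (s l)) (fun l => (b₁ l, v)) =
      (cn n * b ^ (n + 1)) * PE x R n fun h =>
        Eh x R Z₁ n h (fun s => ∏ l ∈ range (n + 1), fs (Fin.last q) (spin (s l) i)) b₁ *
        Eh x R (fun _ => 1) n h (fun s : ℕ → ℕ → ι → Fin q → W => ∏ l ∈ range (n + 1),
          ∏ ℓ : Fin q, br tl (fs ℓ.castSucc) (fun k => s l k i ℓ)) (fun _ => v) := by
    intro b fs i v
    have e0 : (fun s : ℕ → ℕ → V₁ × (ι → Fin q → W) => ∏ l ∈ range (n + 1), Xc spin tl b fs i (s l)) =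
        fun s => b ^ (n + 1) *
          ((∏ l ∈ range (n + 1), fs (Fin.last q) (spin (fun k => (s l k).1) i)) *
          (∏ l ∈ range (n + 1), ∏ ℓ : Fin q, br tl (fs ℓ.castSucc) (fun k => (s l k).2 i ℓ))) := by
      funext s
      unfold Xc
      rw [prod_mul_distrib, prod_const, card_range, prod_mul_distrib]
    rw [e0, E_const_mul, mul_assoc]
    congr 2
    unfold E
    congr 1
    funext h
    exact Eh_prod (V := V₁ × (ι → Fin q → W)) (π₁ := Prod.fst) (π₂ := Prod.snd) Unif.id x R Z₁ n h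
      (fun l => (b₁ l, v))
      (fun s => ∏ l ∈ range (n + 1), fs (Fin.last q) (spin (s l) i))
      (fun s => ∏ l ∈ range (n + 1), ∏ ℓ : Fin q, br tl (fs ℓ.castSucc) (fun k => s l k i ℓ))
  have h2 : ∀ h : ℕ → ℕ × ℕ, Eh x R Z₁ n h (fun s => An φ spin n s) b₁ *
      Bn φ (x := x) (R := R) tl n h ^ q = φ.f.Epow (q + 1) fun fs => avg fun i : ι =>
        avg fun v : ι → Fin q → W =>
        Eh x R Z₁ n h (fun s => ∏ l ∈ range (n + 1), fs (Fin.last q) (spin (s l) i)) b₁ *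
        Eh x R (fun _ => 1) n h (fun s : ℕ → ℕ → ι → Fin q → W => ∏ l ∈ range (n + 1),
          ∏ ℓ : Fin q, br tl (fs ℓ.castSucc) (fun k => s l k i ℓ)) (fun _ => v) := by
    intro h
    unfold An Bn
    rw [Eh_FE]
    simp only [Eh_avg]
    rw [← FinLaw.Epow_last φ.f q (fun f => avg fun i =>
      Eh x R Z₁ n h (fun s => ∏ l ∈ range (n + 1), f (spin (s l) i)) b₁)]
    congr 1
    funext fs
    rw [← avg_mul_right]
    congr 1
    funext i
    rw [avg_mul_left]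
    rw [Eh_bn tl n h (fun ℓ => fs ℓ.castSucc) i]
  simp only [h2, PE_Epow, PE_avg]
  simp only [h1, avg_mul_left, FinLaw.Epow_const_mul, FinLaw.E_mul_const, FinLaw.E_const_mul]

theorem edge_term (n : ℕ) :
    (φ.b.E fun b => φ.f.Epow (q + 1) fun fs => avg fun v : Fin (q + 1) → W =>
      cn n * E x R (fun _ : ℕ → Fin (q + 1) → W => 1) n
        (fun s => ∏ l ∈ range (n + 1), Xe tl b fs (s l)) (fun _ => v)) =
    (cn n * (φ.b.E fun b => b ^ (n + 1))) *
      PE x R n fun h => Bn φ (x := x) (R := R) tl n h ^ (q + 1) := by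
  have h1 : ∀ (b : ℝ) (fs : Fin (q + 1) → Bool → ℝ) (v : Fin (q + 1) → W),
      cn n * E x R (fun _ : ℕ → Fin (q + 1) → W => 1) n
        (fun s => ∏ l ∈ range (n + 1), Xe tl b fs (s l)) (fun _ => v) =
      (cn n * b ^ (n + 1)) * PE x R n fun h => ∏ ℓ : Fin (q + 1),
        Eh x R (fun _ => 1) n h (fun s => ∏ l ∈ range (n + 1), br tl (fs ℓ) (s l))
          (fun _ => v ℓ) := by
    intro b fs v
    have e0 : (fun s : ℕ → ℕ → Fin (q + 1) → W => ∏ l ∈ range (n + 1), Xe tl b fs (s l)) =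
        fun s => b ^ (n + 1) *
          ∏ ℓ, ∏ l ∈ range (n + 1), br tl (fs ℓ) (fun k => s l k ℓ) := by
      funext s
      unfold Xe
      rw [prod_mul_distrib, prod_const, card_range, prod_comm]
    rw [e0, E_const_mul, mul_assoc]
    congr 2
    unfold E
    congr 1
    funext h
    exact Eh_pi (ι := Fin (q + 1)) (W := W) x R n h (fun _ => v)
      (fun ℓ s => ∏ l ∈ range (n + 1), br tl (fs ℓ) (s l))
  have h2 : ∀ h : ℕ → ℕ × ℕ,
      Bn φ (x := x) (R := R) tl n h ^ (q + 1) = φ.f.Epow (q + 1) fun fs =>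
        avg fun v : Fin (q + 1) → W => ∏ ℓ : Fin (q + 1),
        Eh x R (fun _ => 1) n h (fun s => ∏ l ∈ range (n + 1), br tl (fs ℓ) (s l))
          (fun _ => v ℓ) := by
    intro h
    have e : Bn φ (x := x) (R := R) tl n h ^ (q + 1) =
        ∏ ℓ : Fin (q + 1), Bn φ (x := x) (R := R) tl n h := by
      rw [prod_const, card_univ, Fintype.card_fin]
    rw [e]
    unfold Bn
    rw [← FinLaw.Epow_prod φ.f (q + 1) (fun _ f => avg fun v : W => Eh x R (fun _ => 1) n h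
      (fun s => ∏ l ∈ range (n + 1), br tl f (s l)) (fun _ => v))]
    congr 1
    funext fs
    exact (avg_pi (V := fun _ : Fin (q + 1) => W) (fun ℓ v => Eh x R (fun _ => 1) n h
      (fun s => ∏ l ∈ range (n + 1), br tl (fs ℓ) (s l)) (fun _ => v))).symm
  simp only [h1, avg_mul_left, FinLaw.Epow_const_mul, FinLaw.E_mul_const, FinLaw.E_const_mul, h2,
    PE_Epow, PE_avg]

/-- The bracket `E [A^{q+1} - (q+1) A B^q + q B^{q+1}] ≥ 0`. -/
theorem bracket_nonneg (hx : Exps R x) (hZ : ∀ u, 0 < Z₁ u) (htl : ∀ u s, 0 ≤ tl u s)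
    (hpos : Even (q + 1) ∨ ∀ j s, 0 ≤ φ.f.x j s) (n : ℕ) (b₁ : ℕ → V₁) :
    0 ≤ (PE x R n fun h => Eh x R Z₁ n h (fun s => An φ spin n s ^ (q + 1)) b₁)
      - ((q : ℝ) + 1) * (PE x R n fun h => Eh x R Z₁ n h (fun s => An φ spin n s) b₁ *
        Bn φ (x := x) (R := R) tl n h ^ q)
      + q * (PE x R n fun h => Bn φ (x := x) (R := R) tl n h ^ (q + 1)) := by
  rw [← PE_const_mul, ← PE_const_mul, ← PE_sub, ← PE_add]
  have h0 : PE x R n (fun _ => (0 : ℝ)) = 0 := PE_zero x R n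
  rw [← h0]
  refine PE_mono x hx.mono R n _ _ fun h _ => ?_
  have e : Eh x R Z₁ n h (fun s => An φ spin n s ^ (q + 1)) b₁ -
      ((q : ℝ) + 1) * (Eh x R Z₁ n h (fun s => An φ spin n s) b₁ *
        Bn φ (x := x) (R := R) tl n h ^ q) + q * Bn φ (x := x) (R := R) tl n h ^ (q + 1) =
      Eh x R Z₁ n h (fun s => An φ spin n s ^ (q + 1) - ((q : ℝ) + 1) *
        (An φ spin n s * Bn φ (x := x) (R := R) tl n h ^ q) +
        q * Bn φ (x := x) (R := R) tl n h ^ (q + 1)) b₁ := by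
    rw [Eh_add, Eh_sub, Eh_const_mul, Eh_const x R Z₁ hZ]
    have : (fun s => An φ spin n s * Bn φ (x := x) (R := R) tl n h ^ q) =
        fun s => Bn φ (x := x) (R := R) tl n h ^ q * An φ spin n s := by
      funext s; ring
    rw [this, Eh_const_mul]
    ring
  rw [e]
  have := Eh_const x R Z₁ hZ n h b₁ 0
  rw [← this]
  refine Eh_mono x R Z₁ hZ n h b₁ _ _ fun s => ?_
  refine scalar_ineq q _ _ ?_
  rcases hpos with hp | hp
  · exact Or.inl hp
  · right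
    constructor
    · unfold An
      exact FinLaw.E_nonneg _ _ fun j => avg_nonneg fun i => prod_nonneg fun l _ => hp j _
    · unfold Bn
      refine FinLaw.E_nonneg _ _ fun j => avg_nonneg fun v => ?_
      have := Eh_const x R (fun _ : ℕ → W => (1 : ℝ)) (fun _ => one_pos) n h (fun _ => v) 0
      rw [← this]
      refine Eh_mono x R _ (fun _ => one_pos) n h _ _ _ fun s => ?_
      exact prod_nonneg fun l _ => sum_nonneg fun ε _ => mul_nonneg (hp j ε) (htl _ _)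

/-- **State inequality**. -/
theorem state_ineq (hx : Exps R x) (hZ : ∀ u, 0 < Z₁ u) (htl : ∀ u s, 0 ≤ tl u s)
    (htl1 : ∀ u, ∑ s, tl u s = 1)
    (hpos : Even (q + 1) ∨ ∀ j s, 0 ≤ φ.f.x j s) (b₁ : ℕ → V₁) :
    (φ.b.E fun b => φ.f.Epow (q + 1) fun fs => avg fun idx : Fin (q + 1) → ι =>
        (Real.log (T x R 0 (fun u => Z₁ u * (1 + Xr spin b fs idx u)) b₁) -
          Real.log (T x R 0 Z₁ b₁)))
      - ((q : ℝ) + 1) * (φ.b.E fun b => φ.f.Epow (q + 1) fun fs => avg fun i : ι =>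
        avg fun v : ι → Fin q → W =>
        (Real.log (T x R 0 (fun u : ℕ → V₁ × (ι → Fin q → W) => Z₁ (fun l => (u l).1) *
          (1 + Xc spin tl b fs i u)) (fun l => (b₁ l, v))) - Real.log (T x R 0 Z₁ b₁)))
      + q * (φ.b.E fun b => φ.f.Epow (q + 1) fun fs => avg fun v : Fin (q + 1) → W =>
        Real.log (T x R 0 (fun u => 1 + Xe tl b fs u) (fun _ => v))) ≤ 0 := by
  have hδ : 1 - φ.δ < 1 := by linarith [φ.δ_pos]
  -- bounds
  have hbr : ∀ (k : Fin (q + 1) → φ.f.ι) (i : φ.b.ι) (g : Fin (q + 1) → Bool → ℝ),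
      (∀ ℓ, ∀ s, 0 ≤ g ℓ s) → (∀ ℓ, ∑ s, g ℓ s = 1) →
      |φ.b.x i * ∏ ℓ, ∑ s, φ.f.x (k ℓ) s * g ℓ s| ≤ 1 - φ.δ := by
    intro k i g hg hg1
    rw [prod_univ_sum, Fintype.piFinset_univ, mul_sum]
    calc |∑ s : Fin (q + 1) → Bool, φ.b.x i * ∏ ℓ, φ.f.x (k ℓ) (s ℓ) * g ℓ (s ℓ)|
        ≤ ∑ s : Fin (q + 1) → Bool, |φ.b.x i * ∏ ℓ, φ.f.x (k ℓ) (s ℓ) * g ℓ (s ℓ)| :=
          abs_sum_le_sum_abs _ _
      _ ≤ ∑ s : Fin (q + 1) → Bool, (1 - φ.δ) * ∏ ℓ, g ℓ (s ℓ) := by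
          refine sum_le_sum fun s _ => ?_
          rw [prod_mul_distrib, ← mul_assoc, abs_mul,
            abs_of_nonneg (prod_nonneg fun ℓ _ => hg ℓ (s ℓ))]
          exact mul_le_mul_of_nonneg_right (φ.bound i k s) (prod_nonneg fun ℓ _ => hg ℓ (s ℓ))
      _ = 1 - φ.δ := by
          rw [← mul_sum, ← Fintype.piFinset_univ, ← prod_univ_sum, prod_congr rfl (fun ℓ _ => hg1 ℓ),
            prod_const_one, mul_one]
  have hXr : ∀ (i : φ.b.ι) (k : Fin (q + 1) → φ.f.ι) (idx : Fin (q + 1) → ι) u,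
      |Xr spin (φ.b.x i) (fun a => φ.f.x (k a)) idx u| ≤ 1 - φ.δ := by
    intro i k idx u
    exact φ.bound i k _
  have hXe : ∀ (i : φ.b.ι) (k : Fin (q + 1) → φ.f.ι) u,
      |Xe tl (φ.b.x i) (fun a => φ.f.x (k a)) u| ≤ 1 - φ.δ := by
    intro i k u
    exact hbr k i (fun ℓ => tl (fun l => u l ℓ)) (fun ℓ s => htl _ s) (fun ℓ => htl1 _)
  have hXc : ∀ (i : φ.b.ι) (k : Fin (q + 1) → φ.f.ι) (j : ι) u,
      |Xc spin tl (φ.b.x i) (fun a => φ.f.x (k a)) j u| ≤ 1 - φ.δ := by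
    intro i k j u
    have h := hbr k i (Fin.snoc (α := fun _ => Bool → ℝ)
      (fun ℓ : Fin q => tl (fun l => (u l).2 j ℓ))
      (fun s => if s = spin (fun l => (u l).1) j then 1 else 0)) ?_ ?_
    · rw [Fin.prod_univ_castSucc] at h
      simp only [Fin.snoc_castSucc, Fin.snoc_last, mul_ite, mul_one, mul_zero, sum_ite_eq',
        mem_univ, if_true] at h
      unfold Xc br
      rwa [mul_comm (φ.f.x (k (Fin.last q)) _)]
    · intro ℓ s
      refine Fin.lastCases ?_ (fun ℓ => ?_) ℓ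
      · simp only [Fin.snoc_last]; split_ifs <;> norm_num
      · simp only [Fin.snoc_castSucc]; exact htl _ _
    · intro ℓ
      refine Fin.lastCases ?_ (fun ℓ => ?_) ℓ
      · simp only [Fin.snoc_last, sum_ite_eq', mem_univ, if_true]
      · simp only [Fin.snoc_castSucc]; exact htl1 _
  -- the three series
  have s1 : HasSum (fun n => φ.b.E fun b => φ.f.Epow (q + 1) fun fs =>
      avg fun idx : Fin (q + 1) → ι =>
      cn n * E x R Z₁ n (fun s => ∏ l ∈ range (n + 1), Xr spin b fs idx (s l)) b₁)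
      (φ.b.E fun b => φ.f.Epow (q + 1) fun fs => avg fun idx : Fin (q + 1) → ι =>
        (Real.log (T x R 0 (fun u => Z₁ u * (1 + Xr spin b fs idx u)) b₁) -
          Real.log (T x R 0 Z₁ b₁))) := by
    refine FinLaw.hasSum_E _ fun i => FinLaw.hasSum_Epow _ _ fun k => hasSum_avg fun idx => ?_
    exact link hx hZ (hXr i k idx) hδ b₁
  have s2 : HasSum (fun n => φ.b.E fun b => φ.f.Epow (q + 1) fun fs => avg fun i : ι =>
      avg fun v : ι → Fin q → W =>
      cn n * E x R (fun u : ℕ → V₁ × (ι → Fin q → W) => Z₁ (fun l => (u l).1)) n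
        (fun s => ∏ l ∈ range (n + 1), Xc spin tl b fs i (s l)) (fun l => (b₁ l, v)))
      (φ.b.E fun b => φ.f.Epow (q + 1) fun fs => avg fun i : ι => avg fun v : ι → Fin q → W =>
        (Real.log (T x R 0 (fun u : ℕ → V₁ × (ι → Fin q → W) => Z₁ (fun l => (u l).1) *
          (1 + Xc spin tl b fs i u)) (fun l => (b₁ l, v))) - Real.log (T x R 0 Z₁ b₁))) := by
    refine FinLaw.hasSum_E _ fun i => FinLaw.hasSum_Epow _ _ fun k => hasSum_avg fun j =>
      hasSum_avg fun v => ?_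
    have h := link (V := V₁ × (ι → Fin q → W)) hx (fun u => hZ (fun l => (u l).1)) (hXc i k j) hδ
      (fun l => (b₁ l, v))
    have e : T x R 0 (fun u : ℕ → V₁ × (ι → Fin q → W) => Z₁ (fun l => (u l).1))
        (fun l => (b₁ l, v)) = T x R 0 Z₁ b₁ :=
      T_map (V := V₁ × (ι → Fin q → W)) (π := Prod.fst) Unif.fst x Z₁ R 0 _
    rw [e] at h
    exact h
  have s3 : HasSum (fun n => φ.b.E fun b => φ.f.Epow (q + 1) fun fs =>
      avg fun v : Fin (q + 1) → W =>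
      cn n * E x R (fun _ : ℕ → Fin (q + 1) → W => 1) n
        (fun s => ∏ l ∈ range (n + 1), Xe tl b fs (s l)) (fun _ => v))
      (φ.b.E fun b => φ.f.Epow (q + 1) fun fs => avg fun v : Fin (q + 1) → W =>
        Real.log (T x R 0 (fun u => 1 + Xe tl b fs u) (fun _ => v))) := by
    refine FinLaw.hasSum_E _ fun i => FinLaw.hasSum_Epow _ _ fun k => hasSum_avg fun v => ?_
    have h := link (V := Fin (q + 1) → W) hx (Z := fun _ => 1) (fun u => one_pos) (hXe i k) hδ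
      (fun _ => v)
    simp only [T_one, Real.log_one, sub_zero, one_mul] at h
    exact h
  have hs := (s1.sub (s2.mul_left ((q : ℝ) + 1))).add (s3.mul_left (q : ℝ))
  refine hasSum_le (fun n => ?_) hs (hasSum_zero (α := ℝ) (β := ℕ))
  rw [real_term, cav_term, edge_term]
  have hb := bracket_nonneg φ spin tl hx hZ htl hpos n b₁
  have hc : cn n * (φ.b.E fun b => b ^ (n + 1)) ≤ 0 := by
    have hm := φ.moment (n + 1) (by omega)
    have e : cn n * (φ.b.E fun b => b ^ (n + 1)) =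
        -((1 / ((n : ℝ) + 1)) * φ.b.E fun y => (-y) ^ (n + 1)) := by
      have : (fun y : ℝ => (-y) ^ (n + 1)) = fun y => (-1) ^ (n + 1) * y ^ (n + 1) := by
        funext y; rw [neg_pow]
      rw [this, FinLaw.E_const_mul]
      unfold cn
      have h2 : ((-1 : ℝ) ^ (n + 1)) = -((-1) ^ n) := by rw [pow_succ]; ring
      rw [h2]
      ring
    rw [e, neg_nonpos]
    positivity
  nlinarith [mul_nonneg (neg_nonneg.2 hc) hb]

end State

end Crest.Agent.MP
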