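import Crest.Agent.MP.UState

/-!
# More properties of the nested power means `T`
-/

set_option autoImplicit false
set_option linter.unusedSectionVars false
set_option linter.unusedVariables false

namespace Crest.Agent.MP

open Finset
open Crest.ProbabilityR.Diluted

section

variable {V : Type*} [Fintype V] [Nonempty V]

theorem T_mono (x : ℕ → ℝ) (hx : ∀ i, 0 < x (i + 1)) (Z Z' : (ℕ → V) → ℝ) (hZ : ∀ u, 0 < Z u)
    (hZ' : ∀ u, 0 < Z' u) (h : ∀ u, Z u ≤ Z' u) (k : ℕ) :
    ∀ j u, T x k j Z u ≤ T x k j Z' u := by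
  induction k with
  | zero => intro j u; exact h u
  | succ k ih =>
    intro j u
    simp only [T]
    refine Real.rpow_le_rpow ?_ ?_ (one_div_nonneg.2 (hx j).le)
    · exact (avg_pos fun v => Real.rpow_pos_of_pos (T_pos x Z hZ _ _ _) _).le
    · exact avg_mono fun v => Real.rpow_le_rpow (T_pos x Z hZ _ _ _).le (ih _ _) (hx j).le

theorem T_const_mul (x : ℕ → ℝ) (hx : ∀ i, 0 < x (i + 1)) (Z : (ℕ → V) → ℝ) (hZ : ∀ u, 0 < Z u)
    (c : ℝ) (hc : 0 < c) (k : ℕ) :
    ∀ j u, T x k j (fun u => c * Z u) u = c * T x k j Z u := by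
  induction k with
  | zero => intro j u; rfl
  | succ k ih =>
    intro j u
    simp only [T, ih]
    have : ∀ v, (c * T x k (j + 1) Z (Function.update u (j + 1) v)) ^ x (j + 1) =
        c ^ x (j + 1) * (T x k (j + 1) Z (Function.update u (j + 1) v)) ^ x (j + 1) := fun v =>
      Real.mul_rpow hc.le (T_pos x Z hZ _ _ _).le
    simp only [this, avg_mul_left]
    rw [Real.mul_rpow (Real.rpow_pos_of_pos hc _).le
      (avg_pos fun v => Real.rpow_pos_of_pos (T_pos x Z hZ _ _ _) _).le, ← Real.rpow_mul hc.le,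
      mul_one_div_cancel (hx j).ne', Real.rpow_one]

/-- Changing `Z` by a factor in `[e^{-C}, e^C]` changes `log T` by at most `C`. -/
theorem abs_logT_sub_le (x : ℕ → ℝ) (hx : ∀ i, 0 < x (i + 1)) (Z Y : (ℕ → V) → ℝ)
    (hZ : ∀ u, 0 < Z u) (C : ℝ) (hY : ∀ u, |Y u| ≤ C) (k j : ℕ) (u : ℕ → V) :
    |Real.log (T x k j (fun u => Z u * Real.exp (Y u)) u) - Real.log (T x k j Z u)| ≤ C := by
  have hp : ∀ u, 0 < Z u * Real.exp (Y u) := fun u => mul_pos (hZ u) (Real.exp_pos _)
  have hT := T_pos x Z hZ k j u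
  have hT' := T_pos x _ hp k j u
  have h1 : T x k j (fun u => Z u * Real.exp (Y u)) u ≤ Real.exp C * T x k j Z u := by
    rw [← T_const_mul x hx Z hZ _ (Real.exp_pos C)]
    refine T_mono x hx _ _ hp (fun u => mul_pos (Real.exp_pos C) (hZ u)) (fun u => ?_) k j u
    rw [mul_comm]
    exact mul_le_mul_of_nonneg_right (Real.exp_le_exp.2 (abs_le.1 (hY u)).2) (hZ u).le
  have h2 : Real.exp (-C) * T x k j Z u ≤ T x k j (fun u => Z u * Real.exp (Y u)) u := by
    rw [← T_const_mul x hx Z hZ _ (Real.exp_pos (-C))]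
    refine T_mono x hx _ _ (fun u => mul_pos (Real.exp_pos (-C)) (hZ u)) hp (fun u => ?_) k j u
    rw [mul_comm (Z u)]
    exact mul_le_mul_of_nonneg_right (Real.exp_le_exp.2 (abs_le.1 (hY u)).1) (hZ u).le
  have l1 := Real.log_le_log hT' h1
  have l2 := Real.log_le_log (mul_pos (Real.exp_pos _) hT) h2
  rw [Real.log_mul (Real.exp_pos _).ne' hT.ne', Real.log_exp] at l1 l2
  rw [abs_le]
  constructor <;> linarith

/-- Peeling the innermost level. -/
theorem T_inner (x : ℕ → ℝ) (Z : (ℕ → V) → ℝ) (k : ℕ) :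
    ∀ j u, T x (k + 1) j Z u = T x k j (fun u =>
      (avg fun v => Z (Function.update u (j + k + 1) v) ^ x (j + k + 1)) ^ (1 / x (j + k + 1))) u := by
  induction k with
  | zero => intro j u; rfl
  | succ k ih =>
    intro j u
    rw [T]
    simp only [ih]
    rw [T]
    simp only [show j + 1 + k + 1 = j + (k + 1) + 1 from by omega]

theorem T_inner_one (x : ℕ → ℝ) (Z : (ℕ → V) → ℝ) (k : ℕ) (hx : x (k + 1) = 1) (u : ℕ → V) :
    T x (k + 1) 0 Z u = T x k 0 (fun u => avg fun v => Z (Function.update u (k + 1) v)) u := by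
  rw [T_inner]
  simp only [Nat.zero_add, hx, Real.rpow_one, div_one]

end

/-- Product over independent coordinates (dependent version). -/
theorem T_pi {ι : Type*} [Fintype ι] [DecidableEq ι] {V : Type*} [Fintype V] [Nonempty V]
    {V' : ι → Type*} [∀ i, Fintype (V' i)] [∀ i, Nonempty (V' i)]
    (π : (i : ι) → V → V' i) (hπ : Unif (fun v i => π i v)) (x : ℕ → ℝ)
    (Z : (i : ι) → (ℕ → V' i) → ℝ) (hZ : ∀ i u, 0 < Z i u) (k : ℕ) :
    ∀ (j : ℕ) (u : ℕ → V), T x k j (fun u => ∏ i, Z i (fun l => π i (u l))) u =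
      ∏ i, T x k j (Z i) (fun l => π i (u l)) := by
  induction k with
  | zero => intro j u; rfl
  | succ k ih =>
    intro j u
    simp only [T, ih, comp_update]
    rw [Real.finsetProd_rpow _ _ (fun i _ =>
      (avg_pos fun v => Real.rpow_pos_of_pos (T_pos x (Z i) (hZ i) _ _ _) _).le)]
    congr 1
    rw [← avg_pi]
    rw [← hπ (fun v => ∏ i, T x k (j + 1) (Z i) (Function.update (fun l => π i (u l)) (j + 1) (v i)) ^
      x (j + 1))]
    congr 1
    funext v
    rw [Real.finsetProd_rpow _ _ (fun i _ => (T_pos x (Z i) (hZ i) _ _ _).le)]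

/-! ### The exponents `lev m` -/

theorem ulev_zero {r : ℕ} (m : Fin r → ℝ) : lev m 0 = 0 := by simp [lev]

theorem ulev_top {r : ℕ} (m : Fin r → ℝ) {j : ℕ} (hj : r < j) : lev m j = 1 := by
  unfold lev
  rw [if_neg (by omega), dif_neg (by omega)]

theorem ulev_pos {r : ℕ} {m : Fin r → ℝ} (hm : AdmissibleExponents m) (i : ℕ) :
    0 < lev m (i + 1) := by
  unfold lev
  rw [if_neg (by omega)]
  split_ifs with h
  · exact (hm.2 _).1
  · exact one_pos

theorem ulev_mono {r : ℕ} {m : Fin r → ℝ} (hm : AdmissibleExponents m) : Monotone (lev m) := by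
  refine monotone_nat_of_le_succ fun j => ?_
  rcases Nat.eq_zero_or_pos j with rfl | hj
  · rw [ulev_zero]; exact (ulev_pos hm 0).le
  · unfold lev
    rw [if_neg (by omega), if_neg (by omega)]
    split_ifs with h1 h2
    · exact hm.1.monotone (by simp [Fin.le_def])
    · exact (hm.2 _).2.le
    · omega
    · exact le_rfl

theorem exps_lev {r : ℕ} {m : Fin r → ℝ} (hm : AdmissibleExponents m) {R : ℕ} (hR : r ≤ R) :
    Exps R (lev m) :=
  ⟨ulev_zero m, ulev_top m (by omega), ulev_mono hm, ulev_pos hm⟩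

end Crest.Agent.MP
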